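import Mathlib

/-!
# P168, module P part 1: Poisson calculus

`pw t n = e^{-t} t^n / n!` and `pe t g = ∑' n, pw t n * g n`, for real `t`, under an exponential
growth bound `|g n| ≤ C * A ^ n` (class `Gr`), which contains linear growth.
-/

open Filter Topology MeasureTheory
open scoped Nat NNReal ENNReal

namespace P168.Poisson

/-- Poisson weight, for an arbitrary real parameter. -/
noncomputable def pw (t : ℝ) (n : ℕ) : ℝ := Real.exp (-t) * t ^ n / n !

/-- Poisson expectation. -/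
noncomputable def pe (t : ℝ) (g : ℕ → ℝ) : ℝ := ∑' n, pw t n * g n

/-- Exponential growth bound. -/
def Gr (g : ℕ → ℝ) : Prop := ∃ C A : ℝ, 0 ≤ C ∧ 1 ≤ A ∧ ∀ n, |g n| ≤ C * A ^ n

lemma pw_nonneg {t : ℝ} (ht : 0 ≤ t) (n : ℕ) : 0 ≤ pw t n := by
  unfold pw; positivity

lemma pw_pos {t : ℝ} (ht : 0 < t) (n : ℕ) : 0 < pw t n := by
  unfold pw; positivity

lemma pw_zero_left (n : ℕ) : pw 0 n = if n = 0 then 1 else 0 := by
  rcases n with _ | n <;> simp [pw]

lemma pw_succ_mul (t : ℝ) (n : ℕ) : ((n : ℝ) + 1) * pw t (n + 1) = t * pw t n := by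
  have h1 : ((n ! : ℕ) : ℝ) ≠ 0 := by exact_mod_cast n.factorial_ne_zero
  have h2 : ((n : ℝ) + 1) ≠ 0 := by positivity
  unfold pw
  rw [Nat.factorial_succ]
  push_cast
  field_simp
  ring

lemma hasSum_pw (t : ℝ) : HasSum (pw t) 1 := by
  have h := (NormedSpace.expSeries_div_hasSum_exp t).mul_left (Real.exp (-t))
  have e : Real.exp (-t) * NormedSpace.exp t = 1 := by
    rw [← Real.exp_eq_exp_ℝ, ← Real.exp_add]; simp
  rw [e] at h
  exact h.congr_fun fun n => by rw [pw]; ring

lemma summable_pw (t : ℝ) : Summable (pw t) := (hasSum_pw t).summable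

/-! ## Growth -/

namespace Gr

lemma of_exp {g : ℕ → ℝ} {C A : ℝ} (hC : 0 ≤ C) (hA : 1 ≤ A) (h : ∀ n, |g n| ≤ C * A ^ n) :
    Gr g := ⟨C, A, hC, hA, h⟩

lemma of_linear {g : ℕ → ℝ} {C : ℝ} (h : ∀ n, |g n| ≤ C * (1 + n)) : Gr g := by
  have hC : 0 ≤ C := by
    have := h 0
    simp at this
    exact (abs_nonneg _).trans this
  refine ⟨C, 2, hC, by norm_num, fun n => (h n).trans (mul_le_mul_of_nonneg_left ?_ hC)⟩
  have : 1 + n ≤ 2 ^ n := by
    have := Nat.lt_two_pow_self (n := n)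
    omega
  exact_mod_cast this

lemma of_bounded {g : ℕ → ℝ} {C : ℝ} (h : ∀ n, |g n| ≤ C) : Gr g := by
  refine ⟨C, 1, (abs_nonneg _).trans (h 0), le_rfl, fun n => ?_⟩
  simpa using h n

lemma const (c : ℝ) : Gr (fun _ => c) := of_bounded (C := |c|) fun _ => le_rfl

lemma natCast : Gr (fun n => (n : ℝ)) := by
  refine of_linear (C := 1) fun n => ?_
  rw [abs_of_nonneg (by positivity)]
  linarith

lemma mono {f g : ℕ → ℝ} (hg : Gr g) (h : ∀ n, |f n| ≤ |g n|) : Gr f := by
  obtain ⟨C, A, hC, hA, hg⟩ := hg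
  exact ⟨C, A, hC, hA, fun n => (h n).trans (hg n)⟩

lemma abs {g : ℕ → ℝ} (hg : Gr g) : Gr (fun n => |g n|) := hg.mono fun n => by simp

lemma add {f g : ℕ → ℝ} (hf : Gr f) (hg : Gr g) : Gr (fun n => f n + g n) := by
  obtain ⟨C, A, hC, hA, hf⟩ := hf
  obtain ⟨D, B, hD, hB, hg⟩ := hg
  refine ⟨C + D, max A B, by positivity, hA.trans (le_max_left _ _), fun n => ?_⟩
  have hA0 : 0 ≤ A := zero_le_one.trans hA
  have hB0 : 0 ≤ B := zero_le_one.trans hB
  calc |f n + g n| ≤ |f n| + |g n| := abs_add_le _ _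
    _ ≤ C * A ^ n + D * B ^ n := add_le_add (hf n) (hg n)
    _ ≤ C * max A B ^ n + D * max A B ^ n := by
        gcongr
        · exact le_max_left _ _
        · exact le_max_right _ _
    _ = (C + D) * max A B ^ n := by ring

lemma smul {g : ℕ → ℝ} (hg : Gr g) (c : ℝ) : Gr (fun n => c * g n) := by
  obtain ⟨C, A, hC, hA, hg⟩ := hg
  refine ⟨|c| * C, A, by positivity, hA, fun n => ?_⟩
  rw [abs_mul, mul_assoc]
  exact mul_le_mul_of_nonneg_left (hg n) (abs_nonneg _)

lemma neg {g : ℕ → ℝ} (hg : Gr g) : Gr (fun n => -g n) := hg.mono fun n => by simp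

lemma sub {f g : ℕ → ℝ} (hf : Gr f) (hg : Gr g) : Gr (fun n => f n - g n) := by
  simpa [sub_eq_add_neg] using hf.add hg.neg

lemma shift {g : ℕ → ℝ} (hg : Gr g) (k : ℕ) : Gr (fun n => g (n + k)) := by
  obtain ⟨C, A, hC, hA, hg⟩ := hg
  have hA0 : 0 ≤ A := zero_le_one.trans hA
  exact ⟨C * A ^ k, A, by positivity, hA, fun n => (hg _).trans_eq (by ring)⟩

lemma shift' {g : ℕ → ℝ} (hg : Gr g) (k : ℕ) : Gr (fun n => g (k + n)) := by
  simpa [add_comm] using hg.shift k

lemma mul {f g : ℕ → ℝ} (hf : Gr f) (hg : Gr g) : Gr (fun n => f n * g n) := by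
  obtain ⟨C, A, hC, hA, hf⟩ := hf
  obtain ⟨D, B, hD, hB, hg⟩ := hg
  have hA0 : 0 ≤ A := zero_le_one.trans hA
  refine ⟨C * D, A * B, by positivity, one_le_mul_of_one_le_of_one_le hA hB, fun n => ?_⟩
  rw [abs_mul, mul_pow]
  calc |f n| * |g n| ≤ (C * A ^ n) * (D * B ^ n) :=
        mul_le_mul (hf n) (hg n) (abs_nonneg _) (by positivity)
    _ = C * D * (A ^ n * B ^ n) := by ring

end Gr

/-! ## Summability and elementary properties -/

lemma summable_pow_mul {g : ℕ → ℝ} (hg : Gr g) (t : ℝ) :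
    Summable fun n => t ^ n / n ! * g n := by
  obtain ⟨C, A, hC, hA, hg⟩ := hg
  refine Summable.of_norm_bounded ((Real.summable_pow_div_factorial (|t| * A)).mul_left C)
    fun n => ?_
  rw [Real.norm_eq_abs, abs_mul, abs_div, abs_pow, Nat.abs_cast]
  calc |t| ^ n / n ! * |g n| ≤ |t| ^ n / n ! * (C * A ^ n) :=
        mul_le_mul_of_nonneg_left (hg n) (by positivity)
    _ = C * ((|t| * A) ^ n / n !) := by rw [mul_pow]; ring

lemma summable_pw_mul {g : ℕ → ℝ} (hg : Gr g) (t : ℝ) : Summable fun n => pw t n * g n := by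
  refine ((summable_pow_mul hg t).mul_left (Real.exp (-t))).congr fun n => ?_
  rw [pw]; ring

lemma hasSum_pe {g : ℕ → ℝ} (hg : Gr g) (t : ℝ) : HasSum (fun n => pw t n * g n) (pe t g) :=
  (summable_pw_mul hg t).hasSum

lemma summable_abs_pw_mul {g : ℕ → ℝ} (hg : Gr g) (t : ℝ) :
    Summable fun n => |pw t n * g n| := (summable_pw_mul hg t).abs

lemma pe_const (t c : ℝ) : pe t (fun _ => c) = c := by
  simpa [pe] using ((hasSum_pw t).mul_right c).tsum_eq

lemma pe_zero (g : ℕ → ℝ) : pe 0 g = g 0 := by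
  rw [pe, tsum_eq_single 0 fun n hn => by simp [pw_zero_left, hn]]
  simp [pw_zero_left]

lemma pe_smul (t c : ℝ) (g : ℕ → ℝ) : pe t (fun n => c * g n) = c * pe t g := by
  rw [pe, pe, ← tsum_mul_left]
  exact tsum_congr fun n => by ring

lemma pe_add {f g : ℕ → ℝ} (hf : Gr f) (hg : Gr g) (t : ℝ) :
    pe t (fun n => f n + g n) = pe t f + pe t g := by
  simp only [pe, mul_add]
  exact (summable_pw_mul hf t).tsum_add (summable_pw_mul hg t)

lemma pe_sub {f g : ℕ → ℝ} (hf : Gr f) (hg : Gr g) (t : ℝ) :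
    pe t (fun n => f n - g n) = pe t f - pe t g := by
  simp only [pe, mul_sub]
  exact (summable_pw_mul hf t).tsum_sub (summable_pw_mul hg t)

lemma pe_mono {f g : ℕ → ℝ} (hf : Gr f) (hg : Gr g) {t : ℝ} (ht : 0 ≤ t)
    (h : ∀ n, f n ≤ g n) : pe t f ≤ pe t g :=
  (summable_pw_mul hf t).tsum_le_tsum
    (fun n => mul_le_mul_of_nonneg_left (h n) (pw_nonneg ht n)) (summable_pw_mul hg t)

lemma pe_nonneg {g : ℕ → ℝ} {t : ℝ} (ht : 0 ≤ t) (h : ∀ n, 0 ≤ g n) : 0 ≤ pe t g :=
  tsum_nonneg fun n => mul_nonneg (pw_nonneg ht n) (h n)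

lemma abs_pe_le_pe_abs {g : ℕ → ℝ} (hg : Gr g) {t : ℝ} (ht : 0 ≤ t) :
    |pe t g| ≤ pe t (fun n => |g n|) := by
  rw [abs_le]
  constructor
  · have h := pe_mono (hg.abs.smul (-1)) hg ht fun n => by
      have := neg_abs_le (g n)
      linarith
    rw [pe_smul] at h
    linarith
  · exact pe_mono hg hg.abs ht fun n => le_abs_self _

/-- `E n g(n) = t E g(n+1)`. -/
lemma hasSum_pw_natCast_mul {g : ℕ → ℝ} (hg : Gr g) (t : ℝ) :
    HasSum (fun n => pw t n * (n * g n)) (t * pe t (fun n => g (n + 1))) := by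
  rw [← hasSum_nat_add_iff' 1]
  simp only [Finset.range_one, Finset.sum_singleton, Nat.cast_zero, zero_mul, mul_zero, sub_zero]
  refine ((hasSum_pe (hg.shift 1) t).mul_left t).congr_fun fun n => ?_
  push_cast
  rw [← mul_assoc, ← mul_assoc, mul_comm (pw t (n + 1)) ((n : ℝ) + 1), pw_succ_mul]

lemma pe_natCast_mul {g : ℕ → ℝ} (hg : Gr g) (t : ℝ) :
    pe t (fun n => n * g n) = t * pe t (fun n => g (n + 1)) :=
  (hasSum_pw_natCast_mul hg t).tsum_eq

/-- `E π = t`. -/
lemma pe_natCast (t : ℝ) : pe t (fun n => (n : ℝ)) = t := by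
  simpa [pe_const] using pe_natCast_mul (Gr.const 1) t

lemma hasSum_pw_natCast (t : ℝ) : HasSum (fun n => pw t n * n) t := by
  simpa [pe_natCast] using hasSum_pe Gr.natCast t

/-- `E π² = t² + t`. -/
lemma pe_natCast_sq (t : ℝ) : pe t (fun n => (n : ℝ) ^ 2) = t ^ 2 + t := by
  simp only [sq]
  rw [pe_natCast_mul Gr.natCast]
  simp only [Nat.cast_add, Nat.cast_one]
  rw [pe_add Gr.natCast (Gr.const 1), pe_natCast, pe_const]
  ring

/-- The affine bound: `|g n| ≤ a + b n` gives `|E g(π)| ≤ a + b t`. -/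
lemma abs_pe_le_affine {g : ℕ → ℝ} {a b : ℝ} (h : ∀ n, |g n| ≤ a + b * n) {t : ℝ} (ht : 0 ≤ t) :
    |pe t g| ≤ a + b * t := by
  have hb : Gr (fun n => a + b * n) := (Gr.const a).add (Gr.natCast.smul b)
  have hg : Gr g := hb.mono fun n => (h n).trans (le_abs_self _)
  calc |pe t g| ≤ pe t (fun n => |g n|) := abs_pe_le_pe_abs hg ht
    _ ≤ pe t (fun n => a + b * n) := pe_mono hg.abs hb ht h
    _ = a + b * t := by
        rw [pe_add (Gr.const a) (Gr.natCast.smul b), pe_const, pe_smul, pe_natCast]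

/-! ## Derivative in the parameter -/

lemma hasDerivAt_series {g : ℕ → ℝ} (hg : Gr g) (t : ℝ) :
    HasDerivAt (fun s => ∑' n, s ^ n / n ! * g n) (∑' n, t ^ n / n ! * g (n + 1)) t := by
  obtain ⟨C, A, hC, hA, hb⟩ := hg
  have hg : Gr g := ⟨C, A, hC, hA, hb⟩
  set R := |t| + 1 with hR
  have hR1 : 1 ≤ R := by simp [hR]
  have hR0 : 0 ≤ R := zero_le_one.trans hR1
  have hA0 : 0 ≤ A := zero_le_one.trans hA
  have ht : t ∈ Set.Ioo (-R) R := abs_lt.mp (by simp [hR] : |t| < R)
  have hbound : ∀ (n : ℕ) (s : ℝ), s ∈ Set.Ioo (-R) R →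
      ‖(n : ℝ) * s ^ (n - 1) / n ! * g n‖ ≤ C * ((2 * R * A) ^ n / n !) := by
    intro n s hs
    have hsR : |s| ≤ R := (abs_lt.mpr hs).le
    have hn : (n : ℝ) ≤ 2 ^ n := by exact_mod_cast (Nat.lt_two_pow_self (n := n)).le
    rw [Real.norm_eq_abs, abs_mul, abs_div, abs_mul, abs_pow, Nat.abs_cast, Nat.abs_cast]
    calc (n : ℝ) * |s| ^ (n - 1) / n ! * |g n|
        ≤ 2 ^ n * R ^ n / n ! * (C * A ^ n) := by
          gcongr
          · exact (pow_le_pow_left₀ (abs_nonneg s) hsR _).trans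
              (pow_le_pow_right₀ hR1 (Nat.sub_le _ _))
          · exact hb n
      _ = C * ((2 * R * A) ^ n / n !) := by rw [mul_pow, mul_pow]; ring
  have h := hasDerivAt_tsum_of_isPreconnected
    (u := fun n => C * ((2 * R * A) ^ n / n !))
    (g := fun (n : ℕ) (s : ℝ) => s ^ n / n ! * g n)
    (g' := fun (n : ℕ) (s : ℝ) => (n : ℝ) * s ^ (n - 1) / n ! * g n)
    ((Real.summable_pow_div_factorial (2 * R * A)).mul_left C)
    isOpen_Ioo isPreconnected_Ioo
    (fun n s _ => (((hasDerivAt_pow n s).div_const _).mul_const _)) hbound ht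
    (summable_pow_mul hg t) ht
  refine h.congr_deriv ?_
  have hs : Summable fun n : ℕ => (n : ℝ) * t ^ (n - 1) / n ! * g n :=
    Summable.of_norm_bounded ((Real.summable_pow_div_factorial (2 * R * A)).mul_left C)
      fun n => hbound n t ht
  rw [hs.tsum_eq_zero_add]
  simp only [CharP.cast_eq_zero, zero_mul, zero_div, zero_add, Nat.add_sub_cancel]
  refine tsum_congr fun n => ?_
  rw [Nat.factorial_succ]
  push_cast
  have : ((n : ℝ) + 1) ≠ 0 := by positivity
  field_simp

lemma pe_eq_exp_mul (t : ℝ) (g : ℕ → ℝ) :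
    pe t g = Real.exp (-t) * ∑' n, t ^ n / n ! * g n := by
  rw [← tsum_mul_left]
  exact tsum_congr fun n => by rw [pw]; ring

/-- `d/dt E g(π_t) = E [g(π_t + 1) - g(π_t)]`. -/
theorem hasDerivAt_pe {g : ℕ → ℝ} (hg : Gr g) (t : ℝ) :
    HasDerivAt (fun s => pe s g) (pe t (fun n => g (n + 1) - g n)) t := by
  have h1 : HasDerivAt (fun s : ℝ => Real.exp (-s)) (-Real.exp (-t)) t := by
    simpa using (hasDerivAt_neg t).exp
  have h := h1.mul (hasDerivAt_series hg t)
  have e : (fun s => pe s g) = fun s => Real.exp (-s) * ∑' n, s ^ n / n ! * g n :=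
    funext fun s => pe_eq_exp_mul s g
  rw [e]
  refine h.congr_deriv ?_
  rw [pe_sub (hg.shift 1) hg, pe_eq_exp_mul, pe_eq_exp_mul]
  ring

theorem continuous_pe {g : ℕ → ℝ} (hg : Gr g) : Continuous fun s => pe s g :=
  continuous_iff_continuousAt.2 fun t => (hasDerivAt_pe hg t).continuousAt

theorem continuousOn_pe {g : ℕ → ℝ} (hg : Gr g) (S : Set ℝ) :
    ContinuousOn (fun s => pe s g) S := (continuous_pe hg).continuousOn

/-- Derivative of `s ↦ E g(π_{c s})`. -/
theorem hasDerivAt_pe_mul {g : ℕ → ℝ} (hg : Gr g) (c t : ℝ) :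
    HasDerivAt (fun s => pe (c * s) g) (c * pe (c * t) (fun n => g (n + 1) - g n)) t := by
  have h := (hasDerivAt_pe hg (c * t)).comp t ((hasDerivAt_id t).const_mul c)
  simpa [mul_comm, Function.comp_def] using h

/-! ## Superposition and thinning -/

/-- Exponential growth bound in two variables. -/
def Gr2 (g : ℕ → ℕ → ℝ) : Prop :=
  ∃ C A : ℝ, 0 ≤ C ∧ 1 ≤ A ∧ ∀ m n, |g m n| ≤ C * A ^ (m + n)

lemma Gr2.of_linear {g : ℕ → ℕ → ℝ} {C : ℝ} (h : ∀ m n, |g m n| ≤ C * (1 + m + n)) : Gr2 g := by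
  have hC : 0 ≤ C := by
    have := h 0 0
    simp at this
    exact (abs_nonneg _).trans this
  refine ⟨C, 2, hC, by norm_num, fun m n => (h m n).trans (mul_le_mul_of_nonneg_left ?_ hC)⟩
  have : 1 + m + n ≤ 2 ^ (m + n) := by
    have := Nat.lt_two_pow_self (n := m + n)
    omega
  exact_mod_cast this

lemma Gr.comp_add {g : ℕ → ℝ} (hg : Gr g) : Gr2 fun m n => g (m + n) := by
  obtain ⟨C, A, hC, hA, hg⟩ := hg
  exact ⟨C, A, hC, hA, fun m n => hg _⟩

lemma Gr2.right {g : ℕ → ℕ → ℝ} (hg : Gr2 g) (m : ℕ) : Gr (g m) := by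
  obtain ⟨C, A, hC, hA, hg⟩ := hg
  have : 0 ≤ A := zero_le_one.trans hA
  exact ⟨C * A ^ m, A, by positivity, hA, fun n => (hg m n).trans_eq (by ring)⟩

lemma Gr2.shift_left {g : ℕ → ℕ → ℝ} (hg : Gr2 g) : Gr2 fun m n => g (m + 1) n := by
  obtain ⟨C, A, hC, hA, hg⟩ := hg
  have : 0 ≤ A := zero_le_one.trans hA
  exact ⟨C * A, A, by positivity, hA, fun m n => (hg _ n).trans_eq (by ring)⟩

lemma Gr2.swap {g : ℕ → ℕ → ℝ} (hg : Gr2 g) : Gr2 fun m n => g n m := by
  obtain ⟨C, A, hC, hA, hg⟩ := hg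
  exact ⟨C, A, hC, hA, fun m n => by rw [add_comm m n]; exact hg n m⟩

/-- The inner expectation of a two variable function grows at most exponentially. -/
lemma Gr2.pe_right {g : ℕ → ℕ → ℝ} (hg : Gr2 g) (b : ℝ) : Gr fun m => pe b (g m) := by
  obtain ⟨C, A, hC, hA, hb⟩ := hg
  have hA0 : 0 ≤ A := zero_le_one.trans hA
  have hpow : Gr fun n => A ^ n :=
    ⟨1, A, zero_le_one, hA, fun n => by rw [abs_of_nonneg (by positivity), one_mul]⟩
  have hS : Summable fun n => |pw b n| * A ^ n :=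
    (summable_abs_pw_mul hpow b).congr fun n => by
      rw [abs_mul, abs_of_nonneg (by positivity : 0 ≤ A ^ n)]
  refine ⟨C * ∑' n, |pw b n| * A ^ n, A,
    mul_nonneg hC (tsum_nonneg fun n => by positivity), hA, fun m => ?_⟩
  have h1 : HasSum (fun n => C * A ^ m * (|pw b n| * A ^ n))
      (C * A ^ m * ∑' n, |pw b n| * A ^ n) := hS.hasSum.mul_left _
  have h2 := tsum_of_norm_bounded h1 (f := fun n => pw b n * g m n) fun n => by
    rw [Real.norm_eq_abs, abs_mul]
    calc |pw b n| * |g m n| ≤ |pw b n| * (C * A ^ (m + n)) :=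
          mul_le_mul_of_nonneg_left (hb m n) (abs_nonneg _)
      _ = C * A ^ m * (|pw b n| * A ^ n) := by ring
  rw [Real.norm_eq_abs] at h2
  exact h2.trans_eq (by ring)

lemma summable_pw_mul₂ {g : ℕ → ℕ → ℝ} (hg : Gr2 g) (a b : ℝ) :
    Summable fun p : ℕ × ℕ => pw a p.1 * (pw b p.2 * g p.1 p.2) := by
  obtain ⟨C, A, hC, hA, hg⟩ := hg
  have hA0 : 0 ≤ A := zero_le_one.trans hA
  have hpow : Gr fun n => A ^ n :=
    ⟨1, A, zero_le_one, hA, fun n => by rw [abs_of_nonneg (by positivity), one_mul]⟩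
  have h : Summable fun p : ℕ × ℕ => |pw a p.1 * A ^ p.1| * |pw b p.2 * A ^ p.2| :=
    Summable.mul_of_nonneg (summable_abs_pw_mul hpow a) (summable_abs_pw_mul hpow b)
      (fun n => abs_nonneg (pw a n * A ^ n)) (fun n => abs_nonneg (pw b n * A ^ n))
  refine Summable.of_norm_bounded (h.mul_left C) fun p => ?_
  simp only [Real.norm_eq_abs, abs_mul, abs_pow, abs_of_nonneg hA0]
  calc |pw a p.1| * (|pw b p.2| * |g p.1 p.2|)
      ≤ |pw a p.1| * (|pw b p.2| * (C * A ^ (p.1 + p.2))) := by gcongr; exact hg _ _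
    _ = C * (|pw a p.1| * A ^ p.1 * (|pw b p.2| * A ^ p.2)) := by ring

/-- Regrouping a double Poisson expectation by the total. -/
theorem pe_pe_eq_tsum_antidiagonal {g : ℕ → ℕ → ℝ} (hg : Gr2 g) (a b : ℝ) :
    pe a (fun m => pe b (g m)) =
      ∑' N, ∑ p ∈ Finset.HasAntidiagonal.antidiagonal N, pw a p.1 * (pw b p.2 * g p.1 p.2) := by
  have hs := summable_pw_mul₂ hg a b
  have h1 : pe a (fun m => pe b (g m)) = ∑' p : ℕ × ℕ, pw a p.1 * (pw b p.2 * g p.1 p.2) := by
    rw [hs.tsum_prod]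
    exact tsum_congr fun m => tsum_mul_left.symm
  rw [h1, ← (Finset.HasAntidiagonal.sigmaAntidiagonalEquivProd (A := ℕ)).tsum_eq]
  have hs' : Summable fun c : (n : ℕ) × Finset.HasAntidiagonal.antidiagonal n =>
      pw a (Finset.HasAntidiagonal.sigmaAntidiagonalEquivProd c).1 *
        (pw b (Finset.HasAntidiagonal.sigmaAntidiagonalEquivProd c).2 *
          g (Finset.HasAntidiagonal.sigmaAntidiagonalEquivProd c).1 (Finset.HasAntidiagonal.sigmaAntidiagonalEquivProd c).2) :=
    ((Finset.HasAntidiagonal.sigmaAntidiagonalEquivProd (A := ℕ)).summable_iff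
      (f := fun p : ℕ × ℕ => pw a p.1 * (pw b p.2 * g p.1 p.2))).2 hs
  rw [hs'.tsum_sigma]
  refine tsum_congr fun N => ?_
  rw [tsum_fintype]
  exact Finset.sum_coe_sort (Finset.HasAntidiagonal.antidiagonal N) fun p => pw a p.1 * (pw b p.2 * g p.1 p.2)

lemma pw_add (a b : ℝ) (N : ℕ) :
    ∑ p ∈ Finset.HasAntidiagonal.antidiagonal N, pw a p.1 * pw b p.2 = pw (a + b) N := by
  rw [pw, (Commute.all a b).add_pow', Finset.mul_sum, Finset.sum_div]
  refine Finset.sum_congr rfl fun p hp => ?_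
  rw [Finset.HasAntidiagonal.mem_antidiagonal] at hp
  subst hp
  have hc : ((p.1 + p.2).choose p.1 : ℝ) * p.1 ! * p.2 ! = (p.1 + p.2)! := by
    exact_mod_cast (by
      rw [← Nat.choose_symm_add.symm]
      exact Nat.add_choose_mul_factorial_mul_factorial p.1 p.2 :
        (p.1 + p.2).choose p.1 * p.1 ! * p.2 ! = (p.1 + p.2)!)
  rw [nsmul_eq_mul, neg_add, Real.exp_add, pw, pw]
  field_simp
  rw [← hc]
  ring

/-- Superposition: `E_{π_a} E_{π_b} g(m + n) = E_{π_{a+b}} g`. -/
theorem pe_superpose {g : ℕ → ℝ} (hg : Gr g) (a b : ℝ) :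
    pe a (fun m => pe b (fun n => g (m + n))) = pe (a + b) g := by
  rw [pe_pe_eq_tsum_antidiagonal hg.comp_add]
  refine tsum_congr fun N => ?_
  rw [← pw_add, Finset.sum_mul]
  refine Finset.sum_congr rfl fun p hp => ?_
  rw [Finset.HasAntidiagonal.mem_antidiagonal] at hp
  rw [hp, mul_assoc]

/-- Double expectations commute. -/
theorem pe_comm {g : ℕ → ℕ → ℝ} (hg : Gr2 g) (a b : ℝ) :
    pe a (fun m => pe b (g m)) = pe b (fun n => pe a (fun m => g m n)) := by
  have hs := summable_pw_mul₂ hg a b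
  have h1 : ∀ m, pw a m * pe b (g m) = ∑' n, pw a m * (pw b n * g m n) := fun m =>
    tsum_mul_left.symm
  have h2 : ∀ n, pw b n * pe a (fun m => g m n) = ∑' m, pw a m * (pw b n * g m n) := fun n => by
    rw [pe, ← tsum_mul_left]
    exact tsum_congr fun m => by ring
  rw [pe, tsum_congr h1, pe, tsum_congr h2]
  exact Summable.tsum_comm (f := fun m n => pw a m * (pw b n * g m n)) hs |>.symm

/-- Binomial average of a function of (marked, unmarked). -/
noncomputable def binom2 (q : ℝ) (N : ℕ) (g : ℕ → ℕ → ℝ) : ℝ :=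
  ∑ p ∈ Finset.HasAntidiagonal.antidiagonal N, (N.choose p.1 : ℝ) * q ^ p.1 * (1 - q) ^ p.2 * g p.1 p.2

/-- Thinning: marking each of `π_t` points with probability `q` gives two independent
Poisson numbers of parameters `q t` and `(1 - q) t`. -/
theorem pe_thinning {g : ℕ → ℕ → ℝ} (hg : Gr2 g) (t q : ℝ) :
    pe t (fun N => binom2 q N g) = pe (q * t) (fun m => pe ((1 - q) * t) (g m)) := by
  rw [pe_pe_eq_tsum_antidiagonal hg]
  refine tsum_congr fun N => ?_
  simp only [binom2]
  rw [Finset.mul_sum]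
  refine Finset.sum_congr rfl fun p hp => ?_
  rw [Finset.HasAntidiagonal.mem_antidiagonal] at hp
  subst hp
  have hc : ((p.1 + p.2).choose p.1 : ℝ) * p.1 ! * p.2 ! = (p.1 + p.2)! := by
    exact_mod_cast (by
      rw [← Nat.choose_symm_add.symm]
      exact Nat.add_choose_mul_factorial_mul_factorial p.1 p.2 :
        (p.1 + p.2).choose p.1 * p.1 ! * p.2 ! = (p.1 + p.2)!)
  have he : Real.exp (-(q * t)) * Real.exp (-((1 - q) * t)) = Real.exp (-t) := by
    rw [← Real.exp_add]; congr 1; ring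
  simp only [pw, mul_pow, pow_add]
  rw [← he, ← hc]
  have h3 : (((p.1 + p.2).choose p.1 : ℕ) : ℝ) ≠ 0 := by
    exact_mod_cast (Nat.choose_pos (Nat.le_add_right p.1 p.2)).ne'
  field_simp

/-- One variable thinning. -/
theorem pe_thinning_fst {g : ℕ → ℝ} (hg : Gr g) (t q : ℝ) :
    pe t (fun N => binom2 q N fun m _ => g m) = pe (q * t) g := by
  have h : Gr2 fun m (_ : ℕ) => g m := by
    obtain ⟨C, A, hC, hA, hg⟩ := hg
    exact ⟨C, A, hC, hA, fun m n => (hg m).trans
      (mul_le_mul_of_nonneg_left (pow_le_pow_right₀ hA (Nat.le_add_right m n)) hC)⟩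
  rw [pe_thinning h]
  simp only [pe_const]

/-! ## i.i.d. marks -/

open scoped Classical in
/-- Number of marks in `S`. -/
noncomputable def markCount {α : Type*} (S : Set α) {N : ℕ} (x : Fin N → α) : ℕ :=
  ∑ i, if x i ∈ S then 1 else 0

lemma markCount_le {α : Type*} (S : Set α) {N : ℕ} (x : Fin N → α) : markCount S x ≤ N := by
  classical
  calc markCount S x ≤ ∑ _i : Fin N, 1 := Finset.sum_le_sum fun i _ => by split <;> simp
    _ = N := by simp

lemma measurable_markCount {α : Type*} [MeasurableSpace α] {S : Set α} (hS : MeasurableSet S)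
    (N : ℕ) : Measurable fun x : Fin N → α => markCount S x := by
  classical
  unfold markCount
  exact Finset.measurable_sum _ fun i _ =>
    Measurable.ite ((measurable_pi_apply i) hS) measurable_const measurable_const

/-- `N` i.i.d. marks: the law of (marked, unmarked) is binomial. -/
theorem integral_marks {α : Type*} [MeasurableSpace α] (μ : Measure α) [IsProbabilityMeasure μ]
    {S : Set α} (hS : MeasurableSet S) (N : ℕ) (g : ℕ → ℕ → ℝ) :
    ∫ x : Fin N → α, g (markCount S x) (N - markCount S x) ∂Measure.pi (fun _ => μ)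
      = binom2 (μ.real S) N g := by
  classical
  induction N generalizing g with
  | zero => simp [binom2, markCount]
  | succ N ih =>
    set P := Measure.pi (fun _ : Fin N => μ) with hP
    have hcons := (measurePreserving_piFinSuccAbove (fun _ : Fin (N + 1) => μ) 0).symm
    rw [← hcons.integral_comp']
    have hval : ∀ p : α × (Fin N → α),
        g (markCount S ((MeasurableEquiv.piFinSuccAbove (fun _ : Fin (N + 1) => α) 0).symm p))
          (N + 1 - markCount S ((MeasurableEquiv.piFinSuccAbove (fun _ : Fin (N + 1) => α) 0).symm p))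
        = S.indicator (fun _ => (1 : ℝ)) p.1
            * g (markCount S p.2 + 1) (N - markCount S p.2)
          + Sᶜ.indicator (fun _ => (1 : ℝ)) p.1
            * g (markCount S p.2) (N - markCount S p.2 + 1) := by
      rintro ⟨a, y⟩
      have hc : markCount S ((MeasurableEquiv.piFinSuccAbove (fun _ : Fin (N + 1) => α) 0).symm
          (a, y)) = (if a ∈ S then 1 else 0) + markCount S y := by
        have e : ((MeasurableEquiv.piFinSuccAbove (fun _ : Fin (N + 1) => α) 0).symm (a, y))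
            = Fin.cons a y := by
          simp [MeasurableEquiv.piFinSuccAbove, Fin.consEquiv]
        rw [e]
        unfold markCount
        rw [Fin.sum_univ_succ]
        simp only [Fin.cons_zero, Fin.cons_succ]
      have hle := markCount_le S y
      rw [hc]
      by_cases ha : a ∈ S
      · have e : N + 1 - (1 + markCount S y) = N - markCount S y := by omega
        simp [ha, e, add_comm]
      · have e : N + 1 - markCount S y = N - markCount S y + 1 := by omega
        simp [ha, e]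
    simp only [hval]
    have hm := measurable_markCount hS N
    have hint : ∀ G : ℕ → ℝ, Integrable (fun y : Fin N → α => G (markCount S y)) P := by
      intro G
      refine Integrable.of_bound ((Measurable.of_discrete (f := G)).comp hm).aestronglyMeasurable
        (∑ k ∈ Finset.range (N + 1), |G k|) (Filter.Eventually.of_forall fun y => ?_)
      exact Finset.single_le_sum (f := fun k => |G k|) (fun k _ => abs_nonneg _)
        (Finset.mem_range.2 (Nat.lt_succ_of_le (markCount_le S y)))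
    have hi1 : Integrable (S.indicator fun _ => (1 : ℝ)) μ := (integrable_const _).indicator hS
    have hi2 : Integrable (Sᶜ.indicator fun _ => (1 : ℝ)) μ :=
      (integrable_const _).indicator hS.compl
    rw [integral_add (hi1.mul_prod (hint fun k => g (k + 1) (N - k)))
      (hi2.mul_prod (hint fun k => g k (N - k + 1)))]
    rw [integral_prod_mul (μ := μ) (ν := P) (S.indicator fun _ => (1 : ℝ))
      (fun y => g (markCount S y + 1) (N - markCount S y)),
      integral_prod_mul (μ := μ) (ν := P) (Sᶜ.indicator fun _ => (1 : ℝ))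
      (fun y => g (markCount S y) (N - markCount S y + 1))]
    rw [integral_indicator_const _ hS, integral_indicator_const _ hS.compl,
      ih (fun m n => g (m + 1) n), ih (fun m n => g m (n + 1)), probReal_compl_eq_one_sub hS]
    simp only [smul_eq_mul, mul_one, binom2]
    rw [Finset.sum_antidiagonal_choose_succ_mul (R := ℝ)
      (fun i j => μ.real S ^ i * (1 - μ.real S) ^ j * g i j) N |>.trans rfl |>
      (fun h => (Finset.sum_congr rfl fun p _ => by ring).trans h)]
    rw [Finset.mul_sum, Finset.mul_sum, add_comm]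
    congr 1 <;> refine Finset.sum_congr rfl fun p hp => ?_
    · ring
    · rw [Finset.HasAntidiagonal.mem_antidiagonal] at hp
      rw [show N.choose p.2 = N.choose p.1 by rw [← hp]; exact Nat.choose_symm_add.symm]
      ring

/-! ## Link with `ProbabilityTheory.poissonMeasure` -/

lemma integrable_poissonMeasure {g : ℕ → ℝ} (hg : Gr g) (r : ℝ≥0) :
    Integrable g (ProbabilityTheory.poissonMeasure r) := by
  rw [ProbabilityTheory.integrable_poissonMeasure_iff]
  refine (summable_pw_mul hg.abs r).congr fun n => ?_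
  rw [pw, Real.norm_eq_abs]

lemma integral_poissonMeasure_eq_pe (g : ℕ → ℝ) (r : ℝ≥0) :
    ∫ n, g n ∂ProbabilityTheory.poissonMeasure r = pe r g := by
  rw [ProbabilityTheory.integral_poissonMeasure]
  exact tsum_congr fun n => by rw [pw, smul_eq_mul]

/-- Poisson expectation commutes with integration under an exponential bound. -/
theorem integral_pe {β : Type*} [MeasurableSpace β] (ν : Measure β) (t : ℝ) {f : ℕ → β → ℝ}
    (hf : ∀ n, Integrable (f n) ν) (hb : Gr fun n => ∫ x, |f n x| ∂ν) :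
    ∫ x, pe t (fun n => f n x) ∂ν = pe t (fun n => ∫ x, f n x ∂ν) := by
  have hi : ∀ n, Integrable (fun x => pw t n * f n x) ν := fun n => (hf n).const_mul _
  have hs : Summable fun n => ∫ x, ‖pw t n * f n x‖ ∂ν := by
    refine (summable_abs_pw_mul hb t).congr fun n => ?_
    have h0 : 0 ≤ ∫ x, |f n x| ∂ν := integral_nonneg fun x => abs_nonneg _
    simp only [Real.norm_eq_abs, abs_mul, integral_const_mul, abs_of_nonneg h0]
  rw [pe]
  simp only [← integral_const_mul]
  exact (integral_tsum_of_summable_integral_norm hi hs).symm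

end P168.Poisson
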