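import Vale.Agent.P168.AvgDefs
import Vale.Agent.P168.Poisson

/-!
Module A: truncation and linearity of the averages of nonexpansive functionals.
-/

namespace Vale.Agent.P168

open MeasureTheory Finset Filter Topology

lemma Nonexp.abs_le {α : Type} {Φ : (α → ℝ) → ℝ} (h : Nonexp Φ) {F : α → ℝ} {L : ℝ}
    (hF : ∀ a, |F a| ≤ L) : |Φ F| ≤ L := by
  have := h.2 F (fun _ => 0) L fun a => by simpa using hF a
  simpa [h.1] using this

lemma Nonexp.continuous {α : Type} [Fintype α] {Φ : (α → ℝ) → ℝ} (h : Nonexp Φ) :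
    Continuous Φ := by
  refine (LipschitzWith.of_dist_le' (K := 1) fun F F' => ?_).continuous
  rw [one_mul, Real.dist_eq]
  refine h.2 F F' _ fun a => ?_
  rw [← Real.dist_eq]
  exact dist_le_pi_dist F F' a

lemma abs_avg_le {α : Type} [Fintype α] {f : α → ℝ} {C : ℝ} (hC : 0 ≤ C) (h : ∀ a, |f a| ≤ C) :
    |avg f| ≤ C := by
  rcases Nat.eq_zero_or_pos (Fintype.card α) with h0 | hpos
  · simp [avg, h0, hC]
  have hc : (0 : ℝ) < Fintype.card α := by exact_mod_cast hpos
  rw [avg, abs_div, abs_of_pos hc, div_le_iff₀ hc]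
  refine (abs_sum_le_sum_abs _ _).trans ((sum_le_sum fun a _ => h a).trans (le_of_eq ?_))
  simp [mul_comm]

lemma avg_sub_avg {α : Type} [Fintype α] (f g : α → ℝ) :
    avg f - avg g = avg fun a => f a - g a := by
  simp only [avg, sum_sub_distrib, sub_div]

lemma avg_weighted_sum {α ι : Type} [Fintype α] [Fintype ι] (w : ι → ℝ) (f : ι → α → ℝ) :
    avg (fun a => ∑ i, w i * f i a) = ∑ i, w i * avg (f i) := by
  simp only [avg, sum_div, mul_div_assoc, mul_sum]
  exact sum_comm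

lemma pois_eq_pw : pois = P168.Poisson.pw := rfl

lemma pois_nonneg {μ : ℝ} (hμ : 0 ≤ μ) (k : ℕ) : 0 ≤ pois μ k := P168.Poisson.pw_nonneg hμ k

/-! ### Poisson mixtures of integrals -/

section general

variable {X : ℕ → Type} [∀ k, MeasurableSpace (X k)] (P : ∀ k, Measure (X k))
variable [∀ k, IsProbabilityMeasure (P k)]

lemma mix_summable {μ c0 c1 : ℝ} (hμ : 0 ≤ μ) {B : ∀ k, X k → ℝ}
    (hBi : ∀ k, Integrable (B k) (P k)) (hBle : ∀ k, ∫ x, B k x ∂P k ≤ c0 + c1 * k)
    {f : ∀ k, X k → ℝ} (hf : ∀ k x, |f k x| ≤ B k x) :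
    Summable fun k => pois μ k * ∫ x, f k x ∂P k := by
  have hg : P168.Poisson.Gr fun k : ℕ => c0 + c1 * (k : ℝ) :=
    (P168.Poisson.Gr.const c0).add (P168.Poisson.Gr.natCast.smul c1)
  refine Summable.of_norm_bounded (P168.Poisson.summable_pw_mul hg μ) fun k => ?_
  rw [Real.norm_eq_abs, abs_mul, abs_of_nonneg (pois_nonneg hμ k), ← pois_eq_pw]
  refine mul_le_mul_of_nonneg_left ?_ (pois_nonneg hμ k)
  rw [← Real.norm_eq_abs]
  exact (norm_integral_le_of_norm_le (hBi k)
    (ae_of_all _ fun x => (Real.norm_eq_abs _).trans_le (hf k x))).trans (hBle k)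

/-- Truncation of a Poisson mixture. -/
lemma mix_close {μ c0 c1 : ℝ} (hμ : 0 ≤ μ) {B : ∀ k, X k → ℝ}
    (hBm : ∀ k, Measurable (B k)) (hB0 : ∀ k x, 0 ≤ B k x)
    (hBi : ∀ k, Integrable (B k) (P k)) (hBle : ∀ k, ∫ x, B k x ∂P k ≤ c0 + c1 * k)
    {ε : ℝ} (hε : 0 < ε) :
    ∃ (L₀ : ℝ) (k₀ : ℕ), 0 ≤ L₀ ∧ ∀ (f g : ∀ k, X k → ℝ) (E : ℝ), 0 ≤ E →
      (∀ k, Measurable (f k)) → (∀ k, Measurable (g k)) →
      (∀ k x, |f k x| ≤ B k x) → (∀ k x, |g k x| ≤ B k x) →
      (∀ k ≤ k₀, ∀ x, B k x ≤ L₀ → |f k x - g k x| ≤ E) →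
      |(∑' k, pois μ k * ∫ x, f k x ∂P k) - ∑' k, pois μ k * ∫ x, g k x ∂P k| ≤ E + ε := by
  classical
  have hg : P168.Poisson.Gr fun k : ℕ => c0 + c1 * (k : ℝ) :=
    (P168.Poisson.Gr.const c0).add (P168.Poisson.Gr.natCast.smul c1)
  have hsum : Summable fun k : ℕ => pois μ k * (c0 + c1 * (k : ℝ)) :=
    P168.Poisson.summable_pw_mul hg μ
  -- the tail in `k`
  obtain ⟨k₀, hk₀⟩ : ∃ k₀, ∑' k, pois μ (k + (k₀ + 1)) * (c0 + c1 * ((k + (k₀ + 1) : ℕ) : ℝ))
      < ε / 4 := by
    have h := tendsto_sum_nat_add fun k : ℕ => pois μ k * (c0 + c1 * (k : ℝ))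
    have h' := (h.comp (tendsto_add_atTop_nat 1)).eventually
      (gt_mem_nhds (by positivity : (0 : ℝ) < ε / 4))
    exact h'.exists
  -- the truncation
  set J : ℕ → ℕ → ℝ := fun n k => ∫ x, (if B k x ≤ n then 0 else B k x) ∂P k with hJ
  have hJ0 : ∀ k, Tendsto (fun n => J n k) atTop (𝓝 0) := fun k => by
    have h := tendsto_integral_of_dominated_convergence (μ := P k)
      (F := fun (n : ℕ) x => if B k x ≤ n then 0 else B k x) (f := fun _ => 0) (B k)
      (fun n => (Measurable.ite (measurableSet_le (hBm k) measurable_const) measurable_const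
        (hBm k)).aestronglyMeasurable) (hBi k)
      (fun n => ae_of_all _ fun x => by
        rw [Real.norm_eq_abs]
        split_ifs
        · simpa using hB0 k x
        · rw [abs_of_nonneg (hB0 k x)])
      (ae_of_all _ fun x => tendsto_const_nhds.congr' <| by
        obtain ⟨m, hm⟩ := exists_nat_ge (B k x)
        refine eventually_atTop.2 ⟨m, fun n hn => ?_⟩
        simp only [if_pos (hm.trans (Nat.cast_le.2 hn))])
    simpa using h
  obtain ⟨n, hn⟩ : ∃ n, ∑ k ∈ range (k₀ + 1), pois μ k * J n k < ε / 4 := by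
    have h := tendsto_finsetSum (range (k₀ + 1)) fun k _ => (hJ0 k).const_mul (pois μ k)
    simp only [mul_zero, sum_const_zero] at h
    exact (h.eventually (gt_mem_nhds (by positivity : (0 : ℝ) < ε / 4))).exists
  refine ⟨n, k₀, n.cast_nonneg, fun f g E hE hfm hgm hf hg' hclose => ?_⟩
  have sf := mix_summable P hμ hBi hBle hf
  have sg := mix_summable P hμ hBi hBle hg'
  have hfi : ∀ k, Integrable (f k) (P k) := fun k =>
    (hBi k).mono' (hfm k).aestronglyMeasurable (ae_of_all _ (hf k))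
  have hgi : ∀ k, Integrable (g k) (P k) := fun k =>
    (hBi k).mono' (hgm k).aestronglyMeasurable (ae_of_all _ (hg' k))
  set t : ℕ → ℝ := fun k =>
    if k ≤ k₀ then E + 2 * J n k else 2 * (c0 + c1 * (k : ℝ)) with ht
  have hpt : ∀ k, |∫ x, f k x ∂P k - ∫ x, g k x ∂P k| ≤ t k := by
    intro k
    rw [← integral_sub (hfi k) (hgi k), ← Real.norm_eq_abs]
    simp only [ht]
    split_ifs with hk
    · have hi : Integrable (fun x => if B k x ≤ n then (0 : ℝ) else B k x) (P k) :=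
        (hBi k).mono' (Measurable.ite (measurableSet_le (hBm k) measurable_const) measurable_const
          (hBm k)).aestronglyMeasurable (ae_of_all _ fun x => by
            rw [Real.norm_eq_abs]
            split_ifs
            · simpa using hB0 k x
            · rw [abs_of_nonneg (hB0 k x)])
      refine (norm_integral_le_of_norm_le ((integrable_const E).add (hi.const_mul 2))
        (ae_of_all _ fun x => ?_)).trans (le_of_eq ?_)
      · rw [Real.norm_eq_abs, Pi.add_apply]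
        by_cases hx : B k x ≤ n
        · rw [if_pos hx]
          simpa using hclose k hk x hx
        · rw [if_neg hx]
          refine (abs_sub _ _).trans ?_
          linarith [hf k x, hg' k x]
      · simp only [Pi.add_apply]
        rw [integral_add (integrable_const E) (hi.const_mul 2), integral_const, integral_const_mul]
        simp [hJ]
    · refine (norm_integral_le_of_norm_le ((hBi k).const_mul 2) (ae_of_all _ fun x => ?_)).trans ?_
      · rw [Real.norm_eq_abs]
        refine (abs_sub _ _).trans ?_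
        linarith [hf k x, hg' k x]
      · rw [integral_const_mul]
        linarith [hBle k]
  have hst : Summable fun k => pois μ k * t k := by
    refine (summable_nat_add_iff (k₀ + 1)).1 ?_
    refine ((((summable_nat_add_iff (k₀ + 1)).2 hsum)).mul_left 2).congr fun k => ?_
    simp only [ht]
    rw [if_neg (by omega)]
    ring
  rw [← sf.tsum_sub sg, ← Real.norm_eq_abs]
  refine (tsum_of_norm_bounded hst.hasSum fun k => ?_).trans ?_
  · rw [Real.norm_eq_abs, ← mul_sub, abs_mul, abs_of_nonneg (pois_nonneg hμ k)]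
    exact mul_le_mul_of_nonneg_left (hpt k) (pois_nonneg hμ k)
  rw [← hst.sum_add_tsum_nat_add (k₀ + 1)]
  have h1 : ∑ k ∈ range (k₀ + 1), pois μ k * t k =
      E * ∑ k ∈ range (k₀ + 1), pois μ k + 2 * ∑ k ∈ range (k₀ + 1), pois μ k * J n k := by
    rw [mul_sum, mul_sum, ← sum_add_distrib]
    refine sum_congr rfl fun k hk => ?_
    simp only [ht, if_pos (Nat.lt_succ_iff.1 (mem_range.1 hk))]
    ring
  have h2 : ∑' k, pois μ (k + (k₀ + 1)) * t (k + (k₀ + 1)) =
      2 * ∑' k, pois μ (k + (k₀ + 1)) * (c0 + c1 * ((k + (k₀ + 1) : ℕ) : ℝ)) := by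
    rw [← tsum_mul_left]
    refine tsum_congr fun k => ?_
    simp only [ht]
    rw [if_neg (by omega)]
    ring
  have h3 : ∑ k ∈ range (k₀ + 1), pois μ k ≤ 1 :=
    sum_le_hasSum _ (fun k _ => pois_nonneg hμ k) (P168.Poisson.hasSum_pw μ)
  rw [h1, h2]
  have := mul_le_of_le_one_right hE h3
  linarith

/-- Poisson mixtures are linear. -/
lemma mix_weighted {μ c0 c1 : ℝ} (hμ : 0 ≤ μ) {B : ∀ k, X k → ℝ}
    (hBi : ∀ k, Integrable (B k) (P k)) (hBle : ∀ k, ∫ x, B k x ∂P k ≤ c0 + c1 * k)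
    {ι : Type} [Fintype ι] (w : ι → ℝ) {f : ι → ∀ k, X k → ℝ}
    (hfm : ∀ i k, Measurable (f i k)) (hf : ∀ i k x, |f i k x| ≤ B k x) :
    ∑' k, pois μ k * ∫ x, (∑ i, w i * f i k x) ∂P k =
      ∑ i, w i * ∑' k, pois μ k * ∫ x, f i k x ∂P k := by
  have hfi : ∀ i k, Integrable (f i k) (P k) := fun i k =>
    (hBi k).mono' (hfm i k).aestronglyMeasurable (ae_of_all _ (hf i k))
  simp only [integral_finsetSum univ fun i _ => (hfi i _).const_mul (w i), integral_const_mul,
    mul_sum, ← tsum_mul_left]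
  rw [← Summable.tsum_finsetSum fun i _ =>
    ((mix_summable P hμ hBi hBle (hf i)).mul_left (w i))]
  exact tsum_congr fun k => sum_congr rfl fun i _ => by ring

end general

/-! ### The two averages -/

variable {M : Model}

lemma integral_sum_thetaMax (hM : M.Valid) (k : ℕ) :
    Integrable (fun θ : Fin k → Param M.K => ∑ c, thetaMax (θ c))
        (Measure.pi fun _ : Fin k => M.clauseLaw) ∧
      ∫ θ, ∑ c, thetaMax (θ c) ∂(Measure.pi fun _ : Fin k => M.clauseLaw) =
        k * ∫ p, thetaMax p ∂M.clauseLaw := by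
  have := hM.clause_prob
  have hi : ∀ c : Fin k, Integrable (fun θ : Fin k → Param M.K => thetaMax (θ c))
      (Measure.pi fun _ : Fin k => M.clauseLaw) := fun c =>
    integrable_comp_eval (μ := fun _ : Fin k => M.clauseLaw) (f := thetaMax) hM.theta_int
  refine ⟨integrable_finsetSum _ fun c _ => hi c, ?_⟩
  rw [integral_finsetSum _ fun c _ => hi c]
  simp [integral_comp_eval (μ := fun _ : Fin k => M.clauseLaw) (f := thetaMax)
    hM.theta_int.aestronglyMeasurable]

lemma measurable_thetaMax {K : ℕ} : Measurable fun p : Param K => thetaMax p := by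
  have h : Measurable (univ.sup' univ_nonempty
      (fun (σ : Fin K → Bool) (p : Param K) => |theta p σ|)) :=
    Finset.measurable_sup' univ_nonempty fun σ _ => (measurable_theta σ).abs
  convert h using 1
  funext p
  simp [thetaMax, Finset.sup'_apply]

lemma measurable_sum_thetaMax {K k : ℕ} :
    Measurable fun θ : Fin k → Param K => ∑ c, thetaMax (θ c) :=
  Finset.measurable_sum _ fun c _ => measurable_thetaMax.comp (measurable_pi_apply c)

/-- The functional of the clauses of a new site. -/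
noncomputable def gU {K : ℕ} (Φ : Func K) (k : ℕ) (q : ℝ × (Fin k → Param K)) : ℝ :=
  avg fun l : Fin k → Fin K => Φ k (potU q.2 l q.1)

lemma measurable_gU {K : ℕ} {Φ : Func K} (hΦ : ∀ k, Nonexp (Φ k)) (k : ℕ) :
    Measurable (gU Φ k) :=
  (Finset.measurable_sum _ fun l _ =>
    ((hΦ k).continuous.measurable.comp (measurable_potU k l))).div_const _

lemma abs_gU_le {K : ℕ} {Φ : Func K} (hΦ : ∀ k, Nonexp (Φ k)) (k : ℕ)
    (q : ℝ × (Fin k → Param K)) :
    |gU Φ k q| ≤ |q.1| + Real.log 2 + ∑ c, thetaMax (q.2 c) :=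
  abs_avg_le (add_nonneg (add_nonneg (abs_nonneg _) (Real.log_nonneg (by norm_num)))
      (sum_nonneg fun c _ => thetaMax_nonneg _))
    fun l => (hΦ k).abs_le (abs_potU_le q.2 l q.1)

lemma boundU (hM : M.Valid) (k : ℕ) :
    Integrable (fun q : ℝ × (Fin k → Param M.K) =>
        |q.1| + Real.log 2 + ∑ c, thetaMax (q.2 c))
      (M.hLaw.prod (Measure.pi fun _ => M.clauseLaw)) ∧
    ∫ q : ℝ × (Fin k → Param M.K), |q.1| + Real.log 2 + ∑ c, thetaMax (q.2 c)
        ∂(M.hLaw.prod (Measure.pi fun _ => M.clauseLaw)) ≤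
      (∫ h, |h| ∂M.hLaw + Real.log 2) + (∫ p, thetaMax p ∂M.clauseLaw) * k := by
  have := hM.clause_prob
  have := hM.h_prob
  obtain ⟨hi, he⟩ := integral_sum_thetaMax hM k
  have h1 : Integrable (fun h : ℝ => |h| + Real.log 2) M.hLaw :=
    hM.h_int.abs.add (integrable_const _)
  refine ⟨(h1.comp_fst _).add (hi.comp_snd _), ?_⟩
  rw [integral_add (h1.comp_fst _) (hi.comp_snd _), integral_fun_fst fun h : ℝ => |h| + Real.log 2,
    integral_fun_snd fun θ : Fin k → Param M.K => ∑ c, thetaMax (θ c), he,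
    integral_add hM.h_int.abs (integrable_const _)]
  simp [mul_comm]

lemma avU_eq (hM : M.Valid) {Φ : Func M.K} (hΦ : ∀ k, Nonexp (Φ k)) :
    avU M Φ = ∑' k, pois (M.K * M.lam) k *
      ∫ q, gU Φ k q ∂(M.hLaw.prod (Measure.pi fun _ : Fin k => M.clauseLaw)) := by
  have := hM.clause_prob
  have := hM.h_prob
  refine tsum_congr fun k => ?_
  congr 1
  rw [integral_prod _ ((boundU hM k).1.mono' (measurable_gU hΦ k).aestronglyMeasurable
    (ae_of_all _ (abs_gU_le hΦ k)))]
  rfl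

lemma rateU_nonneg (hM : M.Valid) : 0 ≤ (M.K : ℝ) * M.lam :=
  mul_nonneg (Nat.cast_nonneg _) hM.lam_pos.le

lemma rateV_nonneg (hM : M.Valid) : 0 ≤ ((M.K : ℝ) - 1) * M.lam :=
  mul_nonneg (sub_nonneg.2 (by exact_mod_cast le_trans (by norm_num) hM.two_le)) hM.lam_pos.le

/-- Averages of functionals that agree within `E` on bounded potentials of few clauses agree
within `E + ε`. -/
theorem avU_close {M : Model} (hM : M.Valid) {ε : ℝ} (hε : 0 < ε) :
    ∃ (L₀ : ℝ) (k₀ : ℕ), 0 ≤ L₀ ∧ ∀ (Φ Ψ : Func M.K) (E : ℝ), 0 ≤ E →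
      (∀ k, Nonexp (Φ k)) → (∀ k, Nonexp (Ψ k)) →
      (∀ k ≤ k₀, ∀ F, (∀ τ, |F τ| ≤ L₀) → |Φ k F - Ψ k F| ≤ E) →
      |avU M Φ - avU M Ψ| ≤ E + ε := by
  have := hM.clause_prob
  have := hM.h_prob
  obtain ⟨L₀, k₀, hL, h⟩ := mix_close (X := fun k => ℝ × (Fin k → Param M.K))
    (fun k => M.hLaw.prod (Measure.pi fun _ : Fin k => M.clauseLaw))
    (B := fun k q => |q.1| + Real.log 2 + ∑ c, thetaMax (q.2 c)) (rateU_nonneg hM)
    (fun k => ((measurable_fst.abs).add_const _).add (measurable_sum_thetaMax.comp measurable_snd))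
    (fun k q => add_nonneg (add_nonneg (abs_nonneg _) (Real.log_nonneg (by norm_num)))
      (sum_nonneg fun c _ => thetaMax_nonneg _))
    (fun k => (boundU hM k).1) (fun k => (boundU hM k).2) hε
  refine ⟨L₀, k₀, hL, fun Φ Ψ E hE hΦ hΨ hcl => ?_⟩
  rw [avU_eq hM hΦ, avU_eq hM hΨ]
  refine h (gU Φ) (gU Ψ) E hE (measurable_gU hΦ) (measurable_gU hΨ) (abs_gU_le hΦ) (abs_gU_le hΨ)
    fun k hk q hq => ?_
  simp only [gU, avg_sub_avg]
  exact abs_avg_le hE fun l => hcl k hk _ fun τ => (abs_potU_le q.2 l q.1 τ).trans hq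

/-- The same for the added clauses. -/
theorem avV_close {M : Model} (hM : M.Valid) {ε : ℝ} (hε : 0 < ε) :
    ∃ (L₀ : ℝ) (k₀ : ℕ), 0 ≤ L₀ ∧ ∀ (Φ Ψ : Func M.K) (E : ℝ), 0 ≤ E →
      (∀ k, Nonexp (Φ k)) → (∀ k, Nonexp (Ψ k)) →
      (∀ k ≤ k₀, ∀ F, (∀ τ, |F τ| ≤ L₀) → |Φ k F - Ψ k F| ≤ E) →
      |avV M Φ - avV M Ψ| ≤ E + ε := by
  have := hM.clause_prob
  obtain ⟨L₀, k₀, hL, h⟩ := mix_close (X := fun k => Fin k → Param M.K)
    (fun k => Measure.pi fun _ : Fin k => M.clauseLaw)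
    (B := fun k θ => ∑ c, thetaMax (θ c)) (rateV_nonneg hM)
    (fun k => measurable_sum_thetaMax) (fun k θ => sum_nonneg fun c _ => thetaMax_nonneg _)
    (fun k => (integral_sum_thetaMax hM k).1) (c0 := 0) (c1 := ∫ p, thetaMax p ∂M.clauseLaw)
    (fun k => by rw [(integral_sum_thetaMax hM k).2, zero_add, mul_comm]) hε
  refine ⟨L₀, k₀, hL, fun Φ Ψ E hE hΦ hΨ hcl => ?_⟩
  exact h (fun k θ => Φ k (potV θ)) (fun k θ => Ψ k (potV θ)) E hE
    (fun k => (hΦ k).continuous.measurable.comp (measurable_potV k))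
    (fun k => (hΨ k).continuous.measurable.comp (measurable_potV k))
    (fun k θ => (hΦ k).abs_le (abs_potV_le θ)) (fun k θ => (hΨ k).abs_le (abs_potV_le θ))
    fun k hk θ hθ => hcl k hk _ fun τ => (abs_potV_le θ τ).trans hθ

theorem avU_sum {M : Model} (hM : M.Valid) {ι : Type} [Fintype ι] (w : ι → ℝ) (Ψ : ι → Func M.K)
    (hΨ : ∀ i k, Nonexp (Ψ i k)) :
    avU M (fun k F => ∑ i, w i * Ψ i k F) = ∑ i, w i * avU M (Ψ i) := by
  have := hM.clause_prob
  have := hM.h_prob
  simp only [avU_eq hM (hΨ _)]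
  rw [← mix_weighted (X := fun k => ℝ × (Fin k → Param M.K))
    (fun k => M.hLaw.prod (Measure.pi fun _ : Fin k => M.clauseLaw)) (rateU_nonneg hM)
    (fun k => (boundU hM k).1) (fun k => (boundU hM k).2) w (f := fun i => gU (Ψ i))
    (fun i => measurable_gU (hΨ i)) (fun i => abs_gU_le (hΨ i))]
  refine tsum_congr fun k => ?_
  congr 1
  rw [integral_prod]
  · simp only [gU, ← avg_weighted_sum]
  · exact integrable_finsetSum _ fun i _ => (((boundU hM k).1.mono'
      (measurable_gU (hΨ i) k).aestronglyMeasurable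
      (ae_of_all _ (abs_gU_le (hΨ i) k))).const_mul (w i))

theorem avV_sum {M : Model} (hM : M.Valid) {ι : Type} [Fintype ι] (w : ι → ℝ) (Ψ : ι → Func M.K)
    (hΨ : ∀ i k, Nonexp (Ψ i k)) :
    avV M (fun k F => ∑ i, w i * Ψ i k F) = ∑ i, w i * avV M (Ψ i) := by
  have := hM.clause_prob
  exact mix_weighted (X := fun k => Fin k → Param M.K)
    (fun k => Measure.pi fun _ : Fin k => M.clauseLaw) (rateV_nonneg hM)
    (fun k => (integral_sum_thetaMax hM k).1) (c0 := 0) (c1 := ∫ p, thetaMax p ∂M.clauseLaw)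
    (fun k => by rw [(integral_sum_thetaMax hM k).2, zero_add, mul_comm]) w
    (f := fun i k θ => Ψ i k (potV θ))
    (fun i k => (hΨ i k).continuous.measurable.comp (measurable_potV k))
    (fun i k θ => (hΨ i k).abs_le (abs_potV_le θ))

end Vale.Agent.P168
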