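import Vale.Agent.P168.LowerAlg

/-!
Averages of nonexpansive functionals over the randomness of the new clauses.
-/

namespace Vale.Agent.P168

open MeasureTheory Finset

/-- A functional that is `1`-Lipschitz in the supremum norm and vanishes at `0`. -/
def Nonexp {α : Type} (Φ : (α → ℝ) → ℝ) : Prop :=
  Φ (fun _ => 0) = 0 ∧ ∀ F F' L, (∀ a, |F a - F' a| ≤ L) → |Φ F - Φ F'| ≤ L

/-- A functional for each number of clauses. -/
abbrev Func (K : ℕ) := (k : ℕ) → ((Fin k × Fin K → Bool) → ℝ) → ℝ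

/-- The average over the clauses of a new site. -/
noncomputable def avU (M : Model) (Φ : Func M.K) : ℝ :=
  ∑' k : ℕ, pois (M.K * M.lam) k *
    ∫ h, ∫ θ, avg (fun l : Fin k → Fin M.K => Φ k (potU θ l h))
      ∂(Measure.pi fun _ : Fin k => M.clauseLaw) ∂M.hLaw

/-- The average over the added clauses. -/
noncomputable def avV (M : Model) (Φ : Func M.K) : ℝ :=
  ∑' k : ℕ, pois (((M.K : ℝ) - 1) * M.lam) k *
    ∫ θ, Φ k (potV θ) ∂Measure.pi fun _ : Fin k => M.clauseLaw

end Vale.Agent.P168
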