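import Vale.Agent.P168.TreeDefs

/-!
Calculus of finite depth nested tilted systems: recursion, tilted averages, covariances, the effect
of a bounded change of the potential, products and copies.
-/

set_option linter.unusedVariables false
set_option linter.unusedSectionVars false

namespace Vale.Agent.P168

open MeasureTheory Finset Function

variable {Ω : Type} [MeasurableSpace Ω] {S : Sys Ω}

/-! ### Bounded observables -/

lemma bdd_const (c : ℝ) : Bdd (fun _ : ℕ → Ω => c) := ⟨measurable_const, |c|, fun _ => le_rfl⟩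

lemma Bdd.add {f g : (ℕ → Ω) → ℝ} (hf : Bdd f) (hg : Bdd g) : Bdd (fun v => f v + g v) := by
  obtain ⟨mf, C, hC⟩ := hf
  obtain ⟨mg, D, hD⟩ := hg
  exact ⟨mf.add mg, C + D, fun v => (abs_add_le _ _).trans (add_le_add (hC v) (hD v))⟩

lemma Bdd.const_mul {f : (ℕ → Ω) → ℝ} (hf : Bdd f) (c : ℝ) : Bdd (fun v => c * f v) := by
  obtain ⟨mf, C, hC⟩ := hf
  exact ⟨mf.const_mul c, |c| * C, fun v => by
    rw [abs_mul]; exact mul_le_mul_of_nonneg_left (hC v) (abs_nonneg c)⟩

lemma Bdd.neg {f : (ℕ → Ω) → ℝ} (hf : Bdd f) : Bdd (fun v => -f v) :=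
  ⟨hf.1.neg, hf.2.imp fun C hC v => by rw [abs_neg]; exact hC v⟩

lemma Bdd.sub {f g : (ℕ → Ω) → ℝ} (hf : Bdd f) (hg : Bdd g) : Bdd (fun v => f v - g v) := by
  simpa only [sub_eq_add_neg] using hf.add hg.neg

lemma Bdd.mul {f g : (ℕ → Ω) → ℝ} (hf : Bdd f) (hg : Bdd g) : Bdd (fun v => f v * g v) := by
  obtain ⟨mf, C, hC⟩ := hf
  obtain ⟨mg, D, hD⟩ := hg
  exact ⟨mf.mul mg, |C| * |D|, fun v => by
    rw [abs_mul]
    exact mul_le_mul ((hC v).trans (le_abs_self C)) ((hD v).trans (le_abs_self D)) (abs_nonneg _)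
      (abs_nonneg _)⟩

lemma Bdd.pow {f : (ℕ → Ω) → ℝ} (hf : Bdd f) (n : ℕ) : Bdd (fun v => f v ^ n) := by
  induction n with
  | zero => simpa using bdd_const (Ω := Ω) 1
  | succ n ih => simpa [pow_succ] using ih.mul hf

lemma Bdd.exp {f : (ℕ → Ω) → ℝ} (hf : Bdd f) : Bdd (fun v => Real.exp (f v)) :=
  ⟨hf.1.exp, hf.2.elim fun C hC => ⟨Real.exp C, fun v => by
    rw [Real.abs_exp]; exact Real.exp_le_exp.2 ((le_abs_self _).trans (hC v))⟩⟩

lemma Bdd.sum {ι : Type} (t : Finset ι) {f : ι → (ℕ → Ω) → ℝ} (hf : ∀ i, Bdd (f i)) :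
    Bdd (fun v => ∑ i ∈ t, f i v) := by
  classical
  induction t using Finset.induction_on with
  | empty => simpa using bdd_const (Ω := Ω) 0
  | @insert i t hi ih => simp only [Finset.sum_insert hi]; exact (hf i).add ih

lemma Bdd.prod {ι : Type} (t : Finset ι) {f : ι → (ℕ → Ω) → ℝ} (hf : ∀ i, Bdd (f i)) :
    Bdd (fun v => ∏ i ∈ t, f i v) := by
  classical
  induction t using Finset.induction_on with
  | empty => simpa using bdd_const (Ω := Ω) 1
  | @insert i t hi ih => simp only [Finset.prod_insert hi]; exact (hf i).mul ih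

lemma Bdd.comp {Ω' : Type} [MeasurableSpace Ω'] {f : (ℕ → Ω) → ℝ} (hf : Bdd f)
    {T : (ℕ → Ω') → ℕ → Ω} (hT : Measurable T) : Bdd (fun v => f (T v)) :=
  ⟨hf.1.comp hT, hf.2.imp fun C hC v => hC _⟩

lemma bdd_log_one_add {z : (ℕ → Ω) → ℝ} (hz : Bdd z) {ρ : ℝ} (hρ : ρ < 1) (h : ∀ ω, |z ω| ≤ ρ) :
    Bdd (fun v => Real.log (1 + z v)) := by
  refine ⟨Real.measurable_log.comp (measurable_const.add hz.1), -Real.log (1 - ρ), fun v => ?_⟩
  obtain ⟨h1, h2⟩ := abs_le.1 (h v)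
  have h0 : 0 < 1 - ρ := by linarith
  have hp : 0 < 1 + z v := by linarith
  refine abs_le.2 ⟨?_, ?_⟩
  · rw [neg_neg]; exact Real.log_le_log h0 (by linarith)
  · have h3 : 1 + z v ≤ (1 - ρ)⁻¹ := by
      rw [← one_div, le_div_iff₀ h0]; nlinarith
    rw [← Real.log_inv]
    exact Real.log_le_log hp h3

/-! ### Regular systems -/

/-- A probability prior and a bounded potential. -/
def Sys.Reg (S : Sys Ω) : Prop := IsProbabilityMeasure S.μ ∧ Bdd S.H

lemma Sys.Good.reg (hS : S.Good) : S.Reg := ⟨hS.prob, hS.H_bdd⟩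

lemma Sys.Reg.add (hr : S.Reg) {V : (ℕ → Ω) → ℝ} (hV : Bdd V) : (S.add V).Reg :=
  ⟨hr.1, hr.2.add hV⟩

lemma Sys.integrable_step (hr : S.Reg) {F : (ℕ → Ω) → ℝ} (hF : Bdd F) (ω : ℕ → Ω) (k : ℕ) :
    Integrable (fun e => F (update ω k e)) S.μ := by
  have := hr.1
  obtain ⟨hm, C, hC⟩ := hF
  exact Integrable.of_bound (hm.comp (measurable_update ω)).aestronglyMeasurable C
    (.of_forall fun e => by rw [Real.norm_eq_abs]; exact hC _)

lemma Sys.bdd_step (hr : S.Reg) {F : (ℕ → Ω) → ℝ} (hF : Bdd F) (k : ℕ) :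
    Bdd (fun ω => ∫ e, F (update ω k e) ∂S.μ) := by
  have := hr.1
  obtain ⟨hm, C, hC⟩ := hF
  refine ⟨((hm.comp measurable_update').stronglyMeasurable.integral_prod_right').measurable, C,
    fun ω => ?_⟩
  have h := norm_integral_le_of_norm_le_const (μ := S.μ) (f := fun e => F (update ω k e)) (C := C)
    (.of_forall fun e => by rw [Real.norm_eq_abs]; exact hC _)
  simpa using h

lemma Sys.step_exp_pos (hr : S.Reg) {F : (ℕ → Ω) → ℝ} (hF : Bdd F) (ω : ℕ → Ω) (k : ℕ) :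
    0 < ∫ e, Real.exp (F (update ω k e)) ∂S.μ := by
  have := hr.1
  exact integral_exp_pos (Sys.integrable_step hr hF.exp ω k)

lemma Sys.step_log_le (hr : S.Reg) {F : (ℕ → Ω) → ℝ} (hF : Bdd F) {a b : ℝ} (ω : ℕ → Ω) (k : ℕ)
    (h : ∀ e, F (update ω k e) ∈ Set.Icc a b) :
    Real.log (∫ e, Real.exp (F (update ω k e)) ∂S.μ) ∈ Set.Icc a b := by
  have := hr.1
  have hi := Sys.integrable_step hr hF.exp ω k
  have h1 := integral_mono (integrable_const (μ := S.μ) (Real.exp a)) hi fun e =>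
    Real.exp_le_exp.2 (h e).1
  have h2 := integral_mono hi (integrable_const (μ := S.μ) (Real.exp b)) fun e =>
    Real.exp_le_exp.2 (h e).2
  simp only [integral_const, probReal_univ, one_smul] at h1 h2
  exact ⟨(Real.le_log_iff_exp_le (Sys.step_exp_pos hr hF ω k)).2 h1,
    (Real.log_le_iff_le_exp (Sys.step_exp_pos hr hF ω k)).2 h2⟩

lemma abs_inv_mul_le (x z C : ℝ) (hC : 0 ≤ C) (h : |z| ≤ |x| * C) : |x⁻¹ * z| ≤ C := by
  rcases eq_or_ne x 0 with rfl | hx
  · simpa using hC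
  rw [abs_mul, abs_inv, inv_mul_le_iff₀ (abs_pos.2 hx)]
  exact h

lemma Sys.uUp_bdd (hr : S.Reg) : ∀ d, Bdd (S.uUp d)
  | 0 => hr.2
  | d + 1 => by
    obtain ⟨hm, C, hC⟩ := Sys.uUp_bdd hr d
    have hF : Bdd (fun v => S.x (S.R - d) * S.uUp d v) := Bdd.const_mul ⟨hm, C, hC⟩ _
    refine ⟨(Real.measurable_log.comp (Sys.bdd_step hr hF.exp (S.R - d)).1).const_mul _, |C|,
      fun ω => abs_inv_mul_le _ _ _ (abs_nonneg C) (abs_le.2 ?_)⟩
    refine Sys.step_log_le hr hF ω _ fun e => abs_le.1 ?_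
    rw [abs_mul]
    exact mul_le_mul_of_nonneg_left ((hC _).trans (le_abs_self C)) (abs_nonneg _)

lemma Sys.u_bdd' (hr : S.Reg) (l : ℕ) : Bdd (S.u l) := Sys.uUp_bdd hr _

theorem Sys.u_top : S.u S.R = S.H := by
  unfold Sys.u
  rw [Nat.sub_self]
  rfl

theorem Sys.u_step {l : ℕ} (hl : l < S.R) (ω : ℕ → Ω) :
    S.u l ω = (S.x (l + 1))⁻¹ *
      Real.log (∫ e, Real.exp (S.x (l + 1) * S.u (l + 1) (update ω (l + 1) e)) ∂S.μ) := by
  obtain ⟨d, hd⟩ : ∃ d, S.R - l = d + 1 := ⟨S.R - (l + 1), by omega⟩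
  have h1 : S.R - d = l + 1 := by omega
  have h2 : S.R - (l + 1) = d := by omega
  simp only [Sys.u, hd, Sys.uUp, h1, h2]

theorem Sys.u_bdd (hS : S.Good) (l : ℕ) : Bdd (S.u l) := Sys.u_bdd' hS.reg l

lemma depends_update {α : Type} {f : (ℕ → Ω) → α} {l : ℕ} (hf : DependsTo f (l + 1))
    {ω ω' : ℕ → Ω} (h : ∀ i, 1 ≤ i → i ≤ l → ω i = ω' i) (e : Ω) :
    f (update ω (l + 1) e) = f (update ω' (l + 1) e) := by
  refine hf _ _ fun i h1 h2 => ?_
  by_cases hi : i = l + 1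
  · subst hi; simp
  · simp only [update_of_ne hi]; exact h i h1 (by omega)

theorem Sys.u_dep (hS : S.Good) {l : ℕ} (hl : l ≤ S.R) : DependsTo (S.u l) l := by
  obtain ⟨d, rfl⟩ : ∃ d, l = S.R - d := ⟨S.R - l, by omega⟩
  clear hl
  induction d with
  | zero => rw [Nat.sub_zero, Sys.u_top]; exact hS.H_dep
  | succ d ih =>
    by_cases h : d < S.R
    · intro ω ω' hω
      have h1 : S.R - (d + 1) + 1 = S.R - d := by omega
      rw [Sys.u_step (by omega), Sys.u_step (by omega)]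
      congr 2
      refine integral_congr_ae (.of_forall fun e => ?_)
      simp only
      congr 2
      exact depends_update (by rw [h1]; exact ih) hω e
    · rw [show S.R - (d + 1) = S.R - d by omega]; exact ih

/-! ### The tilted average -/

lemma Sys.A_eq (S : Sys Ω) (l : ℕ) (f : (ℕ → Ω) → ℝ) (ω : ℕ → Ω) :
    S.A l f ω = (∫ e, Real.exp (S.x (l + 1) * S.u (l + 1) (update ω (l + 1) e)) *
      f (update ω (l + 1) e) ∂S.μ) /
      ∫ e, Real.exp (S.x (l + 1) * S.u (l + 1) (update ω (l + 1) e)) ∂S.μ := rfl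

lemma Sys.wgt_bdd (hr : S.Reg) (l : ℕ) :
    Bdd (fun v => Real.exp (S.x (l + 1) * S.u (l + 1) v)) :=
  ((Sys.u_bdd' hr (l + 1)).const_mul _).exp

lemma Sys.den_pos (hr : S.Reg) (l : ℕ) (ω : ℕ → Ω) :
    0 < ∫ e, Real.exp (S.x (l + 1) * S.u (l + 1) (update ω (l + 1) e)) ∂S.μ :=
  Sys.step_exp_pos hr ((Sys.u_bdd' hr (l + 1)).const_mul _) ω _

lemma Sys.A_const' (hr : S.Reg) (l : ℕ) (c : ℝ) (ω : ℕ → Ω) : S.A l (fun _ => c) ω = c := by
  rw [Sys.A_eq, integral_mul_const, mul_div_cancel_left₀ _ (Sys.den_pos hr l ω).ne']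

lemma Sys.A_add' (hr : S.Reg) {f g : (ℕ → Ω) → ℝ} (hf : Bdd f) (hg : Bdd g) (l : ℕ)
    (ω : ℕ → Ω) : S.A l (fun v => f v + g v) ω = S.A l f ω + S.A l g ω := by
  simp only [Sys.A_eq, mul_add]
  rw [integral_add (Sys.integrable_step hr ((Sys.wgt_bdd hr l).mul hf) ω (l + 1))
    (Sys.integrable_step hr ((Sys.wgt_bdd hr l).mul hg) ω (l + 1)), add_div]

lemma Sys.A_const_mul' (f : (ℕ → Ω) → ℝ) (c : ℝ) (l : ℕ) (ω : ℕ → Ω) :
    S.A l (fun v => c * f v) ω = c * S.A l f ω := by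
  simp only [Sys.A_eq, mul_left_comm _ c, integral_const_mul, mul_div_assoc]

lemma Sys.A_mono' (hr : S.Reg) {f g : (ℕ → Ω) → ℝ} (hf : Bdd f) (hg : Bdd g)
    (h : ∀ v, f v ≤ g v) (l : ℕ) (ω : ℕ → Ω) : S.A l f ω ≤ S.A l g ω := by
  simp only [Sys.A_eq]
  refine div_le_div_of_nonneg_right ?_ (Sys.den_pos hr l ω).le
  exact integral_mono (Sys.integrable_step hr ((Sys.wgt_bdd hr l).mul hf) ω (l + 1))
    (Sys.integrable_step hr ((Sys.wgt_bdd hr l).mul hg) ω (l + 1))
    fun e => mul_le_mul_of_nonneg_left (h _) (Real.exp_pos _).le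

lemma Sys.A_abs_le (hr : S.Reg) {f : (ℕ → Ω) → ℝ} (hf : Bdd f) {B : ℝ} (hB : ∀ v, |f v| ≤ B)
    (l : ℕ) (ω : ℕ → Ω) : |S.A l f ω| ≤ B :=
  abs_le.2 ⟨(Sys.A_const' hr l (-B) ω).symm.trans_le
      (Sys.A_mono' hr (bdd_const _) hf (fun v => (abs_le.1 (hB v)).1) l ω),
    (Sys.A_mono' hr hf (bdd_const _) (fun v => (abs_le.1 (hB v)).2) l ω).trans_eq
      (Sys.A_const' hr l B ω)⟩

lemma Sys.A_bdd' (hr : S.Reg) {f : (ℕ → Ω) → ℝ} (hf : Bdd f) (l : ℕ) : Bdd (S.A l f) :=
  ⟨((Sys.bdd_step hr ((Sys.wgt_bdd hr l).mul hf) (l + 1)).1.div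
      (Sys.bdd_step hr (Sys.wgt_bdd hr l) (l + 1)).1 :),
    hf.2.imp fun C hC => Sys.A_abs_le hr hf hC l⟩

theorem Sys.A_bdd (hS : S.Good) {f : (ℕ → Ω) → ℝ} (hf : Bdd f) (l : ℕ) : Bdd (S.A l f) :=
  Sys.A_bdd' hS.reg hf l

theorem Sys.A_dep (hS : S.Good) {f : (ℕ → Ω) → ℝ} {l : ℕ} (hl : l < S.R)
    (hf : DependsTo f (l + 1)) : DependsTo (S.A l f) l := by
  intro ω ω' h
  have hu := fun e => depends_update (Sys.u_dep hS (show l + 1 ≤ S.R from hl)) h e
  have hf' := fun e => depends_update hf h e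
  simp only [Sys.A_eq, hu, hf']

theorem Sys.A_const (hS : S.Good) (l : ℕ) (c : ℝ) (ω : ℕ → Ω) : S.A l (fun _ => c) ω = c :=
  Sys.A_const' hS.reg l c ω

theorem Sys.A_add (hS : S.Good) {f g : (ℕ → Ω) → ℝ} (hf : Bdd f) (hg : Bdd g) (l : ℕ)
    (ω : ℕ → Ω) : S.A l (fun v => f v + g v) ω = S.A l f ω + S.A l g ω :=
  Sys.A_add' hS.reg hf hg l ω

theorem Sys.A_const_mul (hS : S.Good) (f : (ℕ → Ω) → ℝ) (c : ℝ) (l : ℕ) (ω : ℕ → Ω) :
    S.A l (fun v => c * f v) ω = c * S.A l f ω :=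
  Sys.A_const_mul' f c l ω

theorem Sys.A_mono (hS : S.Good) {f g : (ℕ → Ω) → ℝ} (hf : Bdd f) (hg : Bdd g)
    (h : ∀ v, f v ≤ g v) (l : ℕ) (ω : ℕ → Ω) : S.A l f ω ≤ S.A l g ω :=
  Sys.A_mono' hS.reg hf hg h l ω

/-! ### The average over several steps -/

lemma Sys.down_add_steps (f : (ℕ → Ω) → ℝ) : ∀ a b l,
    S.down (a + b) l f = S.down a l (S.down b (l + a) f)
  | 0, b, l => by simp [Sys.down]
  | a + 1, b, l => by
    rw [show a + 1 + b = (a + b) + 1 by omega]
    simp only [Sys.down]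
    rw [Sys.down_add_steps f a b (l + 1), show l + (a + 1) = l + 1 + a by omega]

theorem Sys.cond_tower (hS : S.Good) (f : (ℕ → Ω) → ℝ) {l m n : ℕ} (h1 : l ≤ m) (h2 : m ≤ n) :
    S.cond l n f = S.cond l m (S.cond m n f) := by
  obtain ⟨a, rfl⟩ := Nat.exists_eq_add_of_le h1
  obtain ⟨b, rfl⟩ := Nat.exists_eq_add_of_le h2
  simp only [Sys.cond, Nat.add_sub_cancel_left, show l + a + b - l = a + b by omega]
  exact Sys.down_add_steps f a b l

lemma Sys.down_bdd (hr : S.Reg) {f : (ℕ → Ω) → ℝ} (hf : Bdd f) : ∀ d l, Bdd (S.down d l f)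
  | 0, _ => hf
  | d + 1, l => Sys.A_bdd' hr (Sys.down_bdd hr hf d (l + 1)) l

lemma Sys.down_const (hr : S.Reg) (c : ℝ) : ∀ d l, S.down d l (fun _ => c) = fun _ => c
  | 0, _ => rfl
  | d + 1, l => by
    simp only [Sys.down, Sys.down_const hr c d (l + 1)]
    exact funext (Sys.A_const' hr l c)

lemma Sys.down_add (hr : S.Reg) {f g : (ℕ → Ω) → ℝ} (hf : Bdd f) (hg : Bdd g) : ∀ d l,
    S.down d l (fun v => f v + g v) = fun v => S.down d l f v + S.down d l g v
  | 0, _ => rfl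
  | d + 1, l => by
    simp only [Sys.down, Sys.down_add hr hf hg d (l + 1)]
    exact funext (Sys.A_add' hr (Sys.down_bdd hr hf d _) (Sys.down_bdd hr hg d _) l)

lemma Sys.down_const_mul (f : (ℕ → Ω) → ℝ) (c : ℝ) : ∀ d l,
    S.down d l (fun v => c * f v) = fun v => c * S.down d l f v
  | 0, _ => rfl
  | d + 1, l => by
    simp only [Sys.down, Sys.down_const_mul f c d (l + 1)]
    exact funext (Sys.A_const_mul' _ c l)

lemma Sys.down_mono (hr : S.Reg) {f g : (ℕ → Ω) → ℝ} (hf : Bdd f) (hg : Bdd g)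
    (h : ∀ v, f v ≤ g v) : ∀ d l v, S.down d l f v ≤ S.down d l g v
  | 0, _, v => h v
  | d + 1, l, v => Sys.A_mono' hr (Sys.down_bdd hr hf d _) (Sys.down_bdd hr hg d _)
      (Sys.down_mono hr hf hg h d (l + 1)) l v

lemma Sys.cond_bdd (hr : S.Reg) {f : (ℕ → Ω) → ℝ} (hf : Bdd f) (l m : ℕ) : Bdd (S.cond l m f) :=
  Sys.down_bdd hr hf _ l

lemma Sys.cond_const (hr : S.Reg) (c : ℝ) (l m : ℕ) : S.cond l m (fun _ => c) = fun _ => c :=
  Sys.down_const hr c _ l

lemma Sys.cond_add (hr : S.Reg) {f g : (ℕ → Ω) → ℝ} (hf : Bdd f) (hg : Bdd g) (l m : ℕ) :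
    S.cond l m (fun v => f v + g v) = fun v => S.cond l m f v + S.cond l m g v :=
  Sys.down_add hr hf hg _ l

lemma Sys.cond_const_mul (f : (ℕ → Ω) → ℝ) (c : ℝ) (l m : ℕ) :
    S.cond l m (fun v => c * f v) = fun v => c * S.cond l m f v :=
  Sys.down_const_mul f c _ l

lemma Sys.cond_sub (hr : S.Reg) {f g : (ℕ → Ω) → ℝ} (hf : Bdd f) (hg : Bdd g) (l m : ℕ) :
    S.cond l m (fun v => f v - g v) = fun v => S.cond l m f v - S.cond l m g v := by
  have e : (fun v => f v - g v) = fun v => f v + (-1) * g v := funext fun v => by ring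
  rw [e, Sys.cond_add hr hf (hg.const_mul _), Sys.cond_const_mul]
  funext v
  ring

lemma Sys.cond_mono (hr : S.Reg) {f g : (ℕ → Ω) → ℝ} (hf : Bdd f) (hg : Bdd g)
    (h : ∀ v, f v ≤ g v) (l m : ℕ) (v : ℕ → Ω) : S.cond l m f v ≤ S.cond l m g v :=
  Sys.down_mono hr hf hg h _ l v

lemma Sys.cond_sum (hr : S.Reg) {ι : Type} (t : Finset ι) {f : ι → (ℕ → Ω) → ℝ}
    (hf : ∀ i, Bdd (f i)) (l m : ℕ) :
    S.cond l m (fun v => ∑ i ∈ t, f i v) = fun v => ∑ i ∈ t, S.cond l m (f i) v := by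
  classical
  induction t using Finset.induction_on with
  | empty => simpa using Sys.cond_const hr 0 l m
  | @insert i t hi ih =>
    simp only [Finset.sum_insert hi]
    rw [Sys.cond_add hr (hf i) (Bdd.sum t hf), ih]

lemma Sys.cond_sq (hr : S.Reg) {f : (ℕ → Ω) → ℝ} (hf : Bdd f) (l m : ℕ) (ω : ℕ → Ω) :
    S.cond l m f ω ^ 2 ≤ S.cond l m (fun v => f v ^ 2) ω := by
  set c := S.cond l m f ω with hc
  have h := Sys.cond_mono hr ((hf.const_mul (2 * c)).add (bdd_const (-(c ^ 2)))) (hf.pow 2)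
    (fun v => by nlinarith [sq_nonneg (f v - c)]) l m ω
  rw [Sys.cond_add hr (hf.const_mul _) (bdd_const _), Sys.cond_const_mul, Sys.cond_const hr] at h
  simp only [← hc] at h
  linarith

theorem Sys.A_sq (hS : S.Good) {f : (ℕ → Ω) → ℝ} (hf : Bdd f) (l : ℕ) (ω : ℕ → Ω) :
    S.A l f ω ^ 2 ≤ S.A l (fun v => f v ^ 2) ω := by
  have h := Sys.cond_sq hS.reg hf l (l + 1) ω
  simpa only [Sys.cond, Nat.add_sub_cancel_left, Sys.down] using h

theorem Sys.cov_total (hS : S.Good) {f g : (ℕ → Ω) → ℝ} (hf : Bdd f) (hg : Bdd g) {l m n : ℕ}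
    (h1 : l ≤ m) (h2 : m ≤ n) (ω : ℕ → Ω) :
    S.cov l n f g ω = S.cov l m (S.cond m n f) (S.cond m n g) ω +
      S.cond l m (S.cov m n f g) ω := by
  have hr := hS.reg
  have hcov : S.cov m n f g = fun v => S.cond m n (fun v => f v * g v) v -
      S.cond m n f v * S.cond m n g v := rfl
  rw [hcov, Sys.cond_sub hr (Sys.cond_bdd hr (hf.mul hg) m n)
    ((Sys.cond_bdd hr hf m n).mul (Sys.cond_bdd hr hg m n))]
  simp only [Sys.cov, Sys.cond_tower hS (fun v => f v * g v) h1 h2, Sys.cond_tower hS f h1 h2,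
    Sys.cond_tower hS g h1 h2]
  ring

theorem Sys.cov_psd (hS : S.Good) {ι : Type} (t : Finset ι) {f : ι → (ℕ → Ω) → ℝ}
    (hf : ∀ i, Bdd (f i)) (a : ι → ℝ) (l m : ℕ) (ω : ℕ → Ω) :
    0 ≤ ∑ i ∈ t, ∑ j ∈ t, a i * a j * S.cov l m (f i) (f j) ω := by
  have hr := hS.reg
  have hg : Bdd (fun v => ∑ i ∈ t, a i * f i v) := Bdd.sum t fun i => (hf i).const_mul _
  have h := Sys.cond_sq hr hg l m ω
  have e1 : (fun v => (∑ i ∈ t, a i * f i v) ^ 2) =
      fun v => ∑ i ∈ t, ∑ j ∈ t, a i * a j * (f i v * f j v) := by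
    funext v
    rw [sq, Finset.sum_mul_sum]
    exact sum_congr rfl fun i _ => sum_congr rfl fun j _ => by ring
  rw [e1, Sys.cond_sum hr t (fun i => Bdd.sum t fun j => ((hf i).mul (hf j)).const_mul _),
    Sys.cond_sum hr t (fun i => (hf i).const_mul _)] at h
  simp only [Sys.cond_sum hr t (fun j => ((hf _).mul (hf j)).const_mul _), Sys.cond_const_mul] at h
  rw [sq, Finset.sum_mul_sum] at h
  simp only [Sys.cov, mul_sub, Finset.sum_sub_distrib, sub_nonneg]
  refine le_trans (le_of_eq ?_) h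
  exact sum_congr rfl fun i _ => sum_congr rfl fun j _ => by ring

/-! ### Changing the potential -/

theorem Sys.add_good (hS : S.Good) {V : (ℕ → Ω) → ℝ} (hV : Bdd V) (hd : DependsTo V S.R) :
    (S.add V).Good where
  prob := hS.prob
  x_pos := hS.x_pos
  x_mono := hS.x_mono
  x_last := hS.x_last
  R_pos := hS.R_pos
  H_bdd := hS.H_bdd.add hV
  H_dep ω ω' h := congrArg₂ (· + ·) (hS.H_dep ω ω' h) (hd ω ω' h)

lemma Sys.uUp_add_le (hr : S.Reg) {V : (ℕ → Ω) → ℝ} (hV : Bdd V) {C : ℝ} (h : ∀ ω, |V ω| ≤ C) :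
    ∀ d ω, |(S.add V).uUp d ω - S.uUp d ω| ≤ C
  | 0, ω => by simpa [Sys.uUp, Sys.add] using h ω
  | d + 1, ω => by
    have hC : 0 ≤ C := (abs_nonneg _).trans (h ω)
    have hr' := hr.add hV
    set x := S.x (S.R - d) with hx
    set g := fun v => x * S.uUp d v with hgdef
    set g' := fun v => x * (S.add V).uUp d v with hg'def
    have hg : Bdd g := (Sys.uUp_bdd hr d).const_mul x
    have hg' : Bdd g' := (Sys.uUp_bdd hr' d).const_mul x
    have hd : ∀ v, |g' v - g v| ≤ |x| * C := fun v => by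
      rw [hgdef, hg'def, ← mul_sub, abs_mul]
      exact mul_le_mul_of_nonneg_left (Sys.uUp_add_le hr hV h d v) (abs_nonneg x)
    set I := ∫ e, Real.exp (g (update ω (S.R - d) e)) ∂S.μ with hI
    set I' := ∫ e, Real.exp (g' (update ω (S.R - d) e)) ∂S.μ with hI'
    have hI0 : 0 < I := Sys.step_exp_pos hr hg ω _
    have hI0' : 0 < I' := Sys.step_exp_pos hr hg' ω _
    have hle : ∀ {p q : (ℕ → Ω) → ℝ}, Bdd p → Bdd q → (∀ v, |p v - q v| ≤ |x| * C) →
        ∫ e, Real.exp (p (update ω (S.R - d) e)) ∂S.μ ≤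
          Real.exp (|x| * C) * ∫ e, Real.exp (q (update ω (S.R - d) e)) ∂S.μ := by
      intro p q hp hq hpq
      rw [← integral_const_mul]
      refine integral_mono (Sys.integrable_step hr hp.exp ω _)
        ((Sys.integrable_step hr hq.exp ω _).const_mul _) fun e => ?_
      simp only
      rw [← Real.exp_add, Real.exp_le_exp]
      linarith [(abs_le.1 (hpq (update ω (S.R - d) e))).2]
    have l1 := Real.log_le_log hI0' (hle hg' hg hd)
    have l2 := Real.log_le_log hI0 (hle hg hg' fun v => by rw [abs_sub_comm]; exact hd v)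
    rw [Real.log_mul (Real.exp_pos _).ne' (ne_of_gt hI0), Real.log_exp] at l1
    rw [Real.log_mul (Real.exp_pos _).ne' (ne_of_gt hI0'), Real.log_exp] at l2
    show |x⁻¹ * Real.log I' - x⁻¹ * Real.log I| ≤ C
    rw [← mul_sub]
    refine abs_inv_mul_le _ _ _ hC (abs_le.2 ⟨?_, ?_⟩) <;> linarith

theorem Sys.u_add_le (hS : S.Good) {V : (ℕ → Ω) → ℝ} (hV : Bdd V) {C : ℝ} (h : ∀ ω, |V ω| ≤ C)
    (l : ℕ) (ω : ℕ → Ω) : |(S.add V).u l ω - S.u l ω| ≤ C :=
  Sys.uUp_add_le hS.reg hV h _ ω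

/-- The normalisation of a step, in terms of the recursion. -/
lemma Sys.exp_u_step (hr : S.Reg) {l : ℕ} (hl : l < S.R) (hx : 0 < S.x (l + 1)) (ω : ℕ → Ω) :
    Real.exp (S.x (l + 1) * S.u l ω) =
      ∫ e, Real.exp (S.x (l + 1) * S.u (l + 1) (update ω (l + 1) e)) ∂S.μ := by
  rw [Sys.u_step hl, ← mul_assoc, mul_inv_cancel₀ hx.ne', one_mul,
    Real.exp_log (Sys.den_pos hr l ω)]

/-- A step of the system with a changed potential, as a step of the original system. -/
lemma Sys.A_add_pot (hr : S.Reg) {V : (ℕ → Ω) → ℝ} (hV : Bdd V) {l : ℕ} (hl : l < S.R)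
    (hx : 0 < S.x (l + 1)) (f : (ℕ → Ω) → ℝ) (ω : ℕ → Ω) :
    (S.add V).A l f ω = Real.exp (-(S.x (l + 1) * ((S.add V).u l ω - S.u l ω))) *
      S.A l (fun v =>
        Real.exp (S.x (l + 1) * ((S.add V).u (l + 1) v - S.u (l + 1) v)) * f v) ω := by
  have hden := Sys.exp_u_step hr hl hx ω
  have hden' := Sys.exp_u_step (hr.add hV) (show l < (S.add V).R from hl) hx ω
  simp only [Sys.A_eq]
  rw [← hden, ← hden']
  have hnum : ∀ e : Ω, Real.exp (S.x (l + 1) * S.u (l + 1) (update ω (l + 1) e)) *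
      (Real.exp (S.x (l + 1) * ((S.add V).u (l + 1) (update ω (l + 1) e) -
        S.u (l + 1) (update ω (l + 1) e))) * f (update ω (l + 1) e)) =
      Real.exp (S.x (l + 1) * (S.add V).u (l + 1) (update ω (l + 1) e)) *
        f (update ω (l + 1) e) := fun e => by
    rw [← mul_assoc, ← Real.exp_add]
    congr 2
    ring
  simp only [hnum]
  show (∫ e, Real.exp (S.x (l + 1) * (S.add V).u (l + 1) (update ω (l + 1) e)) *
    f (update ω (l + 1) e) ∂S.μ) / Real.exp (S.x (l + 1) * (S.add V).u l ω) = _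
  rw [mul_sub, neg_sub, Real.exp_sub]
  have h1 := Real.exp_ne_zero (S.x (l + 1) * S.u l ω)
  field_simp

lemma Sys.x_mono_le (hS : S.Good) {l m : ℕ} (h1 : 1 ≤ l) (h2 : l ≤ m) (h3 : m ≤ S.R) :
    S.x l ≤ S.x m := by
  induction m, h2 using Nat.le_induction with
  | base => exact le_rfl
  | succ k hk ih => exact (ih (by omega)).trans (hS.x_mono k (by omega) (by omega))

/-- The path laws of the two systems compare up to a factor. -/
lemma Sys.down_le_exp (hr : S.Reg) (hxp : ∀ l, 1 ≤ l → l ≤ S.R → 0 < S.x l)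
    (hxm : ∀ l, 1 ≤ l → l < S.R → S.x l ≤ S.x (l + 1)) {V g : (ℕ → Ω) → ℝ} (hV : Bdd V) {C : ℝ}
    (h : ∀ ω, |V ω| ≤ C) (hg : Bdd g) (hg0 : ∀ v, 0 ≤ g v) :
    ∀ d l, l + (d + 1) ≤ S.R → ∀ ω, (S.add V).down (d + 1) l g ω ≤
      Real.exp ((2 * S.x (l + (d + 1)) - S.x (l + 1)) * C -
        S.x (l + 1) * ((S.add V).u l ω - S.u l ω)) * S.down (d + 1) l g ω := by
  have hr' := hr.add hV
  have hC : ∀ k v, |(S.add V).u k v - S.u k v| ≤ C := fun k => Sys.uUp_add_le hr hV h (S.R - k)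
  have hw : ∀ k, Bdd (fun v => Real.exp (S.x (k + 1) *
      ((S.add V).u (k + 1) v - S.u (k + 1) v))) := fun k =>
    (((Sys.u_bdd' hr' _).sub (Sys.u_bdd' hr _)).const_mul _).exp
  intro d
  induction d with
  | zero =>
    intro l hl ω
    have hx := hxp (l + 1) (by omega) (by omega)
    show (S.add V).A l g ω ≤ _ * S.A l g ω
    rw [Sys.A_add_pot hr hV (by omega) hx,
      show (2 * S.x (l + (0 + 1)) - S.x (l + 1)) * C -
          S.x (l + 1) * ((S.add V).u l ω - S.u l ω) =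
        -(S.x (l + 1) * ((S.add V).u l ω - S.u l ω)) + S.x (l + 1) * C by ring,
      Real.exp_add, mul_assoc, ← Sys.A_const_mul' g]
    refine mul_le_mul_of_nonneg_left (Sys.A_mono' hr ((hw l).mul hg) (hg.const_mul _) (fun v => ?_)
      l ω) (Real.exp_pos _).le
    exact mul_le_mul_of_nonneg_right (Real.exp_le_exp.2 (mul_le_mul_of_nonneg_left
      ((le_abs_self _).trans (hC (l + 1) v)) hx.le)) (hg0 v)
  | succ d ih =>
    intro l hl ω
    have hx := hxp (l + 1) (by omega) (by omega)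
    have hm : S.x (l + 1) ≤ S.x (l + 2) := hxm (l + 1) (by omega) (by omega)
    have hlv : l + (d + 1 + 1) = l + 1 + (d + 1) := by omega
    show (S.add V).A l ((S.add V).down (d + 1) (l + 1) g) ω ≤
      _ * S.A l (S.down (d + 1) (l + 1) g) ω
    set c := (2 * S.x (l + 1 + (d + 1)) - S.x (l + 1)) * C with hc
    rw [Sys.A_add_pot hr hV (by omega) hx, hlv, ← hc, sub_eq_neg_add c, Real.exp_add, mul_assoc,
      ← Sys.A_const_mul' (S.down (d + 1) (l + 1) g)]
    refine mul_le_mul_of_nonneg_left (Sys.A_mono' hr ((hw l).mul (Sys.down_bdd hr' hg _ _))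
      ((Sys.down_bdd hr hg _ _).const_mul _) (fun v => ?_) l ω) (Real.exp_pos _).le
    refine (mul_le_mul_of_nonneg_left (ih (l + 1) (by omega) v) (Real.exp_pos _).le).trans ?_
    rw [← mul_assoc, ← Real.exp_add]
    refine mul_le_mul_of_nonneg_right (Real.exp_le_exp.2 ?_) ?_
    · have h1 := (abs_le.1 (hC (l + 1) v)).1
      have h2 := mul_le_mul_of_nonneg_left h1 (sub_nonneg.2 hm)
      rw [hc]
      linarith
    · have := Sys.down_mono hr (bdd_const 0) hg hg0 (d + 1) (l + 1) v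
      rwa [Sys.down_const hr] at this

theorem Sys.cond_add_le (hS : S.Good) {V f : (ℕ → Ω) → ℝ} (hV : Bdd V) (hf : Bdd f) {C B : ℝ}
    (h : ∀ ω, |V ω| ≤ C) (hB : ∀ ω, |f ω| ≤ B) {l m : ℕ} (h1 : l ≤ m) (h2 : m ≤ S.R) (ω : ℕ → Ω) :
    |(S.add V).cond l m f ω - S.cond l m f ω| ≤ B * (Real.exp (2 * C) - 1) := by
  have hC : 0 ≤ C := (abs_nonneg _).trans (h ω)
  have hB0 : 0 ≤ B := (abs_nonneg _).trans (hB ω)
  have he : 0 ≤ Real.exp (2 * C) - 1 := by
    linarith [Real.one_le_exp (mul_nonneg zero_le_two hC)]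
  rcases eq_or_lt_of_le h1 with rfl | hlt
  · simp only [Sys.cond, Nat.sub_self, Sys.down, sub_self, abs_zero]
    exact mul_nonneg hB0 he
  obtain ⟨d, rfl⟩ : ∃ d, m = l + (d + 1) := ⟨m - l - 1, by omega⟩
  have hr := hS.reg
  have hr' := hr.add hV
  have hx1 : S.x (l + (d + 1)) ≤ 1 :=
    (Sys.x_mono_le hS (by omega) h2 le_rfl).trans hS.x_last.le
  have hxl : 0 < S.x (l + 1) := hS.x_pos _ (by omega) (by omega)
  -- one direction, for a nonnegative observable
  have key : ∀ g : (ℕ → Ω) → ℝ, Bdd g → (∀ v, 0 ≤ g v) →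
      (S.add V).cond l (l + (d + 1)) g ω ≤ Real.exp (2 * C) * S.cond l (l + (d + 1)) g ω ∧
      S.cond l (l + (d + 1)) g ω ≤ Real.exp (2 * C) * (S.add V).cond l (l + (d + 1)) g ω := by
    intro g hg hg0
    simp only [Sys.cond, Nat.add_sub_cancel_left]
    have n1 := Sys.down_mono hr (bdd_const 0) hg hg0 (d + 1) l ω
    have n2 := Sys.down_mono hr' (bdd_const 0) hg hg0 (d + 1) l ω
    rw [Sys.down_const hr] at n1
    rw [Sys.down_const hr'] at n2
    have hb := abs_le.1 (Sys.uUp_add_le hr hV h (S.R - l) ω)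
    have b1 := mul_le_mul_of_nonneg_left hb.1 hxl.le
    have b2 := mul_le_mul_of_nonneg_left hb.2 hxl.le
    have b3 := mul_le_mul_of_nonneg_right hx1 hC
    constructor
    · refine (Sys.down_le_exp hr hS.x_pos hS.x_mono hV h hg hg0 d l h2 ω).trans
        (mul_le_mul_of_nonneg_right (Real.exp_le_exp.2 ?_) n1)
      simp only [Sys.u]
      change (_ - _) * C - S.x (l + 1) * ((S.add V).uUp (S.R - l) ω - S.uUp (S.R - l) ω) ≤ _
      linarith
    · have hback : (S.add V).add (fun v => -V v) = S := by simp [Sys.add]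
      have := Sys.down_le_exp hr' hS.x_pos hS.x_mono hV.neg
        (fun v => (abs_neg (V v)).trans_le (h v)) hg hg0 d l h2 ω
      rw [hback] at this
      refine this.trans (mul_le_mul_of_nonneg_right (Real.exp_le_exp.2 ?_) n2)
      simp only [Sys.u]
      change (2 * S.x (l + (d + 1)) - S.x (l + 1)) * C -
        S.x (l + 1) * (S.uUp (S.R - l) ω - (S.add V).uUp (S.R - l) ω) ≤ _
      linarith
  obtain ⟨p1, q1⟩ := key (fun v => B + f v) ((bdd_const B).add hf)
    fun v => by linarith [(abs_le.1 (hB v)).1]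
  obtain ⟨p2, q2⟩ := key (fun v => B - f v) ((bdd_const B).sub hf)
    fun v => by linarith [(abs_le.1 (hB v)).2]
  simp only [Sys.cond_add hr (bdd_const B) hf, Sys.cond_add hr' (bdd_const B) hf,
    Sys.cond_sub hr (bdd_const B) hf, Sys.cond_sub hr' (bdd_const B) hf, Sys.cond_const hr,
    Sys.cond_const hr'] at p1 q1 p2 q2
  have he' := Real.exp_pos (2 * C)
  rw [abs_le]
  constructor <;> nlinarith

theorem Sys.incr_step (hS : S.Good) {z : (ℕ → Ω) → ℝ} (hz : Bdd z) {ρ : ℝ} (hρ : ρ < 1)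
    (h : ∀ ω, |z ω| ≤ ρ) {l : ℕ} (hl : l < S.R) (ω : ℕ → Ω) :
    S.incr z l ω = (S.x (l + 1))⁻¹ *
      Real.log (S.A l (fun v => Real.exp (S.x (l + 1) * S.incr z (l + 1) v)) ω) := by
  have hr := hS.reg
  have hV := bdd_log_one_add hz hρ h
  have hx := hS.x_pos (l + 1) (by omega) (by omega)
  have hA := Sys.A_add_pot hr hV hl hx (fun _ => 1) ω
  rw [Sys.A_const' (hr.add hV)] at hA
  simp only [mul_one, Real.exp_neg] at hA
  have hA' : S.A l (fun v => Real.exp (S.x (l + 1) * S.incr z (l + 1) v)) ω =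
      Real.exp (S.x (l + 1) * S.incr z l ω) := by
    have h0 := Real.exp_ne_zero (S.x (l + 1) * S.incr z l ω)
    unfold Sys.incr at h0 ⊢
    field_simp at hA
    exact hA.symm
  rw [hA', Real.log_exp, ← mul_assoc, inv_mul_cancel₀ hx.ne', one_mul]

lemma Sys.incr_bdd (hS : S.Good) {z : (ℕ → Ω) → ℝ} (hz : Bdd z) {ρ : ℝ} (hρ : ρ < 1)
    (h : ∀ ω, |z ω| ≤ ρ) (l : ℕ) : Bdd (S.incr z l) :=
  (Sys.u_bdd' (hS.reg.add (bdd_log_one_add hz hρ h)) l).sub (Sys.u_bdd' hS.reg l)

lemma Sys.exp_incr_step (hS : S.Good) {z : (ℕ → Ω) → ℝ} (hz : Bdd z) {ρ : ℝ} (hρ : ρ < 1)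
    (h : ∀ ω, |z ω| ≤ ρ) {l : ℕ} (hl : l < S.R) (ω : ℕ → Ω) :
    Real.exp (S.x (l + 1) * S.incr z l ω) =
      S.A l (fun v => Real.exp (S.x (l + 1) * S.incr z (l + 1) v)) ω := by
  have hr := hS.reg
  have hb := ((Sys.incr_bdd hS hz hρ h (l + 1)).const_mul (S.x (l + 1)))
  obtain ⟨C, hC⟩ := hb.2
  have hpos : 0 < S.A l (fun v => Real.exp (S.x (l + 1) * S.incr z (l + 1) v)) ω :=
    lt_of_lt_of_le (Real.exp_pos (-C)) ((Sys.A_const' hr l _ ω).symm.trans_le
      (Sys.A_mono' hr (bdd_const _) hb.exp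
        (fun v => Real.exp_le_exp.2 (abs_le.1 (hC v)).1) l ω))
  rw [Sys.incr_step hS hz hρ h hl, ← mul_assoc,
    mul_inv_cancel₀ (hS.x_pos (l + 1) (by omega) (by omega)).ne', one_mul, Real.exp_log hpos]

/-- Replacing the first `l` steps by an average costs `x l` times the squared size, for any family
that obeys the recursion. -/
lemma Sys.top_levels (hS : S.Good) {D : ℕ → (ℕ → Ω) → ℝ} (hD : ∀ k, Bdd (D k)) {l : ℕ}
    (h1 : 1 ≤ l) (hl : l ≤ S.R) (hrec : ∀ k, k < l → ∀ v, Real.exp (S.x (k + 1) * D k v) =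
      S.A k (fun w => Real.exp (S.x (k + 1) * D (k + 1) w)) v) {L : ℝ} (hL : ∀ ω, |D l ω| ≤ L)
    (ω : ℕ → Ω) :
    S.cond 0 l (D l) ω ≤ D 0 ω ∧ D 0 ω ≤ S.cond 0 l (D l) ω + 2 * S.x l * L ^ 2 := by
  have hr := hS.reg
  set y := S.x l with hy
  have hy0 : 0 < y := hS.x_pos l h1 hl
  set F := fun v => Real.exp (y * D l v) with hF
  have hFb : Bdd F := ((hD l).const_mul y).exp
  have main : ∀ d, d ≤ l → ∀ v, S.down d (l - d) (D l) v ≤ D (l - d) v ∧
      Real.exp (y * D (l - d) v) ≤ S.down d (l - d) F v := by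
    intro d
    induction d with
    | zero => intro _ v; exact ⟨le_rfl, le_rfl⟩
    | succ d ih =>
      intro hd v
      have ih' := ih (by omega)
      obtain ⟨k, hk⟩ : ∃ k, k = l - (d + 1) := ⟨_, rfl⟩
      rw [show l - d = k + 1 by omega] at ih'
      rw [← hk]
      have hstep : k < S.R := by omega
      set a := S.x (k + 1) with ha
      have ha0 : 0 < a := hS.x_pos (k + 1) (by omega) (by omega)
      have hay : a ≤ y := Sys.x_mono_le hS (by omega) (by omega) hl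
      have hexp := hrec k (by omega) v
      rw [← ha] at hexp
      constructor
      · show S.A k (S.down d (k + 1) (D l)) v ≤ D k v
        refine (Sys.A_mono' hr (Sys.down_bdd hr (hD l) _ _) (hD (k + 1)) (fun w => (ih' w).1) k
          v).trans ?_
        -- Jensen: `exp` lies above its tangent at the average
        set m := S.A k (D (k + 1)) v with hm
        have hj := Sys.A_mono' hr (((hD (k + 1)).const_mul (Real.exp (a * m) * a)).add
          (bdd_const (Real.exp (a * m) * (1 - a * m)))) ((hD (k + 1)).const_mul a).exp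
          (fun w => by
            have := Real.add_one_le_exp (a * D (k + 1) w - a * m)
            rw [Real.exp_sub, le_div_iff₀ (Real.exp_pos _)] at this
            linarith) k v
        rw [Sys.A_add' hr ((hD (k + 1)).const_mul _) (bdd_const _), Sys.A_const_mul',
          Sys.A_const' hr, ← hm, ← hexp] at hj
        have : Real.exp (a * m) ≤ Real.exp (a * D k v) := by linarith
        exact le_of_mul_le_mul_left (Real.exp_le_exp.1 this) ha0
      · show Real.exp (y * D k v) ≤ S.A k (S.down d (k + 1) F) v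
        refine le_trans ?_ (Sys.A_mono' hr ((hD (k + 1)).const_mul y).exp
          (Sys.down_bdd hr hFb _ _) (fun w => (ih' w).2) k v)
        -- Bernoulli: the exponent may be raised from `a` to `y`
        set c := D k v with hc
        have hp : 1 ≤ y / a := (one_le_div ha0).2 hay
        have hj := Sys.A_mono' hr ((((hD (k + 1)).const_mul a).exp.const_mul
            (Real.exp (y * c) * (y / a) * Real.exp (-(a * c)))).add
          (bdd_const (Real.exp (y * c) * (1 - y / a)))) ((hD (k + 1)).const_mul y).exp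
          (fun w => by
            have hb := one_add_mul_self_le_rpow_one_add
              (s := Real.exp (a * D (k + 1) w - a * c) - 1)
              (by linarith [Real.exp_pos (a * D (k + 1) w - a * c)]) hp
            rw [add_sub_cancel, ← Real.exp_mul] at hb
            have he : (a * D (k + 1) w - a * c) * (y / a) = y * D (k + 1) w - y * c := by
              field_simp
            rw [he, Real.exp_sub (y * D (k + 1) w), le_div_iff₀ (Real.exp_pos _),
              sub_eq_add_neg (a * _), Real.exp_add] at hb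
            linarith) k v
        rw [Sys.A_add' hr ((((hD (k + 1)).const_mul a).exp).const_mul _) (bdd_const _),
          Sys.A_const_mul', Sys.A_const' hr, ← hexp, mul_assoc (Real.exp (y * c) * (y / a)),
          ← Real.exp_add, neg_add_cancel, Real.exp_zero] at hj
        linarith
  obtain ⟨lo, up⟩ := main l le_rfl ω
  rw [Nat.sub_self] at lo up
  have hc : S.cond 0 l (D l) ω = S.down l 0 (D l) ω := rfl
  rw [hc]
  refine ⟨lo, ?_⟩
  have hL0 : 0 ≤ L := (abs_nonneg _).trans (hL ω)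
  set m := S.down l 0 (D l) ω with hm
  have hmL : -L ≤ m := by
    have := Sys.down_mono hr (bdd_const (-L)) (hD l) (fun v => (abs_le.1 (hL v)).1) l 0 ω
    rwa [Sys.down_const hr] at this
  suffices y * D 0 ω ≤ y * (m + 2 * y * L ^ 2) from le_of_mul_le_mul_left this hy0
  rcases le_total (y * L) 1 with hyL | hyL
  · have hq : ∀ v, F v ≤ y * D l v + (1 + (y * L) ^ 2) := fun v => by
      have ht : |y * D l v| ≤ y * L := by
        rw [abs_mul, abs_of_pos hy0]; exact mul_le_mul_of_nonneg_left (hL v) hy0.le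
      have h1 := (abs_le.1 (Real.abs_exp_sub_one_sub_id_le (ht.trans hyL))).2
      have h2 : (y * D l v) ^ 2 ≤ (y * L) ^ 2 := by
        rw [← sq_abs]; exact pow_le_pow_left₀ (abs_nonneg _) ht 2
      simp only [hF]
      linarith
    have h3 := Sys.down_mono hr hFb (((hD l).const_mul y).add (bdd_const _)) hq l 0 ω
    rw [Sys.down_add hr ((hD l).const_mul y) (bdd_const _), Sys.down_const hr,
      Sys.down_const_mul] at h3
    simp only [← hm] at h3
    have h4 := Real.add_one_le_exp (y * m + (y * L) ^ 2)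
    have h5 : y * D 0 ω ≤ y * m + (y * L) ^ 2 := by
      refine Real.exp_le_exp.1 (up.trans (h3.trans ?_)); linarith
    nlinarith [sq_nonneg (y * L)]
  · have h3 := Sys.down_mono hr hFb (bdd_const (Real.exp (y * L)))
      (fun v => Real.exp_le_exp.2 (mul_le_mul_of_nonneg_left (abs_le.1 (hL v)).2 hy0.le)) l 0 ω
    rw [Sys.down_const hr] at h3
    have h5 : y * D 0 ω ≤ y * L := Real.exp_le_exp.1 (up.trans h3)
    have h6 := mul_le_mul_of_nonneg_left hmL hy0.le
    have h7 : y * L ≤ (y * L) ^ 2 := by nlinarith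
    nlinarith

/-- Replacing the first `l` steps by an average costs `x l` times the squared size. -/
theorem Sys.incr_top_levels (hS : S.Good) {z : (ℕ → Ω) → ℝ} (hz : Bdd z) {ρ L : ℝ} (hρ : ρ < 1)
    (h : ∀ ω, |z ω| ≤ ρ) {l : ℕ} (h1 : 1 ≤ l) (hl : l ≤ S.R) (hL : ∀ ω, |S.incr z l ω| ≤ L)
    (ω : ℕ → Ω) :
    S.cond 0 l (S.incr z l) ω ≤ S.incr z 0 ω ∧
      S.incr z 0 ω ≤ S.cond 0 l (S.incr z l) ω + 2 * S.x l * L ^ 2 :=
  Sys.top_levels hS (Sys.incr_bdd hS hz hρ h) h1 hl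
    (fun k hk v => Sys.exp_incr_step hS hz hρ h (lt_of_lt_of_le hk hl) v) hL ω

/-! ### Products -/

section Prod

variable {Ω' : Type} [MeasurableSpace Ω'] {S' : Sys Ω'}

lemma fst_update (ω : ℕ → Ω × Ω') (k : ℕ) (e : Ω × Ω') :
    (fun i => (update ω k e i).1) = update (fun i => (ω i).1) k e.1 := by
  funext i; by_cases h : i = k <;> simp [h]

lemma snd_update (ω : ℕ → Ω × Ω') (k : ℕ) (e : Ω × Ω') :
    (fun i => (update ω k e i).2) = update (fun i => (ω i).2) k e.2 := by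
  funext i; by_cases h : i = k <;> simp [h]

theorem Sys.prod_good (hS : S.Good) (hS' : S'.Good) (hR : S'.R = S.R) (hx : S'.x = S.x) :
    (S.prod S').Good where
  prob := by
    have := hS.prob; have := hS'.prob
    exact inferInstanceAs (IsProbabilityMeasure (S.μ.prod S'.μ))
  x_pos := hS.x_pos
  x_mono := hS.x_mono
  x_last := hS.x_last
  R_pos := hS.R_pos
  H_bdd := (hS.H_bdd.comp (measurable_pi_lambda _ fun i => (measurable_pi_apply i).fst)).add
    (hS'.H_bdd.comp (measurable_pi_lambda _ fun i => (measurable_pi_apply i).snd))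
  H_dep ω ω' h := congrArg₂ (· + ·)
    (hS.H_dep _ _ fun i h1 h2 => congrArg Prod.fst (h i h1 h2))
    (hS'.H_dep _ _ fun i h1 h2 => congrArg Prod.snd (h i h1 (hR ▸ h2)))

lemma Sys.prod_uUp (hS : S.Good) (hS' : S'.Good) (hR : S'.R = S.R) (hx : S'.x = S.x) :
    ∀ d ω, (S.prod S').uUp d ω = S.uUp d (fun i => (ω i).1) + S'.uUp d (fun i => (ω i).2)
  | 0, ω => rfl
  | d + 1, ω => by
    have := hS.prob; have := hS'.prob
    simp only [Sys.uUp, hR, hx]
    simp only [show (S.prod S').R = S.R from rfl, show (S.prod S').x = S.x from rfl,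
      show (S.prod S').μ = S.μ.prod S'.μ from rfl, Sys.prod_uUp hS hS' hR hx d, fst_update,
      snd_update, mul_add, Real.exp_add]
    rw [integral_prod_mul (μ := S.μ) (ν := S'.μ)
      (fun e => Real.exp (S.x (S.R - d) * S.uUp d (update (fun i => (ω i).1) (S.R - d) e)))
      (fun e => Real.exp (S.x (S.R - d) * S'.uUp d (update (fun i => (ω i).2) (S.R - d) e))),
      Real.log_mul (ne_of_gt (Sys.step_exp_pos hS.reg ((Sys.uUp_bdd hS.reg d).const_mul _) _ _))
        (ne_of_gt (Sys.step_exp_pos hS'.reg ((Sys.uUp_bdd hS'.reg d).const_mul _) _ _)), mul_add]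

theorem Sys.prod_u (hS : S.Good) (hS' : S'.Good) (hR : S'.R = S.R) (hx : S'.x = S.x) (l : ℕ)
    (ω : ℕ → Ω × Ω') :
    (S.prod S').u l ω = S.u l (fun i => (ω i).1) + S'.u l (fun i => (ω i).2) := by
  simp only [Sys.u, hR]
  exact Sys.prod_uUp hS hS' hR hx _ ω

lemma Sys.prod_A (hS : S.Good) (hS' : S'.Good) (hR : S'.R = S.R) (hx : S'.x = S.x)
    (f : (ℕ → Ω) → ℝ) (g : (ℕ → Ω') → ℝ) (l : ℕ) (ω : ℕ → Ω × Ω') :
    (S.prod S').A l (fun v => f (fun i => (v i).1) * g (fun i => (v i).2)) ω =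
      S.A l f (fun i => (ω i).1) * S'.A l g (fun i => (ω i).2) := by
  have := hS.prob; have := hS'.prob
  simp only [Sys.A_eq, show (S.prod S').x = S.x from rfl, hx,
    show (S.prod S').μ = S.μ.prod S'.μ from rfl, Sys.prod_u hS hS' hR hx, fst_update, snd_update,
    mul_add, Real.exp_add, mul_mul_mul_comm]
  rw [integral_prod_mul (μ := S.μ) (ν := S'.μ)
      (fun e => Real.exp (S.x (l + 1) * S.u (l + 1) (update (fun i => (ω i).1) (l + 1) e)) *
        f (update (fun i => (ω i).1) (l + 1) e))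
      (fun e => Real.exp (S.x (l + 1) * S'.u (l + 1) (update (fun i => (ω i).2) (l + 1) e)) *
        g (update (fun i => (ω i).2) (l + 1) e)),
    integral_prod_mul (μ := S.μ) (ν := S'.μ)
      (fun e => Real.exp (S.x (l + 1) * S.u (l + 1) (update (fun i => (ω i).1) (l + 1) e)))
      (fun e => Real.exp (S.x (l + 1) * S'.u (l + 1) (update (fun i => (ω i).2) (l + 1) e))),
    mul_div_mul_comm]

theorem Sys.prod_cond (hS : S.Good) (hS' : S'.Good) (hR : S'.R = S.R) (hx : S'.x = S.x)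
    {f : (ℕ → Ω) → ℝ} {g : (ℕ → Ω') → ℝ} (hf : Bdd f) (hg : Bdd g) {l m : ℕ} (hl : l ≤ m)
    (hm : m ≤ S.R) (ω : ℕ → Ω × Ω') :
    (S.prod S').cond l m (fun v => f (fun i => (v i).1) * g (fun i => (v i).2)) ω =
      S.cond l m f (fun i => (ω i).1) * S'.cond l m g (fun i => (ω i).2) := by
  have key : ∀ d k, (S.prod S').down d k (fun v => f (fun i => (v i).1) * g (fun i => (v i).2)) =
      fun v => S.down d k f (fun i => (v i).1) * S'.down d k g (fun i => (v i).2) := by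
    intro d
    induction d with
    | zero => exact fun _ => rfl
    | succ d ih =>
      intro k
      simp only [Sys.down, ih (k + 1)]
      exact funext (Sys.prod_A hS hS' hR hx _ _ k)
  exact congrFun (key (m - l) l) ω

end Prod

/-! ### Copies -/

section Copies

variable {ι : Type} [Fintype ι]

omit [Fintype ι] in
lemma copy_update (ω : ℕ → ι → Ω) (k : ℕ) (e : ι → Ω) (s : ι) :
    (fun i => update ω k e i s) = update (fun i => ω i s) k (e s) := by
  funext i; by_cases h : i = k <;> simp [h]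

theorem Sys.copies_good (hS : S.Good) (ι : Type) [Fintype ι] : (S.copies ι).Good where
  prob := by
    have := hS.prob
    exact inferInstanceAs (IsProbabilityMeasure (Measure.pi fun _ : ι => S.μ))
  x_pos := hS.x_pos
  x_mono := hS.x_mono
  x_last := hS.x_last
  R_pos := hS.R_pos
  H_bdd := Bdd.sum univ fun s => hS.H_bdd.comp
    (measurable_pi_lambda _ fun i => (measurable_pi_apply s).comp (measurable_pi_apply i))
  H_dep ω ω' h := Finset.sum_congr rfl fun s _ =>
    hS.H_dep _ _ fun i h1 h2 => congrFun (h i h1 h2) s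

lemma Sys.copies_uUp (hS : S.Good) (ι : Type) [Fintype ι] :
    ∀ d ω, (S.copies ι).uUp d ω = ∑ s, S.uUp d fun i => ω i s
  | 0, ω => rfl
  | d + 1, ω => by
    have := hS.prob
    simp only [Sys.uUp, show (S.copies ι).R = S.R from rfl, show (S.copies ι).x = S.x from rfl,
      show (S.copies ι).μ = Measure.pi (fun _ => S.μ) from rfl, Sys.copies_uUp hS ι d, copy_update,
      Finset.mul_sum, Real.exp_sum]
    rw [integral_fintype_prod_eq_prod
      (f := fun s e => Real.exp (S.x (S.R - d) * S.uUp d (update (fun i => ω i s) (S.R - d) e))),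
      Real.log_prod (fun s _ => ne_of_gt
        (Sys.step_exp_pos hS.reg ((Sys.uUp_bdd hS.reg d).const_mul _) _ _)), Finset.mul_sum]

theorem Sys.copies_u (hS : S.Good) (ι : Type) [Fintype ι] (l : ℕ) (ω : ℕ → ι → Ω) :
    (S.copies ι).u l ω = ∑ s, S.u l fun i => ω i s :=
  Sys.copies_uUp hS ι _ ω

lemma Sys.copies_A (hS : S.Good) (ι : Type) [Fintype ι] (f : ι → (ℕ → Ω) → ℝ) (l : ℕ)
    (ω : ℕ → ι → Ω) :
    (S.copies ι).A l (fun v => ∏ s, f s fun i => v i s) ω =
      ∏ s, S.A l (f s) fun i => ω i s := by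
  have := hS.prob
  simp only [Sys.A_eq, show (S.copies ι).x = S.x from rfl,
    show (S.copies ι).μ = Measure.pi (fun _ => S.μ) from rfl, Sys.copies_u hS ι, copy_update,
    Finset.mul_sum, Real.exp_sum, ← Finset.prod_mul_distrib]
  rw [integral_fintype_prod_eq_prod
      (f := fun s e => Real.exp (S.x (l + 1) * S.u (l + 1) (update (fun i => ω i s) (l + 1) e)) *
        f s (update (fun i => ω i s) (l + 1) e)),
    integral_fintype_prod_eq_prod
      (f := fun s e => Real.exp (S.x (l + 1) * S.u (l + 1) (update (fun i => ω i s) (l + 1) e))),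
    Finset.prod_div_distrib]

theorem Sys.copies_cond (hS : S.Good) (ι : Type) [Fintype ι] {f : ι → (ℕ → Ω) → ℝ}
    (hf : ∀ s, Bdd (f s)) {l m : ℕ} (hl : l ≤ m) (hm : m ≤ S.R) (ω : ℕ → ι → Ω) :
    (S.copies ι).cond l m (fun v => ∏ s, f s fun i => v i s) ω =
      ∏ s, S.cond l m (f s) fun i => ω i s := by
  have key : ∀ d k, (S.copies ι).down d k (fun v => ∏ s, f s fun i => v i s) =
      fun v => ∏ s, S.down d k (f s) fun i => v i s := by
    intro d
    induction d with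
    | zero => exact fun _ => rfl
    | succ d ih =>
      intro k
      simp only [Sys.down, ih (k + 1)]
      exact funext (Sys.copies_A hS ι _ k)
  exact congrFun (key (m - l) l) ω

lemma Sys.mom_copies_fun (hS : S.Good) (ι : Type) [Fintype ι] :
    ∀ (d l : ℕ) (T : Tree d) (g : Leaves d T → ι → (ℕ → Ω) → ℝ),
      (S.copies ι).mom d l T (fun v p => ∏ s, g v s fun i => p i s) =
        fun ω => ∏ s, S.mom d l T (fun v => g v s) fun i => ω i s
  | 0, _, _, _ => rfl
  | d + 1, l, T, g => by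
    funext ω
    simp only [Sys.mom]
    rw [Finset.prod_comm]
    refine Finset.prod_congr rfl fun c _ => ?_
    rw [Sys.mom_copies_fun hS ι d (l + 1) (T.2 c) fun v => g ⟨c, v⟩]
    exact Sys.copies_A hS ι _ l ω

theorem Sys.mom_copies (hS : S.Good) (ι : Type) [Fintype ι] {d l : ℕ} (hd : l + d = S.R)
    (T : Tree d) {g : Leaves d T → ι → (ℕ → Ω) → ℝ} (hg : ∀ v s, Bdd (g v s)) (ω : ℕ → ι → Ω) :
    (S.copies ι).mom d l T (fun v p => ∏ s, g v s fun i => p i s) ω =
      ∏ s, S.mom d l T (fun v => g v s) fun i => ω i s :=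
  congrFun (Sys.mom_copies_fun hS ι d l T g) ω

end Copies

end Vale.Agent.P168
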