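import Vale.Agent.P168.LowerDefs
import Vale.Agent.P168.Nest

/-!
The matrix part of the probe lemma: signs with prescribed covariances force the matrix below the
gap, and a recursion bounds a covariance over many steps by the two ends of the recursion.
-/

namespace Vale.Agent.P168

open MeasureTheory Finset Function

variable {Ω : Type} [MeasurableSpace Ω] {S : Sys Ω}

/-- The root mean square of the entries of a matrix. -/
noncomputable def rms {N : ℕ} (J : Fin N → Fin N → ℝ) : ℝ :=
  Real.sqrt (avg fun ij : Fin N × Fin N => J ij.1 ij.2 ^ 2)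

namespace Bessel

lemma avg_nonneg {α : Type} [Fintype α] {f : α → ℝ} (h : ∀ a, 0 ≤ f a) : 0 ≤ avg f :=
  div_nonneg (sum_nonneg fun a _ => h a) (Nat.cast_nonneg _)

lemma avg_mul_le {α : Type} [Fintype α] (f g : α → ℝ) :
    avg (fun a => f a * g a) ≤
      Real.sqrt (avg fun a => f a ^ 2) * Real.sqrt (avg fun a => g a ^ 2) := by
  have h := Real.sum_mul_le_sqrt_mul_sqrt univ f g
  have n0 : (0 : ℝ) ≤ Fintype.card α := Nat.cast_nonneg _
  have f0 : 0 ≤ ∑ a, f a ^ 2 := sum_nonneg fun a _ => sq_nonneg _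
  simp only [avg]
  rw [Real.sqrt_div f0, Real.sqrt_div (sum_nonneg fun a _ => sq_nonneg _), div_mul_div_comm,
    Real.mul_self_sqrt n0]
  exact div_le_div_of_nonneg_right h n0

lemma avg_abs_le {α : Type} [Fintype α] (f : α → ℝ) :
    avg (fun a => |f a|) ≤ Real.sqrt (avg fun a => f a ^ 2) := by
  have h := avg_mul_le (fun a => |f a|) (fun _ : α => (1 : ℝ))
  simp only [mul_one, sq_abs, one_pow] at h
  refine h.trans (mul_le_of_le_one_right (Real.sqrt_nonneg _) ?_)
  rw [Real.sqrt_le_one]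
  simp only [avg, sum_const, nsmul_eq_mul, mul_one, card_univ]
  exact div_self_le_one _

lemma cov_comm (l m : ℕ) (f g : (ℕ → Ω) → ℝ) (ω : ℕ → Ω) :
    S.cov l m f g ω = S.cov l m g f ω := by
  simp only [Sys.cov, mul_comm (f _), mul_comm (S.cond l m f ω)]

lemma cov_self_nonneg (hS : S.Good) {f : (ℕ → Ω) → ℝ} (hf : Bdd f) (l m : ℕ) (ω : ℕ → Ω) :
    0 ≤ S.cov l m f f ω := by
  have h := Sys.cond_sq hS.reg hf l m ω
  simp only [Sys.cov, ← sq]
  exact sub_nonneg.2 h

lemma cov_self_le_one (hS : S.Good) {f : (ℕ → Ω) → ℝ} (hf : Bdd f) (h1 : ∀ v, |f v| ≤ 1)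
    (l m : ℕ) (ω : ℕ → Ω) : S.cov l m f f ω ≤ 1 := by
  have h : S.cond l m (fun v => f v * f v) ω ≤ 1 := by
    have h' := Sys.cond_mono hS.reg (hf.mul hf) (bdd_const 1) (fun v => by
      rw [← abs_mul_abs_self]
      exact mul_le_one₀ (h1 v) (abs_nonneg _) (h1 v)) l m ω
    rwa [Sys.cond_const hS.reg] at h'
  simp only [Sys.cov]
  linarith [mul_self_nonneg (S.cond l m f ω)]

/-- Cauchy-Schwarz for the covariance of a combination with one function. -/
lemma cov_comb_le (hS : S.Good) {ι : Type} [Fintype ι] {e : ι → (ℕ → Ω) → ℝ}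
    {β : (ℕ → Ω) → ℝ} (he : ∀ i, Bdd (e i)) (hβ : Bdd β) (a : ι → ℝ) (l m : ℕ) (ω : ℕ → Ω) :
    ∑ j, a j * S.cov l m (e j) β ω ≤
      Real.sqrt (∑ j, ∑ k, a j * a k * S.cov l m (e j) (e k) ω) *
        Real.sqrt (S.cov l m β β ω) := by
  classical
  set V := ∑ j, ∑ k, a j * a k * S.cov l m (e j) (e k) ω with hV
  set C := ∑ j, a j * S.cov l m (e j) β ω with hC
  set B := S.cov l m β β ω with hB
  have hV0 : 0 ≤ V := Sys.cov_psd hS univ he a l m ω
  have quad : ∀ t : ℝ, 0 ≤ B * (t * t) + 2 * C * t + V := fun t => by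
    have h := Sys.cov_psd hS (univ : Finset (Option ι)) (f := fun o => o.elim β e)
      (fun o => by cases o <;> simp [hβ, he]) (fun o => o.elim t a) l m ω
    simp only [Fintype.sum_option, Option.elim] at h
    refine h.trans (le_of_eq ?_)
    simp only [sum_add_distrib, cov_comm l m β (e _) ω, ← hB, ← hV]
    have e1 : ∑ x, t * a x * S.cov l m (e x) β ω = t * C := by
      rw [hC, mul_sum]; exact sum_congr rfl fun x _ => by ring
    have e2 : ∑ x, a x * t * S.cov l m (e x) β ω = t * C := by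
      rw [hC, mul_sum]; exact sum_congr rfl fun x _ => by ring
    rw [e1, e2]
    ring
  have d := discrim_le_zero quad
  rw [discrim] at d
  rw [← Real.sqrt_mul hV0]
  exact (le_abs_self C).trans (Real.abs_le_sqrt (by nlinarith))

end Bessel

open Bessel

/-- One step: signs `e` whose covariances are `J` force `J` below the gap. -/
theorem rms_le_gap (hS : S.Good) {N : ℕ} (hN : 0 < N) (m : ℕ) (ω : ℕ → Ω)
    {e β : Fin N → (ℕ → Ω) → ℝ} (he : ∀ j, Bdd (e j)) (he1 : ∀ j v, |e j v| ≤ 1)
    (hβ : ∀ i, Bdd (β i)) (J : Fin N → Fin N → ℝ) {r x κ : ℝ} (hr : 0 < r) (hx : 0 ≤ x)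
    (hx1 : x ≤ 1) (hκ : 0 ≤ κ)
    (h1 : ∀ i j, |S.cov m (m + 1) (e j) (β i) ω - r * J i j| ≤ r * κ)
    (h2 : ∀ j k, j ≠ k → |S.cov m (m + 1) (e j) (e k) ω - r ^ 2 * x * J j k| ≤ r ^ 2 * κ) :
    rms J ≤ 2 * κ + avg (fun i => S.cov m (m + 1) (β i) (β i) ω) +
      2 * Real.sqrt ((avg fun i => S.cov m (m + 1) (β i) (β i) ω) * (1 / (r ^ 2 * N) + κ)) := by
  set Bi := fun i => S.cov m (m + 1) (β i) (β i) ω with hBi
  set Q := ∑ i, ∑ j, J i j ^ 2 with hQ
  set s := Real.sqrt Q with hs
  have hN' : (0 : ℝ) < N := Nat.cast_pos.2 hN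
  have hQ0 : 0 ≤ Q := sum_nonneg fun i _ => sum_nonneg fun j _ => sq_nonneg _
  have hs0 : 0 ≤ s := Real.sqrt_nonneg _
  have hs2 : s ^ 2 = Q := Real.sq_sqrt hQ0
  have hB0 : ∀ i, 0 ≤ Bi i := fun i => cov_self_nonneg hS (hβ i) _ _ ω
  set B := avg Bi with hB
  have hBN : ∑ i, Bi i = N * B := by
    rw [hB, avg, Fintype.card_fin, mul_div_cancel₀ _ hN'.ne']
  have hBnn : 0 ≤ B := avg_nonneg hB0
  have hrms : rms J = s / N := by
    simp only [rms, avg, Fintype.sum_prod_type, ← hQ, Fintype.card_prod, Fintype.card_fin]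
    push_cast
    rw [Real.sqrt_div hQ0, Real.sqrt_mul_self hN'.le]
  set V := fun i => ∑ j, ∑ k, J i j * J i k * S.cov m (m + 1) (e j) (e k) ω with hV
  -- the lower bound of the mixed covariances
  have low : r * Q - r * κ * (N * s) ≤ ∑ i, ∑ j, J i j * S.cov m (m + 1) (e j) (β i) ω := by
    have habs : ∑ i, ∑ j, |J i j| ≤ N * s := by
      have h := Real.sum_mul_le_sqrt_mul_sqrt univ (fun ij : Fin N × Fin N => |J ij.1 ij.2|)
        (fun _ => 1)
      simp only [mul_one, sq_abs, one_pow, Fintype.sum_prod_type, sum_const, card_univ,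
        Fintype.card_prod, Fintype.card_fin, nsmul_eq_mul, Nat.cast_mul] at h
      rw [Real.sqrt_mul_self hN'.le, ← hQ, ← hs] at h
      linarith
    have : ∑ i, ∑ j, (r * J i j ^ 2 - r * κ * |J i j|)
        ≤ ∑ i, ∑ j, J i j * S.cov m (m + 1) (e j) (β i) ω :=
      sum_le_sum fun i _ => sum_le_sum fun j _ => by
        have h := abs_mul (J i j) (S.cov m (m + 1) (e j) (β i) ω - r * J i j)
        have h' := mul_le_mul_of_nonneg_left (h1 i j) (abs_nonneg (J i j))
        have := neg_abs_le (J i j * (S.cov m (m + 1) (e j) (β i) ω - r * J i j))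
        nlinarith
    refine le_trans ?_ this
    simp only [sum_sub_distrib, ← mul_sum, ← hQ]
    linarith [mul_le_mul_of_nonneg_left habs (mul_nonneg hr.le hκ)]
  -- the variances of the combinations
  have high : ∑ i, V i ≤ Q + r ^ 2 * s ^ 3 + r ^ 2 * κ * (N * Q) := by
    have step : ∀ i j k, J i j * J i k * S.cov m (m + 1) (e j) (e k) ω ≤
        (if j = k then J i j ^ 2 else 0) + r ^ 2 * (|J i j| * |J i k| * |J j k|)
          + r ^ 2 * κ * (|J i j| * |J i k|) := fun i j k => by
      have n1 : 0 ≤ r ^ 2 * (|J i j| * |J i k| * |J j k|) := by positivity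
      have n2 : 0 ≤ r ^ 2 * κ * (|J i j| * |J i k|) := by positivity
      rcases eq_or_ne j k with rfl | hjk
      · rw [if_pos rfl]
        have h := mul_le_mul_of_nonneg_left (cov_self_le_one hS (he j) (he1 j) m (m + 1) ω)
          (mul_self_nonneg (J i j))
        nlinarith
      · rw [if_neg hjk, zero_add]
        refine (le_abs_self _).trans ?_
        rw [abs_mul, abs_mul]
        have hb : |S.cov m (m + 1) (e j) (e k) ω| ≤ r ^ 2 * |J j k| + r ^ 2 * κ := by
          have h := h2 j k hjk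
          have hx' : |r ^ 2 * x * J j k| ≤ r ^ 2 * |J j k| := by
            rw [abs_mul, abs_mul, abs_of_nonneg hx, abs_of_nonneg (sq_nonneg r)]
            exact mul_le_mul_of_nonneg_right (mul_le_of_le_one_right (sq_nonneg r) hx1)
              (abs_nonneg _)
          linarith [abs_sub_abs_le_abs_sub (S.cov m (m + 1) (e j) (e k) ω) (r ^ 2 * x * J j k)]
        exact (mul_le_mul_of_nonneg_left hb (by positivity)).trans (le_of_eq (by ring))
    have row : ∀ i, (∑ j, |J i j|) ^ 2 ≤ N * ∑ j, J i j ^ 2 := fun i => by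
      simpa only [sq_abs, card_univ, Fintype.card_fin] using
        sq_sum_le_card_mul_sum_sq (s := univ) (f := fun j => |J i j|)
    have cube : ∑ i, ∑ j, ∑ k, |J i j| * |J i k| * |J j k| ≤ s ^ 3 := by
      set P := fun jk : Fin N × Fin N => ∑ i, |J i jk.1| * |J i jk.2| with hP
      have h := Real.sum_mul_le_sqrt_mul_sqrt univ P (fun jk : Fin N × Fin N => |J jk.1 jk.2|)
      have eL : ∑ jk, P jk * |J jk.1 jk.2| = ∑ i, ∑ j, ∑ k, |J i j| * |J i k| * |J j k| := by
        simp only [hP, sum_mul]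
        rw [sum_comm]
        exact sum_congr rfl fun i _ => Fintype.sum_prod_type _
      have eR : ∑ jk : Fin N × Fin N, |J jk.1 jk.2| ^ 2 = Q := by
        simp only [sq_abs, Fintype.sum_prod_type, hQ]
      have hPQ : ∑ jk, P jk ^ 2 ≤ Q * Q := by
        calc ∑ jk, P jk ^ 2
            ≤ ∑ jk : Fin N × Fin N, (∑ i, J i jk.1 ^ 2) * ∑ i, J i jk.2 ^ 2 :=
              sum_le_sum fun jk _ => by
                simpa only [sq_abs] using
                  sum_mul_sq_le_sq_mul_sq univ (fun i => |J i jk.1|) (fun i => |J i jk.2|)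
          _ = Q * Q := by
                simp only [Fintype.sum_prod_type]
                rw [← sum_mul_sum, sum_comm, ← hQ]
      rw [eL, eR, ← hs] at h
      refine h.trans ?_
      have : Real.sqrt (∑ jk, P jk ^ 2) ≤ Q := (Real.sqrt_le_iff.2 ⟨hQ0, by rwa [sq]⟩)
      calc Real.sqrt (∑ jk, P jk ^ 2) * s ≤ Q * s := mul_le_mul_of_nonneg_right this hs0
        _ = s ^ 3 := by rw [← hs2]; ring
    calc ∑ i, V i ≤ ∑ i, ∑ j, ∑ k, ((if j = k then J i j ^ 2 else 0)
          + r ^ 2 * (|J i j| * |J i k| * |J j k|) + r ^ 2 * κ * (|J i j| * |J i k|)) :=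
          sum_le_sum fun i _ => sum_le_sum fun j _ => sum_le_sum fun k _ => step i j k
      _ = Q + r ^ 2 * (∑ i, ∑ j, ∑ k, |J i j| * |J i k| * |J j k|)
            + r ^ 2 * κ * ∑ i, (∑ j, |J i j|) ^ 2 := by
          simp only [hQ, sum_add_distrib, sum_ite_eq, mem_univ, if_true, ← mul_sum, sq,
            sum_mul_sum]
      _ ≤ Q + r ^ 2 * s ^ 3 + r ^ 2 * κ * (N * Q) := by
          have h3 : ∑ i, (∑ j, |J i j|) ^ 2 ≤ N * Q := by
            rw [hQ, mul_sum]; exact sum_le_sum fun i _ => row i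
          gcongr
  have hV0 : ∀ i, 0 ≤ V i := fun i => Sys.cov_psd hS univ he (J i) m (m + 1) ω
  have mid : ∑ i, ∑ j, J i j * S.cov m (m + 1) (e j) (β i) ω ≤
      Real.sqrt (∑ i, V i) * Real.sqrt (∑ i, Bi i) :=
    (sum_le_sum fun i _ => cov_comb_le hS he (hβ i) (J i) m (m + 1) ω).trans
      (Real.sum_sqrt_mul_sqrt_le univ hV0 hB0)
  rw [hrms]
  set T := 1 / (r ^ 2 * N) + κ with hT
  have hT0 : 0 ≤ T := by positivity
  have hR0 : 0 ≤ 2 * Real.sqrt (B * T) := mul_nonneg zero_le_two (Real.sqrt_nonneg _)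
  rcases hs0.eq_or_lt with h0 | hsp
  · rw [← h0, zero_div]
    linarith
  set ρ := s / N with hρ
  have hρ0 : 0 ≤ ρ := div_nonneg hs0 hN'.le
  have hsρ : s = N * ρ := by rw [hρ, mul_div_cancel₀ _ hN'.ne']
  have key : Q + r ^ 2 * s ^ 3 + r ^ 2 * κ * (N * Q) = (r * s) ^ 2 * (N * (ρ + T)) := by
    rw [hT, ← hs2, hsρ]
    field_simp
    ring
  have up : r * Q - r * κ * (N * s) ≤ r * s * (N * Real.sqrt ((ρ + T) * B)) := by
    refine low.trans (mid.trans ?_)
    rw [hBN]
    refine (mul_le_mul_of_nonneg_right (Real.sqrt_le_sqrt (high.trans key.le))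
      (Real.sqrt_nonneg _)).trans (le_of_eq ?_)
    rw [Real.sqrt_mul (sq_nonneg _), Real.sqrt_sq (by positivity), mul_assoc,
      ← Real.sqrt_mul (by positivity), show N * (ρ + T) * (N * B) = N ^ 2 * ((ρ + T) * B) by ring,
      Real.sqrt_mul (sq_nonneg _), Real.sqrt_sq hN'.le]
  have hk : ρ - κ ≤ Real.sqrt ((ρ + T) * B) := by
    have hrs : 0 < r * s * N := by positivity
    refine le_of_mul_le_mul_left ?_ hrs
    rw [← hs2, hsρ] at up
    rw [hsρ]
    linarith
  have split : Real.sqrt ((ρ + T) * B) ≤ (ρ + B) / 2 + Real.sqrt (B * T) := by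
    refine Real.sqrt_le_iff.2 ⟨by positivity, ?_⟩
    have e := Real.sq_sqrt (mul_nonneg hBnn hT0)
    nlinarith [sq_nonneg (ρ - B), mul_nonneg (add_nonneg hρ0 hBnn) (Real.sqrt_nonneg (B * T))]
  linarith

/-- The recursion bounds the covariance over many steps by its two ends. -/
theorem rms_cov_le (hS : S.Good) {N q p : ℕ} (hqp : q < p) (hp : p ≤ S.R)
    (G : ℕ → Fin N → (ℕ → Ω) → ℝ) (hG : ∀ l i, q ≤ l → l ≤ p → Bdd (G l i))
    (hGs : ∀ l i, q ≤ l → l < p → ∀ v, G l i v = S.A l (G (l + 1) i) v)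
    (J : ℕ → Fin N → Fin N → (ℕ → Ω) → ℝ) (hJ : ∀ l i j, q ≤ l → l ≤ p → Bdd (J l i j)) {κ : ℝ}
    (hκ : 0 ≤ κ)
    (hrec : ∀ l i j, q ≤ l → l < p → ∀ v, |J l i j v - S.A l (J (l + 1) i j) v -
      S.x (l + 1) * S.cov l (l + 1) (G (l + 1) i) (G (l + 1) j) v| ≤ κ)
    (ω : ℕ → Ω) :
    S.x (q + 1) * rms (fun i j => S.cov q p (G p i) (G p j) ω) ≤
      rms (fun i j => J q i j ω) + S.cond q p (fun v => rms fun i j => J p i j v) ω +
        (p - q : ℕ) * κ := by
  have hr := hS.reg
  have hA : ∀ l f, S.cond l (l + 1) f = S.A l f := fun l f => by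
    simp only [Sys.cond, Nat.add_sub_cancel_left, Sys.down]
  have hid : ∀ f, S.cond q q f = f := fun f => by simp only [Sys.cond, Nat.sub_self, Sys.down]
  set c := fun l i j v => S.cov l (l + 1) (G (l + 1) i) (G (l + 1) j) v with hc
  set K := fun l i j => S.cond q l (c l i j) ω with hK
  set M := fun i j => S.cov q p (G p i) (G p j) ω with hM
  have cbdd : ∀ l i j, q ≤ l → l < p → Bdd (c l i j) := fun l i j h1 h2 => by
    have gi := hG (l + 1) i (by omega) (by omega)
    have gj := hG (l + 1) j (by omega) (by omega)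
    exact (Sys.cond_bdd hr (gi.mul gj) _ _).sub
      ((Sys.cond_bdd hr gi _ _).mul (Sys.cond_bdd hr gj _ _))
  have tele : ∀ i j n, q + n ≤ p →
      S.cov q (q + n) (G (q + n) i) (G (q + n) j) ω = ∑ t ∈ range n, K (q + t) i j := by
    intro i j n
    induction n with
    | zero => intro _; simp [Sys.cov, hid]
    | succ n ih =>
      intro h
      rw [sum_range_succ, ← ih (by omega), ← add_assoc]
      have h1 := Sys.cov_total hS (hG (q + n + 1) i (by omega) (by omega))
        (hG (q + n + 1) j (by omega) (by omega)) (l := q) (m := q + n) (n := q + n + 1)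
        (by omega) (by omega) ω
      have g : ∀ i, S.cond (q + n) (q + n + 1) (G (q + n + 1) i) = G (q + n) i := fun i => by
        rw [hA]; exact funext fun v => (hGs (q + n) i (by omega) (by omega) v).symm
      rw [h1, g i, g j]
  set w := fun t i j => S.cond q (q + t) (J (q + t) i j) ω with hw
  have step : ∀ t i j, t < p - q →
      |w t i j - w (t + 1) i j - S.x (q + t + 1) * K (q + t) i j| ≤ κ := by
    intro t i j ht
    have hj := hJ (q + t) i j (by omega) (by omega)
    have hj' := hJ (q + t + 1) i j (by omega) (by omega)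
    have hcb := cbdd (q + t) i j (by omega) (by omega)
    set D := fun v => J (q + t) i j v - S.A (q + t) (J (q + t + 1) i j) v -
      S.x (q + t + 1) * c (q + t) i j v with hD
    have hDb : Bdd D := (hj.sub (Sys.A_bdd hS hj' _)).sub (hcb.const_mul _)
    have e : S.cond q (q + t) D ω =
        w t i j - w (t + 1) i j - S.x (q + t + 1) * K (q + t) i j := by
      simp only [hD, hw, hK]
      rw [Sys.cond_sub hr (hj.sub (Sys.A_bdd hS hj' _)) (hcb.const_mul _),
        Sys.cond_sub hr hj (Sys.A_bdd hS hj' _), Sys.cond_const_mul,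
        ← add_assoc, Sys.cond_tower hS _ (show q ≤ q + t by omega) (Nat.le_succ (q + t)),
        Nat.succ_eq_add_one, hA]
    have hb : ∀ v, |D v| ≤ κ := fun v => hrec (q + t) i j (by omega) (by omega) v
    rw [← e, abs_le]
    constructor
    · have h := Sys.cond_mono hr (bdd_const (-κ)) hDb (fun v => (abs_le.1 (hb v)).1) q (q + t) ω
      rwa [Sys.cond_const hr] at h
    · have h := Sys.cond_mono hr hDb (bdd_const κ) (fun v => (abs_le.1 (hb v)).2) q (q + t) ω
      rwa [Sys.cond_const hr] at h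
  have hMeq : ∀ i j, M i j = ∑ t ∈ range (p - q), K (q + t) i j := fun i j => by
    simpa only [Nat.add_sub_cancel' hqp.le] using tele i j (p - q) (by omega)
  -- positivity of the pairing of two covariances
  have pos : ∀ t, t < p - q → 0 ≤ ∑ i, ∑ j, M i j * K (q + t) i j := by
    intro t ht
    have cb : ∀ i j, Bdd (c (q + t) i j) := fun i j => cbdd _ i j (by omega) (by omega)
    have gb : ∀ i, Bdd (G p i) := fun i => hG p i (by omega) le_rfl
    have hv : ∀ v, 0 ≤ ∑ i, ∑ j, M i j * c (q + t) i j v := by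
      intro v
      set μ := fun i => S.cond q p (G p i) ω with hμ
      have db : ∀ i, Bdd fun u => G p i u - μ i := fun i => (gb i).sub (bdd_const _)
      have em : ∀ i j, S.cond q p (fun u => c (q + t) i j v * ((G p i u - μ i) * (G p j u - μ j))) ω
          = M i j * c (q + t) i j v := by
        intro i j
        have e' : (fun u => (G p i u - μ i) * (G p j u - μ j)) = fun u =>
            (G p i u * G p j u - μ j * G p i u) - (μ i * G p j u - μ i * μ j) := by
          funext u; ring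
        rw [Sys.cond_const_mul, e', Sys.cond_sub hr (((gb i).mul (gb j)).sub ((gb i).const_mul _))
          (((gb j).const_mul _).sub (bdd_const _)),
          Sys.cond_sub hr ((gb i).mul (gb j)) ((gb i).const_mul _),
          Sys.cond_sub hr ((gb j).const_mul _) (bdd_const _), Sys.cond_const_mul,
          Sys.cond_const_mul, Sys.cond_const hr]
        simp only [hM, hμ, Sys.cov]
        ring
      have fb : Bdd fun u => ∑ i, ∑ j, c (q + t) i j v * ((G p i u - μ i) * (G p j u - μ j)) :=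
        Bdd.sum univ fun i => Bdd.sum univ fun j => ((db i).mul (db j)).const_mul _
      have h := Sys.cond_mono hr (bdd_const 0) fb (fun u => by
        refine (Sys.cov_psd hS univ (fun i => hG (q + t + 1) i (by omega) (by omega))
          (fun i => G p i u - μ i) (q + t) (q + t + 1) v).trans (le_of_eq ?_)
        exact sum_congr rfl fun i _ => sum_congr rfl fun j _ => by simp only [hc]; ring) q p ω
      rw [Sys.cond_const hr, Sys.cond_sum hr univ
        (fun i => Bdd.sum univ fun j => ((db i).mul (db j)).const_mul _)] at h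
      simpa only [Sys.cond_sum hr univ (fun j => ((db _).mul (db j)).const_mul _), em] using h
    have h := Sys.cond_mono hr (bdd_const 0)
      (Bdd.sum univ fun i => Bdd.sum univ fun j => (cb i j).const_mul (M i j)) hv q (q + t) ω
    rw [Sys.cond_const hr,
      Sys.cond_sum hr univ (fun i => Bdd.sum univ fun j => (cb i j).const_mul (M i j))] at h
    simpa only [Sys.cond_sum hr univ (fun j => (cb _ j).const_mul (M _ j)), Sys.cond_const_mul]
      using h
  set Mf := fun ij : Fin N × Fin N => M ij.1 ij.2 with hMf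
  have hpos : ∀ t, t < p - q → 0 ≤ avg fun ij : Fin N × Fin N => Mf ij * K (q + t) ij.1 ij.2 :=
    fun t ht => div_nonneg (by simpa only [Fintype.sum_prod_type, hMf] using pos t ht)
      (Nat.cast_nonneg _)
  set ρ := rms M with hρ
  have hρ0 : 0 ≤ ρ := Real.sqrt_nonneg _
  set Xf := fun ij : Fin N × Fin N =>
    ∑ t ∈ range (p - q), S.x (q + t + 1) * K (q + t) ij.1 ij.2 with hXf
  have lower : S.x (q + 1) * ρ ^ 2 ≤ avg fun ij => Mf ij * Xf ij := by
    have e : ρ ^ 2 = ∑ t ∈ range (p - q), avg fun ij => Mf ij * K (q + t) ij.1 ij.2 := by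
      rw [hρ, rms, Real.sq_sqrt (avg_nonneg fun ij => sq_nonneg _)]
      simp only [avg, ← sum_div]
      rw [sum_comm]
      congr 1
      refine sum_congr rfl fun ij _ => ?_
      rw [← mul_sum, ← hMeq, sq]
    have e' : (avg fun ij => Mf ij * Xf ij) = ∑ t ∈ range (p - q),
        S.x (q + t + 1) * avg fun ij => Mf ij * K (q + t) ij.1 ij.2 := by
      simp only [avg, hXf, mul_sum, mul_div_assoc', ← sum_div]
      rw [sum_comm]
      congr 1
      exact sum_congr rfl fun ij _ => sum_congr rfl fun t _ => by ring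
    rw [e, e', mul_sum]
    refine sum_le_sum fun t ht => ?_
    have ht' := mem_range.1 ht
    exact mul_le_mul_of_nonneg_right
      (Sys.x_mono_le hS (by omega) (by omega) (by omega)) (hpos t ht')
  have Jpb : ∀ i j, Bdd (J p i j) := fun i j => hJ p i j (by omega) le_rfl
  have rb : Bdd fun v => rms fun i j => J p i j v := by
    obtain ⟨hm, C, hC⟩ := Bdd.sum (univ : Finset (Fin N × Fin N))
      (fun ij => ((Jpb ij.1 ij.2).pow 2).const_mul ((Fintype.card (Fin N × Fin N) : ℝ))⁻¹)
    have e : ∀ v, (avg fun ij : Fin N × Fin N => J p ij.1 ij.2 v ^ 2) =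
        ∑ ij : Fin N × Fin N,
          ((Fintype.card (Fin N × Fin N) : ℝ))⁻¹ * J p ij.1 ij.2 v ^ 2 := fun v => by
      simp only [avg, div_eq_inv_mul, mul_sum]
    refine ⟨?_, Real.sqrt C, fun v => ?_⟩
    · simp only [rms, e]
      exact hm.sqrt
    · simp only [rms, e]
      rw [abs_of_nonneg (Real.sqrt_nonneg _)]
      exact Real.sqrt_le_sqrt ((le_abs_self _).trans (hC v))
  set T := S.cond q p (fun v => rms fun i j => J p i j v) ω with hT
  have hT0 : 0 ≤ T := by
    have h := Sys.cond_mono hr (bdd_const 0) rb (fun v => Real.sqrt_nonneg _) q p ω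
    rwa [Sys.cond_const hr] at h
  have upper : (avg fun ij => Mf ij * Xf ij) ≤
      ρ * (rms (fun i j => J q i j ω) + T + (p - q : ℕ) * κ) := by
    have endp : ∀ i j, w 0 i j = J q i j ω ∧ w (p - q) i j = S.cond q p (J p i j) ω := fun i j => by
      simp only [hw, add_zero, hid, Nat.add_sub_cancel' hqp.le, and_self]
    have hE : ∀ ij : Fin N × Fin N,
        |w 0 ij.1 ij.2 - w (p - q) ij.1 ij.2 - Xf ij| ≤ (p - q : ℕ) * κ := by
      intro ij
      rw [← sum_range_sub' (fun t => w t ij.1 ij.2), hXf, ← sum_sub_distrib]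
      refine (abs_sum_le_sum_abs _ _).trans ?_
      refine (sum_le_sum fun t ht => step t _ _ (mem_range.1 ht)).trans ?_
      simp
    have split : (avg fun ij => Mf ij * Xf ij) ≤ (avg fun ij => Mf ij * J q ij.1 ij.2 ω)
        + (avg fun ij => -Mf ij * S.cond q p (J p ij.1 ij.2) ω)
        + (p - q : ℕ) * κ * avg fun ij => |Mf ij| := by
      simp only [avg, mul_div_assoc', ← add_div, mul_sum, ← sum_add_distrib]
      refine div_le_div_of_nonneg_right (sum_le_sum fun ij _ => ?_) (Nat.cast_nonneg _)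
      have h := hE ij
      rw [(endp ij.1 ij.2).1, (endp ij.1 ij.2).2] at h
      have h' := mul_le_mul_of_nonneg_left h (abs_nonneg (Mf ij))
      rw [← abs_mul] at h'
      nlinarith [neg_abs_le (Mf ij * (J q ij.1 ij.2 ω - S.cond q p (J p ij.1 ij.2) ω - Xf ij))]
    have u1 : (avg fun ij => Mf ij * J q ij.1 ij.2 ω) ≤ ρ * rms (fun i j => J q i j ω) :=
      avg_mul_le Mf _
    have u2 : (avg fun ij => -Mf ij * S.cond q p (J p ij.1 ij.2) ω) ≤ ρ * T := by
      set cN := ((Fintype.card (Fin N × Fin N) : ℝ))⁻¹ with hcN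
      have ab : ∀ ij : Fin N × Fin N, Bdd fun v => cN * -Mf ij * J p ij.1 ij.2 v :=
        fun ij => (Jpb _ _).const_mul _
      have e : (avg fun ij => -Mf ij * S.cond q p (J p ij.1 ij.2) ω) =
          S.cond q p (fun v => ∑ ij, cN * -Mf ij * J p ij.1 ij.2 v) ω := by
        rw [Sys.cond_sum hr univ ab]
        simp only [avg, Sys.cond_const_mul, div_eq_inv_mul, mul_sum, hcN, mul_assoc]
      rw [e, hT]
      have e2 : ρ * S.cond q p (fun v => rms fun i j => J p i j v) ω =
          S.cond q p (fun v => ρ * rms fun i j => J p i j v) ω := by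
        rw [Sys.cond_const_mul]
      rw [e2]
      refine Sys.cond_mono hr (Bdd.sum univ ab) (rb.const_mul ρ) (fun v => ?_) q p ω
      have h := avg_mul_le (fun ij => -Mf ij) (fun ij => J p ij.1 ij.2 v)
      simp only [avg, div_eq_inv_mul, mul_sum, neg_sq] at h
      simp only [hρ, rms, avg, div_eq_inv_mul, mul_sum, hcN, mul_assoc]
      exact h
    have u3 : (p - q : ℕ) * κ * (avg fun ij => |Mf ij|) ≤ (p - q : ℕ) * κ * ρ :=
      mul_le_mul_of_nonneg_left (avg_abs_le Mf) (mul_nonneg (Nat.cast_nonneg _) hκ)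
    linarith
  rcases hρ0.eq_or_lt with h0 | h0
  · rw [← h0, mul_zero]
    have : 0 ≤ rms (fun i j => J q i j ω) := Real.sqrt_nonneg _
    have : 0 ≤ ((p - q : ℕ) : ℝ) * κ := mul_nonneg (Nat.cast_nonneg _) hκ
    linarith
  · refine le_of_mul_le_mul_right ?_ h0
    linarith [lower.trans upper]

/-- The averaged absolute covariance is at most the root mean square. -/
theorem avgCov_le_rms {N : ℕ} (q p : ℕ) (f : Fin N → (ℕ → Ω) → ℝ) (ω : ℕ → Ω) :
    S.avgCov q p f ω ≤ rms fun i j => S.cov q p (f i) (f j) ω :=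
  avg_abs_le fun ij : Fin N × Fin N => S.cov q p (f ij.1) (f ij.2) ω

end Vale.Agent.P168
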