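import Vale.Agent.P168.CavLaw

/-!
# P168, module C: clauses by their hits of the last site
-/

namespace Vale.Agent.P168.Cav

open MeasureTheory Finset Function
open P168.Poisson

variable {M : Model}

/-- Positions hitting the last site. -/
abbrev Hit (K N : ℕ) := {i : Fin K → Fin (N + 1) // ∃ j, i j = Fin.last N}

/-- Positions of a clause avoiding the last site. -/
def psi0 {K N : ℕ} (i : Fin K → Fin N) : Fin K → Fin (N + 1) := fun j => (i j).castSucc

/-- Positions of a clause with exactly one place, `l`, at the last site. -/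
def psi1 {K N : ℕ} (x : Fin K × (Fin K → Fin N)) : Fin K → Fin (N + 1) :=
  update (psi0 x.2) x.1 (Fin.last N)

lemma psi1_hit {K N : ℕ} (x : Fin K × (Fin K → Fin N)) : ∃ j, psi1 x j = Fin.last N :=
  ⟨x.1, by simp [psi1]⟩

instance {K N : ℕ} [NeZero K] : Nonempty (Hit K N) := ⟨⟨fun _ => Fin.last N, 0, rfl⟩⟩

/-- A sum over all positions, split by the hits of the last site. -/
lemma sum_split {K N : ℕ} (f : (Fin K → Fin (N + 1)) → ℝ) :
    ∑ i, f i = (∑ i : Fin K → Fin N, f (psi0 i)) + ∑ i : Hit K N, f i.1 := by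
  classical
  rw [← sum_filter_add_sum_filter_not univ (fun i : Fin K → Fin (N + 1) => ∃ j, i j = Fin.last N),
    add_comm]
  congr 1
  · have e : univ.filter (fun i : Fin K → Fin (N + 1) => ¬∃ j, i j = Fin.last N)
        = univ.image (psi0 (K := K) (N := N)) := by
      ext i
      simp only [mem_filter, mem_univ, true_and, mem_image, not_exists]
      constructor
      · intro hi
        exact ⟨fun j => (i j).castPred (hi j), funext fun j => Fin.castSucc_castPred _ _⟩
      · rintro ⟨i', rfl⟩ j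
        exact Fin.castSucc_ne_last _
    rw [e, sum_image]
    intro a _ b _ hab
    exact funext fun j => Fin.castSucc_injective _ (congrFun hab j)
  · exact sum_subtype _ (by simp) f

/-- The weight of the positions avoiding the last site. -/
noncomputable def q0 (K N : ℕ) : ℝ := ((N : ℝ) / ((N : ℝ) + 1)) ^ K

/-- `1 + r + ⋯ + r^(K-1)` for `r = N/(N+1)`. -/
noncomputable def geo (K N : ℕ) : ℝ := ∑ j ∈ range K, ((N : ℝ) / ((N : ℝ) + 1)) ^ j

lemma geo_eq (K N : ℕ) : geo K N = ((N : ℝ) + 1) * (1 - q0 K N) := by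
  have hN : (N : ℝ) + 1 ≠ 0 := by positivity
  have h := geom_sum_mul ((N : ℝ) / ((N : ℝ) + 1)) K
  have e : (N : ℝ) / ((N : ℝ) + 1) - 1 = -(1 / ((N : ℝ) + 1)) := by field_simp; ring
  rw [e] at h
  rw [geo, q0, show (1 : ℝ) - ((N : ℝ) / ((N : ℝ) + 1)) ^ K =
    (∑ j ∈ range K, ((N : ℝ) / ((N : ℝ) + 1)) ^ j) * (1 / ((N : ℝ) + 1)) by linarith]
  field_simp

lemma one_le_geo {K : ℕ} (hK : 1 ≤ K) (N : ℕ) : 1 ≤ geo K N := by
  have h := single_le_sum (f := fun j => ((N : ℝ) / ((N : ℝ) + 1)) ^ j)
    (fun j _ => by positivity) (mem_range.2 hK : 0 ∈ range K)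
  simpa [geo] using h

lemma card_hit (K N : ℕ) :
    (Fintype.card (Hit K N) : ℝ) = (1 - q0 K N) * ((N : ℝ) + 1) ^ K := by
  have h := sum_split (K := K) (N := N) fun _ => (1 : ℝ)
  simp only [sum_const, card_univ, nsmul_eq_mul, mul_one, Fintype.card_fun, Fintype.card_fin] at h
  push_cast at h
  have hN : ((N : ℝ) + 1) ^ K ≠ 0 := by positivity
  rw [q0, div_pow, sub_mul, div_mul_cancel₀ _ hN]
  linarith

/-- The mixture of one clause of `N + 1` sites. -/
lemma step_mix (hM : M.Valid) [NeZero M.K] {N : ℕ} [NeZero N] {G : V (N + 1) → ℝ} (hG : Lip G)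
    (x : V (N + 1)) :
    step (pN M (N + 1)) (jN M (N + 1)) G x =
      q0 M.K N * step (par M (Fin M.K → Fin N)) (jmp psi0) G x +
        (1 - q0 M.K N) * step (par M (Hit M.K N)) (jmp Subtype.val) G x := by
  rw [step_jmp hM hG, step_jmp hM hG, step_jmp hM hG]
  simp only [id_eq]
  set f : (Fin M.K → Fin (N + 1)) → ℝ :=
    fun i => ∫ p, G (x + contrib (p, i)) ∂M.clauseLaw with hf
  simp only [avg, sum_split f, card_hit, Fintype.card_fun, Fintype.card_fin, q0]
  have hN : (N : ℝ) ≠ 0 := Nat.cast_ne_zero.2 (NeZero.ne N)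
  have h1 : 1 - ((N : ℝ) / ((N : ℝ) + 1)) ^ M.K ≠ 0 := by
    have hK : 1 ≤ M.K := Nat.one_le_iff_ne_zero.2 (NeZero.ne M.K)
    have := one_le_geo hK N
    rw [geo_eq, q0] at this
    intro h
    rw [h, mul_zero] at this
    linarith
  push_cast
  rw [div_pow] at h1 ⊢
  have alg : ∀ S T A B : ℝ, A ≠ 0 → B ≠ 0 → 1 - B / A ≠ 0 →
      (S + T) / A = B / A * (S / B) + (1 - B / A) * (T / ((1 - B / A) * A)) := by
    intro S T A B hA hB hC
    rw [show (1 - B / A) * (T / ((1 - B / A) * A)) = (1 - B / A) * T / ((1 - B / A) * A) from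
      mul_div_assoc' _ _ _, mul_div_mul_left _ _ hC]
    field_simp
  exact alg _ _ _ _ (by positivity) (pow_ne_zero _ hN) h1

/-- The error in replacing a hit by a single hit. -/
noncomputable def eta (K N : ℕ) : ℝ :=
  2 * (1 - K * ((N : ℝ) / ((N : ℝ) + 1)) ^ (K - 1) / geo K N)

lemma step_hit_near (hM : M.Valid) [NeZero M.K] {N : ℕ} [NeZero N] {G : V (N + 1) → ℝ}
    (hG : Lip G) (x : V (N + 1)) :
    |step (par M (Hit M.K N)) (jmp Subtype.val) G x -
        step (par M (Fin M.K × (Fin M.K → Fin N))) (jmp psi1) G x| ≤ eta M.K N * L0 M := by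
  classical
  have := clause_prob hM
  rw [step_jmp hM hG, step_jmp hM hG]
  set f : Hit M.K N → ℝ := fun i => ∫ p, G (x + contrib (p, i.1)) ∂M.clauseLaw - G x with hf
  set P : Fin M.K × (Fin M.K → Fin N) → Hit M.K N := fun x => ⟨psi1 x, psi1_hit x⟩ with hP
  have hfb : ∀ i, |f i| ≤ L0 M := fun i => by
    have hm : Measurable fun p : Param M.K => contrib (p, i.1) :=
      measurable_pi_lambda _ fun σ => measurable_theta fun j => σ (i.1 j)
    have hi : Integrable (fun p => ‖contrib (p, i.1)‖) M.clauseLaw :=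
      (integrable_mx hM).mono' hm.norm.aestronglyMeasurable (Filter.Eventually.of_forall fun p => by
        rw [Real.norm_eq_abs, abs_norm]; exact norm_contrib_le _)
    exact (abs_step_sub_le (OK.of_measurable ‹_› hm hi) hG x).trans
      (integral_mono hi (integrable_mx hM) fun p => norm_contrib_le _)
  have e1 : avg (fun i : Hit M.K N => ∫ p, G (x + contrib (p, i.1)) ∂M.clauseLaw)
      = G x + avg f := by
    rw [← avg_const_add]; exact avg_congr fun i => by simp [hf]
  have e2 : avg (fun y => ∫ p, G (x + contrib (p, psi1 y)) ∂M.clauseLaw)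
      = G x + avg fun y => f (P y) := by
    rw [← avg_const_add]; exact avg_congr fun y => by simp [hf, hP]
  rw [e1, e2, add_sub_add_left_eq_sub]
  -- fibres of `P` have `N` elements
  set S := univ.image P with hS
  have hfib : ∀ b ∈ S, (univ.filter fun y => P y = b).card = N := by
    intro b hb
    obtain ⟨⟨l, i⟩, -, rfl⟩ := mem_image.1 hb
    have e : univ.filter (fun y => P y = P (l, i))
        = univ.image fun a : Fin N => (l, update i l a) := by
      ext ⟨l', i'⟩
      simp only [mem_filter, mem_univ, true_and, mem_image, hP, Subtype.mk.injEq, psi1]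
      constructor
      · intro h
        have hl : l' = l := by
          by_contra hne
          have := congrFun h l'
          rw [update_self, update_of_ne hne] at this
          exact Fin.castSucc_ne_last _ this.symm
        subst hl
        refine ⟨i' l', ?_⟩
        congr 1
        funext j
        rcases eq_or_ne j l' with rfl | hj
        · simp
        · have := congrFun h j
          rw [update_of_ne hj, update_of_ne hj] at this
          rw [update_of_ne hj]
          exact (Fin.castSucc_injective _ this).symm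
      · rintro ⟨a, ha⟩
        simp only [Prod.mk.injEq] at ha
        obtain ⟨rfl, rfl⟩ := ha
        funext j
        rcases eq_or_ne j l with rfl | hj
        · simp
        · simp [update_of_ne hj, psi0]
    rw [e, card_image_of_injective _ fun a b h => by
      simpa using congrFun (congrArg Prod.snd h) l, card_univ, Fintype.card_fin]
  have hsum : ∀ u : Hit M.K N → ℝ, ∑ y, u (P y) = (N : ℝ) * ∑ b ∈ S, u b := fun u => by
    rw [← sum_fiberwise_of_maps_to (g := P) (t := S)
      (fun y _ => mem_image_of_mem P (mem_univ y)), mul_sum]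
    refine sum_congr rfl fun b hb => ?_
    rw [sum_congr rfl fun y hy => congrArg u (mem_filter.1 hy).2, sum_const, hfib b hb,
      nsmul_eq_mul]
  have hK : 1 ≤ M.K := Nat.one_le_iff_ne_zero.2 (NeZero.ne M.K)
  have hN : (N : ℝ) ≠ 0 := Nat.cast_ne_zero.2 (NeZero.ne N)
  have hcS : (S.card : ℝ) = M.K * (N : ℝ) ^ (M.K - 1) := by
    have h := hsum fun _ => (1 : ℝ)
    simp only [sum_const, card_univ, nsmul_eq_mul, mul_one, Fintype.card_prod, Fintype.card_fin,
      Fintype.card_fun] at h
    push_cast at h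
    have : (N : ℝ) ^ M.K = N * (N : ℝ) ^ (M.K - 1) := by
      rw [← pow_succ', Nat.sub_add_cancel hK]
    rw [this] at h
    exact (mul_left_cancel₀ hN (by linarith)).symm
  set T : ℝ := (Fintype.card (Hit M.K N) : ℝ) with hT
  set s : ℝ := (S.card : ℝ) with hs
  have hsT : s ≤ T := by rw [hs, hT]; exact_mod_cast card_le_univ S
  have hs0 : 0 < s := by
    rw [hcS]
    have : (0 : ℝ) < N := Nat.cast_pos.2 (Nat.pos_of_ne_zero (NeZero.ne N))
    have : (0 : ℝ) < M.K := Nat.cast_pos.2 hK
    positivity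
  have hT0 : 0 < T := hs0.trans_le hsT
  have heta : eta M.K N = 2 * ((T - s) / T) := by
    have hN1 : (N : ℝ) + 1 ≠ 0 := by positivity
    have hg : geo M.K N ≠ 0 := (zero_lt_one.trans_le (one_le_geo hK N)).ne'
    have hp : ((N : ℝ) + 1) ^ M.K = ((N : ℝ) + 1) * ((N : ℝ) + 1) ^ (M.K - 1) := by
      rw [← pow_succ', Nat.sub_add_cancel hK]
    rw [eta, hcS, hT, card_hit, hp, ← mul_assoc, mul_comm (1 - q0 M.K N), ← geo_eq, div_pow]
    field_simp
  have e3 : avg (fun y => f (P y)) = (∑ b ∈ S, f b) / s := by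
    rw [avg, hsum f, hcS, Fintype.card_prod, Fintype.card_fun, Fintype.card_fin, Fintype.card_fin]
    push_cast
    have : (N : ℝ) ^ M.K = N * (N : ℝ) ^ (M.K - 1) := by
      rw [← pow_succ', Nat.sub_add_cancel hK]
    rw [this]
    field_simp
  rw [e3, heta]
  have hsplit : ∑ b, f b = (∑ b ∈ univ \ S, f b) + ∑ b ∈ S, f b :=
    (sum_sdiff (subset_univ S)).symm
  have hA : |∑ b ∈ univ \ S, f b| ≤ (T - s) * L0 M := by
    refine (abs_sum_le_sum_abs _ _).trans ((sum_le_sum fun b _ => hfb b).trans_eq ?_)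
    rw [sum_const, nsmul_eq_mul, card_sdiff_of_subset (subset_univ S), card_univ,
      Nat.cast_sub (card_le_univ S), hT, hs]
  have hB : |∑ b ∈ S, f b| ≤ s * L0 M := by
    refine (abs_sum_le_sum_abs _ _).trans ((sum_le_sum fun b _ => hfb b).trans_eq ?_)
    rw [sum_const, nsmul_eq_mul]
  rw [avg, hsplit, ← hT]
  have key : ((∑ b ∈ univ \ S, f b) + ∑ b ∈ S, f b) / T - (∑ b ∈ S, f b) / s
      = (∑ b ∈ univ \ S, f b) / T + (∑ b ∈ S, f b) * ((s - T) / (T * s)) := by
    field_simp
    ring
  rw [key]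
  refine (abs_add_le _ _).trans ?_
  rw [abs_div, abs_of_pos hT0, abs_mul, abs_div, abs_of_pos (mul_pos hT0 hs0),
    abs_of_nonpos (sub_nonpos.2 hsT)]
  calc |∑ b ∈ univ \ S, f b| / T + |∑ b ∈ S, f b| * (-(s - T) / (T * s))
      ≤ (T - s) * L0 M / T + s * L0 M * (-(s - T) / (T * s)) := by
        refine add_le_add (div_le_div_of_nonneg_right hA hT0.le) ?_
        exact mul_le_mul_of_nonneg_right hB (div_nonneg (by linarith) (by positivity))
    _ = 2 * ((T - s) / T) * L0 M := by field_simp; ring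

end Vale.Agent.P168.Cav
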