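import Mathlib
import Vale.Agent.P168.Poisson

/-!
# P168, module C: compound Poisson steps on 1-Lipschitz functions

`step μ g F x = ∫ F (x + g a) ∂μ`; `cp t μ g F x = E_{n ~ π_t} (step μ g)^[n] F x`.
-/

namespace Vale.Agent.P168.Cav

open MeasureTheory Finset Function
open P168.Poisson

variable {E : Type*} [NormedAddCommGroup E] [MeasurableSpace E] [OpensMeasurableSpace E]
variable {A : Type*} [MeasurableSpace A] {B : Type*} [MeasurableSpace B]

/-- `1`-Lipschitz functions. -/
def Lip (F : E → ℝ) : Prop := ∀ x y, |F x - F y| ≤ ‖x - y‖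

omit [MeasurableSpace E] [OpensMeasurableSpace E] in
lemma Lip.continuous {F : E → ℝ} (hF : Lip F) : Continuous F :=
  (LipschitzWith.of_dist_le_mul (K := 1) fun x y => by
    rw [Real.dist_eq, dist_eq_norm, NNReal.coe_one, one_mul]; exact hF x y).continuous

lemma Lip.measurable {F : E → ℝ} (hF : Lip F) : Measurable F := hF.continuous.measurable

omit [MeasurableSpace E] [OpensMeasurableSpace E] in
lemma Lip.bound {F : E → ℝ} (hF : Lip F) (x v : E) : |F (x + v)| ≤ |F x| + ‖v‖ := by
  have h := hF (x + v) x
  rw [add_sub_cancel_left] at h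
  have := abs_sub_abs_le_abs_sub (F (x + v)) (F x)
  linarith

omit [MeasurableSpace E] [OpensMeasurableSpace E] in
lemma Lip.shift {F : E → ℝ} (hF : Lip F) (v : E) : Lip fun x => F (x + v) := fun x y => by
  simpa using hF (x + v) (y + v)

/-- A random jump: a probability law on parameters and an integrable jump. -/
structure OK (μ : Measure A) (g : A → E) : Prop where
  prob : IsProbabilityMeasure μ
  cont : ∀ {F : E → ℝ}, Continuous F → ∀ x : E, Measurable fun a => F (x + g a)
  int : Integrable (fun a => ‖g a‖) μ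

lemma OK.of_measurable {μ : Measure A} {g : A → E} (hμ : IsProbabilityMeasure μ)
    (hg : Measurable g) (hi : Integrable (fun a => ‖g a‖) μ) : OK μ g :=
  ⟨hμ, fun {_} hF x => (hF.comp (continuous_const.add continuous_id)).measurable.comp hg, hi⟩

/-- One random jump. -/
noncomputable def step (μ : Measure A) (g : A → E) (F : E → ℝ) (x : E) : ℝ := ∫ a, F (x + g a) ∂μ

/-- A Poisson number of random jumps. -/
noncomputable def cp (t : ℝ) (μ : Measure A) (g : A → E) (F : E → ℝ) (x : E) : ℝ :=
  pe t fun n => (step μ g)^[n] F x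

/-- The mean size of a jump. -/
noncomputable def size (μ : Measure A) (g : A → E) : ℝ := ∫ a, ‖g a‖ ∂μ

variable {μ : Measure A} {g : A → E} {ν : Measure B} {h : B → E}

omit [MeasurableSpace E] [OpensMeasurableSpace E] in
lemma size_nonneg : 0 ≤ size μ g := integral_nonneg fun _ => norm_nonneg _

omit [MeasurableSpace E] [OpensMeasurableSpace E] in
lemma OK.integrable (ok : OK μ g) {F : E → ℝ} (hF : Lip F) (x : E) :
    Integrable (fun a => F (x + g a)) μ := by
  have := ok.prob
  exact ((integrable_const (|F x|)).add ok.int).mono' (ok.cont hF.continuous x).aestronglyMeasurable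
    (Filter.Eventually.of_forall fun a => hF.bound x (g a))

omit [MeasurableSpace E] [OpensMeasurableSpace E] in
lemma lip_step (ok : OK μ g) {F : E → ℝ} (hF : Lip F) : Lip (step μ g F) := by
  intro x y
  have := ok.prob
  rw [step, step, ← integral_sub (ok.integrable hF x) (ok.integrable hF y)]
  calc |∫ a, F (x + g a) - F (y + g a) ∂μ| ≤ ∫ a, |F (x + g a) - F (y + g a)| ∂μ :=
        abs_integral_le_integral_abs
    _ ≤ ∫ _a, ‖x - y‖ ∂μ := integral_mono
        ((ok.integrable hF x).sub (ok.integrable hF y)).abs (integrable_const _) fun a => by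
          simpa using hF (x + g a) (y + g a)
    _ = ‖x - y‖ := by simp

omit [MeasurableSpace E] [OpensMeasurableSpace E] in
lemma abs_step_sub_le (ok : OK μ g) {F : E → ℝ} (hF : Lip F) (x : E) :
    |step μ g F x - F x| ≤ size μ g := by
  have := ok.prob
  have e : step μ g F x - F x = ∫ a, (F (x + g a) - F x) ∂μ := by
    rw [integral_sub (ok.integrable hF x) (integrable_const _)]; simp [step]
  rw [e]
  refine abs_integral_le_integral_abs.trans (integral_mono
    ((ok.integrable hF x).sub (integrable_const _)).abs ok.int fun a => ?_)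
  simpa using hF (x + g a) x

omit [MeasurableSpace E] [OpensMeasurableSpace E] in
lemma lip_iter (ok : OK μ g) {F : E → ℝ} (hF : Lip F) : ∀ n, Lip ((step μ g)^[n] F)
  | 0 => hF
  | n + 1 => by rw [Function.iterate_succ_apply']; exact lip_step ok (lip_iter ok hF n)

omit [MeasurableSpace E] [OpensMeasurableSpace E] in
lemma abs_iter_sub_le (ok : OK μ g) {F : E → ℝ} (hF : Lip F) (x : E) :
    ∀ n : ℕ, |(step μ g)^[n] F x - F x| ≤ n * size μ g
  | 0 => by simp
  | n + 1 => by
    rw [Function.iterate_succ_apply']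
    have h1 := abs_step_sub_le ok (lip_iter ok hF n) x
    have h2 := abs_iter_sub_le ok hF x n
    have := abs_sub_le (step μ g ((step μ g)^[n] F) x) ((step μ g)^[n] F x) (F x)
    push_cast
    linarith

omit [MeasurableSpace E] [OpensMeasurableSpace E] in
lemma abs_iter_le (ok : OK μ g) {F : E → ℝ} (hF : Lip F) (x : E) (n : ℕ) :
    |(step μ g)^[n] F x| ≤ |F x| + n * size μ g := by
  have h1 := abs_iter_sub_le ok hF x n
  have h2 := abs_sub_abs_le_abs_sub ((step μ g)^[n] F x) (F x)
  linarith

omit [MeasurableSpace E] [OpensMeasurableSpace E] in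
lemma gr_iter (ok : OK μ g) {F : E → ℝ} (hF : Lip F) (x : E) :
    Gr fun n => (step μ g)^[n] F x :=
  ((Gr.const (|F x|)).add (Gr.natCast.smul (size μ g))).mono fun n => by
    have := abs_iter_le ok hF x n
    exact (this.trans_eq (by ring)).trans (le_abs_self _)

omit [MeasurableSpace E] [OpensMeasurableSpace E] in
lemma abs_cp_sub_le (ok : OK μ g) {F : E → ℝ} (hF : Lip F) {t : ℝ} (ht : 0 ≤ t) (x : E) :
    |cp t μ g F x - F x| ≤ t * size μ g := by
  have e : cp t μ g F x - F x = pe t fun n => (step μ g)^[n] F x - F x := by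
    rw [pe_sub (gr_iter ok hF x) (Gr.const _), pe_const]; rfl
  rw [e]
  have := abs_pe_le_affine (a := 0) (b := size μ g)
    (fun n => (abs_iter_sub_le ok hF x n).trans_eq (by ring)) ht
  linarith

omit [MeasurableSpace E] [OpensMeasurableSpace E] in
lemma lip_pe {G : ℕ → E → ℝ} (hG : ∀ n, Lip (G n)) (hgr : ∀ x, Gr fun n => G n x) {t : ℝ}
    (ht : 0 ≤ t) : Lip fun x => pe t fun n => G n x := fun x y => by
  rw [← pe_sub (hgr x) (hgr y)]
  have := abs_pe_le_affine (a := ‖x - y‖) (b := 0)
    (fun n => (hG n x y).trans_eq (by ring)) ht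
  linarith

omit [MeasurableSpace E] [OpensMeasurableSpace E] in
lemma lip_cp (ok : OK μ g) {F : E → ℝ} (hF : Lip F) {t : ℝ} (ht : 0 ≤ t) : Lip (cp t μ g F) :=
  lip_pe (lip_iter ok hF) (gr_iter ok hF) ht

omit [MeasurableSpace E] [OpensMeasurableSpace E] in
/-- A step commutes with a Poisson average of functions with linearly growing values. -/
lemma step_pe (ok : OK μ g) {G : ℕ → E → ℝ} (hG : ∀ n, Lip (G n))
    (hgr : ∀ x, Gr fun n => G n x) (t : ℝ) (x : E) :
    step μ g (fun y => pe t fun n => G n y) x = pe t fun n => step μ g (G n) x := by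
  have := ok.prob
  refine integral_pe μ t (fun n => ok.integrable (hG n) x) ?_
  refine ((hgr x).abs.add (Gr.const (size μ g))).mono fun n => ?_
  rw [abs_of_nonneg (integral_nonneg fun a => abs_nonneg _)]
  refine le_trans ?_ (le_abs_self _)
  calc ∫ a, |G n (x + g a)| ∂μ ≤ ∫ a, (|G n x| + ‖g a‖) ∂μ :=
        integral_mono (ok.integrable (hG n) x).abs ((integrable_const _).add ok.int)
          fun a => (hG n).bound x (g a)
    _ = |G n x| + size μ g := by
        rw [integral_add (integrable_const _) ok.int]; simp [size]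

lemma iter_pe (ok : OK μ g) {G : ℕ → E → ℝ} (hG : ∀ n, Lip (G n))
    (hgr : ∀ x, Gr fun n => G n x) (t : ℝ) : ∀ (m : ℕ) (x : E),
    (step μ g)^[m] (fun y => pe t fun n => G n y) x = pe t fun n => (step μ g)^[m] (G n) x
  | 0, _ => rfl
  | m + 1, x => by
    have e : (step μ g)^[m] (fun y => pe t fun n => G n y) =
        fun y => pe t fun n => (step μ g)^[m] (G n) y := funext (iter_pe ok hG hgr t m)
    have hg' : ∀ y, Gr fun n => (step μ g)^[m] (G n) y := fun y =>
      ((hgr y).abs.add (Gr.const (m * size μ g))).mono fun n =>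
        (abs_iter_le ok (hG n) y m).trans (le_abs_self _)
    rw [Function.iterate_succ_apply', e, step_pe ok (fun n => lip_iter ok (hG n) m) hg']
    simp only [Function.iterate_succ_apply']

/-- Superposition of two rates. -/
theorem cp_add (ok : OK μ g) {F : E → ℝ} (hF : Lip F) (a b : ℝ) (x : E) :
    cp (a + b) μ g F x = cp a μ g (cp b μ g F) x := by
  have e : ∀ m, (step μ g)^[m] (cp b μ g F) x = pe b fun n => (step μ g)^[m + n] F x := fun m => by
    rw [show cp b μ g F = fun y => pe b fun n => (step μ g)^[n] F y from rfl,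
      iter_pe ok (lip_iter ok hF) (gr_iter ok hF)]
    simp only [← Function.iterate_add_apply]
  show _ = pe a fun m => (step μ g)^[m] (cp b μ g F) x
  simp only [e]
  exact (pe_superpose (gr_iter ok hF x) a b).symm

omit [MeasurableSpace E] [OpensMeasurableSpace E] in
lemma abs_iter_mono (ok : OK μ g) {F G : E → ℝ} (hF : Lip F) (hG : Lip G) {C : ℝ}
    (hd : ∀ x, |F x - G x| ≤ C) : ∀ (n : ℕ) (x : E),
    |(step μ g)^[n] F x - (step μ g)^[n] G x| ≤ C
  | 0, x => hd x
  | n + 1, x => by
    have := ok.prob
    rw [Function.iterate_succ_apply', Function.iterate_succ_apply', step, step,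
      ← integral_sub (ok.integrable (lip_iter ok hF n) x) (ok.integrable (lip_iter ok hG n) x)]
    refine abs_integral_le_integral_abs.trans ((integral_mono
      ((ok.integrable (lip_iter ok hF n) x).sub (ok.integrable (lip_iter ok hG n) x)).abs
      (integrable_const C) fun a => abs_iter_mono ok hF hG hd n (x + g a)).trans_eq ?_)
    simp

omit [MeasurableSpace E] [OpensMeasurableSpace E] in
lemma abs_cp_mono (ok : OK μ g) {F G : E → ℝ} (hF : Lip F) (hG : Lip G) {C : ℝ}
    (hd : ∀ x, |F x - G x| ≤ C) {t : ℝ} (ht : 0 ≤ t) (x : E) :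
    |cp t μ g F x - cp t μ g G x| ≤ C := by
  rw [cp, cp, ← pe_sub (gr_iter ok hF x) (gr_iter ok hG x)]
  have := abs_pe_le_affine (a := C) (b := 0)
    (fun n => (abs_iter_mono ok hF hG hd n x).trans_eq (by ring)) ht
  linarith

/-- Dependence on the rate. -/
lemma abs_cp_rate (ok : OK μ g) {F : E → ℝ} (hF : Lip F) {a b : ℝ} (ha : 0 ≤ a) (hb : 0 ≤ b)
    (x : E) : |cp a μ g F x - cp b μ g F x| ≤ |a - b| * size μ g := by
  wlog hab : a ≤ b generalizing a b
  · rw [abs_sub_comm, abs_sub_comm a b]; exact this hb ha (le_of_not_ge hab)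
  have e : cp b μ g F x = cp a μ g (cp (b - a) μ g F) x := by
    rw [← cp_add ok hF]; congr 1; ring
  rw [e, abs_of_nonpos (by linarith : a - b ≤ 0)]
  refine (abs_cp_mono ok hF (lip_cp ok hF (by linarith)) (C := -(a - b) * size μ g)
    (fun y => ?_) ha x)
  rw [abs_sub_comm]
  exact (abs_cp_sub_le ok hF (by linarith) y).trans_eq (by ring)

omit [MeasurableSpace E] [OpensMeasurableSpace E] in
lemma abs_iter_compare (ok : OK μ g) (ok' : OK ν h) {η : ℝ}
    (hd : ∀ G : E → ℝ, Lip G → ∀ x, |step μ g G x - step ν h G x| ≤ η) {F : E → ℝ} (hF : Lip F) :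
    ∀ (n : ℕ) (x : E), |(step μ g)^[n] F x - (step ν h)^[n] F x| ≤ n * η
  | 0, x => by simp
  | n + 1, x => by
    rw [Function.iterate_succ_apply, Function.iterate_succ_apply']
    have e : ∀ y, |(step μ g)^[n] (step μ g F) y - (step μ g)^[n] (step ν h F) y| ≤ η :=
      abs_iter_mono ok (lip_step ok hF) (lip_step ok' hF) (hd F hF) n
    have h1 := e x
    have h2 := abs_iter_compare ok ok' hd (lip_step ok' hF) n x
    rw [← Function.iterate_succ_apply (step ν h), Function.iterate_succ_apply'] at h2
    have := abs_sub_le ((step μ g)^[n] (step μ g F) x) ((step μ g)^[n] (step ν h F) x)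
      (step ν h ((step ν h)^[n] F) x)
    push_cast
    linarith

omit [MeasurableSpace E] [OpensMeasurableSpace E] in
lemma abs_cp_compare (ok : OK μ g) (ok' : OK ν h) {η : ℝ}
    (hd : ∀ G : E → ℝ, Lip G → ∀ x, |step μ g G x - step ν h G x| ≤ η) {F : E → ℝ} (hF : Lip F)
    {t : ℝ} (ht : 0 ≤ t) (x : E) : |cp t μ g F x - cp t ν h F x| ≤ t * η := by
  rw [cp, cp, ← pe_sub (gr_iter ok hF x) (gr_iter ok' hF x)]
  have := abs_pe_le_affine (a := 0) (b := η)
    (fun n => (abs_iter_compare ok ok' hd hF n x).trans_eq (by ring)) ht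
  linarith

/-! ### Representation of the iterates -/

/-- `n` jumps at once. -/
lemma iter_eq_integral [MeasurableAdd₂ E] (ok : OK μ g) (hg : Measurable g) {F : E → ℝ}
    (hF : Lip F) : ∀ (n : ℕ) (x : E),
    (step μ g)^[n] F x = ∫ a : Fin n → A, F (x + ∑ c, g (a c)) ∂Measure.pi fun _ => μ := by
  have := ok.prob
  have meas : ∀ (n : ℕ) (x : E), Measurable fun a : Fin n → A => F (x + ∑ c, g (a c)) :=
    fun n x => hF.measurable.comp (measurable_const.add
      (Finset.measurable_sum _ fun c _ => hg.comp (measurable_pi_apply c)))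
  intro n
  induction n with
  | zero => intro x; simp
  | succ n ih =>
    intro x
    rw [Function.iterate_succ_apply', step]
    simp only [ih]
    rw [← (measurePreserving_piFinSuccAbove (fun _ : Fin (n + 1) => μ) 0).symm.integral_comp']
    have hv : ∀ p : A × (Fin n → A),
        ∑ c, g ((MeasurableEquiv.piFinSuccAbove (fun _ : Fin (n + 1) => A) 0).symm p c)
          = g p.1 + ∑ c, g (p.2 c) := by
      rintro ⟨a, b⟩
      have e : (MeasurableEquiv.piFinSuccAbove (fun _ : Fin (n + 1) => A) 0).symm (a, b)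
          = Fin.cons a b := by simp [MeasurableEquiv.piFinSuccAbove, Fin.consEquiv]
      rw [e, Fin.sum_univ_succ]
      simp only [Fin.cons_zero, Fin.cons_succ]
    simp only [hv, ← add_assoc]
    rw [integral_prod]
    have hn : Integrable (fun p : A × (Fin n → A) => |F x| + ‖g p.1‖ + ∑ c, ‖g (p.2 c)‖)
        (μ.prod (Measure.pi fun _ => μ)) := by
      refine ((integrable_const _).add (ok.int.comp_fst _)).add ?_
      refine integrable_finsetSum _ fun c _ => ?_
      exact (integrable_comp_eval (μ := fun _ : Fin n => μ) ok.int).comp_snd μ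
    refine hn.mono' ?_ (Filter.Eventually.of_forall fun p => ?_)
    · exact (hF.measurable.comp ((measurable_const.add (hg.comp measurable_fst)).add
        (Finset.measurable_sum _ fun c _ =>
          hg.comp ((measurable_pi_apply c).comp measurable_snd)))).aestronglyMeasurable
    · rw [Real.norm_eq_abs, add_assoc x]
      have h1 := hF.bound x (g p.1 + ∑ c, g (p.2 c))
      have h2 := norm_add_le (g p.1) (∑ c, g (p.2 c))
      have h3 := norm_sum_le univ fun c => g (p.2 c)
      linarith

/-! ### Splitting a mixture -/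

/-- Steps commute. -/
lemma step_comm [MeasurableAdd₂ E] (ok : OK μ g) (ok' : OK ν h) (hg : Measurable g)
    (hh : Measurable h) {F : E → ℝ} (hF : Lip F) (x : E) :
    step μ g (step ν h F) x = step ν h (step μ g F) x := by
  have := ok.prob
  have := ok'.prob
  simp only [step]
  have hi : Integrable (Function.uncurry fun a b => F (x + g a + h b)) (μ.prod ν) := by
    refine (((integrable_const (|F x|)).add (ok.int.comp_fst ν)).add (ok'.int.comp_snd μ)).mono'
      ?_ (Filter.Eventually.of_forall fun p => ?_)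
    · exact (hF.measurable.comp ((measurable_const.add (hg.comp measurable_fst)).add
        (hh.comp measurable_snd))).aestronglyMeasurable
    · rw [Real.norm_eq_abs, Function.uncurry, add_assoc]
      have h1 := hF.bound x (g p.1 + h p.2)
      have h2 := norm_add_le (g p.1) (h p.2)
      simp only [Pi.add_apply]
      linarith
  rw [integral_integral_swap hi]
  simp only [add_right_comm]

lemma step_iter_comm [MeasurableAdd₂ E] (ok : OK μ g) (ok' : OK ν h) (hg : Measurable g)
    (hh : Measurable h) {F : E → ℝ} (hF : Lip F) : ∀ n : ℕ,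
    step ν h ((step μ g)^[n] F) = (step μ g)^[n] (step ν h F)
  | 0 => rfl
  | n + 1 => by
    have e : step ν h (step μ g ((step μ g)^[n] F)) = step μ g (step ν h ((step μ g)^[n] F)) :=
      funext (step_comm ok' ok hh hg (lip_iter ok hF n))
    rw [Function.iterate_succ_apply', Function.iterate_succ_apply', e,
      step_iter_comm ok ok' hg hh hF n]

omit [MeasurableSpace E] [OpensMeasurableSpace E] in
lemma step_sum (ok : OK μ g) {ι : Type*} (s : Finset ι) (w : ι → ℝ) (G : ι → E → ℝ)
    (hG : ∀ i ∈ s, Lip (G i)) (x : E) :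
    step μ g (fun y => ∑ i ∈ s, w i * G i y) x = ∑ i ∈ s, w i * step μ g (G i) x := by
  simp only [step]
  rw [integral_finsetSum _ fun i hi => (ok.integrable (hG i hi) x).const_mul _]
  simp only [integral_const_mul]

variable {C : Type*} [MeasurableSpace C] {ρ : Measure C} {k : C → E}

/-- Thinning: a mixture of two jumps splits into two Poisson numbers of pure jumps. -/
theorem cp_split [MeasurableAdd₂ E] (ok : OK μ g) (ok₀ : OK ν h) (ok₁ : OK ρ k)
    (hh : Measurable h) (hk : Measurable k) {q : ℝ}
    (hmix : ∀ G : E → ℝ, Lip G → ∀ x,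
      step μ g G x = q * step ν h G x + (1 - q) * step ρ k G x)
    {F : E → ℝ} (hF : Lip F) (t : ℝ) (x : E) :
    cp t μ g F x = cp (q * t) ν h (cp ((1 - q) * t) ρ k F) x := by
  have hLip : ∀ a b, Lip ((step ν h)^[a] ((step ρ k)^[b] F)) := fun a b =>
    lip_iter ok₀ (lip_iter ok₁ hF b) a
  have hbin : ∀ (n : ℕ) (y : E), (step μ g)^[n] F y
      = binom2 q n (fun a b => (step ν h)^[a] ((step ρ k)^[b] F) y) := by
    intro n
    induction n with
    | zero => intro y; simp [binom2]
    | succ n ih =>
      intro y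
      rw [Function.iterate_succ_apply']
      have e : (step μ g)^[n] F = fun z => ∑ p ∈ HasAntidiagonal.antidiagonal n,
          (n.choose p.1 : ℝ) * q ^ p.1 * (1 - q) ^ p.2
            * (step ν h)^[p.1] ((step ρ k)^[p.2] F) z := funext fun z => ih z
      rw [e, step_sum ok (HasAntidiagonal.antidiagonal n)
        (fun p => (n.choose p.1 : ℝ) * q ^ p.1 * (1 - q) ^ p.2)
        (fun p => (step ν h)^[p.1] ((step ρ k)^[p.2] F)) (fun p _ => hLip _ _)]
      have e2 : ∀ a b, step μ g ((step ν h)^[a] ((step ρ k)^[b] F)) y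
          = q * (step ν h)^[a + 1] ((step ρ k)^[b] F) y
            + (1 - q) * (step ν h)^[a] ((step ρ k)^[b + 1] F) y := fun a b => by
        rw [hmix _ (hLip a b), step_iter_comm ok₀ ok₁ hh hk (lip_iter ok₁ hF b),
          Function.iterate_succ_apply', Function.iterate_succ_apply']
      simp only [e2, binom2, mul_add, Finset.sum_add_distrib]
      rw [Finset.sum_antidiagonal_choose_succ_mul (R := ℝ)
        (fun i j => q ^ i * (1 - q) ^ j * (step ν h)^[i] ((step ρ k)^[j] F) y) n |>.trans rfl |>
        (fun h => (Finset.sum_congr rfl fun p _ => by ring).trans h)]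
      rw [add_comm]
      congr 1 <;> refine Finset.sum_congr rfl fun p hp => ?_
      · rw [HasAntidiagonal.mem_antidiagonal] at hp
        ring
      · rw [HasAntidiagonal.mem_antidiagonal] at hp
        rw [show n.choose p.2 = n.choose p.1 by rw [← hp]; exact Nat.choose_symm_add.symm]
        ring
  have hg2 : Gr2 fun a b => (step ν h)^[a] ((step ρ k)^[b] F) x := by
    refine Gr2.of_linear (C := |F x| + size ν h + size ρ k) fun a b => ?_
    have h1 := abs_iter_le ok₀ (lip_iter ok₁ hF b) x a
    have h2 := abs_iter_le ok₁ hF x b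
    have h3 : 0 ≤ size ν h := size_nonneg
    have h4 : 0 ≤ size ρ k := size_nonneg
    have ha : (0 : ℝ) ≤ a := Nat.cast_nonneg a
    have hb : (0 : ℝ) ≤ b := Nat.cast_nonneg b
    have h5 := abs_nonneg (F x)
    nlinarith
  show pe t (fun n => (step μ g)^[n] F x) = _
  simp only [hbin]
  rw [pe_thinning hg2]
  show _ = pe (q * t) fun a => (step ν h)^[a] (cp ((1 - q) * t) ρ k F) x
  congr 1
  funext a
  exact (iter_pe ok₀ (lip_iter ok₁ hF) (gr_iter ok₁ hF) _ a x).symm

/-! ### Commutation with a map -/

variable {E' : Type*} [NormedAddCommGroup E'] {g' : A → E'}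

omit [MeasurableSpace E] [OpensMeasurableSpace E] in
/-- Jumps commute with an additive change of variables. -/
lemma iter_comp {T : E' → E} (hT : ∀ y a, T (y + g' a) = T y + g a) (F : E → ℝ) :
    ∀ (n : ℕ) (y : E'), (step μ g)^[n] F (T y) = (step μ g')^[n] (fun z => F (T z)) y
  | 0, _ => rfl
  | n + 1, y => by
    rw [Function.iterate_succ_apply', Function.iterate_succ_apply', step, step]
    refine integral_congr_ae (Filter.Eventually.of_forall fun a => ?_)
    simp only
    rw [← hT, iter_comp hT F n]

omit [MeasurableSpace E] [OpensMeasurableSpace E] in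
lemma cp_comp {T : E' → E} (hT : ∀ y a, T (y + g' a) = T y + g a) (F : E → ℝ) (t : ℝ) (y : E') :
    cp t μ g F (T y) = cp t μ g' (fun z => F (T z)) y :=
  tsum_congr fun n => by simp only [iter_comp hT F n]

end Vale.Agent.P168.Cav
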