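import Vale.Agent.P168.LowerDefs
import Vale.Agent.P168.CavStep

/-!
# P168, module C: the law of the random Hamiltonian as compound Poisson jumps
-/

namespace Vale.Agent.P168.Cav

open MeasureTheory Finset Function
open P168.Poisson

/-- Potentials on `N` spins. -/
abbrev V (N : ℕ) := (Fin N → Bool) → ℝ

/-- The largest absolute value of a clause. -/
noncomputable def mx {K : ℕ} (p : Param K) : ℝ :=
  univ.sup' univ_nonempty fun σ => |theta p σ|

/-- One clause at given positions. -/
noncomputable def contrib {K N : ℕ} (a : Param K × (Fin K → Fin N)) : V N := fun σ =>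
  theta a.1 fun j => σ (a.2 j)

/-- The field potential. -/
noncomputable def field {N : ℕ} (h : Fin N → ℝ) : V N := fun σ => ∑ v, h v * spin (σ v)

/-- Log of the partition sum. -/
noncomputable def lse {ι : Type} [Fintype ι] (u : ι → ℝ) : ℝ := Real.log (∑ a, Real.exp (u a))

lemma abs_theta_le {K : ℕ} (p : Param K) (σ : Fin K → Bool) : |theta p σ| ≤ mx p :=
  le_sup' (fun σ => |theta p σ|) (mem_univ σ)

lemma mx_nonneg {K : ℕ} (p : Param K) : 0 ≤ mx p :=
  (abs_nonneg _).trans (abs_theta_le p fun _ => true)

lemma norm_contrib_le {K N : ℕ} (a : Param K × (Fin K → Fin N)) : ‖contrib a‖ ≤ mx a.1 :=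
  (pi_norm_le_iff_of_nonneg (mx_nonneg _)).2 fun _ => abs_theta_le _ _

lemma abs_spin (s : Bool) : |spin s| = 1 := by cases s <;> simp [spin]

lemma norm_field_le {N : ℕ} (h : Fin N → ℝ) : ‖field h‖ ≤ ∑ v, |h v| :=
  (pi_norm_le_iff_of_nonneg (sum_nonneg fun _ _ => abs_nonneg _)).2 fun σ =>
    (abs_sum_le_sum_abs _ _).trans_eq (sum_congr rfl fun v _ => by simp [abs_mul, abs_spin])

lemma continuous_field (N : ℕ) : Continuous (field : (Fin N → ℝ) → V N) := by
  unfold field
  fun_prop

lemma ham_eq {K N k : ℕ} (θ : Fin k → Param K) (i : Fin k → Fin K → Fin N) (h : Fin N → ℝ) :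
    ham θ i h = field h + ∑ c, contrib (θ c, i c) := by
  funext σ
  simp only [ham, field, contrib, Pi.add_apply, Finset.sum_apply]
  ring

lemma measurable_theta {K : ℕ} (σ : Fin K → Bool) : Measurable fun p : Param K => theta p σ := by
  unfold theta
  have h1 : Measurable fun p : Param K => ∏ j, p.2 j (σ j) :=
    Finset.measurable_prod _ fun j _ =>
      (measurable_pi_apply (σ j)).comp ((measurable_pi_apply j).comp measurable_snd)
  exact (Real.measurable_log.comp measurable_fst.fst).add
    (Real.measurable_log.comp (measurable_const.add (measurable_fst.snd.mul h1)))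

lemma measurable_contrib {K N : ℕ} {I : Type} [Fintype I] [MeasurableSpace I]
    [MeasurableSingletonClass I] (ψ : I → Fin K → Fin N) :
    Measurable fun a : Param K × I => contrib (a.1, ψ a.2) :=
  measurable_from_prod_countable_left fun i =>
    measurable_pi_lambda _ fun σ => measurable_theta fun j => σ (ψ i j)

/-! ### Uniform laws -/

instance finLaw_prob (α : Type) [Fintype α] [MeasurableSpace α] [MeasurableSingletonClass α]
    [Nonempty α] : IsProbabilityMeasure (finLaw α) := by
  constructor
  rw [finLaw, Measure.smul_apply, Measure.count_univ]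
  simp [ENNReal.inv_mul_cancel]

lemma finLaw_singleton {α : Type} [Fintype α] [MeasurableSpace α] [MeasurableSingletonClass α]
    (a : α) : finLaw α {a} = (Fintype.card α : ENNReal)⁻¹ := by
  simp [finLaw]

lemma integral_fin {α : Type} [Fintype α] [MeasurableSpace α] [MeasurableSingletonClass α]
    (f : α → ℝ) : ∫ a, f a ∂finLaw α = avg f := by
  rw [finLaw, integral_smul_measure, integral_count]
  simp [avg, div_eq_inv_mul]

lemma pi_finLaw (α : Type) [Fintype α] [MeasurableSpace α] [MeasurableSingletonClass α]
    [Nonempty α] (k : ℕ) : Measure.pi (fun _ : Fin k => finLaw α) = finLaw (Fin k → α) := by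
  classical
  refine Measure.ext_of_singleton fun a => ?_
  rw [finLaw_singleton, ← Set.univ_pi_singleton, Measure.pi_pi]
  simp [finLaw_singleton, ENNReal.inv_pow]

lemma avg_congr {α : Type} [Fintype α] {f g : α → ℝ} (h : ∀ a, f a = g a) : avg f = avg g := by
  rw [funext h]

lemma avg_const_add {α : Type} [Fintype α] [Nonempty α] (c : ℝ) (f : α → ℝ) :
    avg (fun a => c + f a) = c + avg f := by
  have : (Fintype.card α : ℝ) ≠ 0 := by exact_mod_cast Fintype.card_ne_zero
  simp [avg, sum_add_distrib, add_div, this]

lemma avg_equiv {α β : Type} [Fintype α] [Fintype β] (e : α ≃ β) (f : β → ℝ) :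
    avg (fun a => f (e a)) = avg f := by
  rw [avg, avg, e.sum_comp, Fintype.card_congr e]

lemma avg_prod {α β : Type} [Fintype α] [Fintype β] (f : α × β → ℝ) :
    avg f = avg fun a => avg fun b => f (a, b) := by
  simp only [avg, Fintype.sum_prod_type, Fintype.card_prod, ← Finset.sum_div, div_div]
  push_cast
  ring

/-! ### Laws of the class -/

variable {M : Model}

/-- The mean of the largest absolute value of a clause. -/
noncomputable def L0 (M : Model) : ℝ := ∫ p, mx p ∂M.clauseLaw

lemma clause_prob (hM : M.Valid) : IsProbabilityMeasure M.clauseLaw := hM.clause_prob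

lemma integrable_mx (hM : M.Valid) : Integrable (fun p => mx p) M.clauseLaw := hM.theta_int

lemma L0_nonneg (M : Model) : 0 ≤ L0 M := integral_nonneg fun p => mx_nonneg p

/-- The parameters of a jump: a clause and a uniform index. -/
noncomputable def par (M : Model) (I : Type) [Fintype I] [MeasurableSpace I] :
    Measure (Param M.K × I) := M.clauseLaw.prod (finLaw I)

/-- The jump of a clause placed by `ψ`. -/
noncomputable def jmp {K N : ℕ} {I : Type} (ψ : I → Fin K → Fin N) (a : Param K × I) : V N :=
  contrib (a.1, ψ a.2)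

section jumps

variable {N : ℕ} {I : Type} [Fintype I] [Nonempty I] [MeasurableSpace I]
  [MeasurableSingletonClass I] {ψ : I → Fin M.K → Fin N}

lemma par_prob (hM : M.Valid) : IsProbabilityMeasure (par M I) := by
  have := clause_prob hM
  unfold par
  infer_instance

lemma ok_jmp (hM : M.Valid) : OK (par M I) (jmp ψ) := by
  have := clause_prob hM
  refine OK.of_measurable (par_prob hM) (measurable_contrib ψ) ?_
  refine ((integrable_mx hM).comp_fst (finLaw I)).mono' ?_
    (Filter.Eventually.of_forall fun a => ?_)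
  · exact (measurable_contrib ψ).norm.aestronglyMeasurable
  · rw [Real.norm_eq_abs, abs_norm]; exact norm_contrib_le _

lemma size_jmp_le (hM : M.Valid) : size (par M I) (jmp ψ) ≤ L0 M := by
  have := clause_prob hM
  calc size (par M I) (jmp ψ) ≤ ∫ a, mx a.1 ∂par M I :=
        integral_mono (ok_jmp hM).int ((integrable_mx hM).comp_fst (finLaw I))
          fun a => norm_contrib_le _
    _ = L0 M := by rw [par, integral_fun_fst]; simp [L0]

lemma step_jmp (hM : M.Valid) {F : V N → ℝ} (hF : Lip F) (x : V N) :
    step (par M I) (jmp ψ) F x = avg fun i => ∫ p, F (x + contrib (p, ψ i)) ∂M.clauseLaw := by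
  have := clause_prob hM
  have hi := (ok_jmp (ψ := ψ) hM).integrable hF x
  rw [par] at hi
  rw [step, par, integral_prod_symm _ hi, integral_fin]
  rfl

lemma iter_jmp (hM : M.Valid) {F : V N → ℝ} (hF : Lip F) (k : ℕ) (x : V N) :
    Integrable (fun θ : Fin k → Param M.K =>
        avg fun i : Fin k → I => F (x + ∑ c, contrib (θ c, ψ (i c))))
      (Measure.pi fun _ => M.clauseLaw) ∧
    (step (par M I) (jmp ψ))^[k] F x =
      ∫ θ, avg (fun i : Fin k → I => F (x + ∑ c, contrib (θ c, ψ (i c))))
        ∂Measure.pi fun _ : Fin k => M.clauseLaw := by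
  have := clause_prob hM
  have := par_prob (I := I) hM
  have he := measurePreserving_arrowProdEquivProdArrow (Param M.K) I (Fin k)
    (fun _ => M.clauseLaw) (fun _ => finLaw I)
  rw [pi_finLaw] at he
  set G : (Fin k → Param M.K × I) → ℝ := fun a => F (x + ∑ c, jmp ψ (a c)) with hG
  have hGi : Integrable G (Measure.pi fun _ => par M I) := by
    refine ((integrable_const (|F x|)).add (integrable_finsetSum univ fun c _ =>
      integrable_comp_eval (μ := fun _ : Fin k => par M I) (i := c)
        (ok_jmp (ψ := ψ) hM).int)).mono' ?_ (Filter.Eventually.of_forall fun a => ?_)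
    · exact (hF.measurable.comp (measurable_const.add (Finset.measurable_sum _ fun c _ =>
        (measurable_contrib ψ).comp (measurable_pi_apply c)))).aestronglyMeasurable
    · rw [Real.norm_eq_abs]
      have h1 := hF.bound x (∑ c, jmp ψ (a c))
      have h2 := norm_sum_le univ fun c => jmp ψ (a c)
      simp only [Pi.add_apply]
      exact h1.trans (add_le_add le_rfl h2)
  have hGi' : Integrable (G ∘ (MeasurableEquiv.arrowProdEquivProdArrow (Param M.K) I (Fin k)).symm)
      ((Measure.pi fun _ : Fin k => M.clauseLaw).prod (finLaw (Fin k → I))) :=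
    (he.symm.integrable_comp_emb (MeasurableEquiv.measurableEmbedding _)).2 hGi
  have hv : ∀ θ : Fin k → Param M.K,
      ∫ i, G ((MeasurableEquiv.arrowProdEquivProdArrow (Param M.K) I (Fin k)).symm (θ, i))
        ∂finLaw (Fin k → I) = avg fun i : Fin k → I => F (x + ∑ c, contrib (θ c, ψ (i c))) :=
    fun θ => by rw [integral_fin]; rfl
  constructor
  · exact hGi'.integral_prod_left.congr (Filter.Eventually.of_forall hv)
  · have e := iter_eq_integral (ok_jmp (ψ := ψ) hM) (measurable_contrib ψ) hF k x
    rw [e]
    show ∫ a, G a ∂(Measure.pi fun _ : Fin k => M.clauseLaw.prod (finLaw I)) = _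
    rw [← he.symm.integral_comp']
    refine (integral_prod _ hGi').trans ?_
    exact integral_congr_ae (Filter.Eventually.of_forall hv)

end jumps

/-! ### The law of the Hamiltonian -/

/-- The jump of one clause of `N` sites. -/
noncomputable abbrev jN (M : Model) (N : ℕ) : Param M.K × (Fin M.K → Fin N) → V N := jmp id

/-- The law of one jump of `N` sites. -/
noncomputable abbrev pN (M : Model) (N : ℕ) : Measure (Param M.K × (Fin M.K → Fin N)) :=
  par M (Fin M.K → Fin N)

lemma pois_eq_pw (μ : ℝ) (k : ℕ) : pois μ k = pw μ k := rfl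

lemma field_prob (hM : M.Valid) (N : ℕ) :
    IsProbabilityMeasure (Measure.pi fun _ : Fin N => M.hLaw) := by
  have := hM.h_prob
  infer_instance

/-- A function of linear growth of the fields is integrable. -/
lemma integrable_fields (hM : M.Valid) {N : ℕ} {f : (Fin N → ℝ) → ℝ} (hf : Continuous f) {a : ℝ}
    (hb : ∀ h, |f h| ≤ a + ∑ v, |h v|) : Integrable f (Measure.pi fun _ : Fin N => M.hLaw) := by
  have := hM.h_prob
  refine ((integrable_const a).add (integrable_finsetSum univ fun v _ =>
    integrable_comp_eval (μ := fun _ : Fin N => M.hLaw) (i := v) hM.h_int.abs)).mono'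
    hf.aestronglyMeasurable (Filter.Eventually.of_forall fun h => ?_)
  exact hb h

/-- The law of the clauses, positions and fields. -/
noncomputable def law (M : Model) (N k : ℕ) :
    Measure ((Fin k → Param M.K) × (Fin k → Fin M.K → Fin N) × (Fin N → ℝ)) :=
  (Measure.pi fun _ : Fin k => M.clauseLaw).prod
    ((finLaw (Fin k → Fin M.K → Fin N)).prod (Measure.pi fun _ : Fin N => M.hLaw))

/-- The Hamiltonian of given data. -/
noncomputable def hmap (K N k : ℕ)
    (q : (Fin k → Param K) × (Fin k → Fin K → Fin N) × (Fin N → ℝ)) : V N :=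
  ham q.1 q.2.1 q.2.2

lemma hamLaw_eq (M : Model) (μ : ℝ) (N : ℕ) :
    hamLaw M μ N = Measure.sum fun k : ℕ =>
      ENNReal.ofReal (pois μ k) • (law M N k).map (hmap M.K N k) := rfl

lemma law_prob (hM : M.Valid) (N k : ℕ) [NeZero N] : IsProbabilityMeasure (law M N k) := by
  have := clause_prob hM
  have := field_prob hM N
  unfold law
  infer_instance

lemma measurable_hmap {K N k : ℕ} : Measurable (hmap K N k) := by
  have h : hmap K N k = fun q => field q.2.2 + ∑ c, contrib (q.1 c, q.2.1 c) :=
    funext fun q => ham_eq _ _ _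
  rw [h]
  refine ((continuous_field N).measurable.comp measurable_snd.snd).add
    (Finset.measurable_sum _ fun c _ => ?_)
  have hc : Measurable fun q : (Fin k → Param K) × (Fin k → Fin K → Fin N) × (Fin N → ℝ) =>
      (q.1 c, q.2.1 c) :=
    ((measurable_pi_apply c).comp measurable_fst).prodMk
      ((measurable_pi_apply c).comp measurable_snd.fst)
  exact (measurable_contrib (fun i : Fin K → Fin N => i)).comp hc

lemma hamLaw_prob (hM : M.Valid) {μ : ℝ} (hμ : 0 ≤ μ) (N : ℕ) [NeZero N] :
    IsProbabilityMeasure (hamLaw M μ N) := by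
  constructor
  rw [hamLaw_eq, Measure.sum_apply _ MeasurableSet.univ]
  have e : ∀ k, (ENNReal.ofReal (pois μ k) • (law M N k).map (hmap M.K N k)) Set.univ
      = ENNReal.ofReal (pw μ k) := fun k => by
    have := law_prob hM N k
    have := Measure.isProbabilityMeasure_map (μ := law M N k) measurable_hmap.aemeasurable
    simp [pois_eq_pw]
  rw [tsum_congr e, ← ENNReal.ofReal_tsum_of_nonneg (pw_nonneg hμ) (summable_pw μ),
    (hasSum_pw μ).tsum_eq, ENNReal.ofReal_one]

lemma integrable_law (hM : M.Valid) {N : ℕ} [NeZero N] {G : V N → ℝ} (hG : Lip G) (k : ℕ) :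
    Integrable (fun q => G (hmap M.K N k q)) (law M N k) ∧
      ∫ q, |G (hmap M.K N k q)| ∂law M N k ≤ |G 0| + N * (∫ h, |h| ∂M.hLaw) + k * L0 M := by
  have := clause_prob hM
  have := hM.h_prob
  have := field_prob hM N
  have := law_prob hM N k
  have hb : ∀ q, |G (hmap M.K N k q)| ≤ |G 0| + (∑ v, |q.2.2 v|) + ∑ c, mx (q.1 c) := fun q => by
    have h1 := hG.bound 0 (hmap M.K N k q)
    rw [zero_add] at h1
    have h2 : ‖hmap M.K N k q‖ ≤ (∑ v, |q.2.2 v|) + ∑ c, mx (q.1 c) := by
      rw [hmap, ham_eq]
      exact (norm_add_le _ _).trans (add_le_add (norm_field_le _)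
        ((norm_sum_le _ _).trans (sum_le_sum fun c _ => norm_contrib_le _)))
    linarith
  have i1 : ∀ v : Fin N, Integrable (fun q => |q.2.2 v|) (law M N k) := fun v =>
    ((integrable_comp_eval (μ := fun _ : Fin N => M.hLaw) (i := v) hM.h_int.abs).comp_snd
      (finLaw (Fin k → Fin M.K → Fin N))).comp_snd _
  have i2 : ∀ c : Fin k, Integrable (fun q => mx (q.1 c)) (law M N k) := fun c =>
    (integrable_comp_eval (μ := fun _ : Fin k => M.clauseLaw) (i := c)
      (integrable_mx hM)).comp_fst _
  have hv : Integrable (fun q => |G 0| + (∑ v, |q.2.2 v|) + ∑ c, mx (q.1 c)) (law M N k) :=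
    ((integrable_const _).add (integrable_finsetSum _ fun v _ => i1 v)).add
      (integrable_finsetSum _ fun c _ => i2 c)
  have hi : Integrable (fun q => G (hmap M.K N k q)) (law M N k) :=
    hv.mono' (hG.measurable.comp measurable_hmap).aestronglyMeasurable
      (Filter.Eventually.of_forall hb)
  refine ⟨hi, (integral_mono hi.abs hv hb).trans_eq ?_⟩
  have e1 : ∀ v : Fin N, ∫ q, |q.2.2 v| ∂law M N k = ∫ h, |h| ∂M.hLaw := fun v => by
    rw [law, integral_fun_snd (fun z : (Fin k → Fin M.K → Fin N) × (Fin N → ℝ) => |z.2 v|),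
      integral_fun_snd (fun h : Fin N → ℝ => |h v|),
      integral_comp_eval (μ := fun _ : Fin N => M.hLaw) hM.h_int.abs.aestronglyMeasurable]
    simp
  have e2 : ∀ c : Fin k, ∫ q, mx (q.1 c) ∂law M N k = L0 M := fun c => by
    rw [law, integral_fun_fst (fun θ : Fin k → Param M.K => mx (θ c)),
      integral_comp_eval (μ := fun _ : Fin k => M.clauseLaw) (integrable_mx hM).aestronglyMeasurable]
    simp [L0]
  have s1 : Integrable (fun q => ∑ v, |q.2.2 v|) (law M N k) :=
    integrable_finsetSum _ fun v _ => i1 v
  have s2 : Integrable (fun q => ∑ c, mx (q.1 c)) (law M N k) :=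
    integrable_finsetSum _ fun c _ => i2 c
  have s3 : Integrable (fun q => |G 0| + ∑ v, |q.2.2 v|) (law M N k) :=
    (integrable_const _).add s1
  rw [integral_add s3 s2, integral_add (integrable_const _) s1,
    integral_finsetSum _ (fun v _ => i1 v), integral_finsetSum _ (fun c _ => i2 c)]
  simp [e1, e2]

/-- A `1`-Lipschitz observable of the random Hamiltonian. -/
lemma integrable_hamLaw (hM : M.Valid) {μ : ℝ} (hμ : 0 ≤ μ) {N : ℕ} [NeZero N] {G : V N → ℝ}
    (hG : Lip G) : Integrable G (hamLaw M μ N) := by
  rw [hamLaw_eq]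
  have hi : ∀ k, Integrable G ((law M N k).map (hmap M.K N k)) := fun k =>
    (integrable_map_measure hG.measurable.aestronglyMeasurable
      measurable_hmap.aemeasurable).2 (integrable_law hM hG k).1
  refine integrable_sum_measure (fun k => (hi k).smul_measure ENNReal.ofReal_ne_top) ?_
  have e : ∀ k, ∫ x, ‖G x‖ ∂(ENNReal.ofReal (pois μ k) • (law M N k).map (hmap M.K N k))
      = pw μ k * ∫ q, |G (hmap M.K N k q)| ∂law M N k := fun k => by
    rw [integral_smul_measure, integral_map measurable_hmap.aemeasurable
      hG.measurable.norm.aestronglyMeasurable, pois_eq_pw,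
      ENNReal.toReal_ofReal (pw_nonneg hμ k)]
    rfl
  refine (Summable.congr ?_ fun k => (e k).symm)
  refine summable_pw_mul (((Gr.const (|G 0| + N * ∫ h, |h| ∂M.hLaw)).add
    (Gr.natCast.smul (L0 M))).mono fun k => ?_) μ
  rw [abs_of_nonneg (integral_nonneg fun q => abs_nonneg _)]
  refine ((integrable_law hM hG k).2.trans_eq ?_).trans (le_abs_self _)
  ring

lemma integral_hamLaw_tsum (hM : M.Valid) {μ : ℝ} (hμ : 0 ≤ μ) {N : ℕ} [NeZero N] {G : V N → ℝ}
    (hG : Lip G) :
    ∫ H, G H ∂hamLaw M μ N = pe μ fun k =>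
      ∫ θ, avg (fun i : Fin k → Fin M.K → Fin N =>
          ∫ h, G (ham θ i h) ∂Measure.pi (fun _ : Fin N => M.hLaw))
        ∂Measure.pi fun _ : Fin k => M.clauseLaw := by
  have := clause_prob hM
  have := field_prob hM N
  have hi := integrable_hamLaw hM hμ hG
  rw [hamLaw_eq] at hi ⊢
  rw [integral_sum_measure hi, pe]
  refine tsum_congr fun k => ?_
  rw [integral_smul_measure, integral_map measurable_hmap.aemeasurable
    hG.measurable.aestronglyMeasurable, pois_eq_pw, ENNReal.toReal_ofReal (pw_nonneg hμ k),
    smul_eq_mul]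
  congr 1
  have h1 := (integrable_law hM hG k).1
  rw [law] at h1 ⊢
  rw [integral_prod _ h1]
  refine integral_congr_ae ?_
  filter_upwards [h1.prod_right_ae] with θ hθ
  rw [integral_prod _ hθ, integral_fin]
  rfl

/-- The clauses first, then the fields. -/
theorem integral_hamLaw (hM : M.Valid) {μ : ℝ} (hμ : 0 ≤ μ) {N : ℕ} [NeZero N] {G : V N → ℝ}
    (hG : Lip G) :
    ∫ H, G H ∂hamLaw M μ N =
      ∫ h, cp μ (pN M N) (jN M N) G (field h) ∂Measure.pi fun _ : Fin N => M.hLaw := by
  have := clause_prob hM
  have := hM.h_prob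
  have := field_prob hM N
  have ok := ok_jmp (N := N) (ψ := (id : (Fin M.K → Fin N) → _)) hM
  have hb : ∀ (f : V N → ℝ), Lip f → Integrable (fun h => f (field h))
      (Measure.pi fun _ : Fin N => M.hLaw) := fun f hf =>
    integrable_fields hM (hf.continuous.comp (continuous_field N)) (a := |f 0|) fun h => by
      have h1 := hf.bound 0 (field h)
      rw [zero_add] at h1
      exact h1.trans (add_le_add le_rfl (norm_field_le h))
  have hgr : Gr fun k => ∫ h, |(step (pN M N) (jN M N))^[k] G (field h)|
      ∂Measure.pi (fun _ : Fin N => M.hLaw) := by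
    refine ((Gr.const (|G 0| + ∫ h : Fin N → ℝ, ∑ v, |h v|
      ∂Measure.pi fun _ : Fin N => M.hLaw)).add
      (Gr.natCast.smul (L0 M))).mono fun k => ?_
    rw [abs_of_nonneg (integral_nonneg fun q => abs_nonneg _)]
    refine le_trans ?_ (le_abs_self _)
    have hs : Integrable (fun h : Fin N → ℝ => ∑ v, |h v|)
        (Measure.pi fun _ : Fin N => M.hLaw) := by
      have := hM.h_prob
      exact integrable_finsetSum _ fun v _ =>
        integrable_comp_eval (μ := fun _ : Fin N => M.hLaw) (i := v) hM.h_int.abs
    calc ∫ h, |(step (pN M N) (jN M N))^[k] G (field h)| ∂Measure.pi (fun _ : Fin N => M.hLaw)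
        ≤ ∫ h, (|G 0| + k * L0 M) + ∑ v, |h v| ∂Measure.pi (fun _ : Fin N => M.hLaw) :=
          integral_mono (hb _ (lip_iter ok hG k)).abs ((integrable_const _).add hs) fun h => by
            have h1 := abs_iter_le ok hG (field h) k
            have h2 := hG.bound 0 (field h)
            rw [zero_add] at h2
            have h3 := norm_field_le h
            have h4 : (k : ℝ) * size (pN M N) (jN M N) ≤ k * L0 M :=
              mul_le_mul_of_nonneg_left (size_jmp_le hM) (Nat.cast_nonneg k)
            simp only
            linarith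
      _ = _ := by rw [integral_add (integrable_const _) hs]; simp; ring
  rw [integral_hamLaw_tsum hM hμ hG]
  unfold cp
  rw [integral_pe _ μ (fun k => hb _ (lip_iter ok hG k)) hgr]
  congr 1
  funext k
  simp only [(iter_jmp (ψ := (id : (Fin M.K → Fin N) → _)) hM hG k _).2, id_eq, ← ham_eq]
  -- swap the fields and the clauses
  have hsw : Integrable
      (Function.uncurry fun (h : Fin N → ℝ) (θ : Fin k → Param M.K) =>
        avg fun i : Fin k → Fin M.K → Fin N => G (ham θ i h))
      ((Measure.pi fun _ : Fin N => M.hLaw).prod (Measure.pi fun _ : Fin k => M.clauseLaw)) := by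
    show Integrable (fun p : (Fin N → ℝ) × (Fin k → Param M.K) =>
      (∑ i : Fin k → Fin M.K → Fin N, G (ham p.2 i p.1)) / _) _
    refine Integrable.div_const (integrable_finsetSum _ fun i _ => ?_) _
    refine (((integrable_const (|G 0|)).add ((integrable_finsetSum (univ : Finset (Fin N))
      (f := fun v p => |p.1 v|) fun v _ => ?_))).add
      (integrable_finsetSum (univ : Finset (Fin k)) (f := fun c p => mx (p.2 c))
        fun c _ => ?_)).mono' ?_ (Filter.Eventually.of_forall fun p => ?_)
    · exact (integrable_comp_eval (μ := fun _ : Fin N => M.hLaw) (i := v)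
        hM.h_int.abs).comp_fst _
    · exact (integrable_comp_eval (μ := fun _ : Fin k => M.clauseLaw) (i := c)
        (integrable_mx hM)).comp_snd _
    · exact (hG.measurable.comp (measurable_hmap.comp
        (measurable_snd.prodMk ((measurable_const (a := i)).prodMk measurable_fst)))
        ).aestronglyMeasurable
    · rw [Real.norm_eq_abs, ham_eq]
      have h1 := hG.bound 0 (field p.1 + ∑ c, contrib (p.2 c, i c))
      rw [zero_add] at h1
      have h2 := norm_add_le (field p.1) (∑ c, contrib (p.2 c, i c))
      have h3 := norm_field_le p.1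
      have h4 : ‖∑ c, contrib (p.2 c, i c)‖ ≤ ∑ c, mx (p.2 c) :=
        (norm_sum_le _ _).trans (sum_le_sum fun c _ => norm_contrib_le _)
      simp only [Pi.add_apply]
      linarith
  rw [integral_integral_swap hsw]
  refine integral_congr_ae (Filter.Eventually.of_forall fun θ => ?_)
  have hi : ∀ i, Integrable (fun h => G (ham θ i h)) (Measure.pi fun _ : Fin N => M.hLaw) :=
    fun i => by
      simp only [ham_eq]
      exact hb _ (hG.shift _)
  simp only [avg]
  rw [integral_div, integral_finsetSum _ fun i _ => hi i]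

end Vale.Agent.P168.Cav
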