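import Vale.Agent.P168.Coef
import Vale.Agent.P168.Nest

/-!
Random trees of replicas, their moments, and the expansion of the increment of a nested system.
-/

set_option linter.unusedVariables false

namespace Vale.Agent.P168

open MeasureTheory Finset Function

variable {Ω : Type} [MeasurableSpace Ω] {S : Sys Ω}

lemma coef_eq (a : ℝ) : ∀ k, coef a k = Vale.P168.coef a k
  | 0 => rfl
  | k + 1 => by
    have e : (Nat.factorial k : ℝ) = ∏ i ∈ range k, ((i : ℝ) + 1) := by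
      rw [← prod_range_add_one_eq_factorial]; push_cast; rfl
    have h : Vale.P168.coefTail a k = (∏ i ∈ range k, ((i : ℝ) + 1 - a)) / (Nat.factorial k : ℝ) := by
      rw [e, ← prod_div_distrib]
      refine prod_congr rfl fun i _ => ?_
      rw [sub_div, div_self (by positivity)]
    rw [Vale.P168.coef_succ, h, div_mul_div_comm]
    simp only [coef, Nat.factorial_succ, Nat.cast_mul, Nat.cast_add, Nat.cast_one]

theorem coef_zero (a : ℝ) : coef a 0 = 0 := rfl

theorem coef_one (a : ℝ) : coef a 1 = a := by rw [coef_eq, Vale.P168.coef_one]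

theorem coef_two (a : ℝ) : coef a 2 = a * (1 - a) / 2 := by rw [coef_eq, Vale.P168.coef_two]

theorem coef_nonneg {a : ℝ} (h0 : 0 ≤ a) (h1 : a ≤ 1) (k : ℕ) : 0 ≤ coef a k :=
  coef_eq a k ▸ Vale.P168.coef_nonneg h0 h1 k

theorem coef_le {a : ℝ} (h0 : 0 ≤ a) (h1 : a ≤ 1) (k : ℕ) : coef a k ≤ a :=
  coef_eq a k ▸ Vale.P168.coef_le h0 h1 k

/-- The series of `1 - (1 - y) ^ a`. -/
theorem hasSum_coef {a y : ℝ} (_h0 : 0 < a) (_h1 : a ≤ 1) (hy : |y| < 1) :
    HasSum (fun k => coef a k * y ^ k) (1 - (1 - y) ^ a) :=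
  (Vale.P168.hasSum_coef a hy).congr_fun fun k => by rw [coef_eq]

instance Tree.countable : (d : ℕ) → Countable (Tree d)
  | 0 => inferInstanceAs (Countable Unit)
  | d + 1 =>
    have : Countable (Tree d) := Tree.countable d
    inferInstanceAs (Countable (Σ k : ℕ, Fin (k + 1) → Tree d))

/-- The sum over all tuples of a product is the power of the sum. -/
lemma hasSum_tuple_prod {β : Type} {f : β → ℝ} (hf : Summable fun b => |f b|) :
    ∀ n : ℕ, (Summable fun c : Fin n → β => |∏ i, f (c i)|) ∧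
      HasSum (fun c : Fin n → β => ∏ i, f (c i)) ((∑' b, f b) ^ n) := by
  intro n
  induction n with
  | zero =>
    refine ⟨Summable.of_finite, ?_⟩
    simp
  | succ n ih =>
    have h1 : Summable fun p : β × (Fin n → β) => |f p.1 * ∏ i, f (p.2 i)| := by
      simp only [abs_mul]
      exact hf.mul_of_nonneg ih.1 (fun _ => abs_nonneg _) fun _ => abs_nonneg _
    have h2 := (Summable.of_abs hf).hasSum.mul ih.2 (Summable.of_abs h1)
    have e : (fun p : β × (Fin n → β) => f p.1 * ∏ i, f (p.2 i)) =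
        (fun c : Fin (n + 1) → β => ∏ i, f (c i)) ∘ Fin.consEquiv (fun _ => β) := by
      funext p
      simp [Fin.prod_univ_succ, Fin.consEquiv]
    refine ⟨(Fin.consEquiv fun _ => β).summable_iff.1 ?_, ?_⟩
    · exact (h1.congr fun p => congrArg abs (congrFun e p))
    · rw [pow_succ']
      exact (Fin.consEquiv fun _ => β).hasSum_iff.1 (e ▸ h2)

lemma Tree.size_zero (T : Tree 0) : T.size = 1 := Fintype.card_unit

lemma Tree.size_succ {d : ℕ} (T : Tree (d + 1)) : T.size = ∑ c, (T.2 c).size :=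
  Fintype.card_sigma

lemma Sys.Good.expo (hS : S.Good) : Expo S.R S.x := ⟨hS.x_pos, hS.x_mono, hS.x_last⟩

variable {R : ℕ} {ξ : ℕ → ℝ}

lemma Expo.le_one (hξ : Expo R ξ) : ∀ {d l : ℕ}, 1 ≤ l → l + d = R → ξ l ≤ 1 := by
  intro d
  induction d with
  | zero => intro l _ h; rw [show l = R by omega, hξ.last]
  | succ d ih =>
    intro l h1 h
    exact (hξ.mono l h1 (by omega)).trans (ih (by omega) (by omega))

lemma Expo.ratio_mem (hξ : Expo R ξ) {l : ℕ} (h1 : 1 ≤ l) (hl : l < R) :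
    0 < ξ l / ξ (l + 1) ∧ ξ l / ξ (l + 1) ≤ 1 := by
  have h := hξ.pos (l + 1) (by omega) (by omega)
  exact ⟨div_pos (hξ.pos l h1 (by omega)) h, (div_le_one h).2 (hξ.mono l h1 hl)⟩

theorem Expo.weight_nonneg (hξ : Expo R ξ) {d l : ℕ} (h1 : 1 ≤ l) (hd : l + d = R) (T : Tree d) :
    0 ≤ Tree.weight ξ d l T := by
  induction d generalizing l with
  | zero => exact zero_le_one
  | succ d ih =>
    have h := hξ.ratio_mem h1 (show l < R by omega)
    exact mul_nonneg (coef_nonneg h.1.le h.2 _)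
      (prod_nonneg fun c _ => ih (by omega) (by omega) _)

/-- Summing a product over the children of a node. -/
lemma hasSum_node {d : ℕ} {g : Tree d → ℝ} (hg : Summable fun T => |g T|) {b : ℕ → ℝ} {L : ℝ}
    (hb : HasSum (fun k => b k * (∑' T, g T) ^ (k + 1)) L)
    (hs : Summable fun T : Tree (d + 1) => b T.1 * ∏ c, g (T.2 c)) :
    HasSum (fun T : Tree (d + 1) => b T.1 * ∏ c, g (T.2 c)) L := by
  have hs' : Summable fun s : Σ k : ℕ, Fin (k + 1) → Tree d => b s.1 * ∏ c, g (s.2 c) := hs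
  have h3 := hs'.hasSum.sigma fun k => ((hasSum_tuple_prod hg (k + 1)).2.mul_left (b k))
  have h4 := hs'.hasSum
  rw [h3.unique hb] at h4
  exact h4

lemma summable_node {β : Type} {g : β → ℝ} (hg0 : ∀ T, 0 ≤ g T) (hg : Summable g) {b : ℕ → ℝ}
    (hb0 : ∀ k, 0 ≤ b k) (hb : Summable fun k => b k * (∑' T, g T) ^ (k + 1)) :
    Summable fun s : Σ k : ℕ, Fin (k + 1) → β => b s.1 * ∏ c, g (s.2 c) := by
  have hn : ∀ s : Σ k : ℕ, Fin (k + 1) → β, 0 ≤ b s.1 * ∏ c, g (s.2 c) :=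
    fun s => mul_nonneg (hb0 _) (prod_nonneg fun c _ => hg0 _)
  have h3 : ∀ k : ℕ, HasSum (fun c : Fin (k + 1) → β => b k * ∏ i, g (c i))
      (b k * (∑' T, g T) ^ (k + 1)) := fun k =>
    ((hasSum_tuple_prod hg.abs (k + 1)).2).mul_left (b k)
  rw [summable_sigma_of_nonneg hn]
  refine ⟨fun k => ?_, ?_⟩
  · exact (h3 k).summable
  · simp_rw [(h3 _).tsum_eq]
    exact hb

lemma hasSum_coef_succ {a q : ℝ} (h0 : 0 < a) (h1 : a ≤ 1) (hq : |q| < 1) :
    HasSum (fun k => coef a (k + 1) * q ^ (k + 1)) (1 - (1 - q) ^ a) := by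
  refine (hasSum_nat_add_iff (f := fun k => coef a k * q ^ k) 1).2 ?_
  simpa [coef] using hasSum_coef h0 h1 hq

theorem Expo.hasSum_weight_pow (hξ : Expo R ξ) {d l : ℕ} (h1 : 1 ≤ l) (hd : l + d = R) {ρ : ℝ}
    (hρ : 0 ≤ ρ) (hρ1 : ρ < 1) :
    HasSum (fun T : Tree d => Tree.weight ξ d l T * ρ ^ T.size) (1 - (1 - ρ) ^ ξ l) := by
  induction d generalizing l with
  | zero =>
    have hl : l = R := by omega
    rw [hl, hξ.last, Real.rpow_one, sub_sub_cancel]
    have e : (fun T : Tree 0 => Tree.weight ξ 0 R T * ρ ^ T.size) = fun _ => ρ := by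
      funext T; rw [Tree.size_zero, pow_one]; simp [Tree.weight]
    rw [e]
    exact hasSum_unique (α := ℝ) (β := Unit) fun _ => ρ
  | succ d ih =>
    have hx := hξ.pos (l + 1) (by omega) (by omega)
    have hb := hξ.ratio_mem h1 (show l < R by omega)
    have hi := ih (show 1 ≤ l + 1 by omega) (show l + 1 + d = R by omega)
    set g := fun T : Tree d => Tree.weight ξ d (l + 1) T * ρ ^ T.size
    have hg0 : ∀ T, 0 ≤ g T := fun T =>
      mul_nonneg (Expo.weight_nonneg hξ (by omega) (by omega) T) (pow_nonneg hρ _)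
    have hga : Summable fun T => |g T| := hi.summable.abs
    have e : ∀ T : Tree (d + 1), Tree.weight ξ (d + 1) l T * ρ ^ T.size =
        coef (ξ l / ξ (l + 1)) (T.1 + 1) * ∏ c, g (T.2 c) := fun T => by
      simp only [g, Tree.weight, Tree.size_succ, ← prod_pow_eq_pow_sum, prod_mul_distrib, mul_assoc]
    have hp : 0 < (1 - ρ) ^ ξ (l + 1) := Real.rpow_pos_of_pos (by linarith) _
    have hp1 : (1 - ρ) ^ ξ (l + 1) ≤ 1 := Real.rpow_le_one (by linarith) (by linarith) hx.le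
    have hq : |∑' T, g T| < 1 := by
      rw [hi.tsum_eq, abs_lt]; constructor <;> linarith
    have hc := hasSum_coef_succ hb.1 hb.2 hq
    have hmain := hasSum_node (b := fun k => coef (ξ l / ξ (l + 1)) (k + 1)) hga hc
      (summable_node (β := Tree d) hg0 hi.summable (fun k => coef_nonneg hb.1.le hb.2 _) hc.summable)
    rw [hi.tsum_eq, sub_sub_cancel, ← Real.rpow_mul (by linarith), mul_comm,
      div_mul_cancel₀ _ hx.ne'] at hmain
    exact hmain.congr_fun e

/-- The sums over the trees with `n` leaves are the coefficients of `1 - (1 - ρ) ^ x l`. -/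
lemma Expo.hasSum_size_fiber (hξ : Expo R ξ) {d l : ℕ} (h1 : 1 ≤ l) (hd : l + d = R) (n : ℕ) {ρ : ℝ}
    (hρ : 0 ≤ ρ) (hρ1 : ρ < 1) :
    HasSum (fun k => (∑' T : Tree d, if T.size = k + n then Tree.weight ξ d l T else 0) *
        ρ ^ (k + n))
      (∑' T : Tree d, if n ≤ T.size then Tree.weight ξ d l T * ρ ^ T.size else 0) := by
  set W := fun T : Tree d => if n ≤ T.size then Tree.weight ξ d l T * ρ ^ T.size else 0
  have hW : Summable W := by
    refine Summable.of_nonneg_of_le (fun T => ?_) (fun T => ?_)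
      (Expo.hasSum_weight_pow hξ h1 hd hρ hρ1).summable
    all_goals
      have := mul_nonneg (Expo.weight_nonneg hξ h1 hd T) (pow_nonneg hρ T.size)
      simp only [W]; split_ifs <;> linarith
  set G := fun p : ℕ × Tree d =>
    if p.2.size = p.1 + n then Tree.weight ξ d l p.2 * ρ ^ (p.1 + n) else 0
  have hi : Injective fun T : Tree d => (T.size - n, T) := fun a b h => (Prod.ext_iff.1 h).2
  have hG : HasSum G (∑' T, W T) := by
    refine (hi.hasSum_iff ?_).1 ?_
    · rintro ⟨k, T⟩ hk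
      refine if_neg fun h => hk ⟨T, ?_⟩
      simp only at h ⊢
      rw [h, Nat.add_sub_cancel]
    · refine hW.hasSum.congr_fun fun T => ?_
      simp only [Function.comp_apply, G, W]
      by_cases h : n ≤ T.size
      · rw [if_pos (show T.size = T.size - n + n by omega), if_pos h,
          show T.size - n + n = T.size by omega]
      · rw [if_neg (show ¬ T.size = T.size - n + n by omega), if_neg h]
  refine hG.prod_fiberwise fun k => ?_
  have e : (fun T : Tree d => G (k, T)) = fun T =>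
      (if T.size = k + n then Tree.weight ξ d l T else 0) * ρ ^ (k + n) := by
    funext T; simp only [G]; split_ifs <;> simp
  have hs : Summable fun T : Tree d => G (k, T) := hG.summable.prod_factor k
  rw [← tsum_mul_right, ← e]
  exact hs.hasSum

/-- A power series vanishing on `[0, 1)` has zero coefficients. -/
lemma eq_zero_of_powerSeries {c : ℕ → ℝ}
    (h : ∀ ρ : ℝ, 0 ≤ ρ → ρ < 1 → HasSum (fun k => c k * ρ ^ k) 0) (n : ℕ) : c n = 0 := by
  induction n using Nat.strong_induction_on with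
  | _ n ih =>
    have hh := (h (1 / 2) (by norm_num) (by norm_num)).summable
    have hh' : Summable fun k => |c (k + (n + 1))| * (1 / 2 : ℝ) ^ k := by
      have h2 := ((summable_nat_add_iff (f := fun k => c k * (1 / 2 : ℝ) ^ k) (n + 1)).2 hh).abs
      refine (h2.mul_left ((2 : ℝ) ^ (n + 1))).congr fun k => ?_
      have e : (2 : ℝ) ^ (n + 1) * (1 / 2) ^ (n + 1) = 1 := by rw [← mul_pow]; norm_num
      rw [abs_mul, abs_pow, abs_of_nonneg (by norm_num : (0 : ℝ) ≤ 1 / 2), pow_add _ k (n + 1)]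
      linear_combination |c (k + (n + 1))| * (1 / 2 : ℝ) ^ k * e
    set C := ∑' k, |c (k + (n + 1))| * (1 / 2 : ℝ) ^ k
    have key : ∀ ρ : ℝ, 0 < ρ → ρ ≤ 1 / 2 → |c n| ≤ C * ρ := by
      intro ρ h0 h2
      have h3 := (hasSum_nat_add_iff' (f := fun k => c k * ρ ^ k) (n + 1)).2
        (h ρ h0.le (by linarith))
      rw [sum_range_succ, sum_eq_zero fun k hk => by simp [ih k (mem_range.1 hk)]] at h3
      have h4 := (h3.div_const (ρ ^ n)).mul_left (-1 : ℝ)
      have h5 : HasSum (fun k => -(c (k + (n + 1)) * ρ ^ k * ρ)) (c n) := by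
        have hn : ρ ^ n ≠ 0 := by positivity
        have e1 : c n = -1 * ((0 - (0 + c n * ρ ^ n)) / ρ ^ n) := by field_simp; ring
        rw [e1]
        refine h4.congr_fun fun k => ?_
        rw [pow_add, pow_succ]
        field_simp
      have h6 : Summable fun k => |c (k + (n + 1))| * ρ ^ k * ρ := by
        refine (Summable.of_nonneg_of_le (fun k => by positivity) (fun k => ?_) hh').mul_right ρ
        gcongr
      have h7 := norm_tsum_le_tsum_norm (f := fun k => -(c (k + (n + 1)) * ρ ^ k * ρ))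
        (by simpa [abs_mul, abs_of_pos h0] using h6)
      rw [h5.tsum_eq] at h7
      simp only [Real.norm_eq_abs, abs_neg, abs_mul, abs_pow, abs_of_pos h0] at h7
      refine h7.trans ?_
      rw [tsum_mul_right]
      refine mul_le_mul_of_nonneg_right (Summable.tsum_le_tsum (fun k => ?_) ?_ hh') h0.le
      · gcongr
      · exact Summable.of_nonneg_of_le (fun k => by positivity) (fun k => by gcongr) hh'
    by_contra hne
    have hC : 0 ≤ C := tsum_nonneg fun k => by positivity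
    have hp : 0 < |c n| := abs_pos.2 hne
    set ρ₀ := min (1 / 2) (|c n| / (2 * (C + 1)))
    have h8 := key ρ₀ (lt_min (by norm_num) (by positivity)) (min_le_left _ _)
    have h9 : C * ρ₀ ≤ C * (|c n| / (2 * (C + 1))) :=
      mul_le_mul_of_nonneg_left (min_le_right _ _) hC
    have h10 : C * (|c n| / (2 * (C + 1))) ≤ |c n| / 2 := by
      rw [mul_div_assoc', div_le_div_iff₀ (by positivity) (by norm_num)]
      nlinarith
    linarith

theorem Expo.weight_size_le (hξ : Expo R ξ) {d l : ℕ} (h1 : 1 ≤ l) (hd : l + d = R) (n : ℕ) :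
    Summable (fun T : Tree d => if T.size = n then Tree.weight ξ d l T else 0) ∧
      ∑' T : Tree d, (if T.size = n then Tree.weight ξ d l T else 0) = coef (ξ l) n := by
  refine ⟨?_, ?_⟩
  · refine Summable.of_nonneg_of_le (fun T => ?_) (fun T => ?_)
      ((Expo.hasSum_weight_pow hξ h1 hd (ρ := 1 / 2) (by norm_num) (by norm_num)).summable.mul_left
        ((2 : ℝ) ^ n))
    · split_ifs
      exacts [Expo.weight_nonneg hξ h1 hd T, le_rfl]
    · have := Expo.weight_nonneg hξ h1 hd T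
      split_ifs with h
      · rw [h, mul_left_comm, ← mul_pow]; norm_num
      · positivity
  · have h : ∀ ρ : ℝ, 0 ≤ ρ → ρ < 1 → HasSum (fun k =>
        ((∑' T : Tree d, if T.size = k then Tree.weight ξ d l T else 0) - coef (ξ l) k) *
          ρ ^ k) 0 := by
      intro ρ h0 h2
      have a := Expo.hasSum_size_fiber hξ h1 hd 0 h0 h2
      simp only [Nat.add_zero, Nat.zero_le, if_true,
        (Expo.hasSum_weight_pow hξ h1 hd h0 h2).tsum_eq] at a
      have b := a.sub (hasSum_coef (hξ.pos l h1 (by omega)) (hξ.le_one h1 hd)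
        (show |ρ| < 1 by rwa [abs_of_nonneg h0]))
      simpa [sub_mul] using b
    exact sub_eq_zero.1 (eq_zero_of_powerSeries h n)

theorem Expo.weight_size_tail (hξ : Expo R ξ) {d l : ℕ} (h1 : 1 ≤ l) (hd : l + d = R) {ρ : ℝ}
    (hρ : 0 ≤ ρ) (hρ1 : ρ < 1) (n : ℕ) :
    ∑' T : Tree d, (if n < T.size then Tree.weight ξ d l T * ρ ^ T.size else 0) ≤
      ξ l * ρ ^ (n + 1) / (1 - ρ) := by
  have a := Expo.hasSum_size_fiber hξ h1 hd (n + 1) hρ hρ1
  have b := (hasSum_geometric_of_lt_one hρ hρ1).mul_left (ξ l * ρ ^ (n + 1))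
  refine (hasSum_le (fun k => ?_) a b).trans_eq (div_eq_mul_inv _ _).symm
  rw [(Expo.weight_size_le hξ h1 hd (k + (n + 1))).2, mul_assoc (ξ l), ← pow_add, add_comm (n + 1)]
  exact mul_le_mul_of_nonneg_right
    (coef_le (hξ.pos l h1 (by omega)).le (hξ.le_one h1 hd) _)
    (pow_nonneg hρ _)

theorem Sys.weight_nonneg (hS : S.Good) {d l : ℕ} (h1 : 1 ≤ l) (hd : l + d = S.R) (T : Tree d) :
    0 ≤ Tree.weight S.x d l T := hS.expo.weight_nonneg h1 hd T

theorem Sys.hasSum_weight_pow (hS : S.Good) {d l : ℕ} (h1 : 1 ≤ l) (hd : l + d = S.R) {ρ : ℝ}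
    (hρ : 0 ≤ ρ) (hρ1 : ρ < 1) :
    HasSum (fun T : Tree d => Tree.weight S.x d l T * ρ ^ T.size) (1 - (1 - ρ) ^ S.x l) :=
  hS.expo.hasSum_weight_pow h1 hd hρ hρ1

theorem Sys.weight_size_le (hS : S.Good) {d l : ℕ} (h1 : 1 ≤ l) (hd : l + d = S.R) (n : ℕ) :
    Summable (fun T : Tree d => if T.size = n then Tree.weight S.x d l T else 0) ∧
      ∑' T : Tree d, (if T.size = n then Tree.weight S.x d l T else 0) = coef (S.x l) n :=
  hS.expo.weight_size_le h1 hd n

theorem Sys.weight_size_tail (hS : S.Good) {d l : ℕ} (h1 : 1 ≤ l) (hd : l + d = S.R) {ρ : ℝ}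
    (hρ : 0 ≤ ρ) (hρ1 : ρ < 1) (n : ℕ) :
    ∑' T : Tree d, (if n < T.size then Tree.weight S.x d l T * ρ ^ T.size else 0) ≤
      S.x l * ρ ^ (n + 1) / (1 - ρ) :=
  hS.expo.weight_size_tail h1 hd hρ hρ1 n

/-! Moments -/

theorem Sys.mom_bdd (hS : S.Good) {d l : ℕ} (T : Tree d) {g : Leaves d T → (ℕ → Ω) → ℝ}
    (hg : ∀ v, Bdd (g v)) : Bdd (S.mom d l T g) := by
  induction d generalizing l with
  | zero => exact hg ()
  | succ d ih => exact Bdd.prod _ fun c => Sys.A_bdd hS (ih _ fun v => hg ⟨c, v⟩) l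

theorem Sys.mom_abs_le (hS : S.Good) {d l : ℕ} (T : Tree d) {g : Leaves d T → (ℕ → Ω) → ℝ}
    (hg : ∀ v, Bdd (g v)) {B : Leaves d T → ℝ} (hB : ∀ v ω, |g v ω| ≤ B v) (ω : ℕ → Ω) :
    |S.mom d l T g ω| ≤ ∏ v, B v := by
  induction d generalizing l ω with
  | zero =>
    have : Unique (Leaves 0 T) := inferInstanceAs (Unique Unit)
    rw [Fintype.prod_unique]
    exact hB _ ω
  | succ d ih =>
    simp only [Sys.mom, abs_prod]
    refine (prod_le_prod (fun c _ => abs_nonneg _) fun c _ =>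
      Sys.A_abs_le hS.reg (Sys.mom_bdd hS _ fun v => hg ⟨c, v⟩)
        (fun v => ih (T.2 c) (fun v => hg ⟨c, v⟩) (fun v => hB ⟨c, v⟩) v) l ω).trans_eq ?_
    exact (Fintype.prod_sigma B).symm

lemma update_sigma {α M : Type} {β : α → Type} [DecidableEq α] [∀ a, DecidableEq (β a)]
    [DecidableEq (Σ a, β a)] (g : (Σ a, β a) → M) (k : α) (v : β k) (h : M) (j : α) :
    (fun w => update g ⟨k, v⟩ h ⟨j, w⟩) =
      update (fun j w => g ⟨j, w⟩) k (update (fun w => g ⟨k, w⟩) v h) j := by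
  funext w
  by_cases hj : j = k
  · subst hj
    by_cases hw : w = v
    · subst hw; simp
    · simp [update_of_ne hw, show (⟨j, w⟩ : Σ a, β a) ≠ ⟨j, v⟩ by simpa using hw]
  · simp [update_of_ne hj, show (⟨j, w⟩ : Σ a, β a) ≠ ⟨k, v⟩ by simp [hj]]

theorem Sys.mom_update_add (hS : S.Good) {d l : ℕ} (T : Tree d) {g : Leaves d T → (ℕ → Ω) → ℝ}
    (hg : ∀ v, Bdd (g v)) (v : Leaves d T) {f f' : (ℕ → Ω) → ℝ} (hf : Bdd f) (hf' : Bdd f')
    (c c' : ℝ) (ω : ℕ → Ω) :
    S.mom d l T (update g v fun p => c * f p + c' * f' p) ω =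
      c * S.mom d l T (update g v f) ω + c' * S.mom d l T (update g v f') ω := by
  induction d generalizing l ω with
  | zero =>
    have : ∀ h : (ℕ → Ω) → ℝ, S.mom 0 l T (update g v h) ω = h ω := fun h => by
      show update g v h () ω = h ω
      cases v
      exact congrFun (update_self (β := fun _ : Leaves 0 T => (ℕ → Ω) → ℝ) () h g) ω
    simp only [this]
  | succ d ih =>
    obtain ⟨k, v⟩ := v
    have e : ∀ (h : (ℕ → Ω) → ℝ) (j : Fin (T.1 + 1)), (fun w => update g ⟨k, v⟩ h ⟨j, w⟩) =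
        update (fun j w => g ⟨j, w⟩) k (update (fun w => g ⟨k, w⟩) v h) j := fun h j => by
      let _ : DecidableEq (Σ c : Fin (T.1 + 1), Leaves d (T.2 c)) := Leaves.decEq (d + 1) T
      exact update_sigma (β := fun c => Leaves d (T.2 c)) g k v h j
    have hb : ∀ h : (ℕ → Ω) → ℝ, Bdd h → ∀ w, Bdd (update (fun w => g ⟨k, w⟩) v h w) :=
      fun h hh w => by
        by_cases hw : w = v
        · subst hw; rw [update_self]; exact hh
        · rw [update_of_ne hw]; exact hg ⟨k, w⟩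
    have hm : ∀ h : (ℕ → Ω) → ℝ, S.mom (d + 1) l T (update g ⟨k, v⟩ h) ω =
        S.A l (S.mom d (l + 1) (T.2 k) (update (fun w => g ⟨k, w⟩) v h)) ω *
          ∏ j ∈ univ.erase k, S.A l (S.mom d (l + 1) (T.2 j) fun w => g ⟨j, w⟩) ω := fun h => by
      simp only [Sys.mom]
      rw [← mul_prod_erase _ _ (mem_univ k)]
      refine congrArg₂ _ (by rw [e h k, update_self]) (prod_congr rfl fun j hj => ?_)
      rw [e h j, update_of_ne (ne_of_mem_erase hj)]
    have hadd : S.mom d (l + 1) (T.2 k)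
        (update (fun w => g ⟨k, w⟩) v fun p => c * f p + c' * f' p) = fun p =>
          c * S.mom d (l + 1) (T.2 k) (update (fun w => g ⟨k, w⟩) v f) p +
            c' * S.mom d (l + 1) (T.2 k) (update (fun w => g ⟨k, w⟩) v f') p :=
      funext fun p => ih (T.2 k) (fun w => hg ⟨k, w⟩) v p
    have bm : ∀ (h : (ℕ → Ω) → ℝ) (a : ℝ), Bdd h →
        Bdd fun p => a * S.mom d (l + 1) (T.2 k) (update (fun w => g ⟨k, w⟩) v h) p := by
      intro h a hh
      obtain ⟨hme, C, hC⟩ := Sys.mom_bdd (l := l + 1) hS (T.2 k) (hb h hh)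
      exact ⟨hme.const_mul a, |a| * C, fun p => by rw [abs_mul]; gcongr; exact hC p⟩
    simp only [hm, hadd, Sys.A_add hS (bm f c hf) (bm f' c' hf'), Sys.A_const_mul hS]
    ring

theorem Sys.mom_prod {Ω' : Type} [MeasurableSpace Ω'] {S' : Sys Ω'} (hS : S.Good) (hS' : S'.Good)
    (hR : S'.R = S.R) (hx : S'.x = S.x) {d l : ℕ} (hd : l + d = S.R) (T : Tree d)
    {g : Leaves d T → (ℕ → Ω) → ℝ} {g' : Leaves d T → (ℕ → Ω') → ℝ} (hg : ∀ v, Bdd (g v))
    (hg' : ∀ v, Bdd (g' v)) (ω : ℕ → Ω × Ω') :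
    (S.prod S').mom d l T (fun v p => g v (fun i => (p i).1) * g' v (fun i => (p i).2)) ω =
      S.mom d l T g (fun i => (ω i).1) * S'.mom d l T g' (fun i => (ω i).2) := by
  induction d generalizing l ω with
  | zero => rfl
  | succ d ih =>
    simp only [Sys.mom, ← prod_mul_distrib]
    refine prod_congr rfl fun c _ => ?_
    rw [funext (ih (show l + 1 + d = S.R by omega) (T.2 c) (fun v => hg ⟨c, v⟩)
      fun v => hg' ⟨c, v⟩)]
    have h := Sys.prod_cond (l := l) (m := l + 1) hS hS' hR hx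
      (Sys.mom_bdd (l := l + 1) hS (T.2 c) fun v => hg ⟨c, v⟩)
      (Sys.mom_bdd (l := l + 1) hS' (T.2 c) fun v => hg' ⟨c, v⟩) (by omega) (by omega) ω
    simpa [Sys.cond, Sys.down] using h

/-! Expansion -/

lemma Sys.abs_treeTerm_le (hS : S.Good) (hξ : Expo S.R ξ) {d l : ℕ} (h1 : 1 ≤ l) (hd : l + d = S.R)
    {z : (ℕ → Ω) → ℝ} (hz : Bdd z) {ρ : ℝ} (h : ∀ ω, |z ω| ≤ ρ) (T : Tree d) (ω : ℕ → Ω) :
    |Tree.weight ξ d l T * S.mom d l T (fun _ => z) ω| ≤ Tree.weight ξ d l T * ρ ^ T.size := by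
  rw [abs_mul, abs_of_nonneg (hξ.weight_nonneg h1 hd T)]
  refine mul_le_mul_of_nonneg_left ?_ (hξ.weight_nonneg h1 hd T)
  refine (Sys.mom_abs_le hS T (fun _ => hz) (fun _ => h) ω).trans_eq ?_
  rw [prod_const, card_univ]
  rfl

lemma Sys.hasSum_treeMeanW (hS : S.Good) (hξ : Expo S.R ξ) {d l : ℕ} (h1 : 1 ≤ l)
    (hd : l + d = S.R) {z : (ℕ → Ω) → ℝ} (hz : Bdd z) {ρ : ℝ} (h0 : 0 ≤ ρ) (hρ : ρ < 1)
    (h : ∀ ω, |z ω| ≤ ρ) (ω : ℕ → Ω) :
    HasSum (fun T : Tree d => Tree.weight ξ d l T * S.mom d l T (fun _ => z) ω)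
      (S.treeMeanW ξ z d l ω) :=
  (Summable.of_norm_bounded (hξ.hasSum_weight_pow h1 hd h0 hρ).summable fun T =>
    (Real.norm_eq_abs _).trans_le (Sys.abs_treeTerm_le hS hξ h1 hd hz h T ω)).hasSum

lemma Sys.abs_treeMeanW_le (hS : S.Good) (hξ : Expo S.R ξ) {d l : ℕ} (h1 : 1 ≤ l)
    (hd : l + d = S.R) {z : (ℕ → Ω) → ℝ} (hz : Bdd z) {ρ : ℝ} (h0 : 0 ≤ ρ) (hρ : ρ < 1)
    (h : ∀ ω, |z ω| ≤ ρ) (ω : ℕ → Ω) : |S.treeMeanW ξ z d l ω| ≤ 1 - (1 - ρ) ^ ξ l := by
  have := tsum_of_norm_bounded (hξ.hasSum_weight_pow h1 hd h0 hρ) fun T =>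
    (Real.norm_eq_abs _).trans_le (Sys.abs_treeTerm_le hS hξ h1 hd hz h T ω)
  rwa [Real.norm_eq_abs] at this

lemma Sys.treeMeanW_bdd (hS : S.Good) (hξ : Expo S.R ξ) {d l : ℕ} (h1 : 1 ≤ l) (hd : l + d = S.R)
    {z : (ℕ → Ω) → ℝ} (hz : Bdd z) {ρ : ℝ} (h0 : 0 ≤ ρ) (hρ : ρ < 1) (h : ∀ ω, |z ω| ≤ ρ) :
    Bdd (S.treeMeanW ξ z d l) :=
  ⟨measurable_of_tendsto_metrizable'
      (f := fun (t : Finset (Tree d)) ω => ∑ T ∈ t, Tree.weight ξ d l T * S.mom d l T (fun _ => z) ω)
      Filter.atTop (fun t => Finset.measurable_sum t fun T _ =>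
        (Sys.mom_bdd hS T fun _ => hz).1.const_mul _)
      (tendsto_pi_nhds.2 fun ω => Sys.hasSum_treeMeanW hS hξ h1 hd hz h0 hρ h ω),
    _, Sys.abs_treeMeanW_le hS hξ h1 hd hz h0 hρ h⟩

/-- The tilted step commutes with the sum over trees. -/
lemma Sys.hasSum_A_treeMeanW (hS : S.Good) (hξ : Expo S.R ξ) {d l : ℕ} (hd : l + 1 + d = S.R)
    {z : (ℕ → Ω) → ℝ} (hz : Bdd z) {ρ : ℝ} (h0 : 0 ≤ ρ) (hρ : ρ < 1) (h : ∀ ω, |z ω| ≤ ρ)
    (ω : ℕ → Ω) :
    HasSum (fun T : Tree d =>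
        Tree.weight ξ d (l + 1) T * S.A l (S.mom d (l + 1) T fun _ => z) ω)
      (S.A l (S.treeMeanW ξ z d (l + 1)) ω) := by
  have := hS.prob
  obtain ⟨hum, C, hC⟩ := Sys.u_bdd hS (l + 1)
  have hx := hS.x_pos (l + 1) (by omega) (by omega)
  set u := fun e => Real.exp (S.x (l + 1) * S.u (l + 1) (update ω (l + 1) e))
  have hu : Measurable u := ((hum.comp (measurable_update ω)).const_mul _).exp
  have hu2 : ∀ e, |u e| ≤ Real.exp (S.x (l + 1) * C) := fun e => by
    rw [abs_of_pos (Real.exp_pos _)]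
    exact Real.exp_le_exp.2 (mul_le_mul_of_nonneg_left (le_of_abs_le (hC _)) hx.le)
  have hw := hξ.hasSum_weight_pow (show 1 ≤ l + 1 by omega) hd h0 hρ
  have hi : HasSum (fun T : Tree d => ∫ e, u e *
        (Tree.weight ξ d (l + 1) T * S.mom d (l + 1) T (fun _ => z) (update ω (l + 1) e)) ∂S.μ)
      (∫ e, u e * S.treeMeanW ξ z d (l + 1) (update ω (l + 1) e) ∂S.μ) := by
    refine hasSum_integral_of_dominated_convergence
      (fun T _ => Real.exp (S.x (l + 1) * C) * (Tree.weight ξ d (l + 1) T * ρ ^ T.size))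
      (fun T => ?_) (fun T => ?_) ?_ ?_ ?_
    · exact (hu.mul (((Sys.mom_bdd hS T fun _ => hz).1.comp (measurable_update ω)).const_mul
        _)).aestronglyMeasurable
    · refine ae_of_all _ fun e => ?_
      rw [Real.norm_eq_abs, abs_mul]
      exact mul_le_mul (hu2 e) (Sys.abs_treeTerm_le hS hξ (by omega) hd hz h T _) (abs_nonneg _)
        (Real.exp_pos _).le
    · exact ae_of_all _ fun e => hw.summable.mul_left _
    · exact integrable_const _
    · exact ae_of_all _ fun e =>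
        (Sys.hasSum_treeMeanW hS hξ (by omega) hd hz h0 hρ h _).mul_left _
  refine (hi.div_const (∫ e, u e ∂S.μ)).congr_fun fun T => ?_
  simp only [Sys.A, u, mul_left_comm _ (Tree.weight ξ d (l + 1) T), integral_const_mul,
    mul_div_assoc]

/-- The moments one level up are summable, and their sum is the averaged tree mean. -/
lemma Sys.child_sum (hS : S.Good) (hξ : Expo S.R ξ) {d l : ℕ} (hd : l + 1 + d = S.R)
    {z : (ℕ → Ω) → ℝ} (hz : Bdd z) {ρ : ℝ} (h0 : 0 ≤ ρ) (hρ : ρ < 1) (h : ∀ ω, |z ω| ≤ ρ)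
    (ω : ℕ → Ω) :
    HasSum (fun T : Tree d =>
        Tree.weight ξ d (l + 1) T * S.A l (S.mom d (l + 1) T fun _ => z) ω)
      (S.A l (S.treeMeanW ξ z d (l + 1)) ω) ∧
    (Summable fun T : Tree d =>
        |Tree.weight ξ d (l + 1) T * S.A l (S.mom d (l + 1) T fun _ => z) ω|) ∧
    ∑' T : Tree d, |Tree.weight ξ d (l + 1) T * S.A l (S.mom d (l + 1) T fun _ => z) ω| < 1 ∧
    |S.A l (S.treeMeanW ξ z d (l + 1)) ω| < 1 := by
  have h1 : 1 ≤ l + 1 := by omega
  have hw := hξ.hasSum_weight_pow h1 hd h0 hρ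
  have hle : ∀ T : Tree d,
      |Tree.weight ξ d (l + 1) T * S.A l (S.mom d (l + 1) T fun _ => z) ω| ≤
        Tree.weight ξ d (l + 1) T * ρ ^ T.size := fun T => by
    rw [abs_mul, abs_of_nonneg (hξ.weight_nonneg h1 hd T)]
    refine mul_le_mul_of_nonneg_left (Sys.A_abs_le hS.reg (Sys.mom_bdd hS T fun _ => hz)
      (fun v => ?_) l ω) (hξ.weight_nonneg h1 hd T)
    refine (Sys.mom_abs_le hS T (fun _ => hz) (fun _ => h) v).trans_eq ?_
    rw [prod_const, card_univ]; rfl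
  have hs := Summable.of_nonneg_of_le (fun T => abs_nonneg _) hle hw.summable
  have hp := Real.rpow_pos_of_pos (show 0 < 1 - ρ by linarith) (ξ (l + 1))
  refine ⟨Sys.hasSum_A_treeMeanW hS hξ hd hz h0 hρ h ω, hs, ?_, ?_⟩
  · exact (hasSum_le hle hs.hasSum hw).trans_lt (by linarith)
  · exact (Sys.A_abs_le hS.reg (Sys.treeMeanW_bdd hS hξ h1 hd hz h0 hρ h)
      (Sys.abs_treeMeanW_le hS hξ h1 hd hz h0 hρ h) l ω).trans_lt (by linarith)

theorem Sys.val_bdd (hS : S.Good) {ξ : ℕ → ℝ} {F : (ℕ → Ω) → ℝ} (hF : Bdd F) (d l : ℕ) :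
    Bdd (S.val ξ F d l) := by
  induction d generalizing l with
  | zero => exact hF
  | succ d ih =>
    have hb := (ih (l + 1)).const_mul (ξ (l + 1))
    obtain ⟨C, hC⟩ := hb.2
    have hA := Sys.A_bdd hS hb.exp l
    refine Bdd.const_mul ⟨hA.1.log, C, fun ω => ?_⟩ _
    have lo := (Sys.A_const hS l (Real.exp (-C)) ω).symm.trans_le (Sys.A_mono hS (bdd_const _) hb.exp
      (fun v => Real.exp_le_exp.2 (abs_le.1 (hC v)).1) l ω)
    have hi := (Sys.A_mono hS hb.exp (bdd_const _)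
      (fun v => Real.exp_le_exp.2 (abs_le.1 (hC v)).2) l ω).trans_eq
        (Sys.A_const hS l (Real.exp C) ω)
    have hpos := (Real.exp_pos _).trans_le lo
    exact abs_le.2 ⟨by simpa using Real.log_le_log (Real.exp_pos _) lo,
      by simpa using Real.log_le_log hpos hi⟩

theorem Sys.incr_eq_val (hS : S.Good) {z : (ℕ → Ω) → ℝ} (hz : Bdd z) {ρ : ℝ} (hρ : ρ < 1)
    (h : ∀ ω, |z ω| ≤ ρ) {d l : ℕ} (hd : l + d = S.R) (ω : ℕ → Ω) :
    S.incr z l ω = S.val S.x (fun v => Real.log (1 + z v)) d l ω := by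
  induction d generalizing l ω with
  | zero =>
    obtain rfl : l = S.R := by omega
    have a := congrFun (Sys.u_top (S := S.add fun v => Real.log (1 + z v))) ω
    simp only [Sys.incr, Sys.val]
    change (S.add fun v => Real.log (1 + z v)).u S.R ω = _ at a
    rw [a, congrFun (Sys.u_top (S := S)) ω]
    simp [Sys.add]
  | succ d ih =>
    rw [Sys.incr_step hS hz hρ h (show l < S.R by omega) ω]
    simp only [Sys.val, ih (show l + 1 + d = S.R by omega)]

/-- The expansion of a nested evaluation with arbitrary admissible exponents. -/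
theorem Sys.exp_val (hS : S.Good) {ξ : ℕ → ℝ} (hξ : Expo S.R ξ) {z : (ℕ → Ω) → ℝ} (hz : Bdd z)
    {ρ : ℝ} (hρ : ρ < 1) (h : ∀ ω, |z ω| ≤ ρ) {d l : ℕ} (h1 : 1 ≤ l) (hd : l + d = S.R)
    (ω : ℕ → Ω) :
    Real.exp (ξ l * S.val ξ (fun v => Real.log (1 + z v)) d l ω) =
      1 - S.treeMeanW ξ (fun v => -z v) d l ω := by
  have h0 : 0 ≤ ρ := (abs_nonneg _).trans (h ω)
  have hz' : Bdd fun v => -z v := hz.neg
  have h' : ∀ v, |-z v| ≤ ρ := fun v => by rw [abs_neg]; exact h v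
  induction d generalizing l ω with
  | zero =>
    obtain rfl : l = S.R := by omega
    have hp : 0 < 1 + z ω := by linarith [(abs_le.1 (h ω)).1]
    have e2 : S.treeMeanW ξ (fun v => -z v) 0 S.R ω = -z ω :=
      (tsum_eq_single (α := ℝ) (β := Tree 0) () fun b hb => absurd rfl hb).trans
        (by simp [Tree.weight, Sys.mom])
    simp only [Sys.val]
    rw [hξ.last, one_mul, e2, Real.exp_log hp]
    ring
  | succ d ih =>
    have hb := hξ.ratio_mem h1 (show l < S.R by omega)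
    have hd' : l + 1 + d = S.R := by omega
    set y := S.A l (S.treeMeanW ξ (fun v => -z v) d (l + 1)) ω with hy
    obtain ⟨hg, hga, -, hy1⟩ := Sys.child_sum hS hξ hd' hz' h0 hρ h' ω
    have e : ∀ T : Tree (d + 1), Tree.weight ξ (d + 1) l T *
        S.mom (d + 1) l T (fun _ v => -z v) ω = coef (ξ l / ξ (l + 1)) (T.1 + 1) *
          ∏ c, Tree.weight ξ d (l + 1) (T.2 c) *
            S.A l (S.mom d (l + 1) (T.2 c) fun _ v => -z v) ω := fun T => by
      simp only [Tree.weight, Sys.mom, prod_mul_distrib, mul_assoc]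
    have hs := (Sys.hasSum_treeMeanW hS hξ h1 hd hz' h0 hρ h' ω).congr_fun fun T => (e T).symm
    have hn := hasSum_node (b := fun k => coef (ξ l / ξ (l + 1)) (k + 1)) hga
      (L := 1 - (1 - y) ^ (ξ l / ξ (l + 1)))
      (by rw [hg.tsum_eq]; exact hasSum_coef_succ hb.1 hb.2 hy1) hs.summable
    rw [hs.unique hn, sub_sub_cancel]
    have hA : S.A l (fun v => Real.exp (ξ (l + 1) *
        S.val ξ (fun v => Real.log (1 + z v)) d (l + 1) v)) ω = 1 - y := by
      rw [funext fun v => ih (l := l + 1) (by omega) hd' v]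
      have := Sys.A_add hS (bdd_const 1)
        ((Sys.treeMeanW_bdd hS hξ (show 1 ≤ l + 1 by omega) hd' hz' h0 hρ h').const_mul (-1)) l ω
      rw [Sys.A_const hS, Sys.A_const_mul hS, ← hy] at this
      simp only [neg_one_mul, ← sub_eq_add_neg] at this
      exact this
    simp only [Sys.val]
    rw [hA, Real.rpow_def_of_pos (by linarith [(abs_lt.1 hy1).2] : 0 < 1 - y)]
    ring_nf

/-- The expansion of an increment. -/
theorem Sys.exp_incr (hS : S.Good) {z : (ℕ → Ω) → ℝ} (hz : Bdd z) (hzd : DependsTo z S.R) {ρ : ℝ}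
    (hρ : ρ < 1) (h : ∀ ω, |z ω| ≤ ρ) {d l : ℕ} (h1 : 1 ≤ l) (hd : l + d = S.R) (ω : ℕ → Ω) :
    Real.exp (S.x l * S.incr z l ω) = 1 - S.treeMean (fun v => -z v) d l ω := by
  rw [Sys.incr_eq_val hS hz hρ h hd, Sys.exp_val hS hS.expo hz hρ h h1 hd]
  rfl

/-- The expansion at the root, tree by tree. -/
theorem Sys.hasSum_incr_root (hS : S.Good) {z : (ℕ → Ω) → ℝ} (hz : Bdd z) {ρ : ℝ} (hρ : ρ < 1)
    (h : ∀ ω, |z ω| ≤ ρ) {d : ℕ} (hd : d + 1 = S.R) (ω : ℕ → Ω) :
    HasSum (fun T : Tree (d + 1) =>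
        Tree.rootWeight S.x d T * S.mom (d + 1) 0 T (fun _ v => -z v) ω) (-S.incr z 0 ω) := by
  have h0 : 0 ≤ ρ := (abs_nonneg _).trans (h ω)
  have hz' : Bdd fun v => -z v := hz.neg
  have h' : ∀ v, |-z v| ≤ ρ := fun v => by rw [abs_neg]; exact h v
  have hd' : 0 + 1 + d = S.R := by omega
  have hξ := hS.expo
  obtain ⟨hg, hga, hga1, hy1⟩ := Sys.child_sum hS hξ hd' hz' h0 hρ h' ω
  set g := fun T : Tree d => Tree.weight S.x d 1 T * S.A 0 (S.mom d 1 T fun _ v => -z v) ω with hgdef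
  set y := S.A 0 (S.treeMeanW S.x (fun v => -z v) d 1) ω with hy
  have hx : 0 < S.x 1 := hS.x_pos 1 le_rfl (by omega)
  have hlog : ∀ q : ℝ, |q| < 1 → HasSum (fun k : ℕ => (S.x 1 * ((k : ℝ) + 1))⁻¹ * q ^ (k + 1))
      (-(S.x 1)⁻¹ * Real.log (1 - q)) := fun q hq => by
    rw [neg_mul, ← mul_neg]
    refine ((Real.hasSum_pow_div_log_of_abs_lt_one hq).mul_left (S.x 1)⁻¹).congr_fun fun k => ?_
    rw [mul_inv, div_eq_inv_mul, mul_assoc]
  have hs : Summable fun s : Σ k : ℕ, Fin (k + 1) → Tree d =>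
      (S.x 1 * ((s.1 : ℝ) + 1))⁻¹ * ∏ c, g (s.2 c) := by
    have hq : |∑' T, (|g T|)| < 1 := by rwa [abs_of_nonneg (tsum_nonneg fun T => abs_nonneg _)]
    refine Summable.of_abs ((summable_node (β := Tree d) (fun T => abs_nonneg (g T)) hga
      (b := fun k => (S.x 1 * ((k : ℝ) + 1))⁻¹) (fun k => by positivity)
      (hlog _ hq).summable).congr fun s => ?_)
    rw [abs_mul, abs_prod, abs_of_nonneg (by positivity : (0 : ℝ) ≤ (S.x 1 * ((s.1 : ℝ) + 1))⁻¹)]
  have hn := hasSum_node (b := fun k => (S.x 1 * ((k : ℝ) + 1))⁻¹) hga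
    (L := -(S.x 1)⁻¹ * Real.log (1 - y)) (by rw [hg.tsum_eq]; exact hlog y hy1) hs
  have e : -S.incr z 0 ω = -(S.x 1)⁻¹ * Real.log (1 - y) := by
    rw [Sys.incr_step hS hz hρ h (show 0 < S.R by omega) ω]
    have hA : S.A 0 (fun v => Real.exp (S.x (0 + 1) * S.incr z (0 + 1) v)) ω = 1 - y := by
      rw [funext fun v => (congrArg (fun t => Real.exp (S.x (0 + 1) * t))
        (Sys.incr_eq_val hS hz hρ h hd' v)).trans
          (Sys.exp_val hS hξ hz hρ h (show 1 ≤ 0 + 1 by omega) hd' v)]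
      have := Sys.A_add hS (bdd_const 1)
        ((Sys.treeMeanW_bdd hS hξ (show 1 ≤ 0 + 1 by omega) hd' hz' h0 hρ h').const_mul (-1)) 0 ω
      rw [Sys.A_const hS, Sys.A_const_mul hS] at this
      simp only [neg_one_mul, ← sub_eq_add_neg] at this
      exact this
    rw [hA]
    ring
  rw [e]
  refine hn.congr_fun fun T => ?_
  simp only [Tree.rootWeight, Sys.mom, prod_mul_distrib, mul_assoc]

end Vale.Agent.P168
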