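import Vale.Agent.P168.LowerDefs
import Vale.Agent.P168.Trees

/-!
Module V: nested evaluations, pullback along measure preserving maps, finite spaces and the basic
properties of the perturbed system.
-/

set_option linter.unusedVariables false
set_option synthInstance.maxSize 2000
set_option linter.unusedSectionVars false

namespace Vale.Agent.P168

open MeasureTheory Finset Function

variable {Ω : Type} [MeasurableSpace Ω] {S : Sys Ω}

/-! ### Nested evaluations -/

lemma Sys.A_exp_pos (hS : S.Good) {G : (ℕ → Ω) → ℝ} (hG : Bdd G) (l : ℕ) (ω : ℕ → Ω) :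
    0 < S.A l (fun v => Real.exp (G v)) ω := by
  obtain ⟨C, hC⟩ := hG.2
  exact (Real.exp_pos (-C)).trans_le ((Sys.A_const hS l _ ω).symm.trans_le
    (Sys.A_mono hS (bdd_const _) hG.exp (fun v => Real.exp_le_exp.2 (abs_le.1 (hC v)).1) l ω))

theorem Sys.val_add_pot (hS : S.Good) {F : (ℕ → Ω) → ℝ} (hF : Bdd F) {d l : ℕ} (hd : l + d = S.R)
    (ω : ℕ → Ω) : (S.add F).u l ω - S.u l ω = S.val S.x F d l ω := by
  induction d generalizing l ω with
  | zero =>
    obtain rfl : l = S.R := by omega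
    have a := congrFun (Sys.u_top (S := S.add F)) ω
    change (S.add F).u S.R ω = _ at a
    rw [a, congrFun (Sys.u_top (S := S)) ω]
    simp [Sys.add, Sys.val]
  | succ d ih =>
    have hr := hS.reg
    have hl : l < S.R := by omega
    have hx := hS.x_pos (l + 1) (by omega) (by omega)
    have hA := Sys.A_add_pot hr hF hl hx (fun _ => 1) ω
    rw [Sys.A_const' (hr.add hF)] at hA
    simp only [mul_one, Real.exp_neg, ih (show l + 1 + d = S.R by omega)] at hA
    rw [inv_mul_eq_div, eq_div_iff (Real.exp_ne_zero _), one_mul] at hA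
    simp only [Sys.val]
    rw [← hA, Real.log_exp, ← mul_assoc, inv_mul_cancel₀ hx.ne', one_mul]

lemma DependsTo.map {α β : Type} {f : (ℕ → Ω) → α} {l : ℕ} (hf : DependsTo f l) (g : α → β) :
    DependsTo (fun v => g (f v)) l :=
  fun ω ω' h => congrArg g (hf ω ω' h)

theorem Sys.val_dep (hS : S.Good) {ξ : ℕ → ℝ} {F : (ℕ → Ω) → ℝ} (hF : DependsTo F S.R) {d l : ℕ}
    (hd : l + d = S.R) : DependsTo (S.val ξ F d l) l := by
  induction d generalizing l with
  | zero =>
    obtain rfl : l = S.R := by omega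
    exact hF
  | succ d ih =>
    exact (Sys.A_dep hS (show l < S.R by omega)
      ((ih (show l + 1 + d = S.R by omega)).map fun t => Real.exp (ξ (l + 1) * t))).map
        fun t => (ξ (l + 1))⁻¹ * Real.log t

theorem Sys.val_mono (hS : S.Good) {ξ : ℕ → ℝ} {F F' : (ℕ → Ω) → ℝ} (hF : Bdd F) (hF' : Bdd F')
    (h : ∀ ω, F ω ≤ F' ω) {d l : ℕ} (hξ : ∀ i, l < i → i ≤ l + d → 0 < ξ i) (ω : ℕ → Ω) :
    S.val ξ F d l ω ≤ S.val ξ F' d l ω := by
  induction d generalizing l ω with
  | zero => exact h ω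
  | succ d ih =>
    have hx := hξ (l + 1) (by omega) (by omega)
    have b := (Sys.val_bdd hS (ξ := ξ) hF d (l + 1)).const_mul (ξ (l + 1))
    have b' := (Sys.val_bdd hS (ξ := ξ) hF' d (l + 1)).const_mul (ξ (l + 1))
    refine mul_le_mul_of_nonneg_left (Real.log_le_log (Sys.A_exp_pos hS b l ω)
      (Sys.A_mono hS b.exp b'.exp (fun v => Real.exp_le_exp.2 (mul_le_mul_of_nonneg_left
        (ih (fun i h1 h2 => hξ i (by omega) (by omega)) v) hx.le)) l ω)) (inv_nonneg.2 hx.le)

theorem Sys.val_add_const (hS : S.Good) {ξ : ℕ → ℝ} {F : (ℕ → Ω) → ℝ} (hF : Bdd F) (b : ℝ)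
    {d l : ℕ} (hξ : ∀ i, l < i → i ≤ l + d → 0 < ξ i) (ω : ℕ → Ω) :
    S.val ξ (fun v => F v + b) d l ω = S.val ξ F d l ω + b := by
  induction d generalizing l ω with
  | zero => rfl
  | succ d ih =>
    have hx := hξ (l + 1) (by omega) (by omega)
    simp only [Sys.val]
    simp only [ih (l := l + 1) (fun i h1 h2 => hξ i (by omega) (by omega)), mul_add, Real.exp_add,
      mul_comm (Real.exp (ξ (l + 1) * S.val ξ F d (l + 1) _)) (Real.exp (ξ (l + 1) * b))]
    rw [Sys.A_const_mul hS, Real.log_mul (Real.exp_pos _).ne'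
      (Sys.A_exp_pos hS ((Sys.val_bdd hS hF d (l + 1)).const_mul _) l ω).ne', Real.log_exp,
      mul_add, ← mul_assoc, inv_mul_cancel₀ hx.ne', one_mul, add_comm]

lemma Sys.val_const (hS : S.Good) {ξ : ℕ → ℝ} (b : ℝ) {d l : ℕ}
    (hξ : ∀ i, l < i → i ≤ l + d → 0 < ξ i) (ω : ℕ → Ω) : S.val ξ (fun _ => b) d l ω = b := by
  induction d generalizing l ω with
  | zero => rfl
  | succ d ih =>
    simp only [Sys.val, ih (l := l + 1) (fun i h1 h2 => hξ i (by omega) (by omega))]
    rw [Sys.A_const hS, Real.log_exp, ← mul_assoc,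
      inv_mul_cancel₀ (hξ (l + 1) (by omega) (by omega)).ne', one_mul]

theorem Sys.val_abs_le (hS : S.Good) {ξ : ℕ → ℝ} {F : (ℕ → Ω) → ℝ} (hF : Bdd F) {L : ℝ}
    (hL : ∀ ω, |F ω| ≤ L) {d l : ℕ} (hξ : ∀ i, l < i → i ≤ l + d → 0 < ξ i) (ω : ℕ → Ω) :
    |S.val ξ F d l ω| ≤ L :=
  abs_le.2 ⟨(Sys.val_const hS (-L) hξ ω).symm.trans_le
      (Sys.val_mono hS (bdd_const _) hF (fun v => (abs_le.1 (hL v)).1) hξ ω),
    (Sys.val_mono hS hF (bdd_const _) (fun v => (abs_le.1 (hL v)).2) hξ ω).trans_eq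
      (Sys.val_const hS L hξ ω)⟩

/-- The normalised logarithm of an exponential average grows with the exponent. -/
lemma Sys.log_A_exp_le (hS : S.Good) {a a' : ℝ} (ha : 0 < a) (h : a ≤ a') {G : (ℕ → Ω) → ℝ}
    (hG : Bdd G) (l : ℕ) (ω : ℕ → Ω) :
    a⁻¹ * Real.log (S.A l (fun v => Real.exp (a * G v)) ω) ≤
      a'⁻¹ * Real.log (S.A l (fun v => Real.exp (a' * G v)) ω) := by
  set c := a⁻¹ * Real.log (S.A l (fun v => Real.exp (a * G v)) ω) with hc
  have hexp : Real.exp (a * c) = S.A l (fun v => Real.exp (a * G v)) ω := by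
    rw [hc, ← mul_assoc, mul_inv_cancel₀ ha.ne', one_mul,
      Real.exp_log (Sys.A_exp_pos hS (hG.const_mul a) l ω)]
  have hp : 1 ≤ a' / a := (one_le_div ha).2 h
  have hb1 : Bdd (fun v => Real.exp (a' * c) * (a' / a) * Real.exp (-(a * c)) *
      Real.exp (a * G v)) := ((hG.const_mul a).exp).const_mul _
  have hj := Sys.A_mono hS (hb1.add (bdd_const (Real.exp (a' * c) * (1 - a' / a))))
    (hG.const_mul a').exp (fun w => by
      have hb := one_add_mul_self_le_rpow_one_add (s := Real.exp (a * G w - a * c) - 1)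
        (by linarith [Real.exp_pos (a * G w - a * c)]) hp
      rw [add_sub_cancel, ← Real.exp_mul] at hb
      have he : (a * G w - a * c) * (a' / a) = a' * G w - a' * c := by field_simp
      rw [he, Real.exp_sub (a' * G w), le_div_iff₀ (Real.exp_pos _), sub_eq_add_neg (a * _),
        Real.exp_add] at hb
      linarith) l ω
  rw [Sys.A_add hS hb1 (bdd_const _), Sys.A_const_mul hS, Sys.A_const hS, ← hexp,
    mul_assoc (Real.exp (a' * c) * (a' / a)), ← Real.exp_add, neg_add_cancel, Real.exp_zero] at hj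
  have h1 : Real.exp (a' * c) ≤ S.A l (fun v => Real.exp (a' * G v)) ω := by linarith
  rw [le_inv_mul_iff₀ (ha.trans_le h)]
  exact (Real.le_log_iff_exp_le (Sys.A_exp_pos hS (hG.const_mul a') l ω)).2 h1

lemma Sys.val_expo_mono (hS : S.Good) {ξ ξ' : ℕ → ℝ} {F : (ℕ → Ω) → ℝ} (hF : Bdd F) {d l : ℕ}
    (hξ : ∀ i, l < i → i ≤ l + d → 0 < ξ i) (h : ∀ i, l < i → i ≤ l + d → ξ i ≤ ξ' i)
    (ω : ℕ → Ω) : S.val ξ F d l ω ≤ S.val ξ' F d l ω := by
  induction d generalizing l ω with
  | zero => exact le_rfl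
  | succ d ih =>
    have h' := h (l + 1) (by omega) (by omega)
    have hx := hξ (l + 1) (by omega) (by omega)
    have hx' := hx.trans_le h'
    have b := Sys.val_bdd hS (ξ := ξ) hF d (l + 1)
    have b' := Sys.val_bdd hS (ξ := ξ') hF d (l + 1)
    refine (Sys.log_A_exp_le hS hx h' b l ω).trans ?_
    refine mul_le_mul_of_nonneg_left (Real.log_le_log (Sys.A_exp_pos hS (b.const_mul _) l ω)
      (Sys.A_mono hS (b.const_mul _).exp (b'.const_mul _).exp
        (fun v => Real.exp_le_exp.2 (mul_le_mul_of_nonneg_left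
          (ih (fun i h1 h2 => hξ i (by omega) (by omega))
            (fun i h1 h2 => h i (by omega) (by omega)) v) hx'.le)) l ω)) (inv_nonneg.2 hx'.le)

lemma Sys.val_scale (S : Sys Ω) (ξ : ℕ → ℝ) {c : ℝ} (hc : c ≠ 0) (F : (ℕ → Ω) → ℝ) : ∀ d l,
    S.val (fun i => c * ξ i) F d l = fun ω => c⁻¹ * S.val ξ (fun v => c * F v) d l ω
  | 0, _ => funext fun ω => by simp [Sys.val, hc]
  | d + 1, l => by
    funext ω
    have e : ∀ t : ℝ, c * ξ (l + 1) * (c⁻¹ * t) = ξ (l + 1) * t := fun t => by field_simp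
    simp only [Sys.val, Sys.val_scale S ξ hc F d (l + 1), e]
    rw [mul_inv, mul_assoc]

/-- Exponents within a factor `c` give evaluations within `2 (c - 1) L`. -/
theorem Sys.val_sandwich (hS : S.Good) {ξ ξ' : ℕ → ℝ} {F : (ℕ → Ω) → ℝ} (hF : Bdd F) {L c : ℝ}
    (hL : ∀ ω, |F ω| ≤ L) (hc : 1 ≤ c) {d l : ℕ} (hξ : ∀ i, l < i → i ≤ l + d → 0 < ξ i)
    (h : ∀ i, l < i → i ≤ l + d → ξ i ≤ ξ' i ∧ ξ' i ≤ c * ξ i) (ω : ℕ → Ω) :
    |S.val ξ' F d l ω - S.val ξ F d l ω| ≤ 2 * (c - 1) * L := by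
  have lo := Sys.val_expo_mono hS hF hξ (fun i h1 h2 => (h i h1 h2).1) ω
  have hi := Sys.val_expo_mono hS (ξ := ξ') (ξ' := fun i => c * ξ i) hF
    (fun i h1 h2 => (hξ i h1 h2).trans_le (h i h1 h2).1) (fun i h1 h2 => (h i h1 h2).2) ω
  have hc0 : 0 < c := by linarith
  have hv := abs_le.1 (Sys.val_abs_le hS hF hL hξ ω)
  have hL0 : 0 ≤ L := (abs_nonneg _).trans (hL ω)
  have h1 : S.val ξ (fun v => c * F v) d l ω ≤ S.val ξ F d l ω + (c - 1) * L := by
    refine (Sys.val_mono hS (hF.const_mul c) (hF.add (bdd_const ((c - 1) * L))) (fun v => ?_)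
      hξ ω).trans_eq (Sys.val_add_const hS hF _ hξ ω)
    nlinarith [(abs_le.1 (hL v)).2]
  rw [Sys.val_scale S ξ hc0.ne' F d l, le_inv_mul_iff₀ hc0] at hi
  rw [abs_le]
  constructor
  · nlinarith
  · refine le_of_mul_le_mul_left ?_ hc0
    nlinarith [sq_nonneg (c - 1)]

lemma Sys.exp_val_step (hS : S.Good) {F : (ℕ → Ω) → ℝ} (hF : Bdd F) {d l : ℕ} (hl : l < S.R)
    (ω : ℕ → Ω) : Real.exp (S.x (l + 1) * S.val S.x F (d + 1) l ω) =
      S.A l (fun v => Real.exp (S.x (l + 1) * S.val S.x F d (l + 1) v)) ω := by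
  simp only [Sys.val]
  rw [← mul_assoc, mul_inv_cancel₀ (hS.x_pos (l + 1) (by omega) (by omega)).ne', one_mul,
    Real.exp_log (Sys.A_exp_pos hS ((Sys.val_bdd hS hF d (l + 1)).const_mul _) l ω)]

/-- Replacing the first `l` steps by an average costs `x l` times the squared size. -/
theorem Sys.val_top (hS : S.Good) {F : (ℕ → Ω) → ℝ} (hF : Bdd F) {L : ℝ} (hL : ∀ ω, |F ω| ≤ L)
    {d l : ℕ} (h1 : 1 ≤ l) (hd : l + d = S.R) (ω : ℕ → Ω) :
    S.cond 0 l (S.val S.x F d l) ω ≤ S.val S.x F S.R 0 ω ∧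
      S.val S.x F S.R 0 ω ≤ S.cond 0 l (S.val S.x F d l) ω + 2 * S.x l * L ^ 2 := by
  have hb : ∀ v, |S.val S.x F (S.R - l) l v| ≤ L :=
    Sys.val_abs_le hS hF hL fun i i1 i2 => hS.x_pos i (by omega) (by omega)
  have := Sys.top_levels hS (D := fun k => S.val S.x F (S.R - k) k)
    (fun k => Sys.val_bdd hS hF _ k) h1 (by omega) (fun k hk v => by
      obtain ⟨j, hj⟩ : ∃ j, S.R - k = j + 1 := ⟨S.R - (k + 1), by omega⟩
      have hj' : S.R - (k + 1) = j := by omega
      simp only [hj, hj']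
      exact Sys.exp_val_step hS hF (by omega) v) hb ω
  simpa only [show S.R - l = d by omega, Nat.sub_zero] using this

/-! ### Pullback along a measure preserving map -/

variable {Ω' : Type} [MeasurableSpace Ω'] {S' : Sys Ω'}

lemma measurable_path_map {ψ : Ω' → Ω} (hψ : Measurable ψ) :
    Measurable fun (ω : ℕ → Ω') i => ψ (ω i) :=
  measurable_pi_lambda _ fun i => hψ.comp (measurable_pi_apply i)

theorem Sys.comp_good (hS : S.Good) {ψ : Ω' → Ω} (hp : IsProbabilityMeasure S'.μ)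
    (hψ : Measurable ψ) (hR : S'.R = S.R) (hx : S'.x = S.x)
    (hH : ∀ ω, S'.H ω = S.H fun i => ψ (ω i)) : S'.Good where
  prob := hp
  x_pos := hR.symm ▸ hx.symm ▸ hS.x_pos
  x_mono := hR.symm ▸ hx.symm ▸ hS.x_mono
  x_last := by rw [hR, hx]; exact hS.x_last
  R_pos := hR.symm ▸ hS.R_pos
  H_bdd := (funext hH : S'.H = _) ▸ hS.H_bdd.comp (measurable_path_map hψ)
  H_dep := fun ω ω' h => by
    rw [hH, hH]
    exact hS.H_dep _ _ fun i h1 h2 => congrArg ψ (h i h1 (hR.symm ▸ h2))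

lemma integral_step_comp {ψ : Ω' → Ω} (hψ : MeasurePreserving ψ S'.μ S.μ)
    {F : (ℕ → Ω) → ℝ} (hF : Measurable F) (k : ℕ) (ω : ℕ → Ω') :
    ∫ e, F (fun i => ψ (update ω k e i)) ∂S'.μ =
      ∫ e, F (update (fun i => ψ (ω i)) k e) ∂S.μ := by
  have h := integral_map (μ := S'.μ) hψ.measurable.aemeasurable
    (f := fun e => F (update (fun i => ψ (ω i)) k e))
    (hF.comp (measurable_update _)).aestronglyMeasurable
  rw [hψ.map_eq] at h
  rw [h]
  refine integral_congr_ae (.of_forall fun e => congrArg F (funext fun i => ?_))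
  by_cases h : i = k <;> simp [h]

theorem Sys.u_comp (hS : S.Good) {ψ : Ω' → Ω} (hψ : MeasurePreserving ψ S'.μ S.μ)
    (hR : S'.R = S.R) (hx : S'.x = S.x) (hH : ∀ ω, S'.H ω = S.H fun i => ψ (ω i)) (l : ℕ)
    (ω : ℕ → Ω') : S'.u l ω = S.u l fun i => ψ (ω i) := by
  suffices key : ∀ d v, S'.uUp d v = S.uUp d fun i => ψ (v i) by
    simp only [Sys.u, hR]; exact key _ ω
  intro d
  induction d with
  | zero => exact hH
  | succ d ih =>
    intro v
    simp only [Sys.uUp, hR, hx, ih]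
    congr 2
    exact integral_step_comp hψ
      ((Sys.uUp_bdd hS.reg d).const_mul (S.x (S.R - d))).exp.1 (S.R - d) v

lemma Sys.A_comp (hS : S.Good) {ψ : Ω' → Ω} (hψ : MeasurePreserving ψ S'.μ S.μ)
    (hR : S'.R = S.R) (hx : S'.x = S.x) (hH : ∀ ω, S'.H ω = S.H fun i => ψ (ω i))
    {f : (ℕ → Ω) → ℝ} (hf : Bdd f) (l : ℕ) (ω : ℕ → Ω') :
    S'.A l (fun v => f fun i => ψ (v i)) ω = S.A l f fun i => ψ (ω i) := by
  simp only [Sys.A_eq, hx, Sys.u_comp hS hψ hR hx hH]
  rw [integral_step_comp hψ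
      (F := fun v => Real.exp (S.x (l + 1) * S.u (l + 1) v) * f v)
      ((Sys.wgt_bdd hS.reg l).mul hf).1 (l + 1) ω,
    integral_step_comp hψ (F := fun v => Real.exp (S.x (l + 1) * S.u (l + 1) v))
      (Sys.wgt_bdd hS.reg l).1 (l + 1) ω]

theorem Sys.cond_comp (hS : S.Good) {ψ : Ω' → Ω} (hψ : MeasurePreserving ψ S'.μ S.μ)
    (hR : S'.R = S.R) (hx : S'.x = S.x) (hH : ∀ ω, S'.H ω = S.H fun i => ψ (ω i))
    {f : (ℕ → Ω) → ℝ} (hf : Bdd f) (l m : ℕ) (ω : ℕ → Ω') :
    S'.cond l m (fun v => f fun i => ψ (v i)) ω = S.cond l m f fun i => ψ (ω i) := by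
  suffices key : ∀ d k, S'.down d k (fun v => f fun i => ψ (v i)) =
      fun v => S.down d k f fun i => ψ (v i) from congrFun (key (m - l) l) ω
  intro d
  induction d with
  | zero => exact fun k => rfl
  | succ d ih =>
    intro k
    simp only [Sys.down, ih (k + 1)]
    exact funext (Sys.A_comp hS hψ hR hx hH (Sys.down_bdd hS.reg hf d (k + 1)) k)

theorem Sys.val_comp (hS : S.Good) {ψ : Ω' → Ω} (hψ : MeasurePreserving ψ S'.μ S.μ)
    (hR : S'.R = S.R) (hx : S'.x = S.x) (hH : ∀ ω, S'.H ω = S.H fun i => ψ (ω i)) {ξ : ℕ → ℝ}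
    {F : (ℕ → Ω) → ℝ} (hF : Bdd F) (d l : ℕ) (ω : ℕ → Ω') :
    S'.val ξ (fun v => F fun i => ψ (v i)) d l ω = S.val ξ F d l fun i => ψ (ω i) := by
  induction d generalizing l ω with
  | zero => rfl
  | succ d ih =>
    simp only [Sys.val, ih]
    rw [Sys.A_comp hS hψ hR hx hH (f := fun v => Real.exp (ξ (l + 1) * S.val ξ F d (l + 1) v))
      ((Sys.val_bdd hS hF d (l + 1)).const_mul _).exp]

theorem Sys.mom_comp (hS : S.Good) {ψ : Ω' → Ω} (hψ : MeasurePreserving ψ S'.μ S.μ)
    (hR : S'.R = S.R) (hx : S'.x = S.x) (hH : ∀ ω, S'.H ω = S.H fun i => ψ (ω i)) {d : ℕ} (l : ℕ)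
    (T : Tree d) {g : Leaves d T → (ℕ → Ω) → ℝ} (hg : ∀ v, Bdd (g v)) (ω : ℕ → Ω') :
    S'.mom d l T (fun v p => g v fun i => ψ (p i)) ω = S.mom d l T g fun i => ψ (ω i) := by
  induction d generalizing l ω with
  | zero => rfl
  | succ d ih =>
    simp only [Sys.mom]
    refine prod_congr rfl fun c _ => ?_
    have e : (S'.mom d (l + 1) (T.2 c) fun v p => g ⟨c, v⟩ fun i => ψ (p i)) =
        fun p => S.mom d (l + 1) (T.2 c) (fun v => g ⟨c, v⟩) fun i => ψ (p i) :=
      funext fun v => ih (l + 1) (T.2 c) (fun v => hg ⟨c, v⟩) v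
    refine (congrArg (fun f => S'.A l f ω) e).trans ?_
    exact Sys.A_comp hS hψ hR hx hH (Sys.mom_bdd hS _ fun v => hg ⟨c, v⟩) l ω

/-! ### Finite spaces -/

theorem isProbabilityMeasure_finLaw (α : Type) [Fintype α] [MeasurableSpace α]
    [MeasurableSingletonClass α] [Nonempty α] : IsProbabilityMeasure (finLaw α) := by
  constructor
  rw [finLaw, Measure.smul_apply, Measure.count_univ, ENat.card_eq_coe_fintype_card, smul_eq_mul]
  exact ENNReal.inv_mul_cancel (Nat.cast_ne_zero.2 Fintype.card_ne_zero) (ENNReal.natCast_ne_top _)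

theorem integral_finLaw {α : Type} [Fintype α] [MeasurableSpace α] [MeasurableSingletonClass α]
    (f : α → ℝ) : ∫ a, f a ∂finLaw α = avg f := by
  rw [finLaw, integral_smul_measure, integral_count, ENNReal.toReal_inv, ENNReal.toReal_natCast,
    smul_eq_mul, avg, div_eq_inv_mul]

/-- A map with fibres of one size preserves the uniform laws. -/
theorem measurePreserving_finLaw {α β : Type} [Fintype α] [MeasurableSpace α]
    [MeasurableSingletonClass α] [Nonempty α] [Fintype β] [DecidableEq β] [MeasurableSpace β]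
    [MeasurableSingletonClass β] (ψ : α → β) {q : ℕ}
    (h : ∀ b, (univ.filter fun a => ψ a = b).card = q) :
    MeasurePreserving ψ (finLaw α) (finLaw β) := by
  have hcard : Fintype.card α = Fintype.card β * q := by
    rw [← card_univ, card_eq_sum_card_fiberwise (fun a _ => mem_univ (ψ a))]
    simp [h]
  have hq : q ≠ 0 := fun hq => Fintype.card_ne_zero (α := α) (by simp [hcard, hq])
  refine ⟨measurable_of_finite ψ, Measure.ext_iff_singleton.2 fun b => ?_⟩
  have e : ψ ⁻¹' {b} = ↑(univ.filter fun a => ψ a = b) := by ext; simp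
  rw [Measure.map_apply (measurable_of_finite ψ) (measurableSet_singleton b), finLaw, finLaw,
    Measure.smul_apply, Measure.smul_apply, e, Measure.count_apply_finset, h,
    Measure.count_singleton, hcard, Nat.cast_mul, smul_eq_mul, smul_eq_mul, mul_one,
    ENNReal.mul_inv (Or.inr (ENNReal.natCast_ne_top _)) (Or.inl (ENNReal.natCast_ne_top _)),
    mul_assoc, ENNReal.inv_mul_cancel (Nat.cast_ne_zero.2 hq) (ENNReal.natCast_ne_top _), mul_one]

theorem bdd_of_dependsTo [Finite Ω] [MeasurableSingletonClass Ω] {f : (ℕ → Ω) → ℝ} {l : ℕ}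
    (hf : DependsTo f l) : Bdd f := by
  rcases isEmpty_or_nonempty Ω with hΩ | ⟨⟨e₀⟩⟩
  · exact ⟨measurable_of_empty f, 0, fun ω => hΩ.elim (ω 0)⟩
  set g : (Fin l → Ω) → ℝ := fun r =>
    f fun i => if h : 1 ≤ i ∧ i ≤ l then r ⟨i - 1, by omega⟩ else e₀ with hg
  have e : f = fun ω => g fun i : Fin l => ω ((i : ℕ) + 1) := funext fun ω => by
    refine hf _ _ fun i h1 h2 => ?_
    simp only [dif_pos (And.intro h1 h2), Nat.sub_add_cancel h1]
  have : Fintype (Fin l → Ω) := Fintype.ofFinite _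
  rw [e]
  exact ⟨(measurable_of_finite g).comp (measurable_pi_lambda
      (fun (ω : ℕ → Ω) (i : Fin l) => ω ((i : ℕ) + 1)) fun i => measurable_pi_apply _),
    ∑ r, |g r|, fun ω => single_le_sum (f := fun r => |g r|) (fun r _ => abs_nonneg (g r))
      (mem_univ fun i : Fin l => ω ((i : ℕ) + 1))⟩

lemma avg_equiv {α β : Type} [Fintype α] [Fintype β] (e : α ≃ β) (f : β → ℝ) :
    avg (fun a => f (e a)) = avg f := by
  simp only [avg, e.sum_comp, Fintype.card_congr e]

lemma avg_prod {α β : Type} [Fintype α] [Fintype β] (f : α × β → ℝ) :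
    avg f = avg fun a => avg fun b => f (a, b) := by
  simp only [avg, Fintype.sum_prod_type, Fintype.card_prod, Nat.cast_mul, ← sum_div, div_div,
    mul_comm (Fintype.card α : ℝ)]

lemma avg_const_mul {α : Type} [Fintype α] (k : ℝ) (f : α → ℝ) :
    avg (fun a => k * f a) = k * avg f := by
  simp only [avg, ← mul_sum, mul_div_assoc]

lemma avg_pos {α : Type} [Fintype α] [Nonempty α] {f : α → ℝ} (h : ∀ a, 0 < f a) : 0 < avg f :=
  div_pos (sum_pos (fun a _ => h a) univ_nonempty) (Nat.cast_pos.2 Fintype.card_pos)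

lemma avg_const {α : Type} [Fintype α] [Nonempty α] (c : ℝ) : avg (fun _ : α => c) = c := by
  simp [avg, Fintype.card_ne_zero]

/-! ### The perturbed system -/

variable {N n₀ R : ℕ} {c : ℝ}

lemma first_le (C : Cons) (R : ℕ) : C.first R ≤ R + 1 :=
  min'_le _ _ (mem_insert_self _ _)

lemma gadget_dep (C : Cons) (c : ℝ) (η : Bool) (σ : ℝ) {L : ℕ}
    (hC : ∀ v w, v < w → 1 ≤ C.lev v w ∧ C.lev v w ≤ L) {s s' : ℕ → Slot C.n}
    (h : ∀ i, 1 ≤ i → i ≤ L → s i = s' i) : C.gadget c η σ s = C.gadget c η σ s' := by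
  unfold Cons.gadget Cons.feature
  refine congrArg _ (sum_congr rfl fun v _ => congrArg _ (prod_congr rfl fun w _ => ?_))
  split_ifs with h1 h2
  · rw [h _ (hC v w h1).1 (hC v w h1).2]
  · rw [h _ (hC w v h2).1 (hC w v h2).2]
  · rfl

lemma famCons_lev (k : Fam n₀ R) (v w : Fin (famCons k).n) :
    1 ≤ (famCons k).lev v w ∧ (famCons k).lev v w ≤ R :=
  ⟨Nat.le_add_left 1 _, (k.2 v w).isLt⟩

lemma gadLog_dep (c : ℝ) (g : Gad N n₀ R) : DependsTo (gadLog c g) R := by
  intro ω ω' h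
  have hl := g.2.2.isLt
  unfold gadLog
  split_ifs with hg
  · rw [h R (by omega) le_rfl, h ((g.2.2 : ℕ) + 1) (by omega) (by omega),
      gadget_dep (famCons g.2.1) c _ _ (fun v w _ => famCons_lev g.2.1 v w)
        (s := fun l => (ω l).1 g) (s' := fun l => (ω' l).1 g)
        fun i i1 i2 => congrFun (congrArg Prod.fst (h i i1 i2)) g]
  · rfl

lemma gadSum_dep (c : ℝ) : DependsTo (fun ω : ℕ → PSpace N n₀ R => ∑ g, gadLog c g ω) R :=
  fun ω ω' h => sum_congr rfl fun g _ => gadLog_dep c g ω ω' h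

lemma depends_last (hR : 0 < R) {α : Type} (F : (Fin N → Bool) → α) :
    DependsTo (fun ω : ℕ → PSpace N n₀ R => F (ω R).2) R :=
  fun ω ω' h => congrArg (fun e => F e.2) (h R hR le_rfl)

theorem pertSys_good (hR : 0 < R) (H : (Fin N → Bool) → ℝ) : (pertSys n₀ R c H).Good := by
  have hd : DependsTo (pertSys n₀ R c H).H R := fun ω ω' h =>
    congrArg₂ (· + ·) (depends_last hR H ω ω' h) (gadSum_dep c ω ω' h)
  have hR' : (0 : ℝ) < R := Nat.cast_pos.2 hR
  refine ⟨isProbabilityMeasure_finLaw _, fun l h1 _ => ?_, fun l h1 _ => ?_, ?_, hR,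
    bdd_of_dependsTo hd, hd⟩
  · exact div_pos (Nat.cast_pos.2 h1) hR'
  · exact div_le_div_of_nonneg_right (by exact_mod_cast Nat.le_succ l) hR'.le
  · exact div_self hR'.ne'

lemma abs_spin (b : Bool) : |spin b| = 1 := by cases b <;> simp [spin]

theorem obs_siteObs (hR : 0 < R) (H : (Fin N → Bool) → ℝ) (i : Fin N) :
    Obs (pertSys n₀ R c H) (siteObs i) :=
  ⟨bdd_of_dependsTo (depends_last hR fun σ => spin (σ i)), depends_last hR fun σ => spin (σ i),
    fun _ => (abs_spin _).le⟩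

lemma abs_gadget_le (C : Cons) (c : ℝ) (η : Bool) {σ : ℝ} (hσ : |σ| ≤ 1) (s : ℕ → Slot C.n) :
    |C.gadget c η σ s| ≤ C.n * |c| := by
  unfold Cons.gadget
  rw [abs_mul, abs_mul]
  have h1 : |∑ v : Fin C.n, (if (v : ℕ) = 0 then spin η else 1) * C.feature v s| ≤ C.n := by
    refine (abs_sum_le_sum_abs _ _).trans (le_of_le_of_eq (b := ∑ _v : Fin C.n, (1 : ℝ))
      (sum_le_sum fun v _ => ?_) (by simp))
    rw [abs_mul]
    refine mul_le_one₀ ?_ (abs_nonneg _) ?_
    · split_ifs <;> simp [abs_spin]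
    · unfold Cons.feature
      rw [abs_prod]
      refine prod_le_one (fun w _ => abs_nonneg _) fun w _ => ?_
      split_ifs <;> simp [abs_spin]
  calc |c| * |σ| * |_| ≤ |c| * 1 * C.n :=
        mul_le_mul (mul_le_mul_of_nonneg_left hσ (abs_nonneg c)) h1 (abs_nonneg _) (by positivity)
    _ = _ := by ring

lemma abs_log_one_add_le {z : ℝ} (hz : |z| ≤ 1 / 2) : |Real.log (1 + z)| ≤ 2 * |z| := by
  obtain ⟨h1, h2⟩ := abs_le.1 hz
  have hp : 0 < 1 + z := by linarith
  have hu := Real.log_le_sub_one_of_pos hp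
  have hl := Real.one_sub_inv_le_log_of_pos hp
  have e : 1 - (1 + z)⁻¹ = z / (1 + z) := by field_simp; ring
  rw [e, div_le_iff₀ hp] at hl
  rcases abs_cases z with ⟨hz', hz''⟩ | ⟨hz', hz''⟩ <;> rw [hz'] <;> refine abs_le.2 ⟨?_, ?_⟩ <;>
    nlinarith

theorem abs_gadLog_le (hc : 0 ≤ c) (hc' : (n₀ : ℝ) * c ≤ 1 / 2) (g : Gad N n₀ R)
    (ω : ℕ → PSpace N n₀ R) : |gadLog c g ω| ≤ 2 * n₀ * c := by
  unfold gadLog
  split_ifs
  · have hz := abs_gadget_le (famCons g.2.1) c ((ω ((g.2.2 : ℕ) + 1)).1 g none)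
      (abs_spin ((ω R).2 g.1)).le fun l => (ω l).1 g
    have hn : ((famCons g.2.1).n : ℝ) * |c| ≤ n₀ * c := by
      rw [abs_of_nonneg hc]
      exact mul_le_mul_of_nonneg_right (Nat.cast_le.2 g.2.1.1.isLt) hc
    refine (abs_log_one_add_le ((hz.trans hn).trans hc')).trans ?_
    linarith [hz.trans hn]
  · rw [abs_zero]; positivity

lemma abs_gadSum_le (hc : 0 ≤ c) (hc' : (n₀ : ℝ) * c ≤ 1 / 2) (ω : ℕ → PSpace N n₀ R) :
    |∑ g, gadLog c g ω| ≤ N * (Fintype.card (Fam n₀ R) * R * (2 * n₀ * c)) := by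
  refine (abs_sum_le_sum_abs _ _).trans
    ((sum_le_sum fun g _ => abs_gadLog_le hc hc' g ω).trans_eq ?_)
  rw [sum_const, card_univ, nsmul_eq_mul, Fintype.card_prod, Fintype.card_prod, Fintype.card_fin,
    Fintype.card_fin]
  push_cast
  ring

lemma gadLog_zero (g : Gad N n₀ R) (ω : ℕ → PSpace N n₀ R) : gadLog 0 g ω = 0 := by
  simp [gadLog, Cons.gadget]

/-- Two systems that differ by a constant after the last step differ by it at every level. -/
lemma Sys.uUp_shift {T T' : Sys Ω} (hr : T.Reg) (hμ : T'.μ = T.μ) (hx : T'.x = T.x)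
    (hR : T'.R = T.R) (hxp : ∀ l, 1 ≤ l → l ≤ T.R → 0 < T.x l) (K : ℝ)
    (h : ∀ ω, T'.uUp 1 ω = T.uUp 1 ω + K) :
    ∀ d, d + 1 ≤ T.R → ∀ ω, T'.uUp (d + 1) ω = T.uUp (d + 1) ω + K
  | 0, _, ω => h ω
  | d + 1, hd, ω => by
    have ih := Sys.uUp_shift hr hμ hx hR hxp K h d (by omega)
    rw [Sys.uUp, Sys.uUp.eq_2 T (d + 1)]
    simp only [hμ, hx, hR, ih, mul_add, Real.exp_add, integral_mul_const]
    rw [Real.log_mul
      (Sys.step_exp_pos hr ((Sys.uUp_bdd hr (d + 1)).const_mul (T.x (T.R - (d + 1)))) ω _).ne'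
      (Real.exp_pos _).ne', Real.log_exp, mul_add, ← mul_assoc,
      inv_mul_cancel₀ (hxp _ (by omega) (by omega)).ne', one_mul]

lemma pertSys_free_u (hR : 0 < R) (H : (Fin N → Bool) → ℝ) (ω : ℕ → PSpace N n₀ R) :
    (pertSys n₀ R 0 H).u 0 ω = Real.log (avg fun σ => Real.exp (H σ)) := by
  have h1 : ∀ v, (pertSys n₀ R 0 H).uUp 1 v = Real.log (avg fun σ => Real.exp (H σ)) := fun v => by
    simp only [Sys.uUp, pertSys, Nat.sub_zero, gridExp, div_self (Nat.cast_ne_zero.2 hR.ne' : (R : ℝ) ≠ 0),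
      inv_one, one_mul, gadLog_zero, sum_const_zero, add_zero, update_self]
    rw [integral_finLaw, avg_prod]
    simp only [avg_const]
  have key : ∀ d, d + 1 ≤ R → ∀ v,
      (pertSys n₀ R 0 H).uUp (d + 1) v = Real.log (avg fun σ => Real.exp (H σ)) := by
    intro d
    induction d with
    | zero => exact fun _ => h1
    | succ d ih =>
      intro hd v
      have hG := pertSys_good (c := 0) (n₀ := n₀) hR H
      have := hG.prob
      rw [Sys.uUp]
      simp only [ih (by omega)]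
      rw [integral_const, probReal_univ, one_smul, Real.log_exp, ← mul_assoc,
        inv_mul_cancel₀ (hG.x_pos ((pertSys n₀ R 0 H).R - (d + 1)) (show 1 ≤ R - (d + 1) by omega)
          (Nat.sub_le _ _)).ne', one_mul]
  obtain ⟨d, rfl⟩ : ∃ d, R = d + 1 := ⟨R - 1, by omega⟩
  exact key d le_rfl ω

theorem pertLogZ_near (hR : 0 < R) (hc : 0 ≤ c) (hc' : (n₀ : ℝ) * c ≤ 1 / 2)
    (H : (Fin N → Bool) → ℝ) :
    |pertLogZ n₀ R c H - Real.log (∑ σ, Real.exp (H σ))| ≤
      N * (Fintype.card (Fam n₀ R) * R * (2 * n₀ * c)) := by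
  have e : pertSys n₀ R c H = (pertSys n₀ R 0 H).add fun ω => ∑ g, gadLog c g ω := by
    simp [pertSys, Sys.add, gadLog_zero]
  have h0 : Real.log (∑ σ, Real.exp (H σ)) =
      (pertSys n₀ R 0 H).u 0 (origin N n₀ R) + N * Real.log 2 := by
    rw [pertSys_free_u hR, avg, Fintype.card_fun, Fintype.card_bool, Fintype.card_fin]
    push_cast
    rw [Real.log_div (sum_pos (fun σ _ => Real.exp_pos _) univ_nonempty).ne'
      (by positivity), Real.log_pow]
    ring
  rw [pertLogZ, h0, e, add_sub_add_right_eq_sub]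
  exact Sys.u_add_le (pertSys_good hR H) (bdd_of_dependsTo (gadSum_dep c)) (abs_gadSum_le hc hc') 0 _

/-- The projection forgetting the last site. -/
def forgetLast (e : PSpace (N + 1) n₀ R) : PSpace N n₀ R :=
  (fun g => e.1 (Fin.castSucc g.1, g.2), fun i => e.2 (Fin.castSucc i))

/-- The last site and the rest. -/
def splitLast : PSpace (N + 1) n₀ R ≃
    PSpace N n₀ R × (((x : Fam n₀ R × Fin R) → Slot (famCons x.1).n) × Bool) where
  toFun e := (forgetLast e, (fun x => e.1 (Fin.last N, x), e.2 (Fin.last N)))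
  invFun q :=
    (fun g => Fin.lastCases (motive := fun _ => Slot (famCons g.2.1).n) (q.2.1 g.2)
      (fun i => q.1.1 (i, g.2)) g.1, Fin.snoc q.1.2 q.2.2)
  left_inv e := by
    refine Prod.ext (funext fun g => ?_) (funext fun i => ?_)
    · obtain ⟨i, x⟩ := g
      refine Fin.lastCases ?_ (fun j => ?_) i <;> simp [forgetLast]
    · refine Fin.lastCases ?_ (fun j => ?_) i <;> simp [forgetLast]
  right_inv q := by
    refine Prod.ext (Prod.ext (funext fun g => ?_) (funext fun i => ?_))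
      (Prod.ext (funext fun x => ?_) ?_) <;> simp [forgetLast]

lemma measurePreserving_forgetLast :
    MeasurePreserving (forgetLast (N := N) (n₀ := n₀) (R := R)) (finLaw _) (finLaw _) := by
  classical
  refine measurePreserving_finLaw _ (q := Fintype.card
    (((x : Fam n₀ R × Fin R) → Slot (famCons x.1).n) × Bool)) fun b => ?_
  rw [← Fintype.card_subtype]
  exact Fintype.card_congr ((splitLast.subtypeEquiv fun a => Iff.rfl).trans
    { toFun := fun q : {q : PSpace N n₀ R × _ // q.1 = b} => q.1.2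
      invFun := fun r => ⟨(b, r), rfl⟩
      left_inv := fun ⟨⟨a, r⟩, ha⟩ => by cases ha; rfl
      right_inv := fun r => rfl })

lemma gadSum_succ (c : ℝ) (ω : ℕ → PSpace (N + 1) n₀ R) :
    ∑ g, gadLog c g ω = (∑ g, gadLog c g fun i => forgetLast (ω i)) +
      ∑ x : Fam n₀ R × Fin R, gadLog c (Fin.last N, x) ω := by
  rw [Fintype.sum_prod_type, Fin.sum_univ_castSucc]
  refine congrArg (· + _) ?_
  rw [Fintype.sum_prod_type]
  exact sum_congr rfl fun i _ => sum_congr rfl fun x _ => rfl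

/-- The last site summed out. -/
theorem pertLogZ_succ (hR : 0 < R) (hc : 0 ≤ c) (hc' : (n₀ : ℝ) * c ≤ 1 / 2)
    (H : (Fin (N + 1) → Bool) → ℝ) :
    |pertLogZ n₀ R c H -
        pertLogZ n₀ R c (fun σ : Fin N → Bool => Real.log (∑ e, Real.exp (H (Fin.snoc σ e))))| ≤
      Fintype.card (Fam n₀ R) * R * (2 * n₀ * c) := by
  set H' := fun σ : Fin N → Bool => Real.log (∑ e, Real.exp (H (Fin.snoc σ e))) with hH'
  set G' := fun ω : ℕ → PSpace (N + 1) n₀ R => ∑ g, gadLog c g fun i => forgetLast (ω i) with hG'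
  set G := fun ω : ℕ → PSpace (N + 1) n₀ R =>
    ∑ x : Fam n₀ R × Fin R, gadLog c (Fin.last N, x) ω with hG
  have hG'd : DependsTo G' R := fun ω ω' h =>
    gadSum_dep c _ _ fun i i1 i2 => congrArg forgetLast (h i i1 i2)
  have hGd : DependsTo G R := fun ω ω' h => sum_congr rfl fun x _ => gadLog_dep c _ ω ω' h
  have hGb : ∀ ω, |G ω| ≤ Fintype.card (Fam n₀ R) * R * (2 * n₀ * c) := fun ω => by
    refine (abs_sum_le_sum_abs _ _).trans
      ((sum_le_sum fun x _ => abs_gadLog_le hc hc' _ ω).trans_eq ?_)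
    rw [sum_const, card_univ, nsmul_eq_mul, Fintype.card_prod, Fintype.card_fin]
    push_cast
    ring
  -- without the gadgets of the last site
  set T := (pertSys n₀ R 0 H).add G' with hT
  have hTg : T.Good := Sys.add_good (pertSys_good hR H) (bdd_of_dependsTo hG'd) hG'd
  have e : pertSys n₀ R c H = T.add G := by
    simp [hT, pertSys, Sys.add, gadLog_zero, gadSum_succ, hG', hG, add_assoc]
  -- the last spin summed out
  set U : Sys (PSpace (N + 1) n₀ R) :=
    { R := R, x := gridExp R,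
      H := fun ω => (pertSys n₀ R c H').H fun i => forgetLast (ω i),
      μ := finLaw (PSpace (N + 1) n₀ R) } with hU
  have hS' := pertSys_good (c := c) (n₀ := n₀) hR H'
  have hUg : U.Good := Sys.comp_good hS' (isProbabilityMeasure_finLaw _) (measurable_of_finite _)
    rfl rfl fun ω => rfl
  have hUu := Sys.u_comp (S' := U) hS' measurePreserving_forgetLast rfl rfl (fun ω => rfl) 0
    (origin (N + 1) n₀ R)
  have hx1 : gridExp R R = 1 := div_self (Nat.cast_ne_zero.2 hR.ne')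
  have h1 : ∀ v, T.uUp 1 v = U.uUp 1 v + -Real.log 2 := fun v => by
    simp only [Sys.uUp, hT, hU, Sys.add, pertSys, Nat.sub_zero, hx1, inv_one, one_mul, gadLog_zero,
      sum_const_zero, add_zero, update_self, integral_finLaw, hG']
    rw [← avg_equiv splitLast.symm, ← avg_equiv splitLast.symm, avg_prod, avg_prod]
    have hf : ∀ a r, forgetLast (splitLast.symm (a, r) : PSpace (N + 1) n₀ R) = a := fun a r =>
      congrArg Prod.fst (splitLast.apply_symm_apply (a, r))
    have hu : ∀ q : PSpace (N + 1) n₀ R, (fun i => forgetLast (update v R q i)) =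
        update (fun i => forgetLast (v i)) R (forgetLast q) := fun q =>
      funext fun i => by by_cases hi : i = R <;> simp [hi]
    simp only [hu, hf, Real.exp_add]
    have hs : ∀ a r, (splitLast.symm (a, r) : PSpace (N + 1) n₀ R).2 = Fin.snoc a.2 r.2 :=
      fun a r => rfl
    simp only [hs, avg_prod]
    have hb : ∀ (σ : Fin N → Bool) (K : ℝ), (avg fun b => Real.exp (H (Fin.snoc σ b)) * K) =
        1 / 2 * (Real.exp (H' σ) * K) := fun σ K => by
      rw [hH', Real.exp_log (sum_pos (fun b _ => Real.exp_pos _) univ_nonempty)]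
      simp [avg]
      ring
    simp only [hb, avg_const, avg_const_mul]
    rw [Real.log_mul (by norm_num) (avg_pos fun a => avg_pos fun b => by positivity).ne',
      one_div, Real.log_inv, add_comm]
  obtain ⟨d, hd⟩ : ∃ d, R = d + 1 := ⟨R - 1, by omega⟩
  have h2 := Sys.uUp_shift hUg.reg (T' := T) rfl rfl rfl hUg.x_pos _ h1 d (by exact hd.ge)
    (origin (N + 1) n₀ R)
  rw [← hd] at h2
  change T.u 0 (origin (N + 1) n₀ R) = U.u 0 (origin (N + 1) n₀ R) + -Real.log 2 at h2
  have h3 : pertLogZ n₀ R c H' = T.u 0 (origin (N + 1) n₀ R) + (N + 1 : ℕ) * Real.log 2 := by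
    rw [h2, hUu]
    show _ + (N : ℝ) * Real.log 2 = (pertSys n₀ R c H').u 0 (origin N n₀ R) + _ + _
    push_cast
    ring
  rw [pertLogZ, h3, e, add_sub_add_right_eq_sub]
  exact Sys.u_add_le hTg (bdd_of_dependsTo hGd) hGb 0 _

theorem pertLogZ_add (hR : 0 < R) (H W : (Fin N → Bool) → ℝ) :
    pertLogZ n₀ R c (fun σ => H σ + W σ) - pertLogZ n₀ R c H =
      (pertSys n₀ R c H).val (gridExp R) (fun ω => W (ω R).2) R 0 (origin N n₀ R) := by
  have e : pertSys n₀ R c (fun σ => H σ + W σ) =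
      (pertSys n₀ R c H).add fun ω => W (ω R).2 := by
    simp [pertSys, Sys.add, add_right_comm]
  rw [pertLogZ, pertLogZ, e, add_sub_add_right_eq_sub]
  exact Sys.val_add_pot (pertSys_good hR H) (bdd_of_dependsTo (depends_last hR W))
    (Nat.zero_add R) _

/-! ### Measurability in the potential -/

section Meas

variable {α : Type} [MeasurableSpace α] {H : α → (Fin N → Bool) → ℝ}

lemma measurable_pert_step {F : α → (ℕ → PSpace N n₀ R) → ℝ}
    (hF : ∀ ω, Measurable fun a => F a ω) (k : ℕ) (ω : ℕ → PSpace N n₀ R) :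
    Measurable fun a => ∫ e, F a (update ω k e) ∂finLaw (PSpace N n₀ R) := by
  simp only [integral_finLaw, avg]
  exact (Finset.measurable_sum univ fun e _ => hF _).div_const _

lemma measurable_pert_uUp (hH : Measurable H) : ∀ d ω,
    Measurable fun a => (pertSys n₀ R c (H a)).uUp d ω
  | 0, ω => ((measurable_pi_apply _).comp hH).add_const _
  | d + 1, ω => (Real.measurable_log.comp (measurable_pert_step
      (F := fun a v => Real.exp (gridExp R (R - d) * (pertSys n₀ R c (H a)).uUp d v))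
      (fun v => ((measurable_pert_uUp hH d v).const_mul _).exp) (R - d) ω)).const_mul
        (gridExp R (R - d))⁻¹

lemma measurable_pert_A (hH : Measurable H) {F : α → (ℕ → PSpace N n₀ R) → ℝ}
    (hF : ∀ ω, Measurable fun a => F a ω) (l : ℕ) (ω : ℕ → PSpace N n₀ R) :
    Measurable fun a => (pertSys n₀ R c (H a)).A l (F a) ω :=
  have hw : ∀ v, Measurable fun a => Real.exp
      (gridExp R (l + 1) * (pertSys n₀ R c (H a)).u (l + 1) v) := fun v =>
    ((measurable_pert_uUp hH (R - (l + 1)) v).const_mul (gridExp R (l + 1))).exp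
  (measurable_pert_step (fun v => (hw v).mul (hF v)) _ ω).div (measurable_pert_step hw _ ω)

/-- Measurability in the potential. -/
theorem measurable_pert_cond (hR : 0 < R) {α : Type} [MeasurableSpace α]
    {H : α → (Fin N → Bool) → ℝ} (hH : Measurable H) {F : α → (ℕ → PSpace N n₀ R) → ℝ}
    (hF : ∀ ω, Measurable fun a => F a ω) (l m : ℕ) (ω : ℕ → PSpace N n₀ R) :
    Measurable fun a => (pertSys n₀ R c (H a)).cond l m (F a) ω := by
  suffices key : ∀ d k v, Measurable fun a => (pertSys n₀ R c (H a)).down d k (F a) v from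
    key (m - l) l ω
  intro d
  induction d with
  | zero => exact fun _ => hF
  | succ d ih => exact fun k => measurable_pert_A hH (ih (k + 1)) k

theorem measurable_pert_val (hR : 0 < R) {α : Type} [MeasurableSpace α]
    {H : α → (Fin N → Bool) → ℝ} (hH : Measurable H) (ξ : ℕ → ℝ)
    {F : α → (ℕ → PSpace N n₀ R) → ℝ} (hF : ∀ ω, Measurable fun a => F a ω) (d l : ℕ)
    (ω : ℕ → PSpace N n₀ R) :
    Measurable fun a => (pertSys n₀ R c (H a)).val ξ (F a) d l ω := by
  induction d generalizing l ω with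
  | zero => exact hF ω
  | succ d ih =>
    exact (Real.measurable_log.comp
      (measurable_pert_A hH (fun v => ((ih (l + 1) v).const_mul _).exp) l ω)).const_mul _

theorem measurable_pertLogZ (hR : 0 < R) :
    Measurable fun H : (Fin N → Bool) → ℝ => pertLogZ n₀ R c H :=
  (measurable_pert_uUp (H := fun H : (Fin N → Bool) → ℝ => H) measurable_id _ _).add_const _

theorem measurable_pert_mom (hR : 0 < R) {α : Type} [MeasurableSpace α]
    {H : α → (Fin N → Bool) → ℝ} (hH : Measurable H) {d : ℕ} (l : ℕ) (T : Tree d)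
    (g : Leaves d T → (ℕ → PSpace N n₀ R) → ℝ) (ω : ℕ → PSpace N n₀ R) :
    Measurable fun a => (pertSys n₀ R c (H a)).mom d l T g ω := by
  induction d generalizing l ω with
  | zero => exact measurable_const
  | succ d ih =>
    exact Finset.measurable_prod univ fun k _ =>
      measurable_pert_A hH (fun v => ih (l + 1) (T.2 k) _ v) l ω

theorem measurable_pert_resp (hR : 0 < R) {α : Type} [MeasurableSpace α]
    {H : α → (Fin N → Bool) → ℝ} (hH : Measurable H) (C : Cons)
    (a : (ℕ → PSpace N n₀ R) → ℝ) (l : ℕ) (ω : ℕ → PSpace N n₀ R) :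
    Measurable fun x => (pertSys n₀ R c (H x)).resp C a l ω :=
  (Measurable.tsum (L := SummationFilter.unconditional _)
    (f := fun (T : Tree (R - l)) x => Tree.weight (gridExp R) (R - l) l T *
      (C.count (R - l) l T : ℝ) * (pertSys n₀ R c (H x)).mom (R - l) l T (fun _ => a) ω)
    fun T => (measurable_pert_mom hR hH l T (fun _ => a) ω).const_mul
      (Tree.weight (gridExp R) (R - l) l T * (C.count (R - l) l T : ℝ))).const_mul (gridExp R l)⁻¹

end Meas

end Vale.Agent.P168
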