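import Vale.Agent.P168.CavClass
import Vale.Agent.P168.Val

/-!
# P168, module C: the cavity step
-/

namespace Vale.Agent.P168

open MeasureTheory Finset Function Filter Topology
open P168.Poisson

variable {M : Model}

namespace Cav

/-! ### Lipschitz observables -/

lemma lip_lse {ι : Type} [Fintype ι] [Nonempty ι] (u v : ι → ℝ) {C : ℝ}
    (h : ∀ a, |u a - v a| ≤ C) : |lse u - lse v| ≤ C := by
  have pos : ∀ w : ι → ℝ, 0 < ∑ a, Real.exp (w a) := fun w =>
    sum_pos (fun a _ => Real.exp_pos _) univ_nonempty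
  have one : ∀ w z : ι → ℝ, (∀ a, w a ≤ z a + C) → lse w ≤ lse z + C := fun w z hwz => by
    have h1 : ∑ a, Real.exp (w a) ≤ Real.exp C * ∑ a, Real.exp (z a) := by
      rw [mul_sum]
      exact sum_le_sum fun a _ => by rw [← Real.exp_add, Real.exp_le_exp]; linarith [hwz a]
    have h2 := Real.log_le_log (pos w) h1
    rw [Real.log_mul (Real.exp_ne_zero _) (pos z).ne', Real.log_exp] at h2
    unfold lse
    linarith
  rw [abs_le]
  constructor
  · linarith [one v u fun a => by linarith [(abs_le.1 (h a)).1]]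
  · linarith [one u v fun a => by linarith [(abs_le.1 (h a)).2]]

lemma abs_apply_le {N : ℕ} (x : V N) (σ : Fin N → Bool) : |x σ| ≤ ‖x‖ := norm_le_pi_norm x σ

lemma lip_logZ (N : ℕ) : Lip (fun H : V N => lse H) := fun x y =>
  lip_lse x y fun σ => abs_apply_le (x - y) σ

/-- The last site summed out. -/
noncomputable def red {N : ℕ} (H : V (N + 1)) : V N := fun σ => lse fun s => H (Fin.snoc σ s)

lemma norm_red_le {N : ℕ} (x y : V (N + 1)) : ‖red x - red y‖ ≤ ‖x - y‖ :=
  (pi_norm_le_iff_of_nonneg (norm_nonneg _)).2 fun _ =>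
    lip_lse _ _ fun e => abs_apply_le (x - y) _

variable {n₀ R : ℕ} {c : ℝ}

lemma pertLogZ_shift (hR : 0 < R) {N : ℕ} (H W : V N) :
    pertLogZ n₀ R c (H + W) = pertLogZ n₀ R c H +
      (pertSys n₀ R c H).val (gridExp R) (fun ω => W (ω R).2) R 0 (origin N n₀ R) := by
  have := pertLogZ_add (n₀ := n₀) (c := c) hR H W
  rw [show (fun σ => H σ + W σ) = H + W from rfl] at this
  linarith

lemma abs_val_le (hR : 0 < R) {N : ℕ} (H W : V N) :
    |(pertSys n₀ R c H).val (gridExp R) (fun ω => W (ω R).2) R 0 (origin N n₀ R)| ≤ ‖W‖ := by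
  have hd : DependsTo (fun ω : ℕ → PSpace N n₀ R => W (ω R).2) R := fun ω ω' h =>
    congrArg (fun p : PSpace N n₀ R => W p.2) (h R hR le_rfl)
  refine Sys.val_abs_le (pertSys_good hR H) (bdd_of_dependsTo hd) (fun ω => abs_apply_le W _)
    (fun i hi _ => ?_) _
  exact div_pos (Nat.cast_pos.2 hi) (Nat.cast_pos.2 hR)

lemma lip_pert (hR : 0 < R) {N : ℕ} : Lip (fun H : V N => pertLogZ n₀ R c H) := fun x y => by
  have h := pertLogZ_shift (n₀ := n₀) (c := c) hR y (x - y)
  rw [add_sub_cancel] at h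
  simp only [h, add_sub_cancel_left]
  exact abs_val_le hR y (x - y)

lemma lip_pert_red (hR : 0 < R) {N : ℕ} :
    Lip (fun H : V (N + 1) => pertLogZ n₀ R c (red H)) := fun x y =>
  (lip_pert hR (red x) (red y)).trans (norm_red_le x y)

/-! ### The new field -/

/-- A potential of `N` spins and the field of the new site, on `N + 1` spins. -/
noncomputable def ext {N : ℕ} (h : ℝ) (H : V N) : V (N + 1) :=
  fun τ => H (Fin.init τ) + h * spin (τ (Fin.last N))

lemma field_snoc {N : ℕ} (h' : Fin N → ℝ) (h : ℝ) :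
    field (Fin.snoc h' h : Fin (N + 1) → ℝ) = ext h (field h') := by
  funext τ
  simp [field, ext, Fin.sum_univ_castSucc, Fin.init]

lemma ext_add {N K : ℕ} (h : ℝ) (H : V N) (a : Param K × (Fin K → Fin N)) :
    ext h (H + jmp id a) = ext h H + jmp psi0 a := by
  funext τ
  simp only [ext, jmp, contrib, psi0, Pi.add_apply, id_eq, Fin.init]
  ring

lemma norm_ext_sub_le {N : ℕ} (h h' : ℝ) (H H' : V N) :
    ‖ext h H - ext h' H'‖ ≤ |h - h'| + ‖H - H'‖ :=
  (pi_norm_le_iff_of_nonneg (add_nonneg (abs_nonneg _) (norm_nonneg _))).2 fun τ => by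
    have h1 := abs_apply_le (H - H') (Fin.init τ)
    have h2 : ‖(ext h H - ext h' H') τ‖ ≤ |h - h'| + |(H - H') (Fin.init τ)| := by
      rw [Real.norm_eq_abs, show (ext h H - ext h' H') τ =
        (h - h') * spin (τ (Fin.last N)) + (H - H') (Fin.init τ) by
          simp only [ext, Pi.sub_apply]; ring]
      refine (abs_add_le _ _).trans_eq ?_
      rw [abs_mul, abs_spin, mul_one]
    linarith

lemma continuous_ext (N : ℕ) : Continuous fun p : ℝ × V N => ext p.1 p.2 := by
  unfold ext
  fun_prop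

/-- The potential of the new site. -/
lemma red_ext {N K k : ℕ} (h : ℝ) (H : V N) (θ : Fin k → Param K)
    (x : Fin k → Fin K × (Fin K → Fin N)) :
    red (ext h H + ∑ c, contrib (θ c, psi1 (x c))) =
      H + fun σ => potU θ (fun c => (x c).1) h fun s => σ ((x s.1).2 s.2) := by
  funext σ
  have hval : ∀ e : Bool, (ext h H + ∑ c, contrib (θ c, psi1 (x c))) (Fin.snoc σ e) =
      H σ + (h * spin e + ∑ c, theta (θ c) (update (fun j => σ ((x c).2 j)) (x c).1 e)) := by
    intro e
    simp only [Pi.add_apply, Finset.sum_apply, ext, contrib, Fin.init_snoc, Fin.snoc_last]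
    rw [add_assoc]
    congr 2
    refine sum_congr rfl fun c _ => congrArg _ (funext fun j => ?_)
    rcases eq_or_ne j (x c).1 with rfl | hj
    · simp [psi1]
    · simp [psi1, psi0, update_of_ne hj]
  simp only [red, lse, potU]
  simp only [hval, Real.exp_add, Real.exp_sum, ← mul_sum]
  simp only [Pi.add_apply]
  rw [Real.log_mul (Real.exp_ne_zero _) (sum_pos (fun e _ => ?_) univ_nonempty).ne', Real.log_exp]
  exact mul_pos (Real.exp_pos _) (prod_pos fun c _ => Real.exp_pos _)

/-! ### The increments -/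

/-- Averaging an equivalent index. -/
lemma siteInc_eq (hR : 0 < R) {N : ℕ} [NeZero N] (H : V N) {ι : Type} [Fintype ι] [DecidableEq ι]
    (F : (ι → Bool) → ℝ) :
    avg (fun i : ι → Fin N => pertLogZ n₀ R c (H + fun σ => F fun s => σ (i s))) =
      pertLogZ n₀ R c H + siteInc n₀ R c H F := by
  rw [siteInc, ← avg_const_add]
  exact avg_congr fun i => pertLogZ_shift hR H _

/-- The added clauses on old sites. -/
lemma cp_incV (hM : M.Valid) (hR : 0 < R) {N : ℕ} [NeZero N] (H : V N) :
    cp (((M.K : ℝ) - 1) * M.lam) (pN M N) (jN M N) (fun H => pertLogZ n₀ R c H) H =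
      pertLogZ n₀ R c H + incV M n₀ R c H := by
  have := clause_prob hM
  set F : V N → ℝ := fun H => pertLogZ n₀ R c H with hF
  have hFl : Lip F := lip_pert hR
  have ok := ok_jmp (N := N) (ψ := (id : (Fin M.K → Fin N) → _)) hM
  have e : ∀ k, (step (pN M N) (jN M N))^[k] F H - F H =
      ∫ θ, siteInc n₀ R c H (potV θ) ∂Measure.pi fun _ : Fin k => M.clauseLaw := by
    intro k
    obtain ⟨hi, he⟩ := iter_jmp (ψ := (id : (Fin M.K → Fin N) → _)) hM hFl k H
    have hpt : ∀ θ : Fin k → Param M.K,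
        avg (fun i : Fin k → Fin M.K → Fin N => F (H + ∑ c, contrib (θ c, id (i c)))) =
          F H + siteInc n₀ R c H (potV θ) := fun θ => by
      rw [← siteInc_eq hR H (potV θ), ← avg_equiv (Equiv.curry (Fin k) (Fin M.K) (Fin N))]
      refine avg_congr fun i => congrArg F ?_
      funext σ
      simp [contrib, potV, Finset.sum_apply]
    simp only [hpt] at hi he
    have hs : Integrable (fun θ : Fin k → Param M.K => siteInc n₀ R c H (potV θ))
        (Measure.pi fun _ => M.clauseLaw) := by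
      exact (hi.sub (integrable_const (F H))).congr
        (Eventually.of_forall fun θ => by simp)
    rw [he, integral_add (integrable_const _) hs]
    simp
  show pe _ (fun k => (step (pN M N) (jN M N))^[k] F H) = _
  rw [show incV M n₀ R c H =
    pe (((M.K : ℝ) - 1) * M.lam) (fun k => (step (pN M N) (jN M N))^[k] F H - F H) from
      tsum_congr fun k => congrArg _ (e k).symm,
    pe_sub (gr_iter ok hFl H) (Gr.const _), pe_const, add_sub_cancel]

/-- The new site. -/
lemma cp_incU (hM : M.Valid) (hR : 0 < R) {N : ℕ} [NeZero N] (H : V N) :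
    ∫ h, cp (M.K * M.lam) (par M (Fin M.K × (Fin M.K → Fin N))) (jmp psi1)
        (fun H' => pertLogZ n₀ R c (red H')) (ext h H) ∂M.hLaw =
      pertLogZ n₀ R c H + incU M n₀ R c H := by
  have := clause_prob hM
  have := hM.h_prob
  have : NeZero M.K := ⟨by have := hM.two_le; omega⟩
  set F : V (N + 1) → ℝ := fun H' => pertLogZ n₀ R c (red H') with hF
  have hFl : Lip F := lip_pert_red hR
  have ok := ok_jmp (N := N + 1) (ψ := (psi1 : (Fin M.K × (Fin M.K → Fin N)) → _)) hM
  set a := pertLogZ n₀ R c H with ha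
  have hpt : ∀ (k : ℕ) (h : ℝ) (θ : Fin k → Param M.K),
      avg (fun i : Fin k → (Fin M.K × (Fin M.K → Fin N)) => F (ext h H + ∑ c, contrib (θ c, psi1 (i c)))) =
        a + avg fun l : Fin k → Fin M.K => siteInc n₀ R c H (potU θ l h) := fun k h θ => by
    let e : (Fin k → Fin M.K) × (Fin k × Fin M.K → Fin N) ≃ (Fin k → (Fin M.K × (Fin M.K → Fin N))) :=
      { toFun := fun q c => (q.1 c, fun j => q.2 (c, j))
        invFun := fun i => (fun c => (i c).1, fun s => (i s.1).2 s.2)
        left_inv := fun q => rfl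
        right_inv := fun i => rfl }
    rw [← avg_equiv e, avg_prod, ← avg_const_add]
    refine avg_congr fun l => ?_
    rw [ha, ← siteInc_eq hR H (potU θ l h)]
    refine avg_congr fun i => ?_
    show pertLogZ n₀ R c (red _) = _
    rw [red_ext]
    rfl
  have hJ : ∀ (k : ℕ) (h : ℝ), (step (par M (Fin M.K × (Fin M.K → Fin N))) (jmp psi1))^[k] F (ext h H) - a =
      ∫ θ, avg (fun l : Fin k → Fin M.K => siteInc n₀ R c H (potU θ l h))
        ∂Measure.pi fun _ : Fin k => M.clauseLaw := by
    intro k h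
    obtain ⟨hi, he⟩ := iter_jmp (ψ := (psi1 : (Fin M.K × (Fin M.K → Fin N)) → _)) hM hFl k (ext h H)
    simp only [hpt] at hi he
    have hs : Integrable (fun θ : Fin k → Param M.K =>
        avg fun l : Fin k → Fin M.K => siteInc n₀ R c H (potU θ l h))
        (Measure.pi fun _ => M.clauseLaw) := by
      exact (hi.sub (integrable_const a)).congr (Eventually.of_forall fun θ => by simp)
    rw [he, integral_add (integrable_const _) hs]
    simp
  have hb : ∀ (k : ℕ) (h : ℝ), |(step (par M (Fin M.K × (Fin M.K → Fin N))) (jmp psi1))^[k] F (ext h H)|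
      ≤ |F (ext 0 H)| + k * L0 M + |h| := fun k h => by
    have h1 := abs_iter_le ok hFl (ext h H) k
    have h2 := hFl (ext h H) (ext 0 H)
    have h3 := norm_ext_sub_le h 0 H H
    simp only [sub_zero, sub_self, norm_zero, add_zero] at h3
    have h4 := abs_sub_abs_le_abs_sub (F (ext h H)) (F (ext 0 H))
    have h5 : (k : ℝ) * size (par M (Fin M.K × (Fin M.K → Fin N))) (jmp psi1) ≤ k * L0 M :=
      mul_le_mul_of_nonneg_left (size_jmp_le hM) (Nat.cast_nonneg k)
    linarith
  have hint : ∀ k, Integrable (fun h => (step (par M (Fin M.K × (Fin M.K → Fin N))) (jmp psi1))^[k] F (ext h H)) M.hLaw :=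
    fun k => ((integrable_const _).add hM.h_int.abs).mono'
      (((lip_iter ok hFl k).continuous.comp ((continuous_ext N).comp
        (continuous_id.prodMk continuous_const))).aestronglyMeasurable)
      (Eventually.of_forall fun h => hb k h)
  have hgr : Gr fun k => ∫ h, |(step (par M (Fin M.K × (Fin M.K → Fin N))) (jmp psi1))^[k] F (ext h H)| ∂M.hLaw := by
    refine ((Gr.const (|F (ext 0 H)| + ∫ h, |h| ∂M.hLaw)).add
      (Gr.natCast.smul (L0 M))).mono fun k => ?_
    rw [abs_of_nonneg (integral_nonneg fun h => abs_nonneg _)]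
    refine le_trans ?_ (le_abs_self _)
    refine (integral_mono (hint k).abs ((integrable_const _).add hM.h_int.abs)
      (fun h => hb k h)).trans_eq ?_
    simp only [Pi.add_apply]
    rw [integral_add (integrable_const _) hM.h_int.abs]
    simp
    ring
  show ∫ h, pe (M.K * M.lam) (fun k => (step (par M (Fin M.K × (Fin M.K → Fin N))) (jmp psi1))^[k] F (ext h H)) ∂M.hLaw = _
  rw [integral_pe _ _ hint hgr]
  have hu : incU M n₀ R c H = pe (M.K * M.lam)
      (fun k => ∫ h, (step (par M (Fin M.K × (Fin M.K → Fin N))) (jmp psi1))^[k] F (ext h H) ∂M.hLaw - a) := by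
    refine tsum_congr fun k => congrArg _ ?_
    beta_reduce
    rw [show ∫ h, (step (par M (Fin M.K × (Fin M.K → Fin N))) (jmp psi1))^[k] F (ext h H) ∂M.hLaw - a =
      ∫ h, ((step (par M (Fin M.K × (Fin M.K → Fin N))) (jmp psi1))^[k] F (ext h H) - a) ∂M.hLaw by
        rw [integral_sub (hint k) (integrable_const _)]; simp]
    simp only [hJ]
  rw [hu, pe_sub (hgr.mono fun k => ?_) (Gr.const _), pe_const, add_sub_cancel]
  exact abs_integral_le_integral_abs.trans (le_abs_self _)

/-! ### The rates -/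

lemma tendsto_ratio : Tendsto (fun N : ℕ => (N : ℝ) / ((N : ℝ) + 1)) atTop (𝓝 1) :=
  tendsto_natCast_div_add_atTop 1

lemma tendsto_geo (K : ℕ) : Tendsto (geo K) atTop (𝓝 (K : ℝ)) := by
  have h := tendsto_finsetSum (range K) fun j _ => tendsto_ratio.pow j
  unfold geo
  simpa using h

lemma tendsto_eta {K : ℕ} (hK : 1 ≤ K) : Tendsto (eta K) atTop (𝓝 0) := by
  have hK0 : (K : ℝ) ≠ 0 := Nat.cast_ne_zero.2 (by omega)
  have h : Tendsto (fun N : ℕ =>
      2 * (1 - (K : ℝ) * ((N : ℝ) / ((N : ℝ) + 1)) ^ (K - 1) / geo K N)) atTop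
      (𝓝 (2 * (1 - (K : ℝ) * 1 ^ (K - 1) / K))) :=
    (((tendsto_ratio.pow (K - 1)).const_mul (K : ℝ)).div (tendsto_geo K) hK0).const_sub 1
      |>.const_mul 2
  unfold eta
  simpa [hK0] using h

lemma oldRate_eq (M : Model) (N : ℕ) : oldRate M N = q0 M.K N * (M.lam * ((N : ℝ) + 1)) := by
  rw [oldRate, q0]; ring

lemma new_rate (M : Model) (N : ℕ) :
    (1 - q0 M.K N) * (M.lam * ((N : ℝ) + 1)) = M.lam * geo M.K N := by
  rw [geo_eq]; ring

end Cav

open Cav

theorem isProbabilityMeasure_hamLaw (hM : M.Valid) {μ : ℝ} (hμ : 0 ≤ μ) {N : ℕ} (hN : 0 < N) :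
    IsProbabilityMeasure (hamLaw M μ N) := by
  have : NeZero N := ⟨hN.ne'⟩
  exact hamLaw_prob hM hμ N

theorem meanLogZ_near (hM : M.Valid) {n₀ R : ℕ} (hR : 0 < R) {c : ℝ} (hc : 0 ≤ c)
    (hc' : (n₀ : ℝ) * c ≤ 1 / 2) {N : ℕ} (hN : 0 < N) :
    |meanLogZ M n₀ R c (M.lam * N) N - N * pressure M N| ≤
      N * (Fintype.card (Fam n₀ R) * R * (2 * n₀ * c)) := by
  have : NeZero N := ⟨hN.ne'⟩
  have := hM.h_prob
  have := clause_prob hM
  have hμ : 0 ≤ M.lam * N := mul_nonneg hM.lam_pos.le (Nat.cast_nonneg N)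
  have := hamLaw_prob hM hμ N
  have e : (N : ℝ) * pressure M N = ∫ H, lse H ∂hamLaw M (M.lam * N) N := by
    rw [integral_hamLaw_tsum hM hμ (lip_logZ N), pressure, mul_div_cancel₀ _
      (Nat.cast_ne_zero.2 hN.ne')]
    refine tsum_congr fun k => congrArg _ (integral_congr_ae (Eventually.of_forall fun θ => ?_))
    have hi : ∀ i : Fin k → Fin M.K → Fin N, Integrable (fun h => lse (ham θ i h))
        (Measure.pi fun _ : Fin N => M.hLaw) := fun i => by
      have hcont : Continuous fun h : Fin N → ℝ => ham θ i h := by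
        rw [funext fun h => ham_eq θ i h]
        exact (continuous_field N).add continuous_const
      refine integrable_fields hM ((lip_logZ N).continuous.comp hcont)
        (a := |lse (∑ c, contrib (θ c, i c))|) fun h => ?_
      show |lse (ham θ i h)| ≤ _
      rw [ham_eq, add_comm]
      exact ((lip_logZ N).bound _ _).trans (add_le_add le_rfl (norm_field_le h))
    simp only [avg, lse] at hi ⊢
    rw [integral_div, integral_finsetSum _ fun i _ => hi i]
  rw [e, meanLogZ, ← integral_sub (integrable_hamLaw hM hμ (lip_pert hR))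
    (integrable_hamLaw hM hμ (lip_logZ N))]
  refine abs_integral_le_integral_abs.trans ((integral_mono
    ((integrable_hamLaw hM hμ (lip_pert hR)).sub (integrable_hamLaw hM hμ (lip_logZ N))).abs
    (integrable_const _) fun H => pertLogZ_near hR hc hc' H).trans_eq ?_)
  simp

/-- One more site is the mean increment of the new site minus that of the added clauses. -/
theorem cavity (hM : M.Valid) {ε : ℝ} (hε : 0 < ε) : ∃ N₀ : ℕ, ∀ N : ℕ, N₀ ≤ N →
    ∀ (n₀ R : ℕ) (c : ℝ), 0 < R → 0 ≤ c → (n₀ : ℝ) * c ≤ 1 / 2 →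
    |meanLogZ M n₀ R c (M.lam * (N + 1)) (N + 1) - meanLogZ M n₀ R c (M.lam * N) N -
        ((∫ H, incU M n₀ R c H ∂hamLaw M (oldRate M N) N) -
          ∫ H, incV M n₀ R c H ∂hamLaw M (oldRate M N) N)| ≤
      ε + Fintype.card (Fam n₀ R) * R * (2 * n₀ * c) := by
  have hK : 1 ≤ M.K := le_trans (by norm_num) hM.two_le
  have : NeZero M.K := ⟨by omega⟩
  set e1 : ℕ → ℝ := fun N =>
    M.lam * geo M.K N * (eta M.K N * L0 M) + 2 * (|M.lam * geo M.K N - M.K * M.lam| * L0 M) with he1
  have hlim : Tendsto e1 atTop (𝓝 0) := by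
    have h1 := ((tendsto_geo M.K).const_mul M.lam).mul ((tendsto_eta hK).mul_const (L0 M))
    have h2 := (((tendsto_geo M.K).const_mul M.lam).sub_const ((M.K : ℝ) * M.lam)).abs.mul_const
      (L0 M) |>.const_mul 2
    simpa [he1, mul_comm] using h1.add h2
  obtain ⟨N₁, hN₁⟩ := eventually_atTop.1 (hlim.eventually (eventually_lt_nhds hε))
  refine ⟨max N₁ 1, fun N hN n₀ R c hR hc hc' => ?_⟩
  have : NeZero N := ⟨by have := le_of_max_le_right hN; omega⟩
  have := hM.h_prob
  have := clause_prob hM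
  have := field_prob hM N
  set b : ℝ := Fintype.card (Fam n₀ R) * R * (2 * n₀ * c) with hb
  have hlam : 0 ≤ M.lam := hM.lam_pos.le
  have hold : 0 ≤ oldRate M N := by unfold oldRate; positivity
  have := hamLaw_prob hM hold N
  have ht : 0 ≤ M.lam * ((N : ℝ) + 1) := by positivity
  have := hamLaw_prob hM ht (N + 1)
  have hgeo : (1 : ℝ) ≤ geo M.K N := one_le_geo hK N
  have hs : 0 ≤ M.lam * geo M.K N := mul_nonneg hlam (by linarith)
  have hK1 : 0 ≤ (M.K : ℝ) * M.lam := by positivity
  have hK2 : 0 ≤ ((M.K : ℝ) - 1) * M.lam :=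
    mul_nonneg (by have : (1 : ℝ) ≤ M.K := Nat.one_le_cast.2 hK; linarith) hlam
  set F : V N → ℝ := fun H => pertLogZ n₀ R c H with hF
  set F1 : V (N + 1) → ℝ := fun H => pertLogZ n₀ R c (red H) with hF1
  set F2 : V (N + 1) → ℝ := fun H => pertLogZ n₀ R c H with hF2
  have lF : Lip F := lip_pert hR
  have lF1 : Lip F1 := lip_pert_red hR
  have lF2 : Lip F2 := lip_pert hR
  have okN := ok_jmp (N := N) (ψ := (id : (Fin M.K → Fin N) → _)) hM
  have okN' := ok_jmp (N := N + 1) (ψ := (id : (Fin M.K → Fin (N + 1)) → _)) hM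
  have ok0 := ok_jmp (N := N + 1) (ψ := (psi0 : (Fin M.K → Fin N) → _)) hM
  have okT := ok_jmp (N := N + 1) (ψ := (Subtype.val : Hit M.K N → _)) hM
  have ok1 := ok_jmp (N := N + 1) (ψ := (psi1 : Fin M.K × (Fin M.K → Fin N) → _)) hM
  set G := cp (M.lam * geo M.K N) (par M (Hit M.K N)) (jmp Subtype.val) F1 with hG
  set G1 := cp (M.K * M.lam) (par M (Fin M.K × (Fin M.K → Fin N))) (jmp psi1) F1 with hG1
  have lG : Lip G := lip_cp okT lF1 hs
  have lG1 : Lip G1 := lip_cp ok1 lF1 hK1
  -- replacing the hits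
  set d : ℝ := |M.lam * geo M.K N - M.K * M.lam| * L0 M with hd
  have hGG1 : ∀ x, |G x - G1 x| ≤ M.lam * geo M.K N * (eta M.K N * L0 M) + d := fun x => by
    refine (abs_sub_le _ (cp (M.lam * geo M.K N) (par M (Fin M.K × (Fin M.K → Fin N))) (jmp psi1)
      F1 x) _).trans (add_le_add (abs_cp_compare okT ok1 (fun G hG x => step_hit_near hM hG x)
        lF1 hs x) ?_)
    exact (abs_cp_rate ok1 lF1 hs hK1 x).trans
      (mul_le_mul_of_nonneg_left (size_jmp_le hM) (abs_nonneg _))
  -- the larger system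
  set A : V N → ℝ := fun H => ∫ h, G1 (ext h H) ∂M.hLaw with hA
  have hAeq : ∀ H, A H = pertLogZ n₀ R c H + incU M n₀ R c H := fun H => cp_incU hM hR H
  have hextc : Continuous fun p : ℝ × V N => G1 (ext p.1 p.2) :=
    lG1.continuous.comp (continuous_ext N)
  have hiext : ∀ H : V N, Integrable (fun h => G1 (ext h H)) M.hLaw := fun H => by
    refine ((integrable_const (|G1 (ext 0 H)|)).add hM.h_int.abs).mono'
      (hextc.comp (continuous_id.prodMk continuous_const)).aestronglyMeasurable
      (Eventually.of_forall fun h => ?_)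
    have h2 := lG1 (ext h H) (ext 0 H)
    have h3 := norm_ext_sub_le h 0 H H
    simp only [sub_zero, sub_self, norm_zero, add_zero] at h3
    have h4 := abs_sub_abs_le_abs_sub (G1 (ext h H)) (G1 (ext 0 H))
    simp only [Pi.add_apply, Real.norm_eq_abs]
    linarith
  have lA : Lip A := fun x y => by
    rw [hA, ← integral_sub (hiext x) (hiext y)]
    refine abs_integral_le_integral_abs.trans ((integral_mono ((hiext x).sub (hiext y)).abs
      (integrable_const ‖x - y‖) fun h => ?_).trans_eq (by simp))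
    have h3 := norm_ext_sub_le h h x y
    simp only [sub_self, abs_zero, zero_add] at h3
    exact (lG1 _ _).trans h3
  have hhf : ∀ f : V (N + 1) → ℝ, Lip f → Integrable (fun h => f (field h))
      (Measure.pi fun _ : Fin (N + 1) => M.hLaw) := fun f hf =>
    integrable_fields hM (hf.continuous.comp (continuous_field _)) (a := |f 0|) fun h => by
      have h1 := hf.bound 0 (field h)
      rw [zero_add] at h1
      exact h1.trans (add_le_add le_rfl (norm_field_le h))
  set Φ := cp (oldRate M N) (par M (Fin M.K → Fin N)) (jmp psi0) G1 with hΦ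
  have lΦ : Lip Φ := lip_cp ok0 lG1 hold
  have lΨ : Lip (cp (M.lam * ((N : ℝ) + 1)) (pN M (N + 1)) (jN M (N + 1)) F1) :=
    lip_cp okN' lF1 ht
  have hmain : |∫ H, F1 H ∂hamLaw M (M.lam * ((N : ℝ) + 1)) (N + 1) -
      ∫ H, A H ∂hamLaw M (oldRate M N) N| ≤ M.lam * geo M.K N * (eta M.K N * L0 M) + d := by
    have eA : ∫ H, A H ∂hamLaw M (oldRate M N) N =
        ∫ h, Φ (field h) ∂Measure.pi fun _ : Fin (N + 1) => M.hLaw := by
      have hp := (measurePreserving_piFinSuccAbove (fun _ : Fin (N + 1) => M.hLaw)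
        (Fin.last N)).symm
      rw [← hp.integral_comp']
      have e : ∀ p : ℝ × (Fin N → ℝ),
          (MeasurableEquiv.piFinSuccAbove (fun _ : Fin (N + 1) => ℝ) (Fin.last N)).symm p
            = Fin.snoc p.2 p.1 := fun p => by
        simp [MeasurableEquiv.piFinSuccAbove, Fin.snocEquiv]
      have hcomp : ∀ h H, Φ (ext h H) =
          cp (oldRate M N) (pN M N) (jN M N) (fun z => G1 (ext h z)) H := fun h H =>
        cp_comp (fun y a => ext_add h y a) G1 _ H
      simp only [e, field_snoc]
      have hiΦ := (hp.integrable_comp_emb (MeasurableEquiv.measurableEmbedding _)).2 (hhf Φ lΦ)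
      simp only [Function.comp_def, e, field_snoc] at hiΦ
      rw [integral_prod _ hiΦ]
      simp only [hcomp]
      have hl : ∀ h, Lip fun z => G1 (ext h z) := fun h x y => by
        have h3 := norm_ext_sub_le h h x y
        simp only [sub_self, abs_zero, zero_add] at h3
        exact (lG1 _ _).trans h3
      simp only [← integral_hamLaw hM hold (hl _)]
      refine (integral_integral_swap ?_).symm
      refine (((integrable_const (|G1 (ext 0 0)|)).add (hM.h_int.abs.comp_fst _)).add
        ((integrable_hamLaw (μ := oldRate M N) (N := N) hM hold (G := fun H => ‖H‖)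
          fun x y => abs_norm_sub_norm_le x y).comp_snd M.hLaw)).mono'
        hextc.aestronglyMeasurable (Eventually.of_forall fun p => ?_)
      have h2 := lG1 (ext p.1 p.2) (ext 0 0)
      have h3 := norm_ext_sub_le p.1 0 p.2 0
      simp only [sub_zero] at h3
      have h4 := abs_sub_abs_le_abs_sub (G1 (ext p.1 p.2)) (G1 (ext 0 0))
      simp only [Pi.add_apply, Real.norm_eq_abs, Function.uncurry]
      linarith
    rw [eA, integral_hamLaw hM ht lF1, ← integral_sub (hhf _ lΨ) (hhf Φ lΦ)]
    refine abs_integral_le_integral_abs.trans ((integral_mono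
      ((hhf _ lΨ).sub (hhf Φ lΦ)).abs (integrable_const (M.lam * geo M.K N * (eta M.K N * L0 M) + d))
      fun h => ?_).trans_eq (by simp))
    have hsp := cp_split okN' ok0 okT (measurable_contrib psi0) (measurable_contrib Subtype.val)
      (q := q0 M.K N) (fun G hG x => step_mix hM hG x) lF1 (M.lam * ((N : ℝ) + 1)) (field h)
    rw [← oldRate_eq, new_rate] at hsp
    simp only [Pi.sub_apply, pN, jN]
    rw [hsp]
    exact abs_cp_mono ok0 lG lG1 hGG1 hold _
  -- the smaller system
  set B : V N → ℝ := cp (((M.K : ℝ) - 1) * M.lam) (pN M N) (jN M N) F with hB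
  have hBeq : ∀ H, B H = pertLogZ n₀ R c H + incV M n₀ R c H := fun H => cp_incV hM hR H
  have lB : Lip B := lip_cp okN lF hK2
  have hδ : 0 ≤ M.lam * geo M.K N - M.lam := by
    have := mul_le_mul_of_nonneg_left hgeo hlam
    linarith
  have lδ : Lip (cp (M.lam * geo M.K N - M.lam) (pN M N) (jN M N) F) := lip_cp okN lF hδ
  have hsmall : |∫ H, F H ∂hamLaw M (M.lam * N) N - ∫ H, B H ∂hamLaw M (oldRate M N) N| ≤ d := by
    have hN0 : 0 ≤ M.lam * (N : ℝ) := by positivity
    have e : M.lam * (N : ℝ) = oldRate M N + (M.lam * geo M.K N - M.lam) := by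
      rw [← new_rate, oldRate_eq]; ring
    have eF : ∫ H, F H ∂hamLaw M (M.lam * N) N =
        ∫ H, cp (M.lam * geo M.K N - M.lam) (pN M N) (jN M N) F H ∂hamLaw M (oldRate M N) N := by
      rw [integral_hamLaw hM hold lδ, integral_hamLaw hM hN0 lF, e]
      simp only [cp_add okN lF]
    rw [eF, ← integral_sub (integrable_hamLaw hM hold lδ) (integrable_hamLaw hM hold lB)]
    refine abs_integral_le_integral_abs.trans ((integral_mono
      ((integrable_hamLaw hM hold lδ).sub (integrable_hamLaw hM hold lB)).abs (integrable_const d)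
      fun H => ?_).trans_eq (by simp))
    refine (abs_cp_rate okN lF hδ hK2 H).trans ?_
    rw [show M.lam * geo M.K N - M.lam - ((M.K : ℝ) - 1) * M.lam
      = M.lam * geo M.K N - M.K * M.lam by ring]
    exact mul_le_mul_of_nonneg_left (size_jmp_le hM) (abs_nonneg _)
  have hred : |∫ H, F2 H ∂hamLaw M (M.lam * ((N : ℝ) + 1)) (N + 1) -
      ∫ H, F1 H ∂hamLaw M (M.lam * ((N : ℝ) + 1)) (N + 1)| ≤ b := by
    rw [← integral_sub (integrable_hamLaw hM ht lF2) (integrable_hamLaw hM ht lF1)]
    refine abs_integral_le_integral_abs.trans ((integral_mono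
      ((integrable_hamLaw hM ht lF2).sub (integrable_hamLaw hM ht lF1)).abs (integrable_const _)
      fun H => pertLogZ_succ hR hc hc' H).trans_eq (by simp [hb]))
  have iP := integrable_hamLaw (μ := oldRate M N) hM hold lF
  have eU : ∫ H, incU M n₀ R c H ∂hamLaw M (oldRate M N) N =
      (∫ H, A H ∂hamLaw M (oldRate M N) N) - ∫ H, F H ∂hamLaw M (oldRate M N) N := by
    rw [← integral_sub (integrable_hamLaw hM hold lA) iP]
    exact integral_congr_ae (Eventually.of_forall fun H => by simp [hAeq, hF])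
  have eV : ∫ H, incV M n₀ R c H ∂hamLaw M (oldRate M N) N =
      (∫ H, B H ∂hamLaw M (oldRate M N) N) - ∫ H, F H ∂hamLaw M (oldRate M N) N := by
    rw [← integral_sub (integrable_hamLaw hM hold lB) iP]
    exact integral_congr_ae (Eventually.of_forall fun H => by simp [hBeq, hF])
  have he := hN₁ N (le_of_max_le_left hN)
  have he' : M.lam * geo M.K N * (eta M.K N * L0 M) + 2 * d < ε := he
  rw [eU, eV]
  simp only [meanLogZ, ← hF2, ← hF]
  rw [abs_le] at hmain hsmall hred ⊢
  constructor <;> linarith [hmain.1, hmain.2, hsmall.1, hsmall.2, hred.1, hred.2]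

end Vale.Agent.P168
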