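import Mathlib

/-!
P168, module E: the coefficients of `1 - (1-y)^a` and the series of `-log (1-y)`.
-/

open Finset Filter Topology

namespace Vale.P168

noncomputable section

/-- The mass left above `n` by the coefficients of `1 - (1-y)^a`. -/
def coefTail (a : ℝ) (n : ℕ) : ℝ := ∏ i ∈ range n, (1 - a / (i + 1))

/-- The coefficient of `y^k` in `1 - (1-y)^a`. -/
def coef (a : ℝ) : ℕ → ℝ
  | 0 => 0
  | n + 1 => a / (n + 1) * coefTail a n

@[simp] theorem coef_zero (a : ℝ) : coef a 0 = 0 := rfl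

theorem coef_succ (a : ℝ) (n : ℕ) : coef a (n + 1) = a / (n + 1) * coefTail a n := rfl

@[simp] theorem coef_one (a : ℝ) : coef a 1 = a := by simp [coef, coefTail]

theorem coef_two (a : ℝ) : coef a 2 = a * (1 - a) / 2 := by
  simp [coef, coefTail]; ring

@[simp] theorem coefTail_zero (a : ℝ) : coefTail a 0 = 1 := by simp [coefTail]

theorem coefTail_succ (a : ℝ) (n : ℕ) :
    coefTail a (n + 1) = coefTail a n - coef a (n + 1) := by
  rw [coef_succ, coefTail, Finset.prod_range_succ, ← coefTail]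
  ring

theorem coef_succ_succ (a : ℝ) (n : ℕ) :
    coef a (n + 2) = coef a (n + 1) * ((n + 1 - a) / (n + 2)) := by
  rw [coef_succ, coef_succ, coefTail, Finset.prod_range_succ, ← coefTail]
  push_cast
  field_simp
  ring

theorem coefTail_nonneg {a : ℝ} (ha : a ≤ 1) (n : ℕ) : 0 ≤ coefTail a n :=
  Finset.prod_nonneg fun i _ => by
    rw [sub_nonneg, div_le_one (by positivity)]
    linarith [(Nat.cast_nonneg i : (0 : ℝ) ≤ i)]

theorem coef_nonneg {a : ℝ} (h0 : 0 ≤ a) (h1 : a ≤ 1) : ∀ k, 0 ≤ coef a k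
  | 0 => le_rfl
  | n + 1 => mul_nonneg (by positivity) (coefTail_nonneg h1 n)

theorem coefTail_le_one {a : ℝ} (h0 : 0 ≤ a) (h1 : a ≤ 1) : ∀ n, coefTail a n ≤ 1
  | 0 => (coefTail_zero a).le
  | n + 1 => by
    rw [coefTail_succ]
    linarith [coefTail_le_one h0 h1 n, coef_nonneg h0 h1 (n + 1)]

theorem coef_le {a : ℝ} (h0 : 0 ≤ a) (h1 : a ≤ 1) : ∀ k, coef a k ≤ a
  | 0 => h0
  | n + 1 => by
    calc coef a (n + 1) ≤ a / (n + 1) * 1 :=
          mul_le_mul_of_nonneg_left (coefTail_le_one h0 h1 n) (by positivity)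
      _ ≤ a := by rw [mul_one]; exact div_le_self h0 (by linarith [n.cast_nonneg (α := ℝ)])

theorem sum_range_coef (a : ℝ) : ∀ n, ∑ k ∈ range (n + 1), coef a k = 1 - coefTail a n
  | 0 => by simp
  | n + 1 => by rw [Finset.sum_range_succ, sum_range_coef a n, coefTail_succ]; ring

theorem sum_coef_le_one {a : ℝ} (h0 : 0 ≤ a) (h1 : a ≤ 1) (s : Finset ℕ) :
    ∑ k ∈ s, coef a k ≤ 1 := by
  have hs : s ⊆ range (s.sup id + 1) := fun k hk =>
    Finset.mem_range.2 (Nat.lt_succ_of_le (Finset.le_sup (f := id) hk))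
  refine (Finset.sum_le_sum_of_subset_of_nonneg hs fun k _ _ => coef_nonneg h0 h1 k).trans ?_
  rw [sum_range_coef]
  linarith [coefTail_nonneg h1 (s.sup id)]

theorem sum_coef_two_le {a : ℝ} (h0 : 0 ≤ a) (h1 : a ≤ 1) {s : Finset ℕ}
    (hs : ∀ k ∈ s, 2 ≤ k) : ∑ k ∈ s, coef a k ≤ 1 - a := by
  have h := sum_coef_le_one h0 h1 (insert 1 s)
  rw [Finset.sum_insert (fun h => by simpa using hs 1 h), coef_one] at h
  linarith

theorem summable_coef {a : ℝ} (h0 : 0 ≤ a) (h1 : a ≤ 1) : Summable (coef a) :=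
  summable_of_sum_le (coef_nonneg h0 h1) (sum_coef_le_one h0 h1)

theorem tsum_coef_le_one {a : ℝ} (h0 : 0 ≤ a) (h1 : a ≤ 1) : ∑' k, coef a k ≤ 1 :=
  (summable_coef h0 h1).tsum_le_of_sum_le (sum_coef_le_one h0 h1)

/-- For `0 < a ≤ 1` the coefficients are a probability law. -/
theorem hasSum_coef_one {a : ℝ} (h0 : 0 < a) (h1 : a ≤ 1) : HasSum (coef a) 1 := by
  rw [(summable_coef h0.le h1).hasSum_iff_tendsto_nat, ← tendsto_add_atTop_iff_nat 1]
  simp only [sum_range_coef]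
  have hexp : Tendsto (fun n => Real.exp (-(a * ∑ i ∈ range n, (1 : ℝ) / (i + 1)))) atTop (𝓝 0) :=
    Real.tendsto_exp_atBot.comp (tendsto_neg_atTop_atBot.comp
      (Tendsto.const_mul_atTop h0 Real.tendsto_sum_range_one_div_nat_succ_atTop))
  have ht : Tendsto (coefTail a) atTop (𝓝 0) := by
    refine squeeze_zero (coefTail_nonneg h1) (fun n => ?_) hexp
    rw [Finset.mul_sum, ← Finset.sum_neg_distrib, Real.exp_sum]
    refine Finset.prod_le_prod (fun i _ => ?_) fun i _ => ?_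
    · rw [sub_nonneg, div_le_one (by positivity)]
      linarith [(Nat.cast_nonneg i : (0 : ℝ) ≤ i)]
    · rw [mul_one_div]
      linarith [Real.add_one_le_exp (-(a / (i + 1)))]
  simpa using ht.const_sub 1

theorem tsum_coef {a : ℝ} (h0 : 0 < a) (h1 : a ≤ 1) : ∑' k, coef a k = 1 :=
  (hasSum_coef_one h0 h1).tsum_eq

theorem choose_succ_mul (a : ℝ) (n : ℕ) :
    Ring.choose a (n + 1) * (n + 1) = Ring.choose a n * (a - n) := by
  have h1 := Ring.descPochhammer_eq_factorial_smul_choose a (n + 1)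
  have h2 := Ring.descPochhammer_eq_factorial_smul_choose a n
  rw [descPochhammer_succ_right, Polynomial.smeval_mul, h2] at h1
  simp only [Polynomial.smeval_sub, Polynomial.smeval_X, pow_one, Polynomial.smeval_natCast,
    pow_zero, nsmul_eq_mul, mul_one, Nat.factorial_succ, Nat.cast_mul, Nat.cast_add,
    Nat.cast_one] at h1
  have hf : ((n.factorial : ℕ) : ℝ) ≠ 0 := by exact_mod_cast n.factorial_ne_zero
  refine mul_left_cancel₀ hf ?_
  linear_combination -h1

theorem coef_eq_choose (a : ℝ) : ∀ n, coef a (n + 1) = (-1) ^ n * Ring.choose a (n + 1)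
  | 0 => by simp
  | n + 1 => by
    rw [show n + 1 + 1 = n + 2 from rfl, coef_succ_succ, coef_eq_choose a n]
    have h := choose_succ_mul a (n + 1)
    push_cast at h
    rw [show n + 2 = n + 1 + 1 from rfl] at *
    rw [mul_div_assoc', div_eq_iff (by positivity)]
    linear_combination (-1 : ℝ) ^ n * h

/-- The series of `1 - (1-y)^a`. -/
theorem hasSum_coef (a : ℝ) {y : ℝ} (hy : |y| < 1) :
    HasSum (fun k => coef a k * y ^ k) (1 - (1 - y) ^ a) := by
  have h := (Real.one_add_rpow_hasFPowerSeriesOnBall_zero (a := a)).hasSum (y := -y) (by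
    rw [Metric.mem_eball, edist_zero_right, ← ofReal_norm, norm_neg, Real.norm_eq_abs,
      ENNReal.ofReal_lt_one]
    exact hy)
  simp only [binomialSeries_apply, List.ofFn_const, List.prod_replicate, smul_eq_mul,
    zero_add] at h
  rw [← sub_eq_add_neg] at h
  rw [← hasSum_nat_add_iff' 1] at h
  simp only [Finset.range_one, Finset.sum_singleton, Ring.choose_zero_right, pow_zero,
    mul_one] at h
  rw [← hasSum_nat_add_iff' 1]
  simp only [Finset.range_one, Finset.sum_singleton, coef_zero, zero_mul, sub_zero]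
  rw [show 1 - (1 - y) ^ a = -((1 - y) ^ a - 1) by ring]
  refine h.neg.congr_fun fun n => ?_
  rw [coef_eq_choose, neg_pow y, pow_succ (-1 : ℝ) n]
  ring

/-- The image of `1 - (1-y)^b` stays in the disc of convergence. -/
theorem abs_one_sub_rpow_lt_one {b y : ℝ} (h0 : 0 ≤ b) (h1 : b ≤ 1) (hy : |y| < 1) :
    |1 - (1 - y) ^ b| < 1 := by
  obtain ⟨hy1, hy2⟩ := abs_lt.1 hy
  have hp : 0 < (1 - y) ^ b := Real.rpow_pos_of_pos (by linarith) b
  have hu : (1 - y) ^ b < 2 := by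
    rcases le_total (1 - y) 1 with h | h
    · linarith [Real.rpow_le_one (by linarith) h h0]
    · linarith [Real.rpow_le_self_of_one_le h h1]
  rw [abs_lt]
  constructor <;> linarith

/-- The composition law `p(a) ∘ p(b) = p(ab)`. -/
theorem hasSum_coef_comp (a : ℝ) {b y : ℝ} (h0 : 0 ≤ b) (h1 : b ≤ 1) (hy : |y| < 1) :
    HasSum (fun k => coef a k * (1 - (1 - y) ^ b) ^ k) (1 - (1 - y) ^ (a * b)) := by
  have h := hasSum_coef a (abs_one_sub_rpow_lt_one h0 h1 hy)
  rwa [sub_sub_cancel, ← Real.rpow_mul (by linarith [(abs_lt.1 hy).2]), mul_comm b a] at h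

theorem tsum_coef_comp (a : ℝ) {b y : ℝ} (h0 : 0 ≤ b) (h1 : b ≤ 1) (hy : |y| < 1) :
    ∑' k, coef a k * (1 - (1 - y) ^ b) ^ k = 1 - (1 - y) ^ (a * b) :=
  (hasSum_coef_comp a h0 h1 hy).tsum_eq

theorem tsum_coef_mul_pow (a : ℝ) {y : ℝ} (hy : |y| < 1) :
    ∑' k, coef a k * y ^ k = 1 - (1 - y) ^ a :=
  (hasSum_coef a hy).tsum_eq

/-- The tail of the series. -/
theorem coef_tail_le {a ρ : ℝ} (h0 : 0 ≤ a) (h1 : a ≤ 1) (r0 : 0 ≤ ρ) (r1 : ρ < 1) (n : ℕ) :
    ∑' k, coef a (k + (n + 1)) * ρ ^ (k + (n + 1)) ≤ a * ρ ^ (n + 1) / (1 - ρ) := by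
  have hg := (hasSum_geometric_of_lt_one r0 r1).mul_left (a * ρ ^ (n + 1))
  rw [div_eq_mul_inv]
  refine le_trans (Summable.tsum_le_tsum (fun k => ?_) ?_ hg.summable) hg.tsum_eq.le
  · rw [mul_assoc, ← pow_add, add_comm (n + 1) k]
    exact mul_le_mul_of_nonneg_right (coef_le h0 h1 _) (by positivity)
  · have hs := (hasSum_coef a (y := ρ) (by rwa [abs_of_nonneg r0])).summable
    exact (summable_nat_add_iff (f := fun k => coef a k * ρ ^ k) (n + 1)).2 hs

/-- The tail bound with an indicator. -/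
theorem coef_tail_le' {a ρ : ℝ} (h0 : 0 ≤ a) (h1 : a ≤ 1) (r0 : 0 ≤ ρ) (r1 : ρ < 1) (n : ℕ) :
    ∑' k, (if n < k then coef a k * ρ ^ k else 0) ≤ a * ρ ^ (n + 1) / (1 - ρ) := by
  refine le_trans (le_of_eq ?_) (coef_tail_le h0 h1 r0 r1 n)
  have hs : Summable fun k => if n < k then coef a k * ρ ^ k else 0 := by
    refine Summable.of_nonneg_of_le (fun k => ?_) (fun k => ?_)
      (hasSum_coef a (y := ρ) (by rwa [abs_of_nonneg r0])).summable
    · split_ifs
      · exact mul_nonneg (coef_nonneg h0 h1 k) (pow_nonneg r0 k)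
      · exact le_rfl
    · split_ifs
      · exact le_rfl
      · exact mul_nonneg (coef_nonneg h0 h1 k) (pow_nonneg r0 k)
  rw [← hs.sum_add_tsum_nat_add (n + 1),
    Finset.sum_eq_zero fun k hk => if_neg (by have := Finset.mem_range.1 hk; omega), zero_add]
  exact tsum_congr fun k => if_pos (by omega)

/-- The series of `-log (1-y)`; the term `k = 0` is `0`. -/
theorem hasSum_neg_log {y : ℝ} (hy : |y| < 1) :
    HasSum (fun k : ℕ => y ^ k / k) (-Real.log (1 - y)) := by
  rw [← hasSum_nat_add_iff' 1]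
  simpa using Real.hasSum_pow_div_log_of_abs_lt_one hy

end

end Vale.P168
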