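import Mathlib

/-!
Diluted spin glasses: the class of models, the pressure and the Mézard–Parisi trial functional.
-/

namespace Vale.Agent.P168

open MeasureTheory Finset

/-- The value `±1` of a spin. -/
def spin (s : Bool) : ℝ := if s then 1 else -1

/-- The parameters `((a, b), f)` of one clause of arity `K`. -/
abbrev Param (K : ℕ) := (ℝ × ℝ) × (Fin K → Bool → ℝ)

/-- `θ(σ) = log a + log (1 + b f_1(σ_1) ⋯ f_K(σ_K))`. -/
noncomputable def theta {K : ℕ} (p : Param K) (σ : Fin K → Bool) : ℝ :=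
  Real.log p.1.1 + Real.log (1 + p.1.2 * ∏ j, p.2 j (σ j))

/-- The data of a model: arity, density, law of one clause `((a, b), f)`, law of `b`, law of one
`f_j`, law of the field. -/
structure Model where
  K : ℕ
  lam : ℝ
  clauseLaw : Measure (Param K)
  bLaw : Measure ℝ
  fLaw : Measure (Bool → ℝ)
  hLaw : Measure ℝ

/-- The class of models: `(b, f)` has the law of `b` times i.i.d. copies of `f`, and `a` may depend
on both in any way. -/
structure Model.Valid (M : Model) : Prop where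
  even : Even M.K
  two_le : 2 ≤ M.K
  lam_pos : 0 < M.lam
  clause_prob : IsProbabilityMeasure M.clauseLaw
  b_prob : IsProbabilityMeasure M.bLaw
  f_prob : IsProbabilityMeasure M.fLaw
  h_prob : IsProbabilityMeasure M.hLaw
  marginal : M.clauseLaw.map (fun p => (p.1.2, p.2)) = M.bLaw.prod (Measure.pi fun _ => M.fLaw)
  a_pos : ∀ᵐ p ∂M.clauseLaw, 0 < p.1.1
  b_mem : ∀ᵐ b ∂M.bLaw, b ∈ Set.Ioo (-1 : ℝ) 1
  f_bound : ∀ᵐ f ∂M.fLaw, ∀ s, |f s| ≤ 1
  positive : ∀ n : ℕ, 1 ≤ n → 0 ≤ ∫ b, (-b) ^ n ∂M.bLaw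
  theta_int : Integrable (fun p => univ.sup' univ_nonempty fun σ => |theta p σ|) M.clauseLaw
  h_int : Integrable (fun h : ℝ => h) M.hLaw

/-- The weight of `k` under the Poisson law of mean `μ`. -/
noncomputable def pois (μ : ℝ) (k : ℕ) : ℝ := Real.exp (-μ) * μ ^ k / (Nat.factorial k : ℝ)

/-- The average over a finite set. -/
noncomputable def avg {α : Type} [Fintype α] (F : α → ℝ) : ℝ := (∑ a, F a) / Fintype.card α

/-- The Hamiltonian of `N` sites with clauses `θ` at the positions `i` and fields `h`. -/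
noncomputable def ham {K N k : ℕ} (θ : Fin k → Param K) (i : Fin k → Fin K → Fin N)
    (h : Fin N → ℝ) (σ : Fin N → Bool) : ℝ :=
  (∑ c, theta (θ c) fun j => σ (i c j)) + ∑ v, h v * spin (σ v)

/-- The pressure `F_N = N⁻¹ E log ∑_σ exp H_N(σ)`. -/
noncomputable def pressure (M : Model) (N : ℕ) : ℝ :=
  (∑' k : ℕ, pois (M.lam * N) k *
      ∫ θ, ∫ h, avg (fun i : Fin k → Fin M.K → Fin N =>
          Real.log (∑ σ : Fin N → Bool, Real.exp (ham θ i h σ)))
        ∂Measure.pi (fun _ : Fin N => M.hLaw) ∂Measure.pi fun _ : Fin k => M.clauseLaw) / N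

/-- The uniform law on `[0, 1]`, one coordinate for each message. -/
noncomputable def unifLaw (J : Type) [Fintype J] : Measure (J → ℝ) :=
  Measure.pi fun _ => volume.restrict (Set.Icc (0 : ℝ) 1)

/-- `Y_0`: the recursion `Y_{p-1} = (E_p Y_p ^ m_p) ^ (1 / m_p)`, where `E_p` integrates the level
`p` variables of all messages. -/
noncomputable def collapse {J : Type} [Fintype J] : (r : ℕ) → (Fin r → ℝ) →
    ((Fin r → J → ℝ) → ℝ) → ℝ
  | 0, _, Y => Y fun p => Fin.elim0 p
  | r + 1, m, Y => (∫ e, collapse r (fun p => m p.succ) (fun ω => Y (Fin.cons e ω)) ^ m 0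
      ∂unifLaw J) ^ (1 / m 0)

/-- A trial: depth, exponents and the message function. -/
structure Trial where
  r : ℕ
  m : Fin r → ℝ
  x : (Fin (r + 1) → ℝ) → ℝ
  m_mono : StrictMono m
  m_mem : ∀ p, m p ∈ Set.Ioo (0 : ℝ) 1
  x_meas : Measurable x
  x_mem : ∀ ω, x ω ∈ Set.Icc (-1 : ℝ) 1

/-- The message with index `c` when `ω0` is the level `0` and `ω` are the levels `1..r`. -/
def Trial.message (t : Trial) {J : Type} (ω0 : J → ℝ) (ω : Fin t.r → J → ℝ) (c : J) : ℝ :=
  t.x (Fin.cons (ω0 c) fun p => ω p c)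

/-- `𝒯 U`. -/
noncomputable def trialU (M : Model) (t : Trial) : ℝ :=
  ∑' k : ℕ, pois (M.K * M.lam) k *
    ∫ h, ∫ θ, avg (fun l : Fin k → Fin M.K => ∫ ω0, Real.log (collapse t.r t.m fun ω =>
        ∑ e : Bool, Real.exp (h * spin e) *
          ∏ c : Fin k, ∑ σ ∈ univ.filter (fun σ : Fin M.K → Bool => σ (l c) = e),
            Real.exp (theta (θ c) σ) *
              ∏ j ∈ univ.erase (l c), (1 + t.message ω0 ω (c, j) * spin (σ j)) / 2)
        ∂unifLaw (Fin k × Fin M.K))
      ∂(Measure.pi fun _ : Fin k => M.clauseLaw) ∂M.hLaw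

/-- `𝒯 V`. -/
noncomputable def trialV (M : Model) (t : Trial) : ℝ :=
  ∑' k : ℕ, pois (((M.K : ℝ) - 1) * M.lam) k *
    ∫ θ, (∫ ω0, Real.log (collapse t.r t.m fun ω =>
        ∏ c : Fin k, ∑ σ : Fin M.K → Bool, Real.exp (theta (θ c) σ) *
          ∏ j, (1 + t.message ω0 ω (c, j) * spin (σ j)) / 2)
        ∂unifLaw (Fin k × Fin M.K))
      ∂Measure.pi fun _ : Fin k => M.clauseLaw

/-- The values of the trial functional at depth `r`. -/
def depthValues (M : Model) (r : ℕ) : Set ℝ :=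
  {v | ∃ t : Trial, t.r = r ∧ v = trialU M t - trialV M t}

/-- `Φ_r`. -/
noncomputable def phi (M : Model) (r : ℕ) : ℝ := sInf (depthValues M r)

end Vale.Agent.P168
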