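import Vale.Agent.P168.LowerAlg

/-!
The Viana–Bray model belongs to the class.
-/

namespace Vale.Agent.P168

open MeasureTheory Finset

/-- The parameters `((cosh βx, tanh βx), (id, id))` of a Viana–Bray clause with coupling `x`. -/
noncomputable def vbParam (β x : ℝ) : Param 2 :=
  ((Real.cosh (β * x), Real.tanh (β * x)), fun _ s => spin s)

/-- The Viana–Bray model: couplings with law `g`, fields with law `ν`. -/
noncomputable def vianaBray (β lam : ℝ) (g ν : Measure ℝ) : Model where
  K := 2
  lam := lam
  clauseLaw := g.map (vbParam β)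
  bLaw := g.map fun x => Real.tanh (β * x)
  fLaw := Measure.dirac spin
  hLaw := ν

/-- In a Viana–Bray clause `θ(σ) = βx σ₁ σ₂`. -/
lemma theta_vbParam (β x : ℝ) (σ : Fin 2 → Bool) :
    theta (vbParam β x) σ = β * x * (spin (σ 0) * spin (σ 1)) := by
  have hc : 0 < Real.cosh (β * x) := Real.cosh_pos _
  have key : ∀ s : ℝ, s = 1 ∨ s = -1 →
      Real.log (Real.cosh (β * x)) + Real.log (1 + Real.tanh (β * x) * s) = β * x * s := by
    intro s hs
    have e : 1 + Real.tanh (β * x) * s = Real.exp (β * x * s) / Real.cosh (β * x) := by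
      rw [Real.tanh_eq_sinh_div_cosh]
      rcases hs with rfl | rfl
      · rw [mul_one, mul_one, ← Real.cosh_add_sinh, add_div, div_self hc.ne']
      · rw [mul_neg_one, mul_neg_one, ← Real.cosh_sub_sinh, sub_div, div_self hc.ne']
        ring
    rw [e, Real.log_div (Real.exp_pos _).ne' hc.ne', Real.log_exp]
    ring
  simp only [theta, vbParam, Fin.prod_univ_two]
  exact key _ (by cases σ 0 <;> cases σ 1 <;> simp [spin])

lemma measurable_vbParam (β : ℝ) : Measurable (vbParam β) := by
  have h1 : Continuous fun x : ℝ => Real.cosh (β * x) := Real.continuous_cosh.comp (by fun_prop)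
  have h2 : Continuous fun x : ℝ => Real.tanh (β * x) := by
    simp only [Real.tanh_eq_sinh_div_cosh]
    exact (Real.continuous_sinh.comp (by fun_prop)).div h1 fun x => (Real.cosh_pos _).ne'
  exact (h1.measurable.prodMk h2.measurable).prodMk measurable_const

/-- The Viana–Bray model with a symmetric coupling law is in the class. -/
theorem vianaBray_valid {β lam : ℝ} (hlam : 0 < lam) {g ν : Measure ℝ} [IsProbabilityMeasure g]
    [IsProbabilityMeasure ν] (hsymm : g.map (fun x => -x) = g) (hg : Integrable (fun x => |x|) g)
    (hν : Integrable (fun h : ℝ => h) ν) : (vianaBray β lam g ν).Valid := by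
  have hm := measurable_vbParam β
  have hb : Measurable fun x : ℝ => Real.tanh (β * x) := (hm.fst).snd
  have hprob : IsProbabilityMeasure (g.map fun x => Real.tanh (β * x)) :=
    Measure.isProbabilityMeasure_map hb.aemeasurable
  refine ⟨even_two, le_rfl, hlam, Measure.isProbabilityMeasure_map hm.aemeasurable, hprob,
    (inferInstance : IsProbabilityMeasure (Measure.dirac spin)), (inferInstance : IsProbabilityMeasure ν),
    ?_, ?_, ?_, ?_, ?_, ?_, hν⟩
  · show (g.map (vbParam β)).map _ = _
    have hp : Measurable fun p : Param 2 => (p.1.2, p.2) := measurable_fst.snd.prodMk measurable_snd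
    refine (Measure.map_map hp hm).trans ?_
    change Measure.map ((fun p : Param 2 => (p.1.2, p.2)) ∘ vbParam β) g =
      (g.map fun x => Real.tanh (β * x)).prod
        (@Measure.pi (Fin 2) (fun _ => Bool → ℝ) (Fin.fintype 2) (fun _ => inferInstance)
          fun _ => Measure.dirac spin)
    have hpi : (Measure.pi fun _ : Fin 2 => Measure.dirac spin) = Measure.dirac fun _ => spin :=
      Measure.pi_eq fun s hs => by
        rw [Measure.dirac_apply' _ (MeasurableSet.univ_pi hs), Fin.prod_univ_two,
          Measure.dirac_apply' _ (hs 0), Measure.dirac_apply' _ (hs 1)]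
        by_cases h0 : spin ∈ s 0 <;> by_cases h1 : spin ∈ s 1 <;>
          simp [Set.indicator, Fin.forall_fin_two, h0, h1]
    rw [hpi, Measure.prod_dirac, Measure.map_map (by fun_prop) hb]
    rfl
  · show ∀ᵐ p ∂(g.map (vbParam β)), _
    refine (ae_map_iff hm.aemeasurable (measurableSet_lt measurable_const measurable_fst.fst)).2 ?_
    exact ae_of_all _ fun x => Real.cosh_pos _
  · show ∀ᵐ b ∂(g.map fun x => Real.tanh (β * x)), _
    refine (ae_map_iff hb.aemeasurable measurableSet_Ioo).2 ?_
    exact ae_of_all _ fun x => ⟨Real.neg_one_lt_tanh _, Real.tanh_lt_one _⟩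
  · show ∀ᵐ f ∂(Measure.dirac spin), _
    rw [ae_dirac_eq]
    simp only [Filter.eventually_pure]
    intro s
    cases s <;> simp [spin]
  · intro n _
    show 0 ≤ ∫ b, (-b) ^ n ∂(g.map fun x => Real.tanh (β * x))
    rw [integral_map hb.aemeasurable (by fun_prop)]
    rcases Nat.even_or_odd n with hn | hn
    · exact integral_nonneg fun x => hn.pow_nonneg _
    · have h := integral_map (μ := g) (φ := fun x : ℝ => -x) (by fun_prop)
        (f := fun x => (-Real.tanh (β * x)) ^ n) (hb.neg.pow_const n).aestronglyMeasurable
      rw [hsymm] at h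
      simp only [mul_neg, Real.tanh_neg, hn.neg_pow, neg_neg, integral_neg] at h ⊢
      linarith
  · show Integrable _ (g.map (vbParam β))
    have h' : Integrable (fun p : Param 2 => thetaMax p) (g.map (vbParam β)) := by
      have hmeas : Measurable fun p : Param 2 => thetaMax p := by
        have h : Measurable (univ.sup' univ_nonempty
            (fun (σ : Fin 2 → Bool) (p : Param 2) => |theta p σ|)) :=
          Finset.measurable_sup' univ_nonempty fun σ _ => (measurable_theta σ).abs
        convert h using 1
        funext p
        simp [thetaMax, Finset.sup'_apply]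
      rw [integrable_map_measure hmeas.aestronglyMeasurable hm.aemeasurable]
      refine (hg.const_mul |β|).mono' (hmeas.comp hm).aestronglyMeasurable (ae_of_all _ fun x => ?_)
      rw [Function.comp_apply, Real.norm_eq_abs, abs_of_nonneg (thetaMax_nonneg _)]
      refine sup'_le _ _ fun σ _ => ?_
      rw [theta_vbParam]
      cases σ 0 <;> cases σ 1 <;> simp [spin, abs_mul]
    exact h'

end Vale.Agent.P168
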