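import Vale.Agent.P168.FactorTree

/-!
Module F2: the moments of a tree with grid exponents factor over sites when the covariances of the
snapped moments are small.
-/

set_option linter.unusedVariables false

namespace Vale.Agent.P168

open MeasureTheory Finset Function Factor

section Average

variable {α : Type} [Fintype α]

private lemma avg_le_avg {F F' : α → ℝ} (h : ∀ a, F a ≤ F' a) : avg F ≤ avg F' :=
  div_le_div_of_nonneg_right (sum_le_sum fun a _ => h a) (Nat.cast_nonneg _)

private lemma avg_add' (F F' : α → ℝ) : avg (fun a => F a + F' a) = avg F + avg F' := by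
  simp [avg, sum_add_distrib, add_div]

private lemma avg_sum' {β : Type} (t : Finset β) (F : β → α → ℝ) :
    avg (fun a => ∑ b ∈ t, F b a) = ∑ b ∈ t, avg (F b) := by
  simp only [avg]
  rw [sum_comm, sum_div]

private lemma avg_le_of_le {F : α → ℝ} {B : ℝ} (hB : 0 ≤ B) (h : ∀ a, F a ≤ B) : avg F ≤ B := by
  unfold avg
  rcases Nat.eq_zero_or_pos (Fintype.card α) with h0 | h0
  · simp [h0, hB]
  · rw [div_le_iff₀ (by exact_mod_cast h0)]
    refine (sum_le_sum fun a _ => h a).trans_eq ?_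
    simp [mul_comm]

private lemma avg_update {ι : Type} [Fintype ι] [DecidableEq ι] {β : Type} [Fintype β]
    (F : (ι → β) → ℝ) (s : ι) :
    avg F = avg fun i : ι → β => avg fun j => F (update i s j) := by
  let q : (ι → β) × β ≃ (ι → β) × β :=
    { toFun := fun p => (update p.1 s p.2, p.1 s)
      invFun := fun p => (update p.1 s p.2, p.1 s)
      left_inv := fun p => by simp
      right_inv := fun p => by simp }
  have h : ∑ i : ι → β, ∑ j, F (update i s j) = Fintype.card β * ∑ i, F i := by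
    rw [← Fintype.sum_prod_type' (f := fun i j => F (update i s j)),
      show (∑ p : (ι → β) × β, F (update p.1 s p.2)) = ∑ p : (ι → β) × β, F (q p).1 from rfl,
      Equiv.sum_comp q (fun p => F p.1), Fintype.sum_prod_type, mul_sum]
    simp
  unfold avg
  rw [← sum_div, h]
  rcases Nat.eq_zero_or_pos (Fintype.card β) with h0 | h0
  · have : IsEmpty β := Fintype.card_eq_zero_iff.1 h0
    have : IsEmpty (ι → β) := ⟨fun i => isEmptyElim (i s)⟩
    simp
  · rw [mul_div_cancel_left₀ _ (Nat.cast_ne_zero.2 h0.ne')]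

end Average

variable {Ω : Type} [MeasurableSpace Ω] {S : Sys Ω}

private lemma bdd_abs {f : (ℕ → Ω) → ℝ} (hf : Bdd f) : Bdd fun v => |f v| :=
  ⟨measurable_abs.comp hf.1, hf.2.imp fun C hC v => by simpa using hC v⟩

private lemma bdd_sqrt {f : (ℕ → Ω) → ℝ} (hf : Bdd f) : Bdd fun v => Real.sqrt (f v) :=
  ⟨hf.1.sqrt, hf.2.elim fun C hC => ⟨Real.sqrt C, fun v => by
    rw [abs_of_nonneg (Real.sqrt_nonneg _)]
    exact Real.sqrt_le_sqrt ((le_abs_self _).trans (hC v))⟩⟩

private lemma bdd_avg {α : Type} [Fintype α] {F : α → (ℕ → Ω) → ℝ} (hF : ∀ a, Bdd (F a)) :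
    Bdd fun v => avg fun a => F a v := by
  have h := (Bdd.sum univ hF).const_mul (Fintype.card α : ℝ)⁻¹
  simpa only [avg, div_eq_inv_mul] using h

private lemma cond_avg (hr : S.Reg) {α : Type} [Fintype α] {F : α → (ℕ → Ω) → ℝ}
    (hF : ∀ a, Bdd (F a)) (l m : ℕ) (ω : ℕ → Ω) :
    S.cond l m (fun v => avg fun a => F a v) ω = avg fun a => S.cond l m (F a) ω := by
  simp only [avg, div_eq_inv_mul]
  rw [Sys.cond_const_mul, Sys.cond_sum hr univ hF]

private lemma cond_abs_le_one (hr : S.Reg) {f : (ℕ → Ω) → ℝ} (hf : Bdd f) (h : ∀ v, |f v| ≤ 1)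
    (l m : ℕ) (v : ℕ → Ω) : |S.cond l m f v| ≤ 1 := by
  have h1 := Sys.cond_mono hr hf (bdd_const 1) (fun v => (abs_le.1 (h v)).2) l m v
  have h2 := Sys.cond_mono hr (bdd_const (-1)) hf (fun v => (abs_le.1 (h v)).1) l m v
  rw [Sys.cond_const hr] at h1 h2
  exact abs_le.2 ⟨h2, h1⟩

private lemma abs_cond_le (hr : S.Reg) {f : (ℕ → Ω) → ℝ} (hf : Bdd f) (l m : ℕ) (v : ℕ → Ω) :
    |S.cond l m f v| ≤ S.cond l m (fun u => |f u|) v := by
  refine abs_le.2 ⟨?_, Sys.cond_mono hr hf (bdd_abs hf) (fun u => le_abs_self _) l m v⟩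
  have h := Sys.cond_mono hr ((bdd_abs hf).const_mul (-1)) hf
    (fun u => by linarith [neg_abs_le (f u)]) l m v
  rw [Sys.cond_const_mul] at h
  linarith

private lemma cond_sqrt_le (hr : S.Reg) {f : (ℕ → Ω) → ℝ} (hf : Bdd f) (h0 : ∀ v, 0 ≤ f v)
    (l m : ℕ) (v : ℕ → Ω) :
    S.cond l m (fun u => Real.sqrt (f u)) v ≤ Real.sqrt (S.cond l m f v) := by
  have h := Sys.cond_sq hr (bdd_sqrt hf) l m v
  simp only [Real.sq_sqrt (h0 _)] at h
  exact Real.le_sqrt_of_sq_le h

private lemma prod_abs_le_one {β : Type} (t : Finset β) {x : β → ℝ} (h : ∀ c, |x c| ≤ 1) :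
    |∏ c ∈ t, x c| ≤ 1 := by
  rw [abs_prod]
  exact prod_le_one (fun c _ => abs_nonneg _) fun c _ => h c

private lemma prod_sub_prod_le {β : Type} (t : Finset β) {x y : β → ℝ} (hx : ∀ c, |x c| ≤ 1)
    (hy : ∀ c, |y c| ≤ 1) : |∏ c ∈ t, x c - ∏ c ∈ t, y c| ≤ ∑ c ∈ t, |x c - y c| := by
  classical
  induction t using Finset.induction_on with
  | empty => simp
  | @insert c t hc ih =>
    rw [prod_insert hc, prod_insert hc, sum_insert hc]
    calc |x c * ∏ b ∈ t, x b - y c * ∏ b ∈ t, y b|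
        = |(x c - y c) * ∏ b ∈ t, x b + y c * (∏ b ∈ t, x b - ∏ b ∈ t, y b)| := by ring_nf
      _ ≤ |(x c - y c) * ∏ b ∈ t, x b| + |y c * (∏ b ∈ t, x b - ∏ b ∈ t, y b)| := abs_add_le _ _
      _ ≤ |x c - y c| + ∑ b ∈ t, |x b - y b| := by
        rw [abs_mul, abs_mul]
        exact add_le_add (mul_le_of_le_one_right (abs_nonneg _) (prod_abs_le_one t hx))
          ((mul_le_of_le_one_left (abs_nonneg _) (hy c)).trans ih)

private lemma bdd_cov (hr : S.Reg) {f g : (ℕ → Ω) → ℝ} (hf : Bdd f) (hg : Bdd g) (l m : ℕ) :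
    Bdd (S.cov l m f g) :=
  (Sys.cond_bdd hr (hf.mul hg) l m).sub ((Sys.cond_bdd hr hf l m).mul (Sys.cond_bdd hr hg l m))

/-- One function against many: the averaged covariance is at most the root of theirs. -/
private lemma avg_cov_le (hS : S.Good) {N : ℕ} {f : Fin N → (ℕ → Ω) → ℝ} (hf : ∀ j, Bdd (f j))
    {P : (ℕ → Ω) → ℝ} (hP : Bdd P) (hP1 : ∀ v, |P v| ≤ 1) (q p : ℕ) (v : ℕ → Ω) :
    avg (fun j => |S.cov q p (f j) P v|) ≤ Real.sqrt (S.avgCov q p f v) := by
  have hr := hS.reg
  have hsymm : ∀ g h : (ℕ → Ω) → ℝ, S.cov q p g h v = S.cov q p h g v := fun g h => by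
    simp only [Sys.cov, mul_comm]
  set c := fun j => S.cov q p (f j) P v with hc
  set σ : Fin N → ℝ := fun j => if 0 ≤ c j then 1 else -1 with hσ
  have hσc : ∀ j, σ j * c j = |c j| := fun j => by
    simp only [hσ]
    split_ifs with h
    · rw [one_mul, abs_of_nonneg h]
    · rw [neg_one_mul, abs_of_neg (not_le.1 h)]
  set m := avg fun j => |c j| with hm
  set V := S.avgCov q p f v with hV
  let g : Option (Fin N) → (ℕ → Ω) → ℝ := fun o => o.elim P f
  let w : Option (Fin N) → ℝ := fun o => o.elim (-m) fun j => σ j / N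
  have hg : ∀ o, Bdd (g o) := fun o => by cases o <;> simp [g, hP, hf]
  have hpsd := Sys.cov_psd hS univ hg w q p v
  simp only [Fintype.sum_option, g, w, Option.elim, sum_add_distrib] at hpsd
  have hvar : S.cov q p P P v ≤ 1 := by
    have h := Sys.cond_mono hr (hP.mul hP) (bdd_const 1) (fun u => by
      rw [← sq, ← sq_abs]; exact pow_le_one₀ (abs_nonneg _) (hP1 u)) q p v
    rw [Sys.cond_const hr] at h
    simp only [Sys.cov]
    nlinarith [mul_self_nonneg (S.cond q p P v)]
  have hmid : ∑ j, σ j / N * c j = m := by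
    simp only [hm, avg, Fintype.card_fin, sum_div]
    exact sum_congr rfl fun j _ => by rw [← hσc]; ring
  have hmid1 : ∑ j, -m * (σ j / N) * S.cov q p P (f j) v = -m * m := by
    conv_rhs => arg 2; rw [← hmid]
    rw [mul_sum]
    exact sum_congr rfl fun j _ => by rw [hsymm P (f j)]; ring
  have hmid2 : ∑ j, σ j / N * -m * S.cov q p (f j) P v = -m * m := by
    conv_rhs => arg 2; rw [← hmid]
    rw [mul_sum]
    exact sum_congr rfl fun j _ => by ring
  have hquad : ∑ i, ∑ j, σ i / N * (σ j / N) * S.cov q p (f i) (f j) v ≤ V := by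
    simp only [hV, Sys.avgCov, avg, Fintype.card_prod, Fintype.card_fin, Fintype.sum_prod_type,
      sum_div]
    refine sum_le_sum fun i _ => sum_le_sum fun j _ => ?_
    push_cast
    rw [div_mul_div_comm, div_mul_eq_mul_div]
    refine div_le_div_of_nonneg_right ?_ (by positivity)
    refine (le_abs_self _).trans_eq ?_
    rw [abs_mul, abs_mul]
    have h1 : ∀ k, |σ k| = 1 := fun k => by simp only [hσ]; split_ifs <;> simp
    rw [h1, h1, one_mul, one_mul]
  rw [hmid1, hmid2] at hpsd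
  have hmm : m * m ≤ V := by nlinarith [mul_self_nonneg m]
  exact Real.le_sqrt_of_sq_le (by rw [sq]; exact hmm)

private lemma mom_one (hS : S.Good) : ∀ (d l : ℕ) (T : Tree d),
    S.mom d l T (fun _ _ => (1 : ℝ)) = fun _ => 1
  | 0, _, _ => rfl
  | d + 1, l, T => by
    funext ω
    simp only [Sys.mom, mom_one hS d (l + 1)]
    exact prod_eq_one fun c _ => Sys.A_const hS l 1 ω

/-- A product over sites passes through a conditional average up to the covariances. -/
private lemma cond_prod_sub_le (hS : S.Good) {N : ℕ} {ι : Type} [Fintype ι] [DecidableEq ι]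
    {f : ι → Fin N → (ℕ → Ω) → ℝ} (hf : ∀ s j, Bdd (f s j)) (h1 : ∀ s j v, |f s j v| ≤ 1)
    (q p : ℕ) (ω₀ : ℕ → Ω) {ε : ℝ} (hε : ∀ s, S.cond 0 q (S.avgCov q p (f s)) ω₀ ≤ ε)
    (t : Finset ι) :
    avg (fun i : ι → Fin N => S.cond 0 q (fun v =>
      |S.cond q p (fun u => ∏ s ∈ t, f s (i s) u) v - ∏ s ∈ t, S.cond q p (f s (i s)) v|) ω₀) ≤
      t.card * Real.sqrt ε := by
  have hr := hS.reg
  induction t using Finset.induction_on with
  | empty =>
    refine avg_le_of_le (by simp) fun i => ?_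
    simp [Sys.cond_const hr]
  | @insert s t hs ih =>
    have hP : ∀ i : ι → Fin N, Bdd (fun u => ∏ s ∈ t, f s (i s) u) :=
      fun i => Bdd.prod t fun s => hf s _
    have hQ : ∀ i : ι → Fin N, Bdd (fun v => ∏ s ∈ t, S.cond q p (f s (i s)) v) :=
      fun i => Bdd.prod t fun s => Sys.cond_bdd hr (hf s _) q p
    have hpt : ∀ (i : ι → Fin N) v,
        |S.cond q p (fun u => ∏ x ∈ insert s t, f x (i x) u) v -
            ∏ x ∈ insert s t, S.cond q p (f x (i x)) v| ≤
          |S.cov q p (f s (i s)) (fun u => ∏ x ∈ t, f x (i x) u) v| +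
            |S.cond q p (fun u => ∏ x ∈ t, f x (i x) u) v -
              ∏ x ∈ t, S.cond q p (f x (i x)) v| := fun i v => by
      simp only [prod_insert hs]
      refine le_trans (le_of_eq ?_) ((abs_add_le _ (S.cond q p (f s (i s)) v *
        (S.cond q p (fun u => ∏ x ∈ t, f x (i x) u) v -
          ∏ x ∈ t, S.cond q p (f x (i x)) v))).trans (add_le_add le_rfl ?_))
      · simp only [Sys.cov]; congr 1; ring
      · rw [abs_mul]
        exact mul_le_of_le_one_left (abs_nonneg _) (cond_abs_le_one hr (hf s _) (h1 s _) q p v)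
    have hb1 : ∀ i : ι → Fin N,
        Bdd (fun v => |S.cov q p (f s (i s)) (fun u => ∏ x ∈ t, f x (i x) u) v|) :=
      fun i => bdd_abs (bdd_cov hr (hf s _) (hP i) q p)
    have hb2 : ∀ i : ι → Fin N, Bdd (fun v => |S.cond q p (fun u => ∏ x ∈ t, f x (i x) u) v -
        ∏ x ∈ t, S.cond q p (f x (i x)) v|) :=
      fun i => bdd_abs ((Sys.cond_bdd hr (hP i) q p).sub (hQ i))
    refine le_trans (avg_le_avg fun i => Sys.cond_mono hr
      (bdd_abs ((Sys.cond_bdd hr (Bdd.prod _ fun x => hf x _) q p).sub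
        (Bdd.prod _ fun x => Sys.cond_bdd hr (hf x _) q p)))
      ((hb1 i).add (hb2 i)) (hpt i) 0 q ω₀) ?_
    simp only [Sys.cond_add hr (hb1 _) (hb2 _)]
    rw [avg_add', card_insert_of_notMem hs, Nat.cast_succ, add_mul, one_mul, add_comm]
    refine add_le_add ih ?_
    rw [avg_update _ s]
    refine avg_le_of_le (Real.sqrt_nonneg _) fun i => ?_
    have hupd : ∀ j, (fun u => ∏ x ∈ t, f x (update i s j x) u) =
        fun u => ∏ x ∈ t, f x (i x) u := fun j => funext fun u =>
      prod_congr rfl fun x hx => by rw [update_of_ne (ne_of_mem_of_not_mem hx hs)]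
    simp only [update_self, hupd]
    have hb : ∀ j, Bdd (fun v => |S.cov q p (f s j) (fun u => ∏ x ∈ t, f x (i x) u) v|) :=
      fun j => bdd_abs (bdd_cov hr (hf s j) (hP i) q p)
    have hA : Bdd (S.avgCov q p (f s)) := bdd_avg fun ij : Fin N × Fin N =>
      bdd_abs (bdd_cov hr (hf s ij.1) (hf s ij.2) q p)
    rw [← cond_avg hr hb]
    refine (Sys.cond_mono hr (bdd_avg hb) (bdd_sqrt hA) (fun v => avg_cov_le hS (hf s) (hP i)
      (fun u => prod_abs_le_one t fun x => h1 x _ u) q p v) 0 q ω₀).trans ?_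
    refine (cond_sqrt_le hr hA (fun v => ?_) 0 q ω₀).trans (Real.sqrt_le_sqrt (hε s))
    exact div_nonneg (sum_nonneg fun _ _ => abs_nonneg _) (Nat.cast_nonneg _)

/-- Tree moments factor over sites. -/
theorem mom_factor {Ω : Type} [MeasurableSpace Ω] {S : Sys Ω} (hS : S.Good) {G : Grid}
    (hG : G.Ok S.R) {N n₀ : ℕ} {a : Fin N → (ℕ → Ω) → ℝ} (ha : ∀ i, Obs S (a i)) (ω₀ : ℕ → Ω)
    {ε : ℝ} (hε : 0 ≤ ε)
    (h : ∀ (ι : Type) [DecidableEq ι] (A : Finset ι), A.Nonempty → A.card ≤ n₀ →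
      ∀ (j k : ℕ) (κ : ι → ι → ℕ), G.lo ≤ j → j < k → k ≤ G.B → IsPat G.B k κ A →
      S.cond 0 (G.p j) (S.avgCov (G.p j) (G.p k) fun i => S.snap G κ (a i) k A) ω₀ ≤ ε)
    (T : Tree (S.R - G.p G.lo)) (hT : Tree.weight (G.expo S.R) (S.R - G.p G.lo) (G.p G.lo) T ≠ 0)
    (hn : T.size ≤ n₀) {ι : Type} [Fintype ι] [DecidableEq ι]
    (Sl : Leaves (S.R - G.p G.lo) T → Finset ι) :
    avg (fun i : ι → Fin N => S.cond 0 (G.p G.lo) (fun v =>
        |S.mom (S.R - G.p G.lo) (G.p G.lo) T (fun u p => ∏ s ∈ Sl u, a (i s) p) v -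
          ∏ s, S.mom (S.R - G.p G.lo) (G.p G.lo) T
            (fun u p => if s ∈ Sl u then a (i s) p else 1) v|) ω₀) ≤
      G.B * n₀ * (Fintype.card ι + 1) * Real.sqrt ε := by
  have hr := hS.reg
  have hone : ∀ (s : ι) (j : Fin N) (A : Prop) [Decidable A] (p : ℕ → Ω),
      |if A then a j p else 1| ≤ 1 := fun s j A _ p => by
    split_ifs
    · exact (ha j).2.2 p
    · simp
  have hgb : ∀ (A : Prop) [Decidable A] (j : Fin N), Bdd (fun p => if A then a j p else 1) :=
    fun A _ j => by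
      by_cases hA : A
      · simpa [hA] using (ha j).1
      · simpa [hA] using bdd_const (Ω := Ω) 1
  set K := ((Fintype.card ι : ℝ) + 1) * Real.sqrt ε with hK
  have hK0 : 0 ≤ K := by positivity
  suffices main : ∀ (m k : ℕ), G.lo ≤ k → k + m = G.B → ∀ (d : ℕ) (T : Tree d),
      G.p k + d = S.R → Tree.weight (G.expo S.R) d (G.p k) T ≠ 0 → T.size ≤ n₀ →
      ∀ Sl : Leaves d T → Finset ι,
      avg (fun i : ι → Fin N => S.cond 0 (G.p k) (fun v =>
        |S.mom d (G.p k) T (fun u p => ∏ s ∈ Sl u, a (i s) p) v -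
          ∏ s, S.mom d (G.p k) T (fun u p => if s ∈ Sl u then a (i s) p else 1) v|) ω₀) ≤
        m * T.size * K by
    refine (main (G.B - G.lo) G.lo le_rfl (by have := hG.1; omega) _ T
      (by have := Grid.p_le_R hG le_rfl hG.1.le; omega) hT hn Sl).trans ?_
    rw [hK, ← mul_assoc]
    refine mul_le_mul_of_nonneg_right (mul_le_mul_of_nonneg_right ?_ (by positivity))
      (Real.sqrt_nonneg _)
    exact mul_le_mul (Nat.cast_le.2 (Nat.sub_le _ _)) (Nat.cast_le.2 hn) (Nat.cast_nonneg _)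
      (Nat.cast_nonneg _)
  intro m
  induction m with
  | zero =>
    intro k hk hkB d T hd hw hn Sl
    obtain rfl : d = 0 := by
      have := hG.2.1; rw [show k = G.B by omega] at hd; omega
    refine avg_le_of_le (by simp) fun i => ?_
    simp [Sys.mom, prod_ite_mem, Sys.cond_const hr]
  | succ m ih =>
    intro k hk hkB d T hd hw hn Sl
    have hlt := Grid.p_lt hG hk (show k < G.B by omega) le_rfl
    rw [hG.2.1] at hlt
    obtain ⟨d, rfl⟩ : ∃ d₀, d = d₀ + 1 := ⟨d - 1, by omega⟩
    obtain ⟨d', T', e, hd', hw', hmeet, hmom⟩ :=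
      Factor.Tree.node S G hG hS.R_pos hk (by omega) T hd hw
    have hsum : T.size = ∑ c, (T' c).size := by
      rw [Tree.size_succ]
      exact sum_congr rfl fun c _ => (Fintype.card_congr (e c)).symm
    have hnc : ∀ c, (T' c).size ≤ n₀ := fun c => by
      have := single_le_sum (f := fun c => (T' c).size) (fun _ _ => Nat.zero_le _) (mem_univ c)
      omega
    set q := G.p k with hq
    set p := G.p (k + 1) with hp
    have hqp : q ≤ p := Grid.p_le hG hk (Nat.le_succ k) (by omega)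
    set J : (ι → Fin N) → Fin (T.1 + 1) → (ℕ → Ω) → ℝ := fun i c =>
      S.mom d' p (T' c) (fun u x => ∏ s ∈ (Sl ⟨c, e c u⟩ : Finset ι), a (i s) x) with hJ
    set f : Fin (T.1 + 1) → ι → Fin N → (ℕ → Ω) → ℝ := fun c s j =>
      S.mom d' p (T' c) (fun u x => if s ∈ Sl ⟨c, e c u⟩ then a j x else 1) with hf
    have hJb : ∀ i c, Bdd (J i c) := fun i c =>
      Sys.mom_bdd hS _ fun u => Bdd.prod _ fun s => (ha _).1
    have hJ1 : ∀ i c v, |J i c v| ≤ 1 := fun i c v =>
      (Sys.mom_abs_le hS (T' c) (fun u => Bdd.prod _ fun s => (ha _).1) (B := fun _ => (1 : ℝ))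
        (fun u x => prod_abs_le_one _ fun s => (ha _).2.2 x) v).trans_eq (by simp)
    have hfb : ∀ c s j, Bdd (f c s j) := fun c s j => Sys.mom_bdd hS _ fun u => hgb _ j
    have hf1 : ∀ c s j v, |f c s j v| ≤ 1 := fun c s j v =>
      (Sys.mom_abs_le hS (T' c) (fun u => hgb _ j) (B := fun _ => (1 : ℝ))
        (fun u x => hone s j _ x) v).trans_eq (by simp)
    have hPb : ∀ (i : ι → Fin N) c, Bdd (fun u => ∏ s, f c s (i s) u) := fun i c =>
      Bdd.prod _ fun s => hfb c s _
    have hcov : ∀ c s, S.cond 0 q (S.avgCov q p (f c s)) ω₀ ≤ ε := by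
      intro c s
      set A := univ.filter fun u : Leaves d' (T' c) => s ∈ Sl ⟨c, e c u⟩ with hAdef
      rcases A.eq_empty_or_nonempty with hA | hA
      · have h0 : ∀ j, f c s j = fun _ => 1 := fun j => by
          have : ∀ u, s ∉ Sl ⟨c, e c u⟩ := fun u hu => by
            have : u ∈ A := by simp [hAdef, hu]
            simp [hA] at this
          have e0 : (fun (u : Leaves d' (T' c)) (x : ℕ → Ω) =>
              if s ∈ Sl ⟨c, e c u⟩ then a j x else 1) = fun _ _ => 1 := by
            funext u x; simp [this]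
          simp only [hf]
          rw [e0]
          exact mom_one hS _ _ _
        have h1 : S.avgCov q p (f c s) = fun _ => 0 := by
          funext v
          simp [Sys.avgCov, avg, Sys.cov, h0, Sys.cond_const hr]
        rw [h1, Sys.cond_const hr]
        exact hε
      · have hs : ∀ j, f c s j =
            S.snap G (G.band d' p (T' c)) (a j) (k + 1) A := fun j => by
          rw [Sys.snap, show G.B - (k + 1) = m by omega, ← Sys.mom_eq_snapAux hS hG _ (a j) m
            (k + 1) (by omega) (by omega) d' (T' c) hd' (hw' c) id injective_id (fun _ _ => rfl) A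
            (by simp)]
          simp only [hf, hp, hAdef, mem_filter, mem_univ, true_and, id_eq]
        rw [show f c s = fun j => S.snap G (G.band d' p (T' c)) (a j) (k + 1) A from funext hs]
        exact h _ A hA ((card_le_univ A).trans (hnc c)) k (k + 1) _ hk (Nat.lt_succ_self k)
          (by omega) (Grid.band_isPat hG (by omega) (by omega) hd' (T' c) A)
    have hpt : ∀ (i : ι → Fin N) v,
        |S.mom (d + 1) q T (fun u x => ∏ s ∈ Sl u, a (i s) x) v -
          ∏ s, S.mom (d + 1) q T (fun u x => if s ∈ Sl u then a (i s) x else 1) v| ≤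
        ∑ c, (S.cond q p (fun u => |J i c u - ∏ s, f c s (i s) u|) v +
          |S.cond q p (fun u => ∏ s, f c s (i s) u) v - ∏ s, S.cond q p (f c s (i s)) v|) := by
      intro i v
      simp only [hmom]
      rw [prod_comm]
      refine (prod_sub_prod_le univ (fun c => cond_abs_le_one hr (hJb i c) (hJ1 i c) q p v)
        fun c => prod_abs_le_one _ fun s => cond_abs_le_one hr (hfb c s _) (hf1 c s _) q p v).trans
        (sum_le_sum fun c _ => ?_)
      refine (abs_sub_le _ (S.cond q p (fun u => ∏ s, f c s (i s) u) v) _).trans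
        (add_le_add ?_ le_rfl)
      have e0 := congrFun (Sys.cond_sub hr (hJb i c) (hPb i c) q p) v
      rw [show S.cond q p (J i c) v - S.cond q p (fun u => ∏ s, f c s (i s) u) v =
        S.cond q p (fun u => J i c u - ∏ s, f c s (i s) u) v from e0.symm]
      exact abs_cond_le hr ((hJb i c).sub (hPb i c)) q p v
    have hb1 : ∀ (i : ι → Fin N) c, Bdd (S.cond q p (fun u => |J i c u - ∏ s, f c s (i s) u|)) := fun i c =>
      Sys.cond_bdd hr (bdd_abs ((hJb i c).sub (hPb i c))) q p
    have hb2 : ∀ (i : ι → Fin N) c, Bdd (fun v =>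
        |S.cond q p (fun u => ∏ s, f c s (i s) u) v - ∏ s, S.cond q p (f c s (i s)) v|) :=
      fun i c => bdd_abs ((Sys.cond_bdd hr (hPb i c) q p).sub
        (Bdd.prod _ fun s => Sys.cond_bdd hr (hfb c s _) q p))
    refine le_trans (avg_le_avg fun i => Sys.cond_mono hr (bdd_abs
      ((Sys.mom_bdd hS T fun u => Bdd.prod _ fun s => (ha _).1).sub
        (Bdd.prod _ fun s => Sys.mom_bdd hS T fun u => hgb _ _)))
      (Bdd.sum univ fun c => (hb1 i c).add (hb2 i c)) (hpt i) 0 q ω₀) ?_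
    simp only [Sys.cond_sum hr univ (fun c => (hb1 _ c).add (hb2 _ c)),
      Sys.cond_add hr (hb1 _ _) (hb2 _ _), ← Sys.cond_tower hS _ (Nat.zero_le q) hqp]
    rw [avg_sum', hsum, Nat.cast_sum, mul_sum, sum_mul]
    refine sum_le_sum fun c _ => ?_
    rw [avg_add']
    refine (add_le_add (ih (k + 1) (by omega) (by omega) d' (T' c) hd' (hw' c) (hnc c)
      fun u => Sl ⟨c, e c u⟩)
      (cond_prod_sub_le hS (hfb c) (hf1 c) q p ω₀ (hcov c) univ)).trans ?_
    have hsz : (1 : ℝ) ≤ (T' c).size := by exact_mod_cast Factor.Tree.size_pos (T' c)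
    rw [card_univ]
    push_cast
    have hstep : (Fintype.card ι : ℝ) * Real.sqrt ε ≤ (T' c).size * K :=
      le_trans (by rw [hK]; exact mul_le_mul_of_nonneg_right (by linarith) (Real.sqrt_nonneg _))
        (le_mul_of_one_le_left hK0 hsz)
    linarith

end Vale.Agent.P168
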