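import Vale.Agent.P168.NestDefs

/-!
Branching trees of replicas and their moments in a nested system.
-/

namespace Vale.Agent.P168

open MeasureTheory Finset

/-- The coefficient of `y ^ k` in `1 - (1 - y) ^ a`. -/
noncomputable def coef (a : ℝ) : ℕ → ℝ
  | 0 => 0
  | k + 1 => a * (∏ i ∈ range k, ((i : ℝ) + 1 - a)) / (Nat.factorial (k + 1) : ℝ)

/-- Trees of depth `d`; every node above the leaves has at least one child. -/
def Tree : ℕ → Type
  | 0 => Unit
  | d + 1 => Σ k : ℕ, Fin (k + 1) → Tree d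

/-- The leaves of a tree: the replicas. -/
def Leaves : (d : ℕ) → Tree d → Type
  | 0, _ => Unit
  | d + 1, T => Σ c : Fin (T.1 + 1), Leaves d (T.2 c)

instance Leaves.fintype : (d : ℕ) → (T : Tree d) → Fintype (Leaves d T)
  | 0, _ => inferInstanceAs (Fintype Unit)
  | d + 1, T =>
    have : ∀ c, Fintype (Leaves d (T.2 c)) := fun c => Leaves.fintype d (T.2 c)
    inferInstanceAs (Fintype (Σ c : Fin (T.1 + 1), Leaves d (T.2 c)))

instance Leaves.decEq : (d : ℕ) → (T : Tree d) → DecidableEq (Leaves d T)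
  | 0, _ => inferInstanceAs (DecidableEq Unit)
  | d + 1, T =>
    have : ∀ c, DecidableEq (Leaves d (T.2 c)) := fun c => Leaves.decEq d (T.2 c)
    inferInstanceAs (DecidableEq (Σ c : Fin (T.1 + 1), Leaves d (T.2 c)))

/-- The number of leaves. -/
noncomputable def Tree.size {d : ℕ} (T : Tree d) : ℕ := Fintype.card (Leaves d T)

/-- The probability of a tree grown from level `l` with the exponents `x`. -/
noncomputable def Tree.weight (x : ℕ → ℝ) : (d l : ℕ) → Tree d → ℝ
  | 0, _, _ => 1
  | d + 1, l, T => coef (x l / x (l + 1)) (T.1 + 1) * ∏ c, Tree.weight x d (l + 1) (T.2 c)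

/-- The last level at which two leaves of a tree grown from level `l` have the same node. -/
def Tree.meet : (d l : ℕ) → (T : Tree d) → Leaves d T → Leaves d T → ℕ
  | 0, l, _, _, _ => l
  | d + 1, l, T, v, w =>
    if h : v.1 = w.1 then Tree.meet d (l + 1) (T.2 w.1) (h ▸ v.2) w.2 else l

variable {Ω : Type} [MeasurableSpace Ω]

/-- The moment of leaf observables over a tree grown from the node at level `l`. -/
noncomputable def Sys.mom (S : Sys Ω) : (d l : ℕ) → (T : Tree d) →
    (Leaves d T → (ℕ → Ω) → ℝ) → (ℕ → Ω) → ℝ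
  | 0, _, _, g => g ()
  | d + 1, l, T, g => fun ω =>
      ∏ c, S.A l (S.mom d (l + 1) (T.2 c) fun v => g ⟨c, v⟩) ω

/-- The expected moment of one observable at all leaves of a random tree grown from level `l`. -/
noncomputable def Sys.treeMean (S : Sys Ω) (z : (ℕ → Ω) → ℝ) (d l : ℕ) (ω : ℕ → Ω) : ℝ :=
  ∑' T : Tree d, Tree.weight S.x d l T * S.mom d l T (fun _ => z) ω

/-- The expected moment with trees grown by arbitrary exponents. -/
noncomputable def Sys.treeMeanW (S : Sys Ω) (ξ : ℕ → ℝ) (z : (ℕ → Ω) → ℝ) (d l : ℕ) (ω : ℕ → Ω) :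
    ℝ :=
  ∑' T : Tree d, Tree.weight ξ d l T * S.mom d l T (fun _ => z) ω

/-- The weight of a tree grown from the root: `k` children with weight `1 / (k x 1)`. -/
noncomputable def Tree.rootWeight (x : ℕ → ℝ) (d : ℕ) (T : Tree (d + 1)) : ℝ :=
  (x 1 * ((T.1 : ℝ) + 1))⁻¹ * ∏ c, Tree.weight x d 1 (T.2 c)

end Vale.Agent.P168
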