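import Vale.Agent.P168.Defs
import Vale.Agent.P168.TreeDefs

/-!
Definitions for the lower bound: constraints, gadgets, the perturbed system, probes, grids of
levels, snapped moments and cavity potentials.
-/

namespace Vale.Agent.P168

open MeasureTheory Finset Function

/-- The uniform law on a finite type. -/
noncomputable def finLaw (α : Type) [Fintype α] [MeasurableSpace α] : Measure α :=
  (Fintype.card α : ENNReal)⁻¹ • Measure.count

/-- The exponent `l / R` of step `l`. -/
noncomputable def gridExp (R l : ℕ) : ℝ := (l : ℝ) / R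

/-- A constraint: `n` labelled leaves and for each pair `v < w` a level at which both must share
their node. -/
structure Cons where
  n : ℕ
  lev : Fin n → Fin n → ℕ

/-- Validity of a constraint for `R` steps. -/
def Cons.Ok (C : Cons) (R : ℕ) : Prop :=
  1 ≤ C.n ∧ ∀ v w, v < w → 1 ≤ C.lev v w ∧ C.lev v w ≤ R

/-- The least level of a constraint, `R + 1` if there is no pair. -/
def Cons.first (C : Cons) (R : ℕ) : ℕ :=
  (insert (R + 1) ((univ.filter fun e : Fin C.n × Fin C.n => e.1 < e.2).image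
    fun e => C.lev e.1 e.2)).min' (insert_nonempty _ _)

/-- The number of labellings of the leaves of a tree grown from level `l` that meet a constraint. -/
noncomputable def Cons.count (C : Cons) (d l : ℕ) (T : Tree d) : ℕ :=
  Fintype.card {lab : Fin C.n ≃ Leaves d T //
    ∀ v w, v < w → C.lev v w ≤ Tree.meet d l T (lab v) (lab w)}

variable {Ω : Type} [MeasurableSpace Ω]

/-- An observable of the leaves with values in `[-1, 1]`. -/
def Obs (S : Sys Ω) (a : (ℕ → Ω) → ℝ) : Prop := Bdd a ∧ DependsTo a S.R ∧ ∀ ω, |a ω| ≤ 1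

/-- The linear response `G` of an observable `a` to a constraint, at level `l`. -/
noncomputable def Sys.resp (S : Sys Ω) (C : Cons) (a : (ℕ → Ω) → ℝ) (l : ℕ) (ω : ℕ → Ω) : ℝ :=
  (S.x l)⁻¹ * ∑' T : Tree (S.R - l),
    Tree.weight S.x (S.R - l) l T * (C.count (S.R - l) l T : ℝ) * S.mom (S.R - l) l T (fun _ => a) ω

/-- The signs of one gadget at one step: `none` is its own sign, a pair its pair sign. -/
abbrev Slot (n : ℕ) := Option (Fin n × Fin n) → Bool

/-- The product of the pair signs at the leaf `v`. -/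
def Cons.feature (C : Cons) (v : Fin C.n) (s : ℕ → Slot C.n) : ℝ :=
  ∏ w, if v < w then spin (s (C.lev v w) (some (v, w)))
    else if w < v then spin (s (C.lev w v) (some (w, v))) else 1

/-- The gadget `z`: the sign `η` sits on the first leaf, `σ` is the observable. -/
def Cons.gadget (C : Cons) (c : ℝ) (η : Bool) (σ : ℝ) (s : ℕ → Slot C.n) : ℝ :=
  c * σ * ∑ v : Fin C.n, (if (v : ℕ) = 0 then spin η else 1) * C.feature v s

/-- The system of fresh signs. -/
noncomputable def signSys (R : ℕ) (x : ℕ → ℝ) (α : Type) [Fintype α] [MeasurableSpace α] : Sys α where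
  R := R
  x := x
  H _ := 0
  μ := finLaw α

/-- The increment at level `l` of one probe on the observable `a`. -/
noncomputable def Sys.probe1 (S : Sys Ω) (C : Cons) (c : ℝ) (a : (ℕ → Ω) → ℝ) (η : Bool) (l : ℕ)
    (ω : ℕ → Ω) : ℝ :=
  (S.prod (signSys S.R S.x (Slot C.n))).val S.x
    (fun p => Real.log (1 + C.gadget c η (a fun i => (p i).1) fun i => (p i).2))
    (S.R - l) l fun i => (ω i, fun _ => false)

/-- The increment at level `l` of two probes on the observables `a` and `b`. -/
noncomputable def Sys.probe2 (S : Sys Ω) (C : Cons) (c : ℝ) (a b : (ℕ → Ω) → ℝ) (η η' : Bool)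
    (l : ℕ) (ω : ℕ → Ω) : ℝ :=
  (S.prod (signSys S.R S.x (Slot C.n × Slot C.n))).val S.x
    (fun p => Real.log (1 + C.gadget c η (a fun i => (p i).1) fun i => (p i).2.1) +
      Real.log (1 + C.gadget c η' (b fun i => (p i).1) fun i => (p i).2.2))
    (S.R - l) l fun i => (ω i, (fun _ => false, fun _ => false))

/-- The odd part of one probe, scaled. -/
noncomputable def Sys.beta (S : Sys Ω) (C : Cons) (c : ℝ) (a : (ℕ → Ω) → ℝ) (l : ℕ) (ω : ℕ → Ω) :
    ℝ :=
  (S.probe1 C c a true l ω - S.probe1 C c a false l ω) / (2 * c ^ C.n)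

/-- The mixed part of two probes, scaled. -/
noncomputable def Sys.jay (S : Sys Ω) (C : Cons) (c : ℝ) (a b : (ℕ → Ω) → ℝ) (l : ℕ)
    (ω : ℕ → Ω) : ℝ :=
  (S.probe2 C c a b true true l ω - S.probe2 C c a b true false l ω -
      S.probe2 C c a b false true l ω + S.probe2 C c a b false false l ω) / (4 * c ^ (2 * C.n))

/-- The averaged variance of the responses over the step from `m` to `m + 1`. -/
noncomputable def Sys.gap (S : Sys Ω) {N : ℕ} (C : Cons) (a : Fin N → (ℕ → Ω) → ℝ) (m : ℕ)
    (ω : ℕ → Ω) : ℝ :=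
  avg fun i : Fin N => S.cov m (m + 1) (S.resp C (a i) (m + 1)) (S.resp C (a i) (m + 1)) ω

/-- The averaged absolute covariance given the node at level `q` of functions of level `p`. -/
noncomputable def Sys.avgCov (S : Sys Ω) {N : ℕ} (q p : ℕ) (f : Fin N → (ℕ → Ω) → ℝ) (ω : ℕ → Ω) :
    ℝ :=
  avg fun ij : Fin N × Fin N => |S.cov q p (f ij.1) (f ij.2) ω|

/-- The constraints present in the perturbation. -/
abbrev Fam (n₀ R : ℕ) := Σ n : Fin n₀, Fin ((n : ℕ) + 1) → Fin ((n : ℕ) + 1) → Fin R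

/-- The constraint with a given index. -/
def famCons {n₀ R : ℕ} (k : Fam n₀ R) : Cons :=
  ⟨(k.1 : ℕ) + 1, fun v w => (k.2 v w : ℕ) + 1⟩

/-- The gadgets: site, constraint, level of the gadget sign (one less than the level). -/
abbrev Gad (N n₀ R : ℕ) := Fin N × Fam n₀ R × Fin R

/-- One step of the perturbed system: all gadget signs, and the spins. -/
abbrev PSpace (N n₀ R : ℕ) :=
  ((g : Gad N n₀ R) → Slot (famCons g.2.1).n) × (Fin N → Bool)

set_option synthInstance.maxSize 2000 in
noncomputable instance instFintypePSpace (N n₀ R : ℕ) : Fintype (PSpace N n₀ R) := inferInstance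

set_option synthInstance.maxSize 2000 in
instance instDiscretePSpace (N n₀ R : ℕ) : MeasurableSingletonClass (PSpace N n₀ R) := inferInstance

/-- The logarithm of the weight of one gadget. -/
noncomputable def gadLog {N n₀ R : ℕ} (c : ℝ) (g : Gad N n₀ R) (ω : ℕ → PSpace N n₀ R) : ℝ :=
  if (g.2.2 : ℕ) + 1 < (famCons g.2.1).first R then
    Real.log (1 + (famCons g.2.1).gadget c ((ω ((g.2.2 : ℕ) + 1)).1 g none)
      (spin ((ω R).2 g.1)) fun l => (ω l).1 g)
  else 0

/-- The perturbed system with the spin potential `H`. -/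
noncomputable def pertSys {N : ℕ} (n₀ R : ℕ) (c : ℝ) (H : (Fin N → Bool) → ℝ) :
    Sys (PSpace N n₀ R) where
  R := R
  x := gridExp R
  H ω := H (ω R).2 + ∑ g, gadLog c g ω
  μ := finLaw (PSpace N n₀ R)

/-- A reference path. -/
def origin (N n₀ R : ℕ) : ℕ → PSpace N n₀ R := fun _ => (fun _ _ => false, fun _ => false)

/-- The mean over the nodes at level `l`. -/
noncomputable def Sys.mean {N n₀ R : ℕ} (S : Sys (PSpace N n₀ R)) (l : ℕ)
    (f : (ℕ → PSpace N n₀ R) → ℝ) : ℝ :=
  S.cond 0 l f (origin N n₀ R)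

/-- The spin of a site. -/
def siteBit {N n₀ R : ℕ} (i : Fin N) (ω : ℕ → PSpace N n₀ R) : Bool := (ω R).2 i

/-- The spin of a site as an observable. -/
def siteObs {N n₀ R : ℕ} (i : Fin N) (ω : ℕ → PSpace N n₀ R) : ℝ := spin (siteBit i ω)

/-- The mean gap at level `m`, zero from the top on. -/
noncomputable def gam {N : ℕ} (n₀ R : ℕ) (c : ℝ) (H : (Fin N → Bool) → ℝ) (C : Cons) (m : ℕ) :
    ℝ :=
  if m < R then (pertSys n₀ R c H).mean m ((pertSys n₀ R c H).gap C siteObs m) else 0

/-- The perturbed log partition function. -/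
noncomputable def pertLogZ {N : ℕ} (n₀ R : ℕ) (c : ℝ) (H : (Fin N → Bool) → ℝ) : ℝ :=
  (pertSys n₀ R c H).u 0 (origin N n₀ R) + N * Real.log 2

/-- Levels of branching `p` with windows `[t, h]` above them, bands `lo .. B - 1`. -/
structure Grid where
  lo : ℕ
  B : ℕ
  p : ℕ → ℕ
  t : ℕ → ℕ
  h : ℕ → ℕ

/-- Validity of a grid for `R` steps. -/
def Grid.Ok (G : Grid) (R : ℕ) : Prop :=
  G.lo < G.B ∧ G.p G.B = R ∧ ∀ k, G.lo ≤ k → k < G.B →
    1 ≤ G.p k ∧ G.p k + 2 ≤ G.t k ∧ G.t k < G.h k ∧ G.h k ≤ G.p (k + 1)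

/-- The first branching level at or above `l`. -/
def Grid.next (G : Grid) (R l : ℕ) : ℕ :=
  (insert R (((Icc G.lo G.B).image G.p).filter fun q => l ≤ q)).min' (insert_nonempty _ _)

/-- The exponents constant between the branching levels. -/
noncomputable def Grid.expo (G : Grid) (R l : ℕ) : ℝ := gridExp R (G.next R l)

/-- A constraint with window levels of the grid. -/
def Grid.cons (G : Grid) (n : ℕ) (f : Fin n → Fin n → ℕ × Bool) : Cons :=
  ⟨n, fun v w => if (f v w).2 then G.h (f v w).1 else G.t (f v w).1⟩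

/-- The band in which two leaves of a tree meet. -/
def Grid.band (G : Grid) (d l : ℕ) (T : Tree d) (v w : Leaves d T) : ℕ :=
  if v = w then G.B else ((Ico G.lo G.B).filter fun k => G.p k ≤ Tree.meet d l T v w).sup id

/-- A hierarchical pattern on `A` with all bands at least `k`. -/
def IsPat {ι : Type} (B k : ℕ) (κ : ι → ι → ℕ) (A : Finset ι) : Prop :=
  (∀ v ∈ A, κ v v = B) ∧ (∀ v ∈ A, ∀ w ∈ A, κ v w = κ w v) ∧
    (∀ v ∈ A, ∀ w ∈ A, v ≠ w → k ≤ κ v w ∧ κ v w < B) ∧
    ∀ u ∈ A, ∀ v ∈ A, ∀ w ∈ A, min (κ u v) (κ v w) ≤ κ u w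

/-- The snapped moment of a pattern, `d` bands below the top. -/
noncomputable def Sys.snapAux (S : Sys Ω) (G : Grid) {ι : Type} [DecidableEq ι] (κ : ι → ι → ℕ)
    (a : (ℕ → Ω) → ℝ) : ℕ → Finset ι → (ℕ → Ω) → ℝ
  | 0, A => fun ω => ∏ _v ∈ A, a ω
  | d + 1, A => fun ω =>
      ∏ Q ∈ A.image (fun v => A.filter fun w => G.B - d ≤ κ v w),
        S.cond (G.p (G.B - (d + 1))) (G.p (G.B - d)) (S.snapAux G κ a d Q) ω

/-- The snapped moment of a pattern at the branching level of band `k`. -/
noncomputable def Sys.snap (S : Sys Ω) (G : Grid) {ι : Type} [DecidableEq ι] (κ : ι → ι → ℕ)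
    (a : (ℕ → Ω) → ℝ) (k : ℕ) (A : Finset ι) : (ℕ → Ω) → ℝ :=
  S.snapAux G κ a (G.B - k) A

/-- The potential of a new site with clauses `θ` at positions `l`, as a function of the other
spins. -/
noncomputable def potU {K k : ℕ} (θ : Fin k → Param K) (l : Fin k → Fin K) (h : ℝ)
    (τ : Fin k × Fin K → Bool) : ℝ :=
  Real.log (∑ e : Bool, Real.exp (h * spin e) *
    ∏ c, Real.exp (theta (θ c) (update (fun j => τ (c, j)) (l c) e)))

/-- The potential of clauses `θ` on old spins. -/
noncomputable def potV {K k : ℕ} (θ : Fin k → Param K) (τ : Fin k × Fin K → Bool) : ℝ :=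
  ∑ c, theta (θ c) fun j => τ (c, j)

/-- The law of the random Hamiltonian with a Poisson number of clauses of mean `μ`. -/
noncomputable def hamLaw (M : Model) (μ : ℝ) (N : ℕ) : Measure ((Fin N → Bool) → ℝ) :=
  Measure.sum fun k : ℕ => ENNReal.ofReal (pois μ k) •
    (((Measure.pi fun _ : Fin k => M.clauseLaw).prod
      ((finLaw (Fin k → Fin M.K → Fin N)).prod (Measure.pi fun _ : Fin N => M.hLaw))).map
        fun q => ham q.1 q.2.1 q.2.2)

/-- The mean of the perturbed log partition function. -/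
noncomputable def meanLogZ (M : Model) (n₀ R : ℕ) (c μ : ℝ) (N : ℕ) : ℝ :=
  ∫ H, pertLogZ n₀ R c H ∂hamLaw M μ N

/-- The rate of the clauses avoiding the new site. -/
noncomputable def oldRate (M : Model) (N : ℕ) : ℝ :=
  M.lam * ((N : ℝ) + 1) * ((N : ℝ) / ((N : ℝ) + 1)) ^ M.K

/-- The increment of a potential of finitely many sites, averaged over the sites. -/
noncomputable def siteInc {N : ℕ} (n₀ R : ℕ) (c : ℝ) (H : (Fin N → Bool) → ℝ) {ι : Type}
    [Fintype ι] [DecidableEq ι] (F : (ι → Bool) → ℝ) : ℝ :=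
  avg fun i : ι → Fin N =>
    (pertSys n₀ R c H).val (gridExp R) (fun ω => F fun s => siteBit (i s) ω) R 0 (origin N n₀ R)

/-- The mean increment of a new site. -/
noncomputable def incU (M : Model) {N : ℕ} (n₀ R : ℕ) (c : ℝ) (H : (Fin N → Bool) → ℝ) : ℝ :=
  ∑' k : ℕ, pois (M.K * M.lam) k *
    ∫ h, ∫ θ, avg (fun l : Fin k → Fin M.K => siteInc n₀ R c H (potU θ l h))
      ∂(Measure.pi fun _ : Fin k => M.clauseLaw) ∂M.hLaw

/-- The mean increment of the added clauses on old sites. -/
noncomputable def incV (M : Model) {N : ℕ} (n₀ R : ℕ) (c : ℝ) (H : (Fin N → Bool) → ℝ) : ℝ :=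
  ∑' k : ℕ, pois (((M.K : ℝ) - 1) * M.lam) k *
    ∫ θ, siteInc n₀ R c H (potV θ) ∂Measure.pi fun _ : Fin k => M.clauseLaw

end Vale.Agent.P168
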