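import Vale.Agent.P168.Trees
import Vale.Agent.P168.LowerDefs

/-!
Trees whose exponents are constant between the branching levels of a grid: they branch only at
these levels, and their moments of one observable are snapped moments of the band pattern.
-/

set_option linter.unusedVariables false

namespace Vale.Agent.P168.Factor

open MeasureTheory Finset Function

variable {Ω : Type} [MeasurableSpace Ω] {G : Grid} {R : ℕ}

lemma Grid.p_lt (hG : G.Ok R) {i j : ℕ} (h1 : G.lo ≤ i) (h2 : i < j) (h3 : j ≤ G.B) :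
    G.p i < G.p j := by
  induction j, h2 using Nat.le_induction with
  | base =>
    obtain ⟨-, a, b, c⟩ := hG.2.2 i h1 (by omega)
    show G.p i < G.p (i + 1)
    omega
  | succ m hm ih =>
    obtain ⟨-, a, b, c⟩ := hG.2.2 m (by omega) (by omega)
    have := ih (by omega)
    omega

lemma Grid.p_le (hG : G.Ok R) {i j : ℕ} (h1 : G.lo ≤ i) (h2 : i ≤ j) (h3 : j ≤ G.B) :
    G.p i ≤ G.p j := by
  rcases eq_or_lt_of_le h2 with rfl | h
  · exact le_rfl
  · exact (Grid.p_lt hG h1 h h3).le

lemma Grid.p_le_R (hG : G.Ok R) {k : ℕ} (h1 : G.lo ≤ k) (h2 : k ≤ G.B) : G.p k ≤ R :=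
  hG.2.1 ▸ Grid.p_le hG h1 h2 le_rfl

lemma Grid.p_lo_pos (hG : G.Ok R) : 1 ≤ G.p G.lo := (hG.2.2 G.lo le_rfl hG.1).1

lemma Grid.p_pos (hG : G.Ok R) {k : ℕ} (h1 : G.lo ≤ k) (h2 : k ≤ G.B) : 1 ≤ G.p k :=
  (Grid.p_lo_pos hG).trans (Grid.p_le hG le_rfl h1 h2)

lemma Grid.next_mem (G : Grid) (R l : ℕ) :
    G.next R l = R ∨ G.next R l ∈ (Icc G.lo G.B).image G.p ∧ l ≤ G.next R l := by
  have h := min'_mem (insert R (((Icc G.lo G.B).image G.p).filter fun q => l ≤ q))
    (insert_nonempty _ _)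
  rcases mem_insert.1 h with h | h
  · exact Or.inl h
  · exact Or.inr (mem_filter.1 h)

lemma Grid.next_le (G : Grid) (R l : ℕ) : G.next R l ≤ R :=
  min'_le _ _ (mem_insert_self _ _)

lemma Grid.le_next (G : Grid) {R l : ℕ} (hl : l ≤ R) : l ≤ G.next R l := by
  rcases Grid.next_mem G R l with h | h
  · omega
  · exact h.2

lemma Grid.next_succ (G : Grid) {R l : ℕ} (h : l ∉ (Icc G.lo G.B).image G.p) :
    G.next R l = G.next R (l + 1) := by
  have e : (((Icc G.lo G.B).image G.p).filter fun q => l ≤ q) =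
      ((Icc G.lo G.B).image G.p).filter fun q => l + 1 ≤ q :=
    filter_congr fun q hq => ⟨fun hl => Nat.lt_of_le_of_ne hl (by rintro rfl; exact h hq),
      fun hl => by omega⟩
  simp only [Grid.next, e]

lemma Grid.expo_expo (G : Grid) (hR : 0 < R) : Expo R (G.expo R) where
  pos l h1 h2 := by
    have := Grid.le_next G h2
    unfold Grid.expo gridExp
    have : (0 : ℝ) < G.next R l := by exact_mod_cast (show 0 < G.next R l by omega)
    positivity
  mono l h1 h2 := by
    have : G.next R l ≤ G.next R (l + 1) := by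
      refine min'_subset _ fun q hq => ?_
      simp only [mem_insert, mem_filter] at hq ⊢
      rcases hq with h | h
      · exact Or.inl h
      · exact Or.inr ⟨h.1, by omega⟩
    exact div_le_div_of_nonneg_right (Nat.cast_le.2 this) (Nat.cast_nonneg _)
  last := by
    have h : G.next R R = R := le_antisymm (Grid.next_le G R R) (Grid.le_next G le_rfl)
    simp only [Grid.expo, gridExp, h]
    exact div_self (Nat.cast_ne_zero.2 (by omega))

/-! ### Meeting levels -/

lemma Leaves.nonempty : ∀ (d : ℕ) (T : Tree d), Nonempty (Leaves d T)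
  | 0, _ => ⟨()⟩
  | d + 1, T => ⟨⟨0, (Leaves.nonempty d (T.2 0)).some⟩⟩

lemma Tree.size_pos {d : ℕ} (T : Tree d) : 1 ≤ T.size :=
  Fintype.card_pos_iff.2 (Leaves.nonempty d T)

lemma Tree.meet_same (d l : ℕ) (T : Tree (d + 1)) (c : Fin (T.1 + 1)) (x y : Leaves d (T.2 c)) :
    Tree.meet (d + 1) l T ⟨c, x⟩ ⟨c, y⟩ = Tree.meet d (l + 1) (T.2 c) x y := by
  simp [Tree.meet]

lemma Tree.meet_ne (d l : ℕ) (T : Tree (d + 1)) {c c' : Fin (T.1 + 1)} (h : c ≠ c')
    (x : Leaves d (T.2 c)) (y : Leaves d (T.2 c')) :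
    Tree.meet (d + 1) l T ⟨c, x⟩ ⟨c', y⟩ = l := by
  simp [Tree.meet, h]

lemma Tree.le_meet : ∀ (d l : ℕ) (T : Tree d) (v w : Leaves d T), l ≤ Tree.meet d l T v w
  | 0, _, _, _, _ => le_rfl
  | d + 1, l, T, ⟨c, x⟩, ⟨c', y⟩ => by
    by_cases h : c = c'
    · subst h
      rw [Tree.meet_same]
      exact (Nat.le_succ l).trans (Tree.le_meet d (l + 1) _ x y)
    · rw [Tree.meet_ne d l T h x y]

lemma Tree.meet_symm : ∀ (d l : ℕ) (T : Tree d) (v w : Leaves d T),
    Tree.meet d l T v w = Tree.meet d l T w v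
  | 0, _, _, _, _ => rfl
  | d + 1, l, T, ⟨c, x⟩, ⟨c', y⟩ => by
    by_cases h : c = c'
    · subst h
      rw [Tree.meet_same, Tree.meet_same]
      exact Tree.meet_symm d (l + 1) _ x y
    · rw [Tree.meet_ne d l T h x y, Tree.meet_ne d l T (Ne.symm h) y x]

lemma Tree.meet_min : ∀ (d l : ℕ) (T : Tree d) (u v w : Leaves d T),
    min (Tree.meet d l T u v) (Tree.meet d l T v w) ≤ Tree.meet d l T u w
  | 0, _, _, _, _, _ => min_le_left _ _
  | d + 1, l, T, ⟨a, x⟩, ⟨b, y⟩, ⟨c, z⟩ => by
    by_cases h1 : a = b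
    · subst h1
      by_cases h2 : a = c
      · subst h2
        simp only [Tree.meet_same]
        exact Tree.meet_min d (l + 1) _ x y z
      · rw [Tree.meet_ne d l T h2 y z]
        exact (min_le_right _ _).trans (Tree.le_meet _ l T _ _)
    · rw [Tree.meet_ne d l T h1 x y]
      exact (min_le_left _ _).trans (Tree.le_meet _ l T _ _)

/-! ### Unary chains -/

/-- Between the branching levels a tree of nonzero weight is a chain. -/
lemma Tree.chain (S : Sys Ω) (G : Grid) (hR : 0 < S.R) :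
    ∀ (n d l : ℕ) (T : Tree d), 1 ≤ l → l + d = S.R → n ≤ d →
      (∀ i, l ≤ i → i < l + n → i ∉ (Icc G.lo G.B).image G.p) →
      Tree.weight (G.expo S.R) d l T ≠ 0 →
      ∃ (d' : ℕ) (T' : Tree d') (e : Leaves d' T' ≃ Leaves d T), d' + n = d ∧
        Tree.weight (G.expo S.R) d' (l + n) T' ≠ 0 ∧
        (∀ v w, Tree.meet d l T (e v) (e w) = Tree.meet d' (l + n) T' v w) ∧
        ∀ g, S.mom d l T g = S.down n l (S.mom d' (l + n) T' fun v => g (e v)) := by
  intro n
  induction n with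
  | zero =>
    intro d l T _ _ _ _ hw
    exact ⟨d, T, Equiv.refl _, rfl, hw, fun _ _ => rfl, fun _ => rfl⟩
  | succ n ih =>
    intro d l T h1 hd hn hp hw
    obtain ⟨d, rfl⟩ : ∃ d₀, d = d₀ + 1 := ⟨d - 1, by omega⟩
    obtain ⟨k, ch⟩ := T
    have hk : k = 0 := by
      by_contra hk
      apply hw
      have he : G.expo S.R l / G.expo S.R (l + 1) = 1 := by
        have hpos := (Grid.expo_expo G hR).pos (l + 1) (by omega) (by omega)
        have e : G.expo S.R l = G.expo S.R (l + 1) := by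
          rw [Grid.expo, Grid.expo, Grid.next_succ G (hp l le_rfl (by omega))]
        rw [e, div_self hpos.ne']
      have h0 : coef 1 (k + 1) = 0 := by
        have : (∏ i ∈ range k, ((i : ℝ) + 1 - 1)) = 0 :=
          prod_eq_zero (mem_range.2 (Nat.pos_of_ne_zero hk)) (by simp)
        simp only [coef, this, mul_zero, zero_div]
      simp only [Tree.weight, he, h0, zero_mul]
    subst hk
    have hw' : Tree.weight (G.expo S.R) d (l + 1) (ch 0) ≠ 0 := fun h0 => hw (by
      simp only [Tree.weight]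
      exact mul_eq_zero_of_right _ (prod_eq_zero (mem_univ 0) h0))
    obtain ⟨d', T', e, h2, h3, h4, h5⟩ := ih d (l + 1) (ch 0) (by omega) (by omega) (by omega)
      (fun i a b => hp i (by omega) (by omega)) hw'
    rw [show l + 1 + n = l + (n + 1) by omega] at h3 h4 h5
    let e₁ : Leaves d (ch 0) ≃ Leaves (d + 1) ⟨0, ch⟩ :=
      { toFun := fun x => ⟨0, x⟩
        invFun := fun y => match y with
          | ⟨0, x⟩ => x
        left_inv := fun x => rfl
        right_inv := fun y => match y with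
          | ⟨0, x⟩ => rfl }
    refine ⟨d', T', e.trans e₁, by omega, h3, fun v w => ?_, fun g => ?_⟩
    · exact (Tree.meet_same d l ⟨0, ch⟩ 0 (e v) (e w)).trans (h4 v w)
    · show S.mom (d + 1) l ⟨0, ch⟩ g = S.A l (S.down n (l + 1) _)
      funext ω
      simp only [Sys.mom]
      rw [Fin.prod_univ_one, h5]
      rfl

/-- The children of a node at a branching level, moved to the next branching level. -/
lemma Tree.node (S : Sys Ω) (G : Grid) (hG : G.Ok S.R) (hR : 0 < S.R) {k d : ℕ} (hk : G.lo ≤ k)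
    (hkB : k < G.B) (T : Tree (d + 1)) (hd : G.p k + (d + 1) = S.R)
    (hw : Tree.weight (G.expo S.R) (d + 1) (G.p k) T ≠ 0) :
    ∃ (d' : ℕ) (T' : Fin (T.1 + 1) → Tree d') (e : ∀ c, Leaves d' (T' c) ≃ Leaves d (T.2 c)),
      G.p (k + 1) + d' = S.R ∧
      (∀ c, Tree.weight (G.expo S.R) d' (G.p (k + 1)) (T' c) ≠ 0) ∧
      (∀ c v w, Tree.meet (d + 1) (G.p k) T ⟨c, e c v⟩ ⟨c, e c w⟩ =
        Tree.meet d' (G.p (k + 1)) (T' c) v w) ∧
      ∀ g ω, S.mom (d + 1) (G.p k) T g ω = ∏ c, S.cond (G.p k) (G.p (k + 1))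
        (S.mom d' (G.p (k + 1)) (T' c) fun v => g ⟨c, e c v⟩) ω := by
  have hlt : G.p k < G.p (k + 1) := Grid.p_lt hG hk (Nat.lt_succ_self k) hkB
  have hle := Grid.p_le_R hG (show G.lo ≤ k + 1 by omega) hkB
  obtain ⟨n, hn⟩ : ∃ n, G.p (k + 1) = G.p k + 1 + n := ⟨G.p (k + 1) - (G.p k + 1), by omega⟩
  have hgap : ∀ i, G.p k + 1 ≤ i → i < G.p k + 1 + n → i ∉ (Icc G.lo G.B).image G.p := by
    intro i h1 h2 hi
    obtain ⟨j, hj, rfl⟩ := mem_image.1 hi
    obtain ⟨hj1, hj2⟩ := mem_Icc.1 hj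
    rcases le_or_gt j k with h | h
    · have := Grid.p_le hG hj1 h hkB.le; omega
    · have := Grid.p_le hG (show G.lo ≤ k + 1 by omega) h hj2; omega
  have hc : ∀ c, Tree.weight (G.expo S.R) d (G.p k + 1) (T.2 c) ≠ 0 := fun c h0 => hw (by
    simp only [Tree.weight]
    exact mul_eq_zero_of_right _ (prod_eq_zero (mem_univ c) h0))
  have key : ∀ c, ∃ (T' : Tree (d - n)) (e : Leaves (d - n) T' ≃ Leaves d (T.2 c)),
      Tree.weight (G.expo S.R) (d - n) (G.p k + 1 + n) T' ≠ 0 ∧
      (∀ v w, Tree.meet d (G.p k + 1) (T.2 c) (e v) (e w) =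
        Tree.meet (d - n) (G.p k + 1 + n) T' v w) ∧
      ∀ g, S.mom d (G.p k + 1) (T.2 c) g =
        S.down n (G.p k + 1) (S.mom (d - n) (G.p k + 1 + n) T' fun v => g (e v)) := by
    intro c
    obtain ⟨d', T', e, h1, h2⟩ := Tree.chain S G hR n d (G.p k + 1) (T.2 c) (by omega) (by omega)
      (by omega) hgap (hc c)
    obtain rfl : d' = d - n := by omega
    exact ⟨T', e, h2⟩
  choose T' e h1 h2 h3 using key
  refine ⟨d - n, T', e, by omega, fun c => hn ▸ h1 c, fun c v w => ?_, fun g ω => ?_⟩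
  · rw [Tree.meet_same, h2, hn]
  · simp only [Sys.mom]
    refine prod_congr rfl fun c _ => ?_
    rw [h3 c, Sys.cond, hn, show G.p k + 1 + n - G.p k = n + 1 by omega]
    rfl

/-! ### The band pattern -/

lemma Grid.band_self (G : Grid) (d l : ℕ) (T : Tree d) (v : Leaves d T) :
    G.band d l T v v = G.B := if_pos rfl

lemma Grid.band_ne (G : Grid) (d l : ℕ) (T : Tree d) {v w : Leaves d T} (h : v ≠ w) :
    G.band d l T v w = ((Ico G.lo G.B).filter fun i => G.p i ≤ Tree.meet d l T v w).sup id :=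
  if_neg h

lemma Grid.band_ge (hG : G.Ok R) {k d : ℕ} (hk : G.lo ≤ k) (hkB : k ≤ G.B)
    (hd : G.p k + d = R) (T : Tree d) (v w : Leaves d T) : k ≤ G.band d (G.p k) T v w := by
  unfold Grid.band
  split_ifs with h
  · exact hkB
  · rcases eq_or_lt_of_le hkB with rfl | hlt
    · obtain rfl : d = 0 := by have := hG.2.1; omega
      exact absurd (Subsingleton.elim (α := Unit) v w) h
    · exact le_sup (f := id) (mem_filter.2 ⟨mem_Ico.2 ⟨hk, hlt⟩, Tree.le_meet _ _ _ _ _⟩)

lemma Grid.band_isPat (hG : G.Ok R) {k d : ℕ} (hk : G.lo ≤ k) (hkB : k ≤ G.B)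
    (hd : G.p k + d = R) (T : Tree d) (A : Finset (Leaves d T)) :
    IsPat G.B k (G.band d (G.p k) T) A := by
  have hB : ∀ v w, v ≠ w → G.band d (G.p k) T v w < G.B := fun v w h => by
    rw [Grid.band, if_neg h]
    exact (Finset.sup_lt_iff (show ⊥ < G.B by have := hG.1; simp only [Nat.bot_eq_zero]; omega)).2
      fun i hi => (mem_Ico.1 (mem_filter.1 hi).1).2
  refine ⟨fun v _ => Grid.band_self G d _ T v, fun v _ w _ => ?_, fun v _ w _ h =>
    ⟨Grid.band_ge hG hk hkB hd T v w, hB v w h⟩, fun u _ v _ w _ => ?_⟩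
  · unfold Grid.band
    simp only [Tree.meet_symm d (G.p k) T v w, eq_comm (a := v)]
  · rcases eq_or_ne u w with rfl | huw
    · rw [Grid.band_self G d _ T u]
      rcases eq_or_ne u v with rfl | huv
      · rw [Grid.band_self]; simp
      · exact (min_le_left _ _).trans (hB u v huv).le
    rcases eq_or_ne u v with rfl | huv
    · exact min_le_right _ _
    rcases eq_or_ne v w with rfl | hvw
    · exact min_le_left _ _
    simp only [Grid.band, if_neg huw, if_neg huv, if_neg hvw]
    have hm := Tree.meet_min d (G.p k) T u v w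
    rcases min_le_iff.1 hm with h | h
    · exact (min_le_left _ _).trans (sup_mono fun i hi => by
        simp only [mem_filter] at hi ⊢; exact ⟨hi.1, hi.2.trans h⟩)
    · exact (min_le_right _ _).trans (sup_mono fun i hi => by
        simp only [mem_filter] at hi ⊢; exact ⟨hi.1, hi.2.trans h⟩)

lemma Sys.snapAux_empty {S : Sys Ω} (hS : S.Good) (G : Grid) {ι : Type} [DecidableEq ι]
    (κ : ι → ι → ℕ) (a : (ℕ → Ω) → ℝ) : ∀ j, S.snapAux G κ a j ∅ = fun _ => 1
  | 0 => by simp [Sys.snapAux]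
  | j + 1 => by simp [Sys.snapAux]

/-- A moment of one observable on some leaves is the snapped moment of the band pattern. -/
lemma Sys.mom_eq_snapAux {S : Sys Ω} (hS : S.Good) (hG : G.Ok S.R) {ι : Type} [DecidableEq ι]
    (κ : ι → ι → ℕ) (a : (ℕ → Ω) → ℝ) :
    ∀ (j k : ℕ), G.lo ≤ k → k + j = G.B → ∀ (d : ℕ) (T : Tree d), G.p k + d = S.R →
      Tree.weight (G.expo S.R) d (G.p k) T ≠ 0 → ∀ (e : Leaves d T → ι), Injective e →
      (∀ v w, κ (e v) (e w) = G.band d (G.p k) T v w) → ∀ A : Finset ι, A ⊆ univ.image e →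
      S.mom d (G.p k) T (fun v p => if e v ∈ A then a p else 1) = S.snapAux G κ a j A := by
  intro j
  induction j with
  | zero =>
    intro k hk hkB d T hd hw e he hκ A hA
    obtain rfl : d = 0 := by
      have := hG.2.1; rw [show k = G.B by omega] at hd; omega
    have hsub : A ⊆ {e ()} := hA.trans fun x hx => by
      obtain ⟨v, -, rfl⟩ := mem_image.1 hx
      exact mem_singleton.2 (congrArg e (Subsingleton.elim (α := Unit) v ()))
    funext ω
    show (if e () ∈ A then a ω else 1) = ∏ _v ∈ A, a ω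
    rcases subset_singleton_iff.1 hsub with h | h <;> simp [h]
  | succ j ih =>
    intro k hk hkB d T hd hw e he hκ A hA
    have hlt := Grid.p_lt hG hk (show k < G.B by omega) le_rfl
    rw [hG.2.1] at hlt
    obtain ⟨d, rfl⟩ : ∃ d₀, d = d₀ + 1 := ⟨d - 1, by omega⟩
    obtain ⟨d', T', eq', hd', hw', hmeet, hmom⟩ :=
      Tree.node S G hG hS.R_pos hk (by omega) T hd hw
    set ec : ∀ c, Leaves d' (T' c) → ι := fun c v => e ⟨c, eq' c v⟩ with hec
    set Ac : Fin (T.1 + 1) → Finset ι := fun c => A ∩ univ.image (ec c) with hAc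
    have hcls : ∀ c v, ec c v ∈ A →
        A.filter (fun w => G.B - j ≤ κ (ec c v) w) = Ac c := by
      intro c v hv
      ext w
      simp only [hAc, mem_filter, mem_inter, mem_image, mem_univ, true_and]
      refine and_congr_right fun hwA => ?_
      obtain ⟨⟨c', y⟩, -, rfl⟩ := mem_image.1 (hA hwA)
      obtain ⟨w', rfl⟩ := (eq' c').surjective y
      constructor
      · intro h
        by_cases hcc : c = c'
        · subst hcc; exact ⟨w', rfl⟩
        · exfalso
          have hne : (⟨c, eq' c v⟩ : Leaves (d + 1) T) ≠ ⟨c', eq' c' w'⟩ := fun hh =>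
            hcc (congrArg Sigma.fst hh)
          have h := h.trans_eq (hκ (⟨c, eq' c v⟩ : Leaves (d + 1) T) ⟨c', eq' c' w'⟩)
          rw [Grid.band_ne G _ _ T hne, Tree.meet_ne d _ T hcc] at h
          have hsup : ((Ico G.lo G.B).filter fun i => G.p i ≤ G.p k).sup id ≤ k :=
            Finset.sup_le fun i hi => by
              obtain ⟨hi1, hi2⟩ := mem_filter.1 hi
              obtain ⟨hi1, hi3⟩ := mem_Ico.1 hi1
              by_contra hik
              have := Grid.p_lt hG hk (show k < i from not_le.1 hik) hi3.le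
              omega
          omega
      · rintro ⟨u, hu⟩
        obtain rfl : c = c' := congrArg Sigma.fst (he hu)
        refine le_of_le_of_eq ?_ (hκ (⟨c, eq' c v⟩ : Leaves (d + 1) T) ⟨c, eq' c w'⟩).symm
        rcases eq_or_ne v w' with rfl | hne
        · exact (show G.B - j ≤ G.B by omega).trans_eq
            (Grid.band_self G (d + 1) _ T ⟨c, eq' c v⟩).symm
        · have hne' : (⟨c, eq' c v⟩ : Leaves (d + 1) T) ≠ ⟨c, eq' c w'⟩ := fun hh =>
            hne ((eq' c).injective (eq_of_heq (Sigma.mk.inj hh).2))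
          rw [Grid.band_ne G _ _ T hne']
          have hb := Grid.band_ge hG (show G.lo ≤ k + 1 by omega) (by omega) hd' (T' c) v w'
          rw [Grid.band_ne G _ _ _ hne, ← hmeet c v w'] at hb
          omega
    have hκ' : ∀ c v w, κ (ec c v) (ec c w) = G.band d' (G.p (k + 1)) (T' c) v w := by
      intro c v w
      refine (hκ (⟨c, eq' c v⟩ : Leaves (d + 1) T) ⟨c, eq' c w⟩).trans ?_
      rcases eq_or_ne v w with rfl | h
      · exact (Grid.band_self G (d + 1) _ T ⟨c, eq' c v⟩).trans (Grid.band_self G d' _ (T' c) v).symm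
      · rw [Grid.band_ne G _ _ T (v := (⟨c, eq' c v⟩ : Leaves (d + 1) T)) (w := ⟨c, eq' c w⟩)
            fun hh => h ((eq' c).injective (eq_of_heq (Sigma.mk.inj hh).2)),
          Grid.band_ne G _ _ _ h, hmeet c v w]
    have hinj : ∀ c, Injective (ec c) := fun c v w h =>
      (eq' c).injective (eq_of_heq (Sigma.mk.inj (he h)).2)
    funext ω
    rw [hmom]
    show _ = ∏ Q ∈ A.image (fun v => A.filter fun w => G.B - j ≤ κ v w),
      S.cond (G.p (G.B - (j + 1))) (G.p (G.B - j)) (S.snapAux G κ a j Q) ω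
    rw [show G.B - (j + 1) = k by omega, show G.B - j = k + 1 by omega]
    have hterm : ∀ c, S.mom d' (G.p (k + 1)) (T' c)
        (fun v p => if e ⟨c, eq' c v⟩ ∈ A then a p else 1) = S.snapAux G κ a j (Ac c) := by
      intro c
      rw [← ih (k + 1) (by omega) (by omega) d' (T' c) hd' (hw' c) (ec c) (hinj c) (hκ' c) (Ac c)
        inter_subset_right]
      congr 1
      funext v p
      simp [hAc, hec]
    simp only [hterm]
    have himg : A.image (fun v => A.filter fun w => G.B - j ≤ κ v w) =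
        (univ.filter fun c => (Ac c).Nonempty).image Ac := by
      ext Q
      simp only [mem_image, mem_filter, mem_univ, true_and]
      constructor
      · rintro ⟨v, hv, rfl⟩
        obtain ⟨⟨c, y⟩, -, rfl⟩ := mem_image.1 (hA hv)
        obtain ⟨v', rfl⟩ := (eq' c).surjective y
        exact ⟨c, ⟨_, mem_inter.2 ⟨hv, mem_image.2 ⟨v', mem_univ _, rfl⟩⟩⟩, (hcls c v' hv).symm⟩
      · rintro ⟨c, ⟨v, hv⟩, rfl⟩
        obtain ⟨hv1, hv2⟩ := mem_inter.1 hv
        obtain ⟨v', -, rfl⟩ := mem_image.1 hv2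
        exact ⟨_, hv1, hcls c v' hv1⟩
    rw [show G.B - j = k + 1 by omega] at himg
    rw [himg, prod_image, prod_filter_of_ne]
    · intro c _ hne
      by_contra h
      rw [not_nonempty_iff_eq_empty] at h
      rw [h, Sys.snapAux_empty hS, Sys.cond_const hS.reg] at hne
      exact hne rfl
    · intro c hc c' _ h
      obtain ⟨v, hv⟩ := (mem_filter.1 hc).2
      have hv' : v ∈ Ac c' := h ▸ hv
      obtain ⟨x, -, hx⟩ := mem_image.1 (mem_inter.1 hv).2
      obtain ⟨y, -, hy⟩ := mem_image.1 (mem_inter.1 hv').2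
      exact congrArg Sigma.fst (he (hx.trans hy.symm))

end Vale.Agent.P168.Factor
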