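import Vale.Agent.P168.ProbeStep
import Vale.Agent.P168.Bessel

/-!
The probe lemma in the perturbed system: the gadget of a site is a probe after its signs are
replaced by fresh ones, so covariances of responses are controlled by the gaps at their two levels.
-/

set_option linter.unusedVariables false
set_option linter.unusedSectionVars false
set_option synthInstance.maxSize 2000

namespace Vale.Agent.P168

namespace Probe

open MeasureTheory Finset Function

/-! ### Pullbacks -/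

section Comp

variable {Ω : Type} [MeasurableSpace Ω] {S : Sys Ω} {Ω' : Type} [MeasurableSpace Ω'] {S' : Sys Ω'}
  {ψ : Ω' → Ω}

lemma cov_comp (hS : S.Good) (hψ : MeasurePreserving ψ S'.μ S.μ)
    (hR : S'.R = S.R) (hx : S'.x = S.x) (hH : ∀ ω, S'.H ω = S.H fun i => ψ (ω i))
    {f g : (ℕ → Ω) → ℝ} (hf : Bdd f) (hg : Bdd g) (l m : ℕ) (p : ℕ → Ω') :
    S'.cov l m (fun v => f fun i => ψ (v i)) (fun v => g fun i => ψ (v i)) p =
      S.cov l m f g fun i => ψ (p i) :=
  congrArg₂ (· - ·) (Sys.cond_comp hS hψ hR hx hH (hf.mul hg) l m p)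
    (congrArg₂ (· * ·) (Sys.cond_comp hS hψ hR hx hH hf l m p)
      (Sys.cond_comp hS hψ hR hx hH hg l m p))

lemma probe1_comp (hS : S.Good) (hψ : MeasurePreserving ψ S'.μ S.μ)
    (hp : IsProbabilityMeasure S'.μ) (hR : S'.R = S.R) (hx : S'.x = S.x)
    (hH : ∀ ω, S'.H ω = S.H fun i => ψ (ω i)) (C : Cons) {c : ℝ} (hc : 0 ≤ c)
    (hc' : (C.n : ℝ) * c ≤ 1 / 2) {a : (ℕ → Ω) → ℝ} (ha : Obs S a) (η : Bool) (l : ℕ)
    (p : ℕ → Ω') :
    S'.probe1 C c (fun v => a fun i => ψ (v i)) η l p =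
      S.probe1 C c a η l fun i => ψ (p i) := by
  have := hS.prob
  have := isProbabilityMeasure_finLaw (Slot C.n)
  have hψ' : MeasurePreserving (Prod.map ψ id) (S'.μ.prod (finLaw (Slot C.n)))
      (S.μ.prod (finLaw (Slot C.n))) := hψ.prod (MeasurePreserving.id _)
  have hF : Bdd fun v : ℕ → Ω × Slot C.n => gl C c η (a fun i => (v i).1) fun i => (v i).2 :=
    bdd_gl C hc hc' (measurable_const (a := η)) (bdd_fst ha.1).1 (fun _ => ha.2.2 _)
      measurable_snd
  have := Sys.val_comp (S := S.prod (signSys S.R S.x (Slot C.n)))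
    (S' := S'.prod (signSys S'.R S'.x (Slot C.n))) (sysY_good hS) hψ' hR hx
    (fun w => congrArg₂ (· + ·) (hH _) rfl) (ξ := S.x) hF (S.R - l) l
    (fun i => (p i, fun _ => false))
  rw [Sys.probe1, hR, hx]
  rw [hR, hx] at this
  exact this

lemma beta_comp (hS : S.Good) (hψ : MeasurePreserving ψ S'.μ S.μ)
    (hp : IsProbabilityMeasure S'.μ) (hR : S'.R = S.R) (hx : S'.x = S.x)
    (hH : ∀ ω, S'.H ω = S.H fun i => ψ (ω i)) (C : Cons) {c : ℝ} (hc : 0 ≤ c)
    (hc' : (C.n : ℝ) * c ≤ 1 / 2) {a : (ℕ → Ω) → ℝ} (ha : Obs S a) (l : ℕ) (p : ℕ → Ω') :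
    S'.beta C c (fun v => a fun i => ψ (v i)) l p = S.beta C c a l fun i => ψ (p i) := by
  simp only [Sys.beta, probe1_comp hS hψ hp hR hx hH C hc hc' ha]

lemma beta_bdd (hS : S.Good) (C : Cons) {c : ℝ} (hc : 0 ≤ c) (hc' : (C.n : ℝ) * c ≤ 1 / 2)
    {a : (ℕ → Ω) → ℝ} (ha : Obs S a) (l : ℕ) : Bdd (S.beta C c a l) := by
  have h : ∀ η, Bdd fun ω => S.probe1 C c a η l ω := fun η =>
    bdd_pad (fun _ => false) (Sys.val_bdd (sysY_good hS)
      (bdd_gl C hc hc' (measurable_const (a := η)) (bdd_fst ha.1).1 (fun _ => ha.2.2 _)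
        measurable_snd) (S.R - l) l)
  show Bdd fun ω => S.beta C c a l ω
  simpa only [Sys.beta, div_eq_inv_mul] using ((h true).sub (h false)).const_mul _

lemma var_le (hS : S.Good) {β G : (ℕ → Ω) → ℝ} (hβ : Bdd β) (hG : Bdd G) {s δ : ℝ}
    (hs : |s| = 1) (h : ∀ v, |β v - s * G v| ≤ δ) (l m : ℕ) (ω : ℕ → Ω) :
    S.cov l m β β ω ≤ 2 * S.cov l m G G ω + 2 * δ ^ 2 := by
  have hr := hS.reg
  set μ := S.cond l m G ω with hμ
  have hb1 := hβ.const_mul (2 * (s * μ))
  have hb2 := (hG.mul hG).const_mul 2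
  have hb3 := hG.const_mul (-(4 * μ))
  have hb4 : Bdd fun _ : ℕ → Ω => -(s * μ) ^ 2 + 2 * μ ^ 2 + 2 * δ ^ 2 := bdd_const _
  have hle := Sys.cond_mono hr (hβ.mul hβ) (((hb1.add hb2).add hb3).add hb4) (fun v => ?_) l m ω
  · rw [Sys.cond_add hr ((hb1.add hb2).add hb3) hb4, Sys.cond_add hr (hb1.add hb2) hb3,
      Sys.cond_add hr hb1 hb2, Sys.cond_const_mul, Sys.cond_const_mul, Sys.cond_const_mul,
      Sys.cond_const hr] at hle
    simp only [← hμ] at hle
    simp only [Sys.cov, ← hμ]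
    nlinarith [sq_nonneg (S.cond l m β ω - s * μ)]
  · have hs2 : s ^ 2 = 1 := by rw [← sq_abs, hs, one_pow]
    have hd : (β v - s * G v) ^ 2 ≤ δ ^ 2 := by
      rw [← sq_abs]; exact pow_le_pow_left₀ (abs_nonneg _) (h v) 2
    have e : (s * (G v - μ)) ^ 2 = (G v - μ) ^ 2 := by rw [mul_pow, hs2, one_mul]
    nlinarith [sq_nonneg (β v - s * G v - s * (G v - μ))]

end Comp

/-! ### Slot replacement in the perturbed system -/

variable {N n₀ R : ℕ} {c : ℝ}

/-- The probe sign of a gadget at a step. -/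
def signObs (g : Gad N n₀ R) (L : ℕ) (ω : ℕ → PSpace N n₀ R) : ℝ := spin ((ω L).1 g none)

/-- The signs of a gadget replaced. -/
def repl (g : Gad N n₀ R) (z : PSpace N n₀ R × Slot (famCons g.2.1).n) : PSpace N n₀ R :=
  (update z.1.1 g z.2, z.1.2)

/-- The signs of two gadgets replaced. -/
def repl₂ (g g' : Gad N n₀ R)
    (z : PSpace N n₀ R × (Slot (famCons g.2.1).n × Slot (famCons g'.2.1).n)) : PSpace N n₀ R :=
  (update (update z.1.1 g z.2.1) g' z.2.2, z.1.2)

lemma mp_repl (g : Gad N n₀ R) :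
    MeasurePreserving (repl g) ((finLaw (PSpace N n₀ R)).prod (finLaw (Slot (famCons g.2.1).n)))
      (finLaw (PSpace N n₀ R)) := by
  classical
  rw [prod_law]
  refine measurePreserving_finLaw _ (q := Fintype.card (Slot (famCons g.2.1).n)) fun b => ?_
  rw [← Fintype.card_subtype]
  refine Fintype.card_congr
    { toFun := fun z => z.1.1.1 g
      invFun := fun t => ⟨((update b.1 g t, b.2), b.1 g), ?_⟩
      left_inv := fun z => ?_
      right_inv := fun t => ?_ }
  · simp [repl]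
  · obtain ⟨⟨⟨x, σ⟩, t⟩, rfl⟩ := z
    simp [repl]
  · simp

lemma mp_repl₂ {g g' : Gad N n₀ R} (h : g ≠ g') :
    MeasurePreserving (repl₂ g g')
      ((finLaw (PSpace N n₀ R)).prod
        (finLaw (Slot (famCons g.2.1).n × Slot (famCons g'.2.1).n)))
      (finLaw (PSpace N n₀ R)) := by
  classical
  rw [prod_law]
  refine measurePreserving_finLaw _
    (q := Fintype.card (Slot (famCons g.2.1).n × Slot (famCons g'.2.1).n)) fun b => ?_
  rw [← Fintype.card_subtype]
  refine Fintype.card_congr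
    { toFun := fun z => (z.1.1.1 g, z.1.1.1 g')
      invFun := fun t => ⟨((update (update b.1 g t.1) g' t.2, b.2), (b.1 g, b.1 g')), ?_⟩
      left_inv := fun z => ?_
      right_inv := fun t => ?_ }
  · refine Prod.ext (funext fun i => ?_) rfl
    by_cases hi : i = g'
    · subst hi; simp [repl₂]
    · by_cases hi' : i = g
      · subst hi'; simp [repl₂, hi]
      · simp [repl₂, hi, hi']
  · obtain ⟨⟨⟨x, σ⟩, t, t'⟩, rfl⟩ := z
    refine Subtype.ext (Prod.ext (Prod.ext (funext fun i => ?_) rfl) ?_)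
    · by_cases hi : i = g'
      · subst hi; simp [repl₂]
      · by_cases hi' : i = g
        · subst hi'; simp [repl₂, hi]
        · simp [repl₂, hi, hi']
    · simp [repl₂, h]
  · simp [h]

lemma gadLog_congr (c : ℝ) (g : Gad N n₀ R) {ω ω' : ℕ → PSpace N n₀ R}
    (h : ∀ i, (ω i).1 g = (ω' i).1 g) (hσ : ∀ i, (ω i).2 = (ω' i).2) :
    gadLog c g ω = gadLog c g ω' := by
  simp only [gadLog, h, hσ]

lemma H_diff (H : (Fin N → Bool) → ℝ) (t : Finset (Gad N n₀ R)) {ω ω' : ℕ → PSpace N n₀ R}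
    (h : ∀ g ∉ t, ∀ i, (ω i).1 g = (ω' i).1 g) (hσ : ∀ i, (ω i).2 = (ω' i).2) :
    (pertSys n₀ R c H).H ω =
      (pertSys n₀ R c H).H ω' + ∑ g ∈ t, (gadLog c g ω - gadLog c g ω') := by
  have e : ∑ g ∈ t, (gadLog c g ω - gadLog c g ω') = ∑ g, (gadLog c g ω - gadLog c g ω') :=
    sum_subset (subset_univ t) fun g _ hg => sub_eq_zero.2 (gadLog_congr c g (h g hg) hσ)
  rw [e, sum_sub_distrib]
  simp only [pertSys, hσ R]
  ring

lemma gadLog_repl (g : Gad N n₀ R) (hg : (g.2.2 : ℕ) + 1 < (famCons g.2.1).first R)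
    {ω : ℕ → PSpace N n₀ R} {s : ℕ → Slot (famCons g.2.1).n} (hs : ∀ i, (ω i).1 g = s i) :
    gadLog c g ω =
      gl (famCons g.2.1) c (s ((g.2.2 : ℕ) + 1) none) (siteObs g.1 ω) s := by
  simp only [gadLog, if_pos hg, hs, gl, siteObs, siteBit]

lemma famCons_ok (k : Fam n₀ R) : (famCons k).Ok R :=
  ⟨Nat.le_add_left 1 _, fun v w _ => famCons_lev k v w⟩

lemma famCons_n_le (k : Fam n₀ R) : (famCons k).n ≤ n₀ := k.1.isLt

lemma gadLog_bdd (g : Gad N n₀ R) (c : ℝ) : Bdd (gadLog c g) :=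
  bdd_of_dependsTo (gadLog_dep c g)

/-- The two covariances at a node, against the mixed part in the full system. -/
lemma pert_cov (n₀ R n : ℕ) : ∃ K c₀ : ℝ, 0 ≤ K ∧ 0 < c₀ ∧
    ∀ (N : ℕ) (H : (Fin N → Bool) → ℝ) (c : ℝ), 0 < c → c ≤ c₀ →
    ∀ k : Fam n₀ R, (famCons k).n = n → ∀ m, 1 ≤ m → m + 1 < (famCons k).first R →
    ∀ hm : m < R, ∀ ω : ℕ → PSpace N n₀ R,
      (∀ i j : Fin N,
        |(pertSys n₀ R c H).cov m (m + 1) (signObs (j, k, ⟨m, hm⟩) (m + 1))
            ((pertSys n₀ R c H).beta (famCons k) c (siteObs i) (m + 1)) ω -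
          c ^ n * (pertSys n₀ R c H).jay (famCons k) c (siteObs i) (siteObs j) m ω| ≤
            c ^ n * (K * c)) ∧
      ∀ j j' : Fin N, j ≠ j' →
        |(pertSys n₀ R c H).cov m (m + 1) (signObs (j, k, ⟨m, hm⟩) (m + 1))
            (signObs (j', k, ⟨m, hm⟩) (m + 1)) ω -
          (c ^ n) ^ 2 * gridExp R (m + 1) *
            (pertSys n₀ R c H).jay (famCons k) c (siteObs j) (siteObs j') m ω| ≤
            (c ^ n) ^ 2 * (K * c) := by
  classical
  obtain ⟨K1, c1, hK1, hc1, h1⟩ := cov_bit_beta n R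
  obtain ⟨K2, c2, hK2, hc2, h2⟩ := cov_bit_bit n R
  obtain ⟨K3, c3, hc3, h3⟩ := jay_bound n R
  set c₀ := min (min c1 c2) (min c3 (1 / (4 * ((n₀ : ℝ) + 1)))) with hc₀
  refine ⟨K1 + K2 + |K3| * (4 * n₀ + 1), c₀, by positivity,
    lt_min (lt_min hc1 hc2) (lt_min hc3 (by positivity)), ?_⟩
  intro N H c hc hcc k hn m hm1 hf hm ω
  subst hn
  set C := famCons k with hC
  set P := pertSys n₀ R c H with hP
  have hPg : P.Good := pertSys_good (Nat.lt_of_le_of_lt (Nat.zero_le m) hm) H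
  have hR : 0 < R := Nat.lt_of_le_of_lt (Nat.zero_le m) hm
  have hok : C.Ok R := famCons_ok k
  have hc4 : 4 * (n₀ : ℝ) * c ≤ 1 := by
    have h := hcc.trans ((min_le_right _ _).trans (min_le_right _ _))
    rw [le_div_iff₀ (by positivity)] at h
    linarith
  have hsmall : (n₀ : ℝ) * c ≤ 1 / 2 := by linarith
  have hCn : (C.n : ℝ) * c ≤ 1 / 2 :=
    le_trans (mul_le_mul_of_nonneg_right (Nat.cast_le.2 (famCons_n_le k)) hc.le) hsmall
  have hobs : ∀ i, Obs P (siteObs i) := obs_siteObs hR H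
  have hgad : ∀ g : Gad N n₀ R, ∀ v, |gadLog c g v| ≤ 2 * n₀ * c := fun g v =>
    abs_gadLog_le hc.le hsmall g v
  set gj : Fin N → Gad N n₀ R := fun j => (j, k, ⟨m, hm⟩) with hgj
  have hgad1 : ∀ j, ((gj j).2.2 : ℕ) + 1 < (famCons (gj j).2.1).first R := fun j => hf
  -- the mixed part hardly feels a removed gadget
  have hjay : ∀ V, Bdd V → DependsTo V R → (∀ v, |V v| ≤ 4 * n₀ * c) → ∀ i j,
      |(P.add V).jay C c (siteObs i) (siteObs j) m ω - P.jay C c (siteObs i) (siteObs j) m ω| ≤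
        |K3| * (4 * n₀ + 1) * c := fun V hV hd hε i j =>
    (((h3 _ P hPg rfl rfl C rfl hok c hc
      (hcc.trans ((min_le_right _ _).trans (min_le_left _ _))) _ _ (hobs i) (hobs j) m hm1 hm.le
      (by omega) ω).2 V hV hd _ hc4 hε).trans
      (mul_le_mul_of_nonneg_right (le_abs_self K3) (by positivity))).trans_eq (by ring)
  constructor
  · intro i j
    set g := gj j with hg
    set V := fun v => -gadLog c g v with hV
    have hVb : Bdd V := (gadLog_bdd g c).neg
    have hVd : DependsTo V R := (gadLog_dep c g).map Neg.neg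
    have hVe : ∀ v, |V v| ≤ 4 * n₀ * c := fun v => by
      rw [hV, abs_neg]
      exact (hgad g v).trans (by nlinarith [Nat.cast_nonneg (α := ℝ) n₀])
    set S := P.add V with hS
    have hSg : S.Good := Sys.add_good hPg hVb hVd
    set T := (S.prod (signSys S.R S.x (Slot C.n))).add (gr C c (siteObs j) (m + 1)) with hT
    have hψ : MeasurePreserving (repl g) T.μ P.μ := mp_repl g
    have hp : IsProbabilityMeasure T.μ := (sysY_good (Y := Slot C.n) hSg).prob
    have hH : ∀ p, T.H p = P.H fun i => repl g (p i) := fun p => by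
      rw [H_diff H {g} (ω := fun i => repl g (p i)) (ω' := fun i => (p i).1)
        (fun x hx i => update_of_ne (by simpa using hx) _ _) (fun i => rfl), sum_singleton,
        gadLog_repl g (hgad1 j) (ω := fun i => repl g (p i)) (s := fun i => (p i).2)
          (fun i => update_self _ _ _)]
      show P.H (fun i => (p i).1) + V (fun i => (p i).1) + 0 + gr C c (siteObs j) (m + 1) p = _
      simp only [hV, gr, hg, hgj, repl, siteObs, siteBit]
      ring
    set p : ℕ → PSpace N n₀ R × Slot C.n := fun i => (ω i, (ω i).1 g) with hpdef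
    have hpω : (fun i => repl g (p i)) = ω := funext fun i =>
      Prod.ext (update_eq_self _ _) rfl
    have hβ := beta_bdd hPg C hc.le hCn (hobs i) (m + 1)
    have he : Bdd (signObs g (m + 1)) :=
      bdd_of_dependsTo (l := m + 1) fun v v' h => by simp only [signObs, h (m + 1) (by omega) le_rfl]
    have e := cov_comp hPg hψ rfl rfl hH he hβ m (m + 1) p
    rw [hpω] at e
    have eb : (fun v => signObs g (m + 1) fun i => repl g (v i)) = bit C.n (m + 1) :=
      funext fun v => congrArg spin (congrFun (update_self g _ _) none)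
    have eβ : (fun v => P.beta C c (siteObs i) (m + 1) fun i => repl g (v i)) =
        T.beta C c (fun v => siteObs i fun l => (v l).1) (m + 1) := funext fun v =>
      (beta_comp hPg hψ hp rfl rfl hH C hc.le hCn (hobs i) (m + 1) v).symm
    rw [eb, eβ] at e
    have q := h1 _ S hSg rfl rfl C rfl hok c hc
      (hcc.trans ((min_le_left _ _).trans (min_le_left _ _))) _ _ (hobs i) (hobs j) m hm1 hm hf p
    rw [← hT, e] at q
    change |_ - c ^ C.n * S.jay C c (siteObs i) (siteObs j) m ω| ≤ _ at q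
    have hr : 0 ≤ c ^ C.n := by positivity
    refine (abs_sub_le _ _ _).trans ((add_le_add q
      ((le_of_eq (by rw [← mul_sub, abs_mul, abs_of_nonneg hr])).trans
        (mul_le_mul_of_nonneg_left (hjay V hVb hVd hVe i j) hr))).trans ?_)
    nlinarith [mul_nonneg (mul_nonneg hK2 hr) hc.le]
  · intro j j' hjj
    set g := gj j with hg
    set g' := gj j' with hg'
    have hgg : g ≠ g' := fun h => hjj (congrArg Prod.fst h)
    set V := fun v => -(gadLog c g v + gadLog c g' v) with hV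
    have hVb : Bdd V := ((gadLog_bdd g c).add (gadLog_bdd g' c)).neg
    have hVd : DependsTo V R := fun v v' h => by
      simp only [hV, gadLog_dep c g v v' h, gadLog_dep c g' v v' h]
    have hVe : ∀ v, |V v| ≤ 4 * n₀ * c := fun v => by
      rw [hV, abs_neg]
      exact (abs_add_le _ _).trans ((add_le_add (hgad g v) (hgad g' v)).trans_eq (by ring))
    set S := P.add V with hS
    have hSg : S.Good := Sys.add_good hPg hVb hVd
    set T := (S.prod (signSys S.R S.x (Slot C.n × Slot C.n))).add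
      (gr2 C c (siteObs j) (siteObs j') (m + 1)) with hT
    have hψ : MeasurePreserving (repl₂ g g') T.μ P.μ := mp_repl₂ hgg
    have hH : ∀ p, T.H p = P.H fun i => repl₂ g g' (p i) := fun p => by
      rw [H_diff H {g, g'} (ω := fun i => repl₂ g g' (p i)) (ω' := fun i => (p i).1)
        (fun x hx i => by
          simp only [mem_insert, mem_singleton, not_or] at hx
          simp [repl₂, hx.1, hx.2]) (fun i => rfl), sum_pair hgg,
        gadLog_repl g (hgad1 j) (ω := fun i => repl₂ g g' (p i)) (s := fun i => (p i).2.1)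
          (fun i => (update_of_ne hgg _ _).trans (update_self _ _ _)),
        gadLog_repl g' (hgad1 j') (ω := fun i => repl₂ g g' (p i)) (s := fun i => (p i).2.2)
          (fun i => update_self _ _ _)]
      show P.H (fun i => (p i).1) + V (fun i => (p i).1) + 0 +
        gr2 C c (siteObs j) (siteObs j') (m + 1) p = _
      simp only [hV, gr2, hg, hg', hgj, repl₂, siteObs, siteBit]
      ring
    set p : ℕ → PSpace N n₀ R × (Slot C.n × Slot C.n) :=
      fun i => (ω i, ((ω i).1 g, (ω i).1 g')) with hpdef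
    have hpω : (fun i => repl₂ g g' (p i)) = ω := funext fun i =>
      Prod.ext (funext fun x => by
        by_cases hx : x = g'
        · subst hx; simp [repl₂, p]
        · by_cases hx' : x = g
          · subst hx'; simp [repl₂, p]
          · simp [repl₂, p]) rfl
    have he : ∀ x : Gad N n₀ R, Bdd (signObs x (m + 1)) := fun x =>
      bdd_of_dependsTo (l := m + 1) fun v v' h => by simp only [signObs, h (m + 1) (by omega) le_rfl]
    have e := cov_comp hPg hψ rfl rfl hH (he g) (he g') m (m + 1) p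
    rw [hpω] at e
    have ebL : (fun v => signObs g (m + 1) fun i => repl₂ g g' (v i)) = bitL C.n (m + 1) :=
      funext fun v => congrArg spin
        (congrFun ((update_of_ne hgg _ _).trans (update_self g _ _)) none)
    have ebR : (fun v => signObs g' (m + 1) fun i => repl₂ g g' (v i)) = bitR C.n (m + 1) :=
      funext fun v => congrArg spin (congrFun (update_self g' _ _) none)
    rw [ebL, ebR] at e
    have q := h2 _ S hSg rfl rfl C rfl hok c hc
      (hcc.trans ((min_le_left _ _).trans (min_le_right _ _))) _ _ (hobs j) (hobs j') m hm1 hm hf p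
    rw [← hT, e] at q
    change |_ - gridExp R (m + 1) * c ^ (2 * C.n) * S.jay C c (siteObs j) (siteObs j') m ω| ≤ _ at q
    rw [show c ^ (2 * C.n) = (c ^ C.n) ^ 2 by rw [← pow_mul, mul_comm],
      mul_comm (gridExp R (m + 1))] at q
    have hr : 0 ≤ (c ^ C.n) ^ 2 := by positivity
    have hx0 : 0 ≤ gridExp R (m + 1) := by unfold gridExp; positivity
    have hx1 : gridExp R (m + 1) ≤ 1 :=
      (div_le_one (Nat.cast_pos.2 hR)).2 (Nat.cast_le.2 hm)
    refine (abs_sub_le _ _ _).trans ((add_le_add q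
      ((le_of_eq (by rw [← mul_sub, abs_mul, abs_of_nonneg (mul_nonneg hr hx0)])).trans
        (mul_le_mul (mul_le_of_le_one_right hr hx1) (hjay V hVb hVd hVe j j') (abs_nonneg _) hr))).trans
      ?_)
    nlinarith [mul_nonneg (mul_nonneg hK1 hr) hc.le]

/-- At every node the mixed parts are below the gap. -/
lemma pert_rms (n₀ R n : ℕ) : ∃ K c₀ : ℝ, 0 ≤ K ∧ 0 < c₀ ∧
    ∀ (N : ℕ), 0 < N → ∀ (H : (Fin N → Bool) → ℝ) (c : ℝ), 0 < c → c ≤ c₀ →
    ∀ k : Fam n₀ R, (famCons k).n = n → ∀ m, 1 ≤ m → m + 1 < (famCons k).first R → m < R →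
    ∀ ω : ℕ → PSpace N n₀ R,
      rms (fun i j : Fin N =>
          (pertSys n₀ R c H).jay (famCons k) c (siteObs i) (siteObs j) m ω) ≤
        2 * (pertSys n₀ R c H).gap (famCons k) siteObs m ω +
          2 * ((Nat.factorial n₀ : ℝ) + 1) * Real.sqrt (1 / (c ^ (2 * n) * N)) +
          K * Real.sqrt c := by
  obtain ⟨K1, c1, hK1, hc1, h1⟩ := pert_cov n₀ R n
  obtain ⟨Kb, cb, hcb, hb⟩ := beta_resp n R
  set F : ℝ := (Nat.factorial n₀ : ℝ) + 1 with hFdef
  set c₀ := min (min c1 cb) (min (1 / (|Kb| + 1)) (1 / (4 * ((n₀ : ℝ) + 1)))) with hc₀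
  refine ⟨2 * K1 + 2 * |Kb| + 2 * F * Real.sqrt K1, c₀, by positivity,
    lt_min (lt_min hc1 hcb) (lt_min (by positivity) (by positivity)), ?_⟩
  intro N hN H c hc hcc k hn m hm1 hf hm ω
  have hR : 0 < R := Nat.lt_of_le_of_lt (Nat.zero_le m) hm
  set P := pertSys n₀ R c H with hP
  set C := famCons k with hC
  have hPg : P.Good := pertSys_good hR H
  have hok : C.Ok P.R := famCons_ok k
  have hobs : ∀ i, Obs P (siteObs i) := obs_siteObs hR H
  have hcq : c ≤ 1 / (4 * ((n₀ : ℝ) + 1)) :=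
    hcc.trans ((min_le_right _ _).trans (min_le_right _ _))
  have hc1' : c ≤ 1 := by
    refine hcq.trans ((div_le_one (by positivity)).2 ?_)
    linarith [Nat.cast_nonneg (α := ℝ) n₀]
  have hCn : (C.n : ℝ) * c ≤ 1 / 2 := by
    have h := mul_le_mul (Nat.cast_le (α := ℝ).2 (famCons_n_le k)) hcq hc.le (Nat.cast_nonneg _)
    refine h.trans ?_
    rw [mul_one_div, div_le_iff₀ (by positivity)]
    linarith [Nat.cast_nonneg (α := ℝ) n₀]
  set δ := |Kb| * c with hδ
  have hδ0 : 0 ≤ δ := by positivity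
  have hδ1 : δ ≤ 1 := by
    have h := hcc.trans ((min_le_right _ _).trans (min_le_left _ _))
    rw [le_div_iff₀ (by positivity)] at h
    linarith
  set β := fun i => P.beta C c (siteObs i) (m + 1) with hβdef
  set G := fun i => P.resp C (siteObs i) (m + 1) with hGdef
  have hβb : ∀ i, Bdd (β i) := fun i => beta_bdd hPg C hc.le hCn (hobs i) (m + 1)
  have hGb : ∀ i, Bdd (G i) := fun i => (Sys.resp_bdd hPg hok (hobs i) (by omega) hm).1
  have hβG : ∀ i v, |β i v - (-1) ^ (n + 1) * G i v| ≤ δ := fun i v =>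
    (hb _ P hPg rfl rfl C hn (famCons_ok k) c hc
      (hcc.trans ((min_le_left _ _).trans (min_le_right _ _))) _ (hobs i) (m + 1) (by omega) hm
      hf v).trans (mul_le_mul_of_nonneg_right (le_abs_self Kb) hc.le)
  have hβF : ∀ i v, |β i v| ≤ F := fun i v => by
    have h := Sys.resp_abs_le hPg hok (hobs i) (show 1 ≤ m + 1 by omega) hm v
    have h' : (Nat.factorial C.n : ℝ) ≤ Nat.factorial n₀ :=
      Nat.cast_le.2 (Nat.factorial_le (famCons_n_le k))
    have := abs_sub_abs_le_abs_sub (β i v) ((-1) ^ (n + 1) * G i v)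
    rw [abs_mul, abs_pow, abs_neg, abs_one, one_pow, one_mul] at this
    linarith [hβG i v]
  set e := fun j : Fin N => signObs (j, k, (⟨m, hm⟩ : Fin R)) (m + 1) with hedef
  have he : ∀ j, Bdd (e j) := fun j =>
    bdd_of_dependsTo (l := m + 1) fun v v' h => by
      simp only [hedef, signObs, h (m + 1) (by omega) le_rfl]
  obtain ⟨q1, q2⟩ := h1 N H c hc (hcc.trans ((min_le_left _ _).trans (min_le_left _ _))) k hn m hm1
    hf hm ω
  set κ := K1 * c with hκ
  have hκ0 : 0 ≤ κ := by positivity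
  have main := rms_le_gap hPg hN m ω he (fun j v => (abs_spin _).le) hβb
    (fun i j => P.jay C c (siteObs i) (siteObs j) m ω) (r := c ^ n) (pow_pos hc n)
    (x := gridExp R (m + 1)) (by unfold gridExp; positivity)
    ((div_le_one (Nat.cast_pos.2 hR)).2 (Nat.cast_le.2 hm)) hκ0 q1 q2
  set g := avg fun i => P.cov m (m + 1) (β i) (β i) ω with hg
  have hN' : (0 : ℝ) < N := Nat.cast_pos.2 hN
  have hmean : ∀ {f f' : Fin N → ℝ}, (∀ i, f i ≤ f' i) → avg f ≤ avg f' := fun {f f'} h =>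
    div_le_div_of_nonneg_right (sum_le_sum fun i _ => h i) (Nat.cast_nonneg _)
  have hgF : g ≤ F ^ 2 := by
    refine (hmean fun i => ?_).trans_eq (avg_const_fin hN (F ^ 2))
    simp only [Sys.cov]
    have h2 := Sys.cond_mono hPg.reg ((hβb i).mul (hβb i)) (bdd_const (F ^ 2)) (fun v => by
      rw [← sq, ← sq_abs]; exact pow_le_pow_left₀ (abs_nonneg _) (hβF i v) 2) m (m + 1) ω
    rw [Sys.cond_const hPg.reg] at h2
    nlinarith [sq_nonneg (P.cond m (m + 1) (β i) ω)]
  have hgG : g ≤ 2 * P.gap C siteObs m ω + 2 * δ ^ 2 := by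
    refine (hmean fun i => var_le hPg (hβb i) (hGb i) (s := (-1) ^ (n + 1)) (by simp)
      (hβG i) m (m + 1) ω).trans_eq ?_
    simp only [Sys.gap, avg, hGdef, sum_add_distrib, ← mul_sum, sum_const, card_univ,
      Fintype.card_fin, nsmul_eq_mul]
    field_simp
  set A := 1 / ((c ^ n) ^ 2 * (N : ℝ)) with hA
  have hA0 : 0 ≤ A := by positivity
  have hsq : Real.sqrt (g * (A + κ)) ≤ F * (Real.sqrt A + Real.sqrt K1 * Real.sqrt c) := by
    rw [← Real.sqrt_mul hK1, ← hκ]
    calc Real.sqrt (g * (A + κ)) ≤ Real.sqrt (F ^ 2 * (A + κ)) :=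
          Real.sqrt_le_sqrt (mul_le_mul_of_nonneg_right hgF (by positivity))
      _ = F * Real.sqrt (A + κ) := by
          rw [Real.sqrt_mul (sq_nonneg F), Real.sqrt_sq (by positivity)]
      _ ≤ F * (Real.sqrt A + Real.sqrt κ) :=
          mul_le_mul_of_nonneg_left (sqrt_add_le hA0 hκ0) (by positivity)
  have hcs : c ≤ Real.sqrt c := Real.le_sqrt_of_sq_le (by nlinarith)
  have hcc2 : δ ^ 2 ≤ |Kb| * Real.sqrt c := by
    refine le_trans ?_ (mul_le_mul_of_nonneg_left hcs (abs_nonneg Kb))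
    nlinarith
  have hκs : κ ≤ K1 * Real.sqrt c := mul_le_mul_of_nonneg_left hcs hK1
  rw [show c ^ (2 * n) = (c ^ n) ^ 2 by rw [← pow_mul, mul_comm], ← hA]
  refine main.trans ?_
  linarith
where
  sqrt_add_le {a b : ℝ} (ha : 0 ≤ a) (hb : 0 ≤ b) :
      Real.sqrt (a + b) ≤ Real.sqrt a + Real.sqrt b := by
    rw [Real.sqrt_le_left (by positivity)]
    nlinarith [Real.sq_sqrt ha, Real.sq_sqrt hb, Real.sqrt_nonneg a, Real.sqrt_nonneg b]
  avg_const_fin {N : ℕ} (hN : 0 < N) (F : ℝ) : avg (fun _ : Fin N => F) = F := by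
    have : Nonempty (Fin N) := ⟨⟨0, hN⟩⟩
    exact avg_const F

/-- The probe lemma for a constraint of the family. -/
lemma pert_probe (n₀ R n : ℕ) : ∃ K c₀ : ℝ, 0 ≤ K ∧ 0 < c₀ ∧
    ∀ N : ℕ, 0 < N → ∀ (H : (Fin N → Bool) → ℝ) (c : ℝ), 0 < c → c ≤ c₀ →
    ∀ k : Fam n₀ R, (famCons k).n = n → ∀ q p : ℕ, 1 ≤ q → q < p → p ≤ R →
    q + 1 < (famCons k).first R → (p + 1 < (famCons k).first R ∨ (famCons k).n = 1 ∧ p = R) →
    (pertSys n₀ R c H).mean q ((pertSys n₀ R c H).avgCov q p fun i =>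
        (pertSys n₀ R c H).resp (famCons k) (siteObs i) p) ≤
      4 * ((Nat.factorial n₀ : ℝ) + 1) * ((R : ℝ) / (q + 1)) *
          (gam n₀ R c H (famCons k) q + gam n₀ R c H (famCons k) p +
            Real.sqrt (1 / (c ^ (2 * n) * N))) +
        K * Real.sqrt c := by
  obtain ⟨K1, c1, hK1, hc1, h1⟩ := pert_rms n₀ R n
  obtain ⟨K2, c2, hc2, h2⟩ := jay_step n R
  set F : ℝ := (Nat.factorial n₀ : ℝ) + 1 with hF
  set c₀ := min (min c1 c2) (1 / (4 * ((n₀ : ℝ) + 1))) with hc₀
  refine ⟨(R : ℝ) * (2 * K1 + R * |K2|), c₀, by positivity,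
    lt_min (lt_min hc1 hc2) (by positivity), ?_⟩
  intro N hN H c hc hcc k hn q p hq1 hqp hp hqf hpf
  have hR : 0 < R := by omega
  set P := pertSys n₀ R c H with hP
  set C := famCons k with hC
  have hPg : P.Good := pertSys_good hR H
  have hr := hPg.reg
  have hok : C.Ok P.R := famCons_ok k
  have hobs : ∀ i, Obs P (siteObs i) := obs_siteObs hR H
  have hfR : C.first R ≤ R + 1 := first_le C R
  have hlev : ∀ l, q ≤ l → l < p → l + 1 < C.first R := by
    intro l l1 l2
    rcases hpf with h | ⟨h, h'⟩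
    · omega
    · have : C.first R = R + 1 := by
        refine le_antisymm hfR (le_min' _ _ _ fun y hy => ?_)
        rcases mem_insert.1 hy with rfl | hy
        · exact le_rfl
        · obtain ⟨⟨v, w⟩, hvw, -⟩ := mem_image.1 hy
          simp only [mem_filter, mem_univ, true_and] at hvw
          have h1 := v.isLt; have h2 := w.isLt
          have h3 : (v : ℕ) < (w : ℕ) := hvw
          omega
      omega
  have hcq : c ≤ 1 / (4 * ((n₀ : ℝ) + 1)) := hcc.trans (min_le_right _ _)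
  have hc1' : c ≤ 1 := by
    refine hcq.trans ((div_le_one (by positivity)).2 ?_)
    linarith [Nat.cast_nonneg (α := ℝ) n₀]
  have hCn : (C.n : ℝ) * c ≤ 1 / 2 := by
    have h := mul_le_mul (Nat.cast_le (α := ℝ).2 (famCons_n_le k)) hcq hc.le (Nat.cast_nonneg _)
    refine h.trans ?_
    rw [mul_one_div, div_le_iff₀ (by positivity)]
    linarith [Nat.cast_nonneg (α := ℝ) n₀]
  have hJb : ∀ l i j, Bdd (P.jay C c (siteObs i) (siteObs j) l) := fun l i j =>
    jay_bdd ⟨hPg, hok, hc.le, hCn⟩ (hobs i) (hobs j) l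
  set A := Real.sqrt (1 / (c ^ (2 * n) * (N : ℝ))) with hA
  have hA0 : 0 ≤ A := Real.sqrt_nonneg _
  set J := fun l v => rms fun i j : Fin N => P.jay C c (siteObs i) (siteObs j) l v with hJ
  have hJbdd : ∀ l, l ≤ R → Bdd (J l) := fun l _ => rms_bdd fun i j => hJb l i j
  have hgb : ∀ m, 1 ≤ m → m < R → Bdd (P.gap C siteObs m) := fun m m1 m2 => by
    refine avg_bdd fun i => ?_
    have hb := (Sys.resp_bdd hPg hok (hobs i) (show 1 ≤ m + 1 by omega) m2).1
    exact (Sys.cond_bdd hr (hb.mul hb) _ _).sub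
      ((Sys.cond_bdd hr hb _ _).mul (Sys.cond_bdd hr hb _ _))
  -- the mixed parts at one level
  have level : ∀ m, 1 ≤ m → m + 1 < C.first R → m < R →
      P.mean m (J m) ≤ 2 * gam n₀ R c H C m + 2 * F * A + K1 * Real.sqrt c := by
    intro m m1 m2 m3
    have hg := hgb m m1 m3
    refine (Sys.cond_mono hr (hJbdd m m3.le)
      ((hg.const_mul 2).add (bdd_const (2 * F * A + K1 * Real.sqrt c))) (fun v => ?_) 0 m _).trans_eq ?_
    · rw [← add_assoc]
      exact h1 N hN H c hc (hcc.trans ((min_le_left _ _).trans (min_le_left _ _))) k hn m m1 m2 m3 v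
    · rw [Sys.cond_add hr (hg.const_mul 2) (bdd_const _), Sys.cond_const_mul, Sys.cond_const hr,
        gam, if_pos m3]
      simp only [← add_assoc]
      rfl
  have top : P.mean p (J p) ≤ 2 * gam n₀ R c H C p + 2 * F * A + K1 * Real.sqrt c := by
    by_cases h : p + 1 < C.first R
    · exact level p (by omega) h (by omega)
    obtain ⟨hn1, rfl⟩ : C.n = 1 ∧ p = R := hpf.resolve_left h
    have e : J p = fun _ => 0 := funext fun v => by
      have hc' : c < 1 := by
        have : 1 / (4 * ((n₀ : ℝ) + 1)) < 1 := by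
          rw [div_lt_one (by positivity)]; linarith [Nat.cast_nonneg (α := ℝ) n₀]
        linarith
      have h0 : ∀ i j, P.jay C c (siteObs i) (siteObs j) p v = 0 := fun i j =>
        Sys.jay_top hPg hn1 hc hc' (hobs i) (hobs j) v
      simp [hJ, h0, rms, avg]
    rw [Sys.mean, e, Sys.cond_const hr, gam, if_neg (lt_irrefl _)]
    positivity
  set G := fun l i => P.resp C (siteObs i) l with hG
  have hGb : ∀ l i, q ≤ l → l ≤ p → Bdd (G l i) := fun l i l1 l2 =>
    (Sys.resp_bdd hPg hok (hobs i) (by omega) (show l ≤ P.R from l2.trans hp)).1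
  set κ := |K2| * c with hκ
  have hκ0 : 0 ≤ κ := by positivity
  set x := gridExp R (q + 1) with hx
  have hx0 : 0 < x := hPg.x_pos (q + 1) (by omega) (show q + 1 ≤ R by omega)
  set V := P.avgCov q p (fun i => G p i) with hV
  have hVb : Bdd V := avg_bdd fun ij =>
    bdd_abs ((Sys.cond_bdd hr ((hGb p ij.1 hqp.le le_rfl).mul (hGb p ij.2 hqp.le le_rfl)) _ _).sub
      ((Sys.cond_bdd hr (hGb p ij.1 hqp.le le_rfl) _ _).mul
        (Sys.cond_bdd hr (hGb p ij.2 hqp.le le_rfl) _ _)))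
  have hpoint : ∀ v, x * V v ≤ J q v + P.cond q p (J p) v + (p - q : ℕ) * κ := fun v => by
    have h := rms_cov_le hPg hqp (show p ≤ P.R from hp) G hGb
      (fun l i l1 l2 w => Sys.resp_step hPg hok (hobs i) (by omega) (show l < P.R by
        show l < R; omega) (hlev l l1 l2).le w)
      (fun l i j => P.jay C c (siteObs i) (siteObs j) l) (fun l i j _ _ => hJb l i j) hκ0
      (fun l i j l1 l2 w => (h2 _ P hPg rfl rfl C hn (famCons_ok k) c hc
        (hcc.trans ((min_le_left _ _).trans (min_le_right _ _))) _ _ (hobs i) (hobs j) l (by omega)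
        (by omega) (hlev l l1 l2) w).trans (mul_le_mul_of_nonneg_right (le_abs_self K2) hc.le)) v
    exact (mul_le_mul_of_nonneg_left (avgCov_le_rms q p _ v) hx0.le).trans h
  have hmean := Sys.cond_mono hr (hVb.const_mul x)
    (((hJbdd q (by omega)).add (Sys.cond_bdd hr (hJbdd p hp) q p)).add
      (bdd_const ((p - q : ℕ) * κ))) hpoint 0 q (origin N n₀ R)
  rw [Sys.cond_const_mul, Sys.cond_add hr ((hJbdd q (by omega)).add (Sys.cond_bdd hr (hJbdd p hp) q p))
    (bdd_const _), Sys.cond_add hr (hJbdd q (by omega)) (Sys.cond_bdd hr (hJbdd p hp) q p),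
    Sys.cond_const hr, ← Sys.cond_tower hPg (J p) (Nat.zero_le q) hqp.le] at hmean
  change x * P.mean q V ≤ P.mean q (J q) + P.mean p (J p) + (p - q : ℕ) * κ at hmean
  have hq := level q hq1 hqf (by omega)
  have hgam : ∀ m, 1 ≤ m → 0 ≤ gam n₀ R c H C m := fun m m1 => by
    unfold gam
    split_ifs with hm
    · refine (congrFun (Sys.cond_const hr 0 0 m) (origin N n₀ R)).symm.trans_le
        (Sys.cond_mono hr (bdd_const _) (hgb m m1 hm) (fun v => ?_) 0 m _)
      refine div_nonneg (sum_nonneg fun i _ => ?_) (Nat.cast_nonneg _)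
      have := Sys.cov_psd hPg {i} (f := fun i => P.resp C (siteObs i) (m + 1))
        (fun i => (Sys.resp_bdd hPg hok (hobs i) (by omega) hm).1) (fun _ => 1) m (m + 1) v
      simpa using this
    · exact le_rfl
  have hcs : c ≤ Real.sqrt c := Real.le_sqrt_of_sq_le (by nlinarith)
  have hpq : ((p - q : ℕ) : ℝ) * κ ≤ R * |K2| * Real.sqrt c := by
    calc ((p - q : ℕ) : ℝ) * κ ≤ R * (|K2| * Real.sqrt c) :=
          mul_le_mul (Nat.cast_le.2 (by omega)) (mul_le_mul_of_nonneg_left hcs (abs_nonneg _)) hκ0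
            (Nat.cast_nonneg _)
      _ = _ := by ring
  have hF1 : 1 ≤ F := le_add_of_nonneg_left (Nat.cast_nonneg _)
  have hsum : x * P.mean q V ≤
      4 * F * (gam n₀ R c H C q + gam n₀ R c H C p + A) +
        (2 * K1 + R * |K2|) * Real.sqrt c := by
    nlinarith [hgam q hq1, hgam p (by omega)]
  have hxR : x⁻¹ = (R : ℝ) / (q + 1) := by
    rw [hx, gridExp, inv_div]; push_cast; ring
  have hxle : (R : ℝ) / (q + 1) ≤ R :=
    div_le_self (Nat.cast_nonneg _) (by linarith [Nat.cast_nonneg (α := ℝ) q])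
  have h3 := (le_inv_mul_iff₀ hx0).2 hsum
  rw [hxR] at h3
  refine h3.trans ?_
  have := mul_le_mul_of_nonneg_right hxle (show 0 ≤ (2 * K1 + R * |K2|) * Real.sqrt c by positivity)
  linarith
where
  bdd_abs {Ω : Type} [MeasurableSpace Ω] {f : (ℕ → Ω) → ℝ} (hf : Bdd f) : Bdd fun v => |f v| :=
    ⟨hf.1.abs, hf.2.imp fun C hC v => by rw [abs_abs]; exact hC v⟩
  avg_bdd {Ω : Type} [MeasurableSpace Ω] {ι : Type} [Fintype ι] {f : ι → (ℕ → Ω) → ℝ}
      (hf : ∀ i, Bdd (f i)) : Bdd fun v => avg fun i => f i v := by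
    simpa only [avg, div_eq_inv_mul] using (Bdd.sum univ hf).const_mul _
  rms_bdd {Ω : Type} [MeasurableSpace Ω] {N : ℕ} {f : Fin N → Fin N → (ℕ → Ω) → ℝ}
      (hf : ∀ i j, Bdd (f i j)) : Bdd fun v => rms fun i j => f i j v := by
    have h := avg_bdd (f := fun ij : Fin N × Fin N => fun v => f ij.1 ij.2 v ^ 2)
      fun ij => (hf ij.1 ij.2).pow 2
    refine ⟨h.1.sqrt, ?_⟩
    obtain ⟨B, hB⟩ := h.2
    exact ⟨Real.sqrt B, fun v => by
      show |Real.sqrt _| ≤ _
      rw [abs_of_nonneg (Real.sqrt_nonneg _)]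
      exact Real.sqrt_le_sqrt ((le_abs_self _).trans (hB v))⟩

lemma first_congr {n : ℕ} {l l' : Fin n → Fin n → ℕ} (R : ℕ)
    (h : ∀ v w, v < w → l v w = l' v w) : (⟨n, l⟩ : Cons).first R = (⟨n, l'⟩ : Cons).first R := by
  unfold Cons.first
  congr 2
  exact image_congr fun e he => h e.1 e.2 (mem_filter.1 (mem_coe.1 he)).2

end Probe

open MeasureTheory Finset Function in
/-- The probe lemma: covariances of responses are controlled by the gaps at their two levels. -/
theorem avgCov_resp_le (n₀ : ℕ) : ∃ Kn : ℝ, 0 ≤ Kn ∧ ∀ R : ℕ, ∃ KR c₀ : ℝ, 0 < c₀ ∧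
    ∀ N : ℕ, 0 < N → ∀ (H : (Fin N → Bool) → ℝ) (c : ℝ), 0 < c → c ≤ c₀ →
    ∀ C : Cons, C.Ok R → C.n ≤ n₀ → ∀ q p : ℕ, 1 ≤ q → q < p → p ≤ R → q + 1 < C.first R →
    (p + 1 < C.first R ∨ C.n = 1 ∧ p = R) →
    (pertSys n₀ R c H).mean q
        ((pertSys n₀ R c H).avgCov q p fun i => (pertSys n₀ R c H).resp C (siteObs i) p) ≤
      Kn * ((R : ℝ) / (q + 1)) *
          (gam n₀ R c H C q + gam n₀ R c H C p + Real.sqrt (1 / (c ^ (2 * C.n) * N))) +
        KR * Real.sqrt c := by
  refine ⟨4 * ((Nat.factorial n₀ : ℝ) + 1), by positivity, fun R => ?_⟩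
  choose K c0 hK hc0 h using Probe.pert_probe n₀ R
  obtain ⟨n, -, hn⟩ := exists_min_image (range (n₀ + 1)) c0 nonempty_range_add_one
  refine ⟨∑ i ∈ range (n₀ + 1), K i, c0 n, hc0 n, ?_⟩
  intro N hN H c hc hcc C hok hCn q p hq hqp hp hqf hpf
  obtain ⟨m, lev⟩ := C
  obtain ⟨m, rfl⟩ : ∃ j, m = j + 1 := ⟨m - 1, by have := hok.1; simp only at this; omega⟩
  let k : Fam n₀ R := ⟨⟨m, hCn⟩, fun v w =>
    if hv : v < w then ⟨lev v w - 1, by have := hok.2 v w hv; simp only at this; omega⟩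
    else ⟨0, by omega⟩⟩
  have hlev : ∀ v w, v < w → (famCons k).lev v w = lev v w := fun v w hv => by
    show ((k.2 v w : Fin R) : ℕ) + 1 = _
    have := hok.2 v w hv
    simp only at this
    have e : ((k.2 v w : Fin R) : ℕ) = lev v w - 1 := congrArg Fin.val (dif_pos hv)
    rw [e]
    omega
  have hfirst : (famCons k).first R = (⟨m + 1, lev⟩ : Cons).first R :=
    Probe.first_congr R hlev
  have hresp : ∀ (a : (ℕ → PSpace N n₀ R) → ℝ) (l : ℕ),
      (pertSys n₀ R c H).resp (famCons k) a l = (pertSys n₀ R c H).resp ⟨m + 1, lev⟩ a l :=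
    fun a l => funext fun v => Sys.resp_congr (S := pertSys n₀ R c H) ⟨m + 1, lev⟩
      (famCons k).lev hlev a l v
  have hgam : ∀ l, gam n₀ R c H (famCons k) l = gam n₀ R c H ⟨m + 1, lev⟩ l := fun l => by
    unfold gam Sys.gap
    simp only [hresp]
  have := h (m + 1) N hN H c hc (hcc.trans (hn (m + 1) (mem_range.2 (Nat.lt_succ_of_le hCn)))) k
    rfl q p hq hqp hp (hfirst ▸ hqf) (hfirst ▸ hpf)
  simp only [hresp, hgam] at this
  refine this.trans (add_le_add le_rfl (mul_le_mul_of_nonneg_right ?_ (Real.sqrt_nonneg c)))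
  exact single_le_sum (fun i _ => hK i) (mem_range.2 (Nat.lt_succ_of_le hCn))

end Vale.Agent.P168
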