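import Vale.Agent.P168.LowerDefs
import Vale.Agent.P168.Nest
import Vale.Agent.P168.Val
import Vale.Agent.P168.Gadget
import Vale.Agent.P168.Probe

/-!
Module S: choice of the grid of levels.

Bands are treated from the top. In a band one window is chosen where the mean squares of all
snapped moments of the higher bands grow little, then a branching level below the window where the
gaps of all constraints with window levels at or above the band are small.
-/

namespace Vale.Agent.P168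

open MeasureTheory Finset Function

namespace Select

/-! ### Averages and observables -/

lemma avg_le {α : Type} [Fintype α] {f : α → ℝ} {c : ℝ} (hc : 0 ≤ c) (h : ∀ i, f i ≤ c) :
    avg f ≤ c := by
  unfold avg
  rcases isEmpty_or_nonempty α with hα | hα
  · simpa using hc
  · rw [div_le_iff₀ (by exact_mod_cast Fintype.card_pos)]
    calc ∑ a, f a ≤ ∑ _a : α, c := sum_le_sum fun a _ => h a
      _ = c * Fintype.card α := by simp [mul_comm]

lemma avg_mono {α : Type} [Fintype α] {f g : α → ℝ} (h : ∀ i, f i ≤ g i) : avg f ≤ avg g :=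
  div_le_div_of_nonneg_right (sum_le_sum fun a _ => h a) (Nat.cast_nonneg _)

lemma avg_nonneg {α : Type} [Fintype α] {f : α → ℝ} (h : ∀ i, 0 ≤ f i) : 0 ≤ avg f :=
  div_nonneg (sum_nonneg fun a _ => h a) (Nat.cast_nonneg _)

lemma avg_add {α : Type} [Fintype α] (f g : α → ℝ) : avg (fun i => f i + g i) = avg f + avg g := by
  simp [avg, sum_add_distrib, add_div]

lemma avg_sub_mul {α : Type} [Fintype α] (f g : α → ℝ) (r : ℝ) :
    avg (fun i => (f i - g i) * r) = (avg f - avg g) * r := by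
  simp only [avg, ← sum_mul, sum_sub_distrib]
  ring

lemma measurable_avg {α β : Type} [MeasurableSpace β] [Fintype α] {f : β → α → ℝ}
    (h : ∀ i, Measurable fun x => f x i) : Measurable fun x => avg (f x) :=
  (Finset.measurable_sum _ fun i _ => h i).div_const _

variable {Ω : Type} [MeasurableSpace Ω] {S : Sys Ω}

lemma bdd_abs {f : (ℕ → Ω) → ℝ} (hf : Bdd f) : Bdd fun v => |f v| :=
  ⟨continuous_abs.measurable.comp hf.1, hf.2.imp fun C hC v => by simpa using hC v⟩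

lemma bdd_avg {α : Type} [Fintype α] {f : α → (ℕ → Ω) → ℝ} (hf : ∀ i, Bdd (f i)) :
    Bdd fun v => avg fun i => f i v := by
  have e : (fun v => avg fun i => f i v) =
      fun v => (Fintype.card α : ℝ)⁻¹ * ∑ i, f i v := by
    funext v; simp [avg, div_eq_inv_mul]
  rw [e]
  exact (Bdd.sum univ hf).const_mul _

lemma cond_nonneg (hS : S.Good) {f : (ℕ → Ω) → ℝ} (hf : Bdd f) (h : ∀ v, 0 ≤ f v) (l m : ℕ)
    (ω : ℕ → Ω) : 0 ≤ S.cond l m f ω := by
  have := Sys.cond_mono hS.reg (bdd_const 0) hf h l m ω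
  rwa [Sys.cond_const hS.reg] at this

lemma cond_abs_le (hS : S.Good) {f : (ℕ → Ω) → ℝ} (hf : Bdd f) {C : ℝ} (h : ∀ v, |f v| ≤ C)
    (l m : ℕ) (ω : ℕ → Ω) : |S.cond l m f ω| ≤ C := by
  have h1 := Sys.cond_mono hS.reg (bdd_const (-C)) hf (fun v => (abs_le.1 (h v)).1) l m ω
  have h2 := Sys.cond_mono hS.reg hf (bdd_const C) (fun v => (abs_le.1 (h v)).2) l m ω
  rw [Sys.cond_const hS.reg] at h1 h2
  exact abs_le.2 ⟨h1, h2⟩

lemma cond_dep (hS : S.Good) {f : (ℕ → Ω) → ℝ} {a b : ℕ} (hf : DependsTo f b) (hab : a ≤ b)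
    (hb : b ≤ S.R) : DependsTo (S.cond a b f) a := by
  suffices H : ∀ d l, l + d = b → DependsTo (S.down d l f) l from H (b - a) a (by omega)
  intro d
  induction d with
  | zero => intro l hl; obtain rfl : l = b := by omega
            exact hf
  | succ d ih => intro l hl; exact Sys.A_dep hS (by omega) (ih (l + 1) (by omega))

/-- A function of a lower level comes out of a tilted average. -/
lemma down_mul_left {φ : (ℕ → Ω) → ℝ} {a : ℕ} (hφ : DependsTo φ a) (f : (ℕ → Ω) → ℝ) :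
    ∀ d l, a ≤ l → S.down d l (fun v => φ v * f v) = fun v => φ v * S.down d l f v := by
  intro d
  induction d with
  | zero => intro l _; rfl
  | succ d ih =>
    intro l hl
    simp only [Sys.down, ih (l + 1) (by omega)]
    funext v
    have e : ∀ e, φ (update v (l + 1) e) = φ v := fun e =>
      hφ _ _ fun i _ hi => update_of_ne (by omega) _ _
    simp only [Sys.A_eq, e, mul_left_comm _ (φ v), integral_const_mul, mul_div_assoc]

lemma cond_mul_left {φ : (ℕ → Ω) → ℝ} {a : ℕ} (hφ : DependsTo φ a) (f : (ℕ → Ω) → ℝ) (m : ℕ) :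
    S.cond a m (fun v => φ v * f v) = fun v => φ v * S.cond a m f v :=
  down_mul_left hφ f _ a le_rfl

lemma cov_self_nonneg (hS : S.Good) {f : (ℕ → Ω) → ℝ} (hf : Bdd f) (l m : ℕ) (ω : ℕ → Ω) :
    0 ≤ S.cov l m f f ω := by
  have := Sys.cond_sq hS.reg hf l m ω
  simp only [sq] at this
  simp only [Sys.cov]
  linarith

/-- The mean square at level `b` of the martingale closed by `f` at level `P`. -/
noncomputable def sqMean (S : Sys Ω) (P : ℕ) (f : (ℕ → Ω) → ℝ) (ω₀ : ℕ → Ω) (b : ℕ) : ℝ :=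
  S.cond 0 b (fun v => S.cond b P f v ^ 2) ω₀

/-- The mean squared increment is the increase of the mean square. -/
lemma cond_incr_sq (hS : S.Good) {f : (ℕ → Ω) → ℝ} {P a b : ℕ} (hf : Bdd f) (hd : DependsTo f P)
    (hP : P ≤ S.R) (hab : a ≤ b) (hbP : b ≤ P) (ω₀ : ℕ → Ω) :
    S.cond 0 b (fun v => (S.cond b P f v - S.cond a P f v) ^ 2) ω₀ =
      sqMean S P f ω₀ b - sqMean S P f ω₀ a := by
  have hr := hS.reg
  have ba : Bdd (S.cond a P f) := Sys.cond_bdd hr hf _ _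
  have bb : Bdd (S.cond b P f) := Sys.cond_bdd hr hf _ _
  have hga : DependsTo (S.cond a P f) a := cond_dep hS hd (hab.trans hbP) hP
  have e2 : S.cond a b (fun v => (S.cond b P f v - S.cond a P f v) ^ 2) =
      fun v => S.cond a b (fun v => S.cond b P f v ^ 2) v - S.cond a P f v ^ 2 := by
    have e : (fun v => (S.cond b P f v - S.cond a P f v) ^ 2) = fun v => S.cond b P f v ^ 2 +
        S.cond a P f v * ((-2) * S.cond b P f v + S.cond a P f v) := by funext v; ring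
    have e1 : S.cond a b (S.cond a P f) = S.cond a P f := by
      have := cond_mul_left (S := S) hga (fun _ => 1) b
      simpa [Sys.cond_const hr] using this
    rw [e, Sys.cond_add hr (bb.pow 2) (ba.mul ((bb.const_mul _).add ba)),
      cond_mul_left hga, Sys.cond_add hr (bb.const_mul _) ba, Sys.cond_const_mul,
      ← Sys.cond_tower hS f hab hbP, e1]
    funext v; ring
  rw [Sys.cond_tower hS _ (Nat.zero_le a) hab, e2,
    Sys.cond_sub hr (Sys.cond_bdd hr (bb.pow 2) _ _) (ba.pow 2),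
    ← Sys.cond_tower hS _ (Nat.zero_le a) hab]
  rfl

lemma sqMean_mono (hS : S.Good) {f : (ℕ → Ω) → ℝ} {P a b : ℕ} (hf : Bdd f) (hd : DependsTo f P)
    (hP : P ≤ S.R) (hab : a ≤ b) (hbP : b ≤ P) (ω₀ : ℕ → Ω) :
    sqMean S P f ω₀ a ≤ sqMean S P f ω₀ b := by
  have h1 := cond_incr_sq hS hf hd hP hab hbP ω₀
  have h2 := cond_nonneg hS (((Sys.cond_bdd hS.reg hf b P).sub
    (Sys.cond_bdd hS.reg hf a P)).pow 2) (fun _ => sq_nonneg _) 0 b ω₀
  linarith

lemma sqMean_mem (hS : S.Good) {f : (ℕ → Ω) → ℝ} (hf : Bdd f) (h1 : ∀ v, |f v| ≤ 1) (P b : ℕ)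
    (ω₀ : ℕ → Ω) : sqMean S P f ω₀ b ∈ Set.Icc (0 : ℝ) 1 := by
  have hg := Sys.cond_bdd hS.reg hf b P
  refine ⟨cond_nonneg hS (hg.pow 2) (fun _ => sq_nonneg _) _ _ _, ?_⟩
  have := Sys.cond_mono hS.reg (hg.pow 2) (bdd_const 1)
    (fun v => (sq_le_one_iff_abs_le_one _).2 (cond_abs_le hS hf h1 b P v)) 0 b ω₀
  rwa [Sys.cond_const hS.reg] at this

lemma cond_incr_abs_le (hS : S.Good) {f : (ℕ → Ω) → ℝ} {P a b : ℕ} (hf : Bdd f)
    (hd : DependsTo f P) (hP : P ≤ S.R) (hab : a ≤ b) (hbP : b ≤ P) (ω₀ : ℕ → Ω) {ε : ℝ}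
    (hε : 0 < ε) :
    S.cond 0 b (fun v => |S.cond b P f v - S.cond a P f v|) ω₀ ≤
      (sqMean S P f ω₀ b - sqMean S P f ω₀ a) * (2 * ε)⁻¹ + ε / 2 := by
  have hr := hS.reg
  have bd := (Sys.cond_bdd hr hf b P).sub (Sys.cond_bdd hr hf a P)
  have h := Sys.cond_mono hr (bdd_abs bd) (((bd.pow 2).const_mul (2 * ε)⁻¹).add (bdd_const (ε / 2)))
    (fun v => ?_) 0 b ω₀
  · rw [Sys.cond_add hr ((bd.pow 2).const_mul _) (bdd_const _), Sys.cond_const_mul,
      Sys.cond_const hr] at h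
    simp only [cond_incr_sq hS hf hd hP hab hbP ω₀] at h
    linarith [mul_comm (2 * ε)⁻¹ (sqMean S P f ω₀ b - sqMean S P f ω₀ a)]
  · set x := S.cond b P f v - S.cond a P f v
    rw [← sq_abs x, inv_mul_eq_div, ← sub_le_iff_le_add, le_div_iff₀ (by positivity)]
    nlinarith [sq_nonneg (|x| - ε)]

/-! ### Snapped moments -/

lemma snapAux_prop (hS : S.Good) {G : Grid} (hB : G.p G.B = S.R) {k₀ : ℕ}
    (hp : ∀ m, k₀ ≤ m → m < G.B → G.p m ≤ G.p (m + 1) ∧ G.p (m + 1) ≤ S.R) {a : (ℕ → Ω) → ℝ}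
    (ha : Obs S a) {ι : Type} [DecidableEq ι] (κ : ι → ι → ℕ) :
    ∀ d, d ≤ G.B - k₀ → ∀ A : Finset ι, Bdd (S.snapAux G κ a d A) ∧
      DependsTo (S.snapAux G κ a d A) (G.p (G.B - d)) ∧ ∀ v, |S.snapAux G κ a d A v| ≤ 1 := by
  intro d
  induction d with
  | zero =>
    intro _ A
    refine ⟨Bdd.prod A fun _ => ha.1, ?_, fun v => ?_⟩
    · intro ω ω' h
      simp only [Sys.snapAux]
      rw [ha.2.1 ω ω' (by simpa [hB] using h)]
    · simp only [Sys.snapAux]
      rw [abs_prod]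
      exact prod_le_one (fun i _ => abs_nonneg _) fun i _ => ha.2.2 v
  | succ d ih =>
    intro hd A
    have hm := hp (G.B - (d + 1)) (by omega) (by omega)
    rw [show G.B - (d + 1) + 1 = G.B - d by omega] at hm
    have hQ := ih (by omega)
    refine ⟨Bdd.prod _ fun Q => Sys.cond_bdd hS.reg (hQ Q).1 _ _, ?_, fun v => ?_⟩
    · intro ω ω' h
      simp only [Sys.snapAux]
      exact prod_congr rfl fun Q _ => cond_dep hS (hQ Q).2.1 hm.1 hm.2 ω ω' h
    · simp only [Sys.snapAux]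
      rw [abs_prod]
      exact prod_le_one (fun Q _ => abs_nonneg _) fun Q _ =>
        cond_abs_le hS (hQ Q).1 (hQ Q).2.2 _ _ v

lemma snap_prop (hS : S.Good) {G : Grid} (hB : G.p G.B = S.R) {k₀ : ℕ} (hk : k₀ ≤ G.B)
    (hp : ∀ m, k₀ ≤ m → m < G.B → G.p m ≤ G.p (m + 1) ∧ G.p (m + 1) ≤ S.R) {a : (ℕ → Ω) → ℝ}
    (ha : Obs S a) {ι : Type} [DecidableEq ι] (κ : ι → ι → ℕ) (A : Finset ι) :
    Bdd (S.snap G κ a k₀ A) ∧ DependsTo (S.snap G κ a k₀ A) (G.p k₀) ∧
      ∀ v, |S.snap G κ a k₀ A v| ≤ 1 := by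
  have := snapAux_prop hS hB hp ha κ (G.B - k₀) le_rfl A
  rwa [show G.B - (G.B - k₀) = k₀ by omega] at this

lemma snap_congr {G G' : Grid} {k : ℕ} (hB : G'.B = G.B)
    (hp : ∀ q, k ≤ q → q ≤ G.B → G'.p q = G.p q) (hk : k ≤ G.B) (a : (ℕ → Ω) → ℝ) {ι : Type}
    [DecidableEq ι] (κ : ι → ι → ℕ) (A : Finset ι) :
    S.snap G' κ a k A = S.snap G κ a k A := by
  suffices H : ∀ d, d ≤ G.B - k → ∀ A, S.snapAux G' κ a d A = S.snapAux G κ a d A by
    unfold Sys.snap
    rw [hB]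
    exact H _ le_rfl A
  intro d
  induction d with
  | zero => intro _ A; rfl
  | succ d ih =>
    intro hd A
    simp only [Sys.snapAux, hB, hp (G.B - (d + 1)) (by omega) (by omega),
      hp (G.B - d) (by omega) (by omega), ih (by omega)]

/-! ### Constraints -/

lemma le_first {C : Cons} {R L : ℕ} (hL : L ≤ R + 1) (h : ∀ v w, v < w → L ≤ C.lev v w) :
    L ≤ C.first R := by
  refine le_min' _ _ _ fun x hx => ?_
  simp only [mem_insert, mem_image, mem_filter, mem_univ, true_and] at hx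
  rcases hx with rfl | ⟨e, he, rfl⟩
  · exact hL
  · exact h _ _ he

/-! ### The perturbed system -/

variable {N n₀ R : ℕ} {c : ℝ}

lemma gap_bdd (hR : 0 < R) (H : (Fin N → Bool) → ℝ) {C : Cons} (hC : C.Ok R) {m : ℕ} (hm : m < R) :
    Bdd ((pertSys n₀ R c H).gap C siteObs m) ∧
      ∀ v, 0 ≤ (pertSys n₀ R c H).gap C siteObs m v := by
  have hS : (pertSys n₀ R c H).Good := pertSys_good hR H
  have hb : ∀ i : Fin N, Bdd ((pertSys n₀ R c H).resp C (siteObs i) (m + 1)) := fun i =>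
    (Sys.resp_bdd hS hC (obs_siteObs hR H i) (by omega) hm).1
  refine ⟨bdd_avg fun i => ?_, fun v => avg_nonneg fun i => cov_self_nonneg hS (hb i) _ _ v⟩
  exact (Sys.cond_bdd hS.reg ((hb i).mul (hb i)) _ _).sub
    ((Sys.cond_bdd hS.reg (hb i) _ _).mul (Sys.cond_bdd hS.reg (hb i) _ _))

lemma gam_nonneg (hR : 0 < R) (H : (Fin N → Bool) → ℝ) {C : Cons} (hC : C.Ok R) (m : ℕ) :
    0 ≤ gam n₀ R c H C m := by
  unfold gam
  split_ifs with hm
  · exact cond_nonneg (pertSys_good hR H) (gap_bdd hR H hC hm).1 (gap_bdd hR H hC hm).2 _ _ _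
  · exact le_rfl

lemma gam_sum_le (hR : 0 < R) (H : (Fin N → Bool) → ℝ) {C : Cons} (hC : C.Ok R) {I : Finset ℕ}
    (hI : ∀ m ∈ I, 1 ≤ m ∧ m < R ∧ m + 1 < C.first R) :
    ∑ m ∈ I, gam n₀ R c H C m ≤ (Nat.factorial C.n : ℝ) ^ 2 := by
  have hS : (pertSys n₀ R c H).Good := pertSys_good hR H
  refine le_trans (le_trans (sum_le_sum_of_subset_of_nonneg (fun m hm => ?_)
    fun m _ _ => gam_nonneg hR H hC m) (sum_le_sum fun m hm => ?_))
    (Sys.gap_sum_le hS hC (fun i => obs_siteObs hR H i) (origin N n₀ R))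
  · obtain ⟨h1, h2, h3⟩ := hI m hm
    show m ∈ Ico 1 (min R (C.first R - 1))
    exact mem_Ico.2 ⟨h1, by omega⟩
  · have h2 : m < R := lt_of_lt_of_le (mem_Ico.1 hm).2 (min_le_left R _)
    simp [gam, Sys.mean, h2]

lemma gam_le (hR : 0 < R) (H : (Fin N → Bool) → ℝ) {C : Cons} (hC : C.Ok R) {m : ℕ} (h1 : 1 ≤ m)
    (h2 : m < R → m + 1 < C.first R) :
    gam n₀ R c H C m ≤ (Nat.factorial C.n : ℝ) ^ 2 := by
  by_cases hm : m < R
  · simpa using gam_sum_le (c := c) hR H hC (I := {m}) (by simp [h1, hm, h2 hm])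
  · simp [gam, hm]

lemma gam_congr (H : (Fin N → Bool) → ℝ) (n : ℕ) (L L' : Fin n → Fin n → ℕ)
    (h : ∀ v w, v < w → L v w = L' v w) (m : ℕ) :
    gam n₀ R c H ⟨n, L⟩ m = gam n₀ R c H ⟨n, L'⟩ m := by
  have e : ∀ (a : (ℕ → PSpace N n₀ R) → ℝ) (l : ℕ),
      (pertSys n₀ R c H).resp ⟨n, L⟩ a l = (pertSys n₀ R c H).resp ⟨n, L'⟩ a l :=
    fun a l => funext fun ω => Sys.resp_congr (⟨n, L'⟩ : Cons) L h a l ω
  simp only [gam]
  congr 2
  funext ω
  simp only [Sys.gap, e]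

lemma measurable_gam (hR : 0 < R) (C : Cons) (m : ℕ) :
    Measurable fun H : (Fin N → Bool) → ℝ => gam n₀ R c H C m := by
  unfold gam
  by_cases hm : m < R
  · simp only [hm, if_true, Sys.mean]
    refine measurable_pert_cond hR measurable_id
      (F := fun H => (pertSys n₀ R c H).gap C siteObs m) (fun v => ?_) _ _ _
    refine measurable_avg fun i => ?_
    have hr := fun w => measurable_pert_resp (n₀ := n₀) (c := c) hR
      (measurable_id (α := (Fin N → Bool) → ℝ)) C (siteObs i) (m + 1) w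
    exact (measurable_pert_cond hR measurable_id (fun w => (hr w).mul (hr w)) _ _ v).sub
      ((measurable_pert_cond hR measurable_id hr _ _ v).mul
        (measurable_pert_cond hR measurable_id hr _ _ v))
  · simp only [hm, if_false]
    exact measurable_const

lemma measurable_snapAux (hR : 0 < R) (G : Grid) {ι : Type} [DecidableEq ι] (κ : ι → ι → ℕ)
    (i : Fin N) : ∀ (d : ℕ) (A : Finset ι) (ω : ℕ → PSpace N n₀ R),
      Measurable fun H : (Fin N → Bool) → ℝ =>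
        (pertSys n₀ R c H).snapAux G κ (siteObs i) d A ω := by
  intro d
  induction d with
  | zero => intro A ω; simp only [Sys.snapAux]; exact measurable_const
  | succ d ih =>
    intro A ω
    simp only [Sys.snapAux]
    exact Finset.measurable_prod _ fun Q _ =>
      measurable_pert_cond hR measurable_id (fun v => ih Q v) _ _ ω

lemma integrable_of_mem {α : Type} [MeasurableSpace α] (P : Measure α) [IsProbabilityMeasure P]
    {g : α → ℝ} (hg : Measurable g) {C : ℝ} (h0 : ∀ x, 0 ≤ g x) (h1 : ∀ x, g x ≤ C) :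
    Integrable g P :=
  Integrable.of_bound hg.aestronglyMeasurable C (.of_forall fun x => by
    rw [Real.norm_eq_abs, abs_of_nonneg (h0 x)]; exact h1 x)

/-! ### One band -/

/-- Patterns of `n + 1 ≤ n₀` leaves with bands at most `B`. -/
abbrev WinItem (n₀ B : ℕ) :=
  Σ n : Fin n₀, Fin ((n : ℕ) + 1) → Fin ((n : ℕ) + 1) → Fin (B + 1)

/-- Window constraints of `n + 1 ≤ n₀` leaves with bands below `B`. -/
abbrev GapItem (n₀ B : ℕ) :=
  Σ n : Fin n₀, Fin ((n : ℕ) + 1) → Fin ((n : ℕ) + 1) → Fin B × Bool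

/-- The place of band `m`. -/
def Placed (G : Grid) (W w m : ℕ) : Prop :=
  m * W ≤ G.p m ∧ G.p m + 2 ≤ G.t m ∧ G.h m = G.t m + w ∧ G.h m ≤ (m + 1) * W

/-- The window increments of band `m` are small. -/
def WinOK (n₀ R : ℕ) (c : ℝ) (P : Measure ((Fin N → Bool) → ℝ)) (ε : ℝ) (B : ℕ) (G : Grid)
    (m : ℕ) : Prop :=
  ∀ n, 1 ≤ n → n ≤ n₀ → ∀ κ : Fin n → Fin n → ℕ, IsPat B (m + 1) κ univ →
    ∫ H, avg (fun i : Fin N => (pertSys n₀ R c H).mean (G.h m) fun v =>
      |(pertSys n₀ R c H).cond (G.h m) (G.p (m + 1))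
          ((pertSys n₀ R c H).snap G κ (siteObs i) (m + 1) univ) v -
        (pertSys n₀ R c H).cond (G.p m) (G.p (m + 1))
          ((pertSys n₀ R c H).snap G κ (siteObs i) (m + 1) univ) v|) ∂P ≤ ε

/-- The gaps at the branching level of band `m` are small. -/
def GapOK (n₀ R : ℕ) (c : ℝ) (P : Measure ((Fin N → Bool) → ℝ)) (η : ℝ) (B : ℕ) (G : Grid)
    (m : ℕ) : Prop :=
  ∀ n, 1 ≤ n → n ≤ n₀ → ∀ f : Fin n → Fin n → ℕ × Bool,
    (∀ v w', v < w' → m ≤ (f v w').1 ∧ (f v w').1 < B) →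
    ∫ H, gam n₀ R c H (G.cons n f) (G.p m) ∂P ≤ η

variable {W w B k₀ : ℕ} {G : Grid}

lemma placed_bounds (hR : R = B * W) (hpB : G.p B = R)
    (hG : ∀ m, k₀ ≤ m → m < B → Placed G W w m) {m : ℕ} (h1 : k₀ ≤ m) (h2 : m ≤ B) :
    m * W ≤ G.p m ∧ G.p m ≤ R := by
  rcases h2.lt_or_eq with h | rfl
  · obtain ⟨ha, hb, hc, hd⟩ := hG m h1 h
    have : (m + 1) * W ≤ B * W := Nat.mul_le_mul_right W h
    exact ⟨ha, by omega⟩
  · exact ⟨by omega, by omega⟩

lemma placed_step (hR : R = B * W) (hpB : G.p B = R) (hG : ∀ m, k₀ ≤ m → m < B → Placed G W w m)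
    {m : ℕ} (h1 : k₀ ≤ m) (h2 : m < B) :
    G.p m ≤ G.p (m + 1) ∧ G.p (m + 1) ≤ R := by
  obtain ⟨ha, hb, hc, hd⟩ := hG m h1 h2
  obtain ⟨he, hf⟩ := placed_bounds hR hpB hG (m := m + 1) (by omega) h2
  exact ⟨by omega, hf⟩

/-- A constraint with window levels of bands `≥ k` is valid and starts at or above `t k`. -/
lemma cons_levels (hR : R = B * W) (hG : ∀ m, k₀ ≤ m → m < B → Placed G W w m) {n : ℕ} (hn : 1 ≤ n)
    {f : Fin n → Fin n → ℕ × Bool} (hf : ∀ v w', v < w' → k₀ ≤ (f v w').1 ∧ (f v w').1 < B) :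
    (G.cons n f).Ok R ∧ (k₀ < B → G.t k₀ ≤ (G.cons n f).first R) := by
  have hlev : ∀ v w', v < w' → 1 ≤ (G.cons n f).lev v w' ∧ (G.cons n f).lev v w' ≤ R ∧
      (k₀ < B → G.t k₀ ≤ (G.cons n f).lev v w') := by
    intro v w' hvw
    obtain ⟨h1, h2⟩ := hf v w' hvw
    obtain ⟨ha, hb, hc, hd⟩ := hG _ h1 h2
    have hle : ((f v w').1 + 1) * W ≤ B * W := Nat.mul_le_mul_right W h2
    have hb1 : 1 ≤ G.t (f v w').1 := by omega
    have hbot : k₀ < B → G.t k₀ ≤ G.t (f v w').1 := by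
      intro hk
      rcases h1.eq_or_lt with e | e
      · rw [e]
      · obtain ⟨-, -, hc0, hd0⟩ := hG k₀ le_rfl hk
        have : (k₀ + 1) * W ≤ (f v w').1 * W := Nat.mul_le_mul_right W e
        omega
    simp only [Grid.cons]
    split_ifs
    · exact ⟨by omega, by omega, fun hk => by have := hbot hk; omega⟩
    · exact ⟨hb1, by omega, hbot⟩
  refine ⟨⟨hn, fun v w' h => ⟨(hlev v w' h).1, (hlev v w' h).2.1⟩⟩, fun hk => ?_⟩
  refine le_first ?_ fun v w' h => (hlev v w' h).2.2 hk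
  obtain ⟨-, -, hc0, hd0⟩ := hG k₀ le_rfl hk
  have : (k₀ + 1) * W ≤ B * W := Nat.mul_le_mul_right W hk
  omega

variable (P : Measure ((Fin N → Bool) → ℝ)) [IsProbabilityMeasure P]

/-- A window of band `k` in which all snapped moments of the higher bands move little. -/
lemma exists_window (hW0 : 0 < W) {Mw k : ℕ} (hMw : 0 < Mw) {ε : ℝ} (hε : 0 < ε)
    (hM : (Fintype.card (WinItem n₀ B) : ℝ) ≤ Mw * ε ^ 2) (hW : W = 2 * Mw * w) (hR : R = B * W)
    (hk : k < B) (hGB : G.B = B) (hpB : G.p B = R)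
    (hG : ∀ m, k + 1 ≤ m → m < B → Placed G W w m) :
    ∃ u, k * W ≤ u ∧ u + 2 * w ≤ (k + 1) * W ∧ ∀ n, 1 ≤ n → n ≤ n₀ →
      ∀ κ : Fin n → Fin n → ℕ, IsPat B (k + 1) κ univ → ∀ q, u ≤ q → q ≤ u + 2 * w →
        ∫ H, avg (fun i : Fin N => (pertSys n₀ R c H).mean (u + 2 * w) fun v =>
          |(pertSys n₀ R c H).cond (u + 2 * w) (G.p (k + 1))
              ((pertSys n₀ R c H).snap G κ (siteObs i) (k + 1) univ) v -
            (pertSys n₀ R c H).cond q (G.p (k + 1))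
              ((pertSys n₀ R c H).snap G κ (siteObs i) (k + 1) univ) v|) ∂P ≤ ε := by
  have hR0 : 0 < R := by rw [hR]; exact Nat.mul_pos (by omega) hW0
  obtain ⟨hP1, hP2⟩ := placed_bounds hR hpB hG (m := k + 1) le_rfl hk
  let g : (x : WinItem n₀ B) → Fin N → ((Fin N → Bool) → ℝ) → (ℕ → PSpace N n₀ R) → ℝ :=
    fun x i H => (pertSys n₀ R c H).snap G (fun v v' => (x.2 v v' : ℕ)) (siteObs i) (k + 1) univ
  have hS : ∀ H : (Fin N → Bool) → ℝ, (pertSys n₀ R c H).Good := fun H => pertSys_good hR0 H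
  have hg : ∀ x i H, Bdd (g x i H) ∧ DependsTo (g x i H) (G.p (k + 1)) ∧ ∀ v, |g x i H v| ≤ 1 :=
    fun x i H => snap_prop (hS H) (by rw [hGB]; exact hpB) (by omega)
      (fun m h1 h2 => placed_step hR hpB hG h1 (hGB ▸ h2)) (obs_siteObs hR0 H i) _ _
  let F : WinItem n₀ B → ℕ → ((Fin N → Bool) → ℝ) → ℝ := fun x b H =>
    avg fun i => sqMean (pertSys n₀ R c H) (G.p (k + 1)) (g x i H) (origin N n₀ R) b
  have hF0 : ∀ x b H, 0 ≤ F x b H := fun x b H =>
    avg_nonneg fun i => (sqMean_mem (hS H) (hg x i H).1 (hg x i H).2.2 _ _ _).1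
  have hF1 : ∀ x b H, F x b H ≤ 1 := fun x b H =>
    avg_le zero_le_one fun i => (sqMean_mem (hS H) (hg x i H).1 (hg x i H).2.2 _ _ _).2
  have hFi : ∀ x b, Integrable (F x b) P := fun x b => by
    refine integrable_of_mem P (measurable_avg fun i => ?_) (hF0 x b) (hF1 x b)
    exact measurable_pert_cond hR0 measurable_id (fun v => (measurable_pert_cond hR0 measurable_id
      (fun v' => measurable_snapAux hR0 G _ i _ _ v') _ _ v).pow_const 2) _ _ _
  have hFm : ∀ x a b, a ≤ b → b ≤ G.p (k + 1) → ∫ H, F x a H ∂P ≤ ∫ H, F x b H ∂P :=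
    fun x a b hab hb => integral_mono (hFi x a) (hFi x b) fun H =>
      avg_mono fun i => sqMean_mono (hS H) (hg x i H).1 (hg x i H).2.1 hP2 hab hb _
  let Φ : ℕ → ℝ := fun i => ∑ x, ∫ H, F x (k * W + 2 * w * i) H ∂P
  have hΦ0 : 0 ≤ Φ 0 := sum_nonneg fun x _ => integral_nonneg (hF0 x _)
  have hΦ1 : Φ Mw ≤ (Mw : ℝ) * ε ^ 2 := by
    refine le_trans ?_ hM
    calc Φ Mw ≤ ∑ _x : WinItem n₀ B, (1 : ℝ) := sum_le_sum fun x _ => by
          simpa using integral_mono (hFi x _) (integrable_const (1 : ℝ)) (hF1 x _)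
      _ = Fintype.card (WinItem n₀ B) := by simp
  obtain ⟨i, hi, hi'⟩ := exists_le_of_sum_le (f := fun i => Φ (i + 1) - Φ i)
    (g := fun _ => ε ^ 2) (nonempty_range_iff.2 hMw.ne') (by
      rw [sum_range_sub, sum_const, card_range, nsmul_eq_mul]; linarith)
  rw [mem_range] at hi
  have hkW : (k + 1) * W = k * W + 2 * w * Mw := by rw [hW]; ring
  have hi1 : k * W + 2 * w * (i + 1) ≤ (k + 1) * W := by
    rw [hkW]; exact Nat.add_le_add_left (Nat.mul_le_mul_left _ hi) _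
  have hiu : k * W + 2 * w * (i + 1) = k * W + 2 * w * i + 2 * w := by ring
  refine ⟨k * W + 2 * w * i, Nat.le_add_right _ _, by omega, ?_⟩
  intro n hn hn' κ hκ q hq hq'
  obtain ⟨n, rfl⟩ : ∃ n', n = n' + 1 := ⟨n - 1, by omega⟩
  have hκB : ∀ v v', κ v v' < B + 1 := fun v v' => by
    rcases eq_or_ne v v' with rfl | h
    · rw [hκ.1 v (mem_univ _)]; omega
    · have := (hκ.2.2.1 v (mem_univ _) v' (mem_univ _) h).2; omega
  let x : WinItem n₀ B := ⟨⟨n, by omega⟩, fun v v' => ⟨κ v v', hκB v v'⟩⟩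
  have hqP : k * W + 2 * w * i + 2 * w ≤ G.p (k + 1) := by omega
  have hD : ∫ H, F x (k * W + 2 * w * i + 2 * w) H ∂P - ∫ H, F x q H ∂P ≤ ε ^ 2 := by
    have h1 := hFm x (k * W + 2 * w * i) q hq (by omega)
    have h2 : ∫ H, F x (k * W + 2 * w * (i + 1)) H ∂P - ∫ H, F x (k * W + 2 * w * i) H ∂P ≤
        Φ (i + 1) - Φ i := by
      simp only [Φ]
      rw [← sum_sub_distrib]
      exact single_le_sum (f := fun y => ∫ H, F y (k * W + 2 * w * (i + 1)) H ∂P -
        ∫ H, F y (k * W + 2 * w * i) H ∂P)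
        (fun y _ => sub_nonneg.2 (hFm y _ _ (by omega) (by omega))) (mem_univ x)
    rw [hiu] at h2
    linarith
  have hI : Integrable (fun H => (F x (k * W + 2 * w * i + 2 * w) H - F x q H) * (2 * ε)⁻¹) P :=
    ((hFi x _).sub (hFi x q)).mul_const _
  refine le_trans (integral_mono_of_nonneg (.of_forall fun H => avg_nonneg fun j => ?_)
    (hI.add (integrable_const (ε / 2))) (.of_forall fun H => ?_)) ?_
  · exact cond_nonneg (hS H) (bdd_abs ((Sys.cond_bdd (hS H).reg (hg x j H).1 _ _).sub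
      (Sys.cond_bdd (hS H).reg (hg x j H).1 _ _))) (fun _ => abs_nonneg _) _ _ _
  · refine le_trans (avg_mono fun j => cond_incr_abs_le (hS H) (hg x j H).1 (hg x j H).2.1 hP2
      hq' hqP (origin N n₀ R) hε) ?_
    rw [avg_add, avg_sub_mul]
    exact add_le_add le_rfl (avg_le (by positivity) fun _ => le_rfl)
  · simp only [Pi.add_apply]
    rw [integral_add hI (integrable_const _), integral_mul_const, integral_sub (hFi x _) (hFi x q),
      integral_const, probReal_univ, one_smul]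
    have : (∫ H, F x (k * W + 2 * w * i + 2 * w) H ∂P - ∫ H, F x q H ∂P) * (2 * ε)⁻¹ ≤ ε / 2 := by
      rw [← div_eq_mul_inv, div_le_iff₀ (by positivity)]
      nlinarith
    linarith

/-- A level below the window of band `k` at which all gaps of window constraints are small. -/
lemma exists_level {k : ℕ} {η : ℝ} (hw : 2 ≤ w)
    (hη : (Fintype.card (GapItem n₀ B) : ℝ) * (Nat.factorial n₀ : ℝ) ^ 2 ≤ ((w : ℝ) - 1) * η)
    (hR : R = B * W) (hk1 : 1 ≤ k) (hW0 : 0 < W) (hk : k < B) {u : ℕ} (hu : k * W ≤ u)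
    (hu' : u + 2 * w ≤ (k + 1) * W) (ht : G.t k = u + w) (hh : G.h k = u + 2 * w)
    (hG : ∀ m, k + 1 ≤ m → m < B → Placed G W w m) :
    ∃ q, u ≤ q ∧ q + 2 ≤ u + w ∧ GapOK n₀ R c P η B { G with p := update G.p k q } k := by
  have hR0 : 0 < R := by rw [hR]; exact Nat.mul_pos (by omega) hW0
  have huR : (k + 1) * W ≤ R := hR ▸ Nat.mul_le_mul_right W hk
  have hkW : 1 ≤ k * W := Nat.mul_pos (by omega) hW0
  let G₀ : Grid := { G with p := update G.p k u }
  have hG₀ : ∀ m, k ≤ m → m < B → Placed G₀ W w m := by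
    intro m h1 h2
    rcases eq_or_lt_of_le h1 with rfl | h
    · simp only [Placed, G₀, update_self, ht, hh]
      omega
    · simpa [Placed, G₀, update_of_ne (show m ≠ k by omega)] using hG m h h2
  let C : GapItem n₀ B → Cons := fun x =>
    G.cons ((x.1 : ℕ) + 1) fun v v' => (((x.2 v v').1 : ℕ), (x.2 v v').2)
  let T : Finset (GapItem n₀ B) := univ.filter fun x => ∀ v v', v < v' → k ≤ ((x.2 v v').1 : ℕ)
  have hC : ∀ x ∈ T, (C x).Ok R ∧ u + w ≤ (C x).first R := fun x hx => by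
    obtain ⟨h1, h2⟩ := cons_levels (G := G₀) (k₀ := k) hR hG₀ (n := (x.1 : ℕ) + 1) (by omega)
      (f := fun v v' => (((x.2 v v').1 : ℕ), (x.2 v v').2))
      (fun v v' h => ⟨(mem_filter.1 hx).2 v v' h, (x.2 v v').1.isLt⟩)
    exact ⟨h1, ht ▸ h2 hk⟩
  have hi : ∀ x ∈ T, ∀ q ∈ Icc u (u + w - 2), 1 ≤ q ∧ q < R ∧ q + 1 < (C x).first R := by
    intro x hx q hq
    obtain ⟨h1, h2⟩ := mem_Icc.1 hq
    have := (hC x hx).2
    omega
  have hint : ∀ x ∈ T, ∀ q ∈ Icc u (u + w - 2),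
      Integrable (fun H => gam n₀ R c H (C x) q) P := fun x hx q hq =>
    integrable_of_mem P (measurable_gam hR0 _ _) (fun H => gam_nonneg hR0 H (hC x hx).1 _)
      fun H => gam_le hR0 H (hC x hx).1 (hi x hx q hq).1 fun _ => (hi x hx q hq).2.2
  have hsum : ∑ q ∈ Icc u (u + w - 2), ∑ x ∈ T, ∫ H, gam n₀ R c H (C x) q ∂P ≤
      ∑ _q ∈ Icc u (u + w - 2), η := by
    rw [sum_comm, sum_const, Nat.card_Icc, nsmul_eq_mul,
      show u + w - 2 + 1 - u = w - 1 by omega, Nat.cast_sub (by omega : 1 ≤ w), Nat.cast_one]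
    refine le_trans ?_ hη
    calc ∑ x ∈ T, ∑ q ∈ Icc u (u + w - 2), ∫ H, gam n₀ R c H (C x) q ∂P
        ≤ ∑ _x ∈ T, (Nat.factorial n₀ : ℝ) ^ 2 := sum_le_sum fun x hx => by
          rw [← integral_finsetSum _ (hint x hx)]
          refine le_trans (integral_mono (integrable_finsetSum _ (hint x hx))
            (integrable_const _) fun H => le_trans (gam_sum_le hR0 H (hC x hx).1 (hi x hx))
              (pow_le_pow_left₀ (by positivity) (b := (Nat.factorial n₀ : ℝ)) ?_ 2)) (le_of_eq (by simp))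
          exact_mod_cast Nat.factorial_le (Nat.succ_le_of_lt x.1.isLt)
      _ ≤ _ := by
          rw [sum_const, nsmul_eq_mul]
          exact mul_le_mul_of_nonneg_right (by exact_mod_cast card_le_univ T) (by positivity)
  obtain ⟨q, hq, hq'⟩ := exists_le_of_sum_le (nonempty_Icc.2 (by omega)) hsum
  obtain ⟨hq1, hq2⟩ := mem_Icc.1 hq
  refine ⟨q, hq1, by omega, ?_⟩
  intro n hn hn' f hf
  obtain ⟨n, rfl⟩ : ∃ n', n = n' + 1 := ⟨n - 1, by omega⟩
  let x : GapItem n₀ B := ⟨⟨n, by omega⟩, fun v v' =>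
    if h : (f v v').1 < B then (⟨_, h⟩, (f v v').2) else (⟨k, hk⟩, false)⟩
  have hx : x ∈ T := mem_filter.2 ⟨mem_univ _, fun v v' h => by
    simp only [x, dif_pos (hf v v' h).2]; exact (hf v v' h).1⟩
  have he : ∀ H : (Fin N → Bool) → ℝ, gam n₀ R c H (({ G with p := update G.p k q } : Grid).cons (n + 1) f) q =
      gam n₀ R c H (C x) q := fun H =>
    gam_congr H (n + 1) _ _ (fun v v' h => by simp only [x, dif_pos (hf v v' h).2]) q
  simp only [update_self, he]
  exact le_trans (single_le_sum (f := fun y => ∫ H, gam n₀ R c H (C y) q ∂P)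
    (fun y hy => integral_nonneg fun H => gam_nonneg hR0 H (hC y hy).1 _) hx) hq'

/-- The grid, band by band from the top. -/
lemma exists_bands {Mw : ℕ} (hMw : 0 < Mw) {ε η : ℝ} (hε : 0 < ε) (hw : 2 ≤ w)
    (hM : (Fintype.card (WinItem n₀ B) : ℝ) ≤ Mw * ε ^ 2)
    (hη : (Fintype.card (GapItem n₀ B) : ℝ) * (Nat.factorial n₀ : ℝ) ^ 2 ≤ ((w : ℝ) - 1) * η)
    (hW : W = 2 * Mw * w) (hR : R = B * W) (lo : ℕ) (hlo : 1 ≤ lo) :
    ∀ d, d ≤ B - lo → ∃ G : Grid, G.lo = lo ∧ G.B = B ∧ G.p B = R ∧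
      ∀ m, B - d ≤ m → m < B →
        Placed G W w m ∧ WinOK n₀ R c P ε B G m ∧ GapOK n₀ R c P η B G m := by
  have hW0 : 0 < W := by rw [hW]; exact Nat.mul_pos (by omega) (by omega)
  intro d
  induction d with
  | zero =>
    intro _
    exact ⟨⟨lo, B, fun _ => R, fun _ => 0, fun _ => 0⟩, rfl, rfl, rfl,
      fun m h1 h2 => absurd h1 (by omega)⟩
  | succ d ih =>
    intro hd
    obtain ⟨G, hl, hB, hpB, hG⟩ := ih (by omega)
    set k := B - (d + 1) with hk
    have hkB : B - d = k + 1 := by omega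
    rw [hkB] at hG
    obtain ⟨u, hu1, hu2, hu3⟩ := exists_window (c := c) P hW0 hMw hε hM hW hR (k := k) (by omega)
      hB hpB fun m h1 h2 => (hG m h1 h2).1
    let G₁ : Grid := ⟨G.lo, G.B, G.p, update G.t k (u + w), update G.h k (u + 2 * w)⟩
    have hne : ∀ m, k + 1 ≤ m → m ≠ k := fun m hm => by omega
    obtain ⟨q, hq1, hq2, hq3⟩ := exists_level (c := c) P (G := G₁) hw hη hR
      (k := k) (by omega) hW0 (by omega) hu1 hu2 (update_self ..) (update_self ..) fun m h1 h2 => by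
        simpa [Placed, G₁, update_of_ne (hne m h1)] using (hG m h1 h2).1
    refine ⟨{ G₁ with p := update G.p k q }, hl, hB, ?_, fun m h1 h2 => ?_⟩
    · simpa [update_of_ne (show B ≠ k by omega)] using hpB
    have hsnap : ∀ (j : ℕ), k + 1 ≤ j → j ≤ B → ∀ H (i : Fin N) (n : ℕ) (κ : Fin n → Fin n → ℕ),
        (pertSys n₀ R c H).snap ({ G₁ with p := update G.p k q } : Grid) κ (siteObs i) j univ =
          (pertSys n₀ R c H).snap G κ (siteObs i) j univ := fun j h1 h2 H i n κ =>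
      snap_congr (G := G) (G' := ({ G₁ with p := update G.p k q } : Grid)) rfl
        (fun r hr _ => update_of_ne (show r ≠ k by omega) _ _) (hB ▸ h2) _ κ _
    rcases eq_or_lt_of_le h1 with h | h
    · subst m
      refine ⟨?_, ?_, hq3⟩
      · simp only [Placed, G₁, update_self]; omega
      · intro n hn hn' κ hκ
        simp only [hsnap (k + 1) le_rfl (by omega), G₁, update_self,
          update_of_ne (show k + 1 ≠ k by omega)]
        exact hu3 n hn hn' κ hκ q hq1 (by omega)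
    · obtain ⟨hp, hwin, hgap⟩ := hG m h h2
      refine ⟨?_, ?_, ?_⟩
      · simpa [Placed, G₁, update_of_ne (hne m h)] using hp
      · intro n hn hn' κ hκ
        simp only [hsnap (m + 1) (by omega) h2, G₁, update_of_ne (hne m h),
          update_of_ne (show m + 1 ≠ k by omega)]
        exact hwin n hn hn' κ hκ
      · intro n hn hn' f hf
        simp only [update_of_ne (hne m h)]
        refine le_trans (le_of_eq (integral_congr_ae (.of_forall fun H => ?_))) (hgap n hn hn' f hf)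
        exact gam_congr H n _ _ (fun v v' hv => by
          have := (hf v v' hv).1
          simp only [G₁, update_of_ne (show (f v v').1 ≠ k by omega)]) _

end Select

open Select in
/-- For each law of the potential there is a grid with small window increments and small
covariances of window responses. -/
theorem exists_grid (n₀ J : ℕ) (hJ : 2 ≤ J) {ε : ℝ} (hε : 0 < ε) : ∃ Mw : ℕ, 0 < Mw ∧
    ∀ ε₂ : ℝ, 0 < ε₂ → ∃ w₀ : ℕ, ∀ w : ℕ, w₀ ≤ w → 0 < w ∧
    ∃ c₀ : ℝ, 0 < c₀ ∧ ∀ c : ℝ, 0 < c → c ≤ c₀ → ∃ N₀ : ℕ, ∀ N : ℕ, N₀ ≤ N →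
    ∀ P : Measure ((Fin N → Bool) → ℝ), IsProbabilityMeasure P →
    ∃ G : Grid, G.lo = J ∧ G.B = J * J ∧ G.Ok (J * J * (2 * Mw * w)) ∧
      (∀ k, J ≤ k → k < J * J →
        k * (2 * Mw * w) ≤ G.p k ∧ G.h k ≤ (k + 1) * (2 * Mw * w) ∧ G.h k = G.t k + w) ∧
      (∀ n, 1 ≤ n → n ≤ n₀ → ∀ j k, J ≤ j → j < k → k ≤ J * J →
        ∀ f : Fin n → Fin n → ℕ × Bool, (∀ v w', v < w' → k ≤ (f v w').1 ∧ (f v w').1 < J * J) →
        ∫ H, (pertSys n₀ (J * J * (2 * Mw * w)) c H).mean (G.p j)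
          ((pertSys n₀ (J * J * (2 * Mw * w)) c H).avgCov (G.p j) (G.p k) fun i =>
            (pertSys n₀ (J * J * (2 * Mw * w)) c H).resp (G.cons n f) (siteObs i) (G.p k)) ∂P ≤
          ε₂) ∧
      (∀ n, 1 ≤ n → n ≤ n₀ → ∀ k, J ≤ k → k < J * J →
        ∀ κ : Fin n → Fin n → ℕ, IsPat (J * J) (k + 1) κ univ →
        ∫ H, avg (fun i : Fin N => (pertSys n₀ (J * J * (2 * Mw * w)) c H).mean (G.h k) fun v =>
          |(pertSys n₀ (J * J * (2 * Mw * w)) c H).cond (G.h k) (G.p (k + 1))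
              ((pertSys n₀ (J * J * (2 * Mw * w)) c H).snap G κ (siteObs i) (k + 1) univ) v -
            (pertSys n₀ (J * J * (2 * Mw * w)) c H).cond (G.p k) (G.p (k + 1))
              ((pertSys n₀ (J * J * (2 * Mw * w)) c H).snap G κ (siteObs i) (k + 1) univ) v|) ∂P ≤
          ε) := by
  obtain ⟨Kn, hKn, hprobe⟩ := avgCov_resp_le n₀
  set Mw : ℕ := ⌈(Fintype.card (WinItem n₀ (J * J)) : ℝ) / ε ^ 2⌉₊ + 1 with hMwdef
  have hM : (Fintype.card (WinItem n₀ (J * J)) : ℝ) ≤ Mw * ε ^ 2 := by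
    rw [← div_le_iff₀ (by positivity), hMwdef, Nat.cast_add, Nat.cast_one]
    linarith [Nat.le_ceil ((Fintype.card (WinItem n₀ (J * J)) : ℝ) / ε ^ 2)]
  refine ⟨Mw, by omega, fun ε₂ hε₂ => ?_⟩
  set D : ℝ := Kn * J + 1 with hDdef
  have hD : 0 < D := by positivity
  set η : ℝ := ε₂ / (6 * D) with hηdef
  have hη0 : 0 < η := by positivity
  set Kg : ℝ := (Fintype.card (GapItem n₀ (J * J)) : ℝ) * (Nat.factorial n₀ : ℝ) ^ 2 with hKg
  refine ⟨⌈Kg / η⌉₊ + 2, fun w hw => ⟨by omega, ?_⟩⟩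
  have hη : Kg ≤ ((w : ℝ) - 1) * η := by
    rw [← div_le_iff₀ hη0]
    have h1 : ((⌈Kg / η⌉₊ + 2 : ℕ) : ℝ) ≤ w := by exact_mod_cast hw
    push_cast at h1
    linarith [Nat.le_ceil (Kg / η)]
  set W : ℕ := 2 * Mw * w with hW
  set R : ℕ := J * J * W with hR
  have hW0 : 0 < W := Nat.mul_pos (by omega) (by omega)
  have hJB : J < J * J := by nlinarith
  have hR0 : 0 < R := Nat.mul_pos (by omega) hW0
  obtain ⟨KR, c₁, hc₁, hp⟩ := hprobe R
  refine ⟨min (min c₁ 1) ((ε₂ / (3 * (|KR| + 1))) ^ 2),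
    lt_min (lt_min hc₁ one_pos) (by positivity), fun c hc hcle => ?_⟩
  simp only [le_min_iff] at hcle
  obtain ⟨⟨hc1, hc2⟩, hc3⟩ := hcle
  set δ : ℝ := ε₂ / (3 * D) with hδdef
  refine ⟨⌈1 / (c ^ (2 * n₀) * δ ^ 2)⌉₊ + 1, fun N hN P hP => ?_⟩
  obtain ⟨G, hl, hB, hpB, hG⟩ := exists_bands (c := c) P (by omega) hε (by omega) hM hη hW hR J
    (by omega) (J * J - J) le_rfl
  rw [show J * J - (J * J - J) = J by omega] at hG
  have hpl : ∀ m, J ≤ m → m < J * J → Placed G W w m := fun m h1 h2 => (hG m h1 h2).1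
  refine ⟨G, hl, hB, ⟨by omega, by rw [hB]; exact hpB, fun k h1 h2 => ?_⟩, fun k h1 h2 => ?_, ?_,
    fun n hn hn' k h1 h2 => (hG k h1 h2).2.1 n hn hn'⟩
  · rw [hl] at h1
    rw [hB] at h2
    obtain ⟨ha, hb, hc', hd⟩ := hpl k h1 h2
    obtain ⟨he, -⟩ := placed_bounds hR hpB hpl (m := k + 1) (by omega) h2
    have : 1 ≤ k * W := Nat.mul_pos (by omega) hW0
    omega
  · obtain ⟨ha, hb, hc', hd⟩ := hpl k h1 h2
    exact ⟨ha, hd, hc'⟩
  intro n hn hn' j k hj hjk hk f hf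
  obtain ⟨hja, hjb, hjc, hjd⟩ := hpl j hj (by omega)
  obtain ⟨hka, hkb⟩ := placed_bounds hR hpB hpl (m := k) (by omega) hk
  have hj1 : 1 ≤ j * W := Nat.mul_pos (by omega) hW0
  have hjk' : (j + 1) * W ≤ k * W := Nat.mul_le_mul_right W hjk
  have hqp : G.p j + 2 < G.p k := by omega
  obtain ⟨hCok, hCfirst⟩ := cons_levels (G := G) (k₀ := k) hR
    (fun m h1 h2 => hpl m (by omega) h2) hn hf
  have htop : k = J * J → n = 1 := fun e => by
    by_contra hne
    obtain ⟨a, b⟩ := hf ⟨0, by omega⟩ ⟨1, by omega⟩ (Fin.mk_lt_mk.2 one_pos)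
    omega
  have hfirst : (G.p k + 1 < (G.cons n f).first R) ∨ n = 1 ∧ G.p k = R := by
    rcases hk.lt_or_eq with h | h
    · obtain ⟨-, hkt, -, -⟩ := hpl k (by omega) h
      exact Or.inl (by have := hCfirst h; omega)
    · exact Or.inr ⟨htop h, by rw [h]; exact hpB⟩
  have hfirstj : G.p j + 1 < (G.cons n f).first R := by
    rcases hk.lt_or_eq with h | h
    · obtain ⟨-, hkt, -, -⟩ := hpl k (by omega) h
      have := hCfirst h
      omega
    · have : R + 1 ≤ (G.cons n f).first R := le_first le_rfl fun v v' hv => by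
        have := hf v v' hv
        omega
      omega
  have hint : ∀ q, 1 ≤ q → (q < R → q + 1 < (G.cons n f).first R) →
      Integrable (fun H => gam n₀ R c H (G.cons n f) q) P := fun q h1 h2 =>
    integrable_of_mem P (measurable_gam hR0 _ _) (fun H => gam_nonneg hR0 H hCok _)
      fun H => gam_le hR0 H hCok h1 h2
  have hiq := hint (G.p j) (by omega) fun _ => hfirstj
  have hip := hint (G.p k) (by omega) fun h => hfirst.resolve_right fun h' => by omega
  have hgq : ∫ H, gam n₀ R c H (G.cons n f) (G.p j) ∂P ≤ η :=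
    (hG j hj (by omega)).2.2 n hn hn' f fun v v' hv => ⟨by have := hf v v' hv; omega, (hf v v' hv).2⟩
  have hgp : ∫ H, gam n₀ R c H (G.cons n f) (G.p k) ∂P ≤ η := by
    rcases hk.lt_or_eq with h | h
    · exact (hG k (by omega) h).2.2 n hn hn' f hf
    · have : G.p k = R := by rw [h]; exact hpB
      simp [gam, this, hη0.le]
  -- The tail of the probe lemma.
  have hsqrt : Real.sqrt (1 / (c ^ (2 * n) * N)) ≤ δ := by
    refine Real.sqrt_le_iff.2 ⟨by positivity, ?_⟩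
    have hN1 : 1 / (c ^ (2 * n₀) * δ ^ 2) ≤ (N : ℝ) :=
      (Nat.le_ceil _).trans (by exact_mod_cast (Nat.le_succ _).trans hN)
    have hpow : c ^ (2 * n₀) ≤ c ^ (2 * n) := pow_le_pow_of_le_one hc.le hc2 (by omega)
    have hNpos : (0 : ℝ) < N := by exact_mod_cast (show 0 < N by omega)
    rw [div_le_iff₀ (by positivity)] at hN1 ⊢
    nlinarith [mul_le_mul_of_nonneg_left hpow (by positivity : (0 : ℝ) ≤ (N : ℝ) * δ ^ 2)]
  have hKR : KR * Real.sqrt c ≤ ε₂ / 3 := by
    have hs : Real.sqrt c ≤ ε₂ / (3 * (|KR| + 1)) := Real.sqrt_le_iff.2 ⟨by positivity, hc3⟩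
    calc KR * Real.sqrt c ≤ (|KR| + 1) * (ε₂ / (3 * (|KR| + 1))) :=
          mul_le_mul (by linarith [le_abs_self KR]) hs (Real.sqrt_nonneg c) (by positivity)
      _ = ε₂ / 3 := by field_simp
  have hJq : (R : ℝ) / ((G.p j : ℝ) + 1) ≤ J := by
    rw [div_le_iff₀ (by positivity)]
    have h1 : J * W ≤ G.p j + 1 := by
      have : J * W ≤ j * W := Nat.mul_le_mul_right W hj
      omega
    have h2 : R ≤ J * (G.p j + 1) := by
      rw [hR, mul_assoc]; exact Nat.mul_le_mul_left J h1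
    exact_mod_cast h2
  have hnz : 0 ≤ (R : ℝ) / ((G.p j : ℝ) + 1) := by positivity
  have hi' : Integrable (fun H => Kn * J * (gam n₀ R c H (G.cons n f) (G.p j) +
      gam n₀ R c H (G.cons n f) (G.p k) + δ)) P :=
    ((hiq.add hip).add (integrable_const δ)).const_mul _
  refine le_trans (integral_mono_of_nonneg (.of_forall fun H => ?_)
    (hi'.add (integrable_const (ε₂ / 3))) (.of_forall fun H => ?_)) ?_
  · have hS := pertSys_good (c := c) (n₀ := n₀) hR0 H
    refine cond_nonneg hS (bdd_avg fun ij => bdd_abs ?_)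
      (fun v => avg_nonneg fun ij => abs_nonneg _) _ _ _
    have hb : ∀ i : Fin N, Bdd ((pertSys n₀ R c H).resp (G.cons n f) (siteObs i) (G.p k)) :=
      fun i => (Sys.resp_bdd hS hCok (obs_siteObs hR0 H i) (by omega) hkb).1
    exact (Sys.cond_bdd hS.reg ((hb _).mul (hb _)) _ _).sub
      ((Sys.cond_bdd hS.reg (hb _) _ _).mul (Sys.cond_bdd hS.reg (hb _) _ _))
  · refine le_trans (hp N (by omega) H c hc hc1 (G.cons n f) hCok hn' (G.p j) (G.p k) (by omega)
      (by omega) hkb hfirstj hfirst) ?_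
    have g1 := gam_nonneg (c := c) (n₀ := n₀) hR0 H hCok (G.p j)
    have g2 := gam_nonneg (c := c) (n₀ := n₀) hR0 H hCok (G.p k)
    simp only [Pi.add_apply]
    refine add_le_add ?_ hKR
    show Kn * ((R : ℝ) / ((G.p j : ℝ) + 1)) * _ ≤ _
    exact mul_le_mul (mul_le_mul_of_nonneg_left hJq hKn) (add_le_add le_rfl hsqrt)
      (by positivity) (by positivity)
  · simp only [Pi.add_apply]
    have hiqp : Integrable (fun H => gam n₀ R c H (G.cons n f) (G.p j) +
        gam n₀ R c H (G.cons n f) (G.p k)) P := hiq.add hip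
    rw [integral_add hi' (integrable_const _), integral_const_mul,
      integral_add hiqp (integrable_const δ), integral_add hiq hip]
    simp only [integral_const, probReal_univ, one_smul]
    have h6 : Kn * J * (η + η + δ) ≤ D * (η + η + δ) :=
      mul_le_mul_of_nonneg_right (by rw [hDdef]; linarith) (by positivity)
    have h7 : D * (η + η + δ) = ε₂ / 3 * 2 := by rw [hηdef, hδdef]; field_simp; ring
    have h8 := mul_le_mul_of_nonneg_left (add_le_add (add_le_add hgq hgp) (le_refl δ))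
      (by positivity : 0 ≤ Kn * (J : ℝ))
    linarith

end Vale.Agent.P168
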