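import Vale.Agent.P168.LowerPoint
import Vale.Agent.P168.Select
import Vale.Agent.P168.Cavity

/-!
The lower bound: choice of the parameters and Cesàro averaging.
-/

namespace Vale.Agent.P168

open MeasureTheory Finset Function

/-- The geometry of a selected grid. -/
lemma grid_geometry {J Mw w : ℕ} (hJ : 2 ≤ J) (hMw : 0 < Mw) (hw : 0 < w) {G : Grid}
    (hlo : G.lo = J) (hB : G.B = J * J) (hG : G.Ok (J * J * (2 * Mw * w)))
    (hband : ∀ k, J ≤ k → k < J * J →
      k * (2 * Mw * w) ≤ G.p k ∧ G.h k ≤ (k + 1) * (2 * Mw * w) ∧ G.h k = G.t k + w) :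
    ((J * J * (2 * Mw * w) : ℕ) : ℝ) / G.p G.lo ≤ J ∧
    (1 / (J : ℝ)) * ((J * J * (2 * Mw * w) : ℕ) : ℝ) ≤ G.p G.lo ∧
    gridExp (J * J * (2 * Mw * w)) (G.p G.lo) ≤ 2 / J ∧
    (∀ k, G.lo ≤ k → k < G.B →
      (G.p (k + 1) : ℝ) ≤ (1 + 2 / (J : ℝ)) * G.p k) ∧
    ∀ k, G.lo ≤ k → k < J * J →
      (1 / (2 * (Mw : ℝ) * ((J : ℝ) * J))) * ((J * J * (2 * Mw * w) : ℕ) : ℝ) ≤
        (G.h k : ℝ) - G.t k := by
  set W := 2 * Mw * w with hW
  have hWpos : 0 < W := by positivity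
  have hJJ : J < J * J := by nlinarith
  obtain ⟨l1, l2, -⟩ := hband J le_rfl hJJ
  obtain ⟨-, o2, o3, o4⟩ := hG.2.2 J (by omega) (by omega)
  have hJR : (0 : ℝ) < J := by exact_mod_cast (by omega : 0 < J)
  have hWR : (0 : ℝ) < W := by exact_mod_cast hWpos
  have hlow : ((J : ℝ) * W) ≤ G.p G.lo := by
    rw [hlo]; exact_mod_cast l1
  have hup : (G.p G.lo : ℝ) ≤ ((J : ℝ) + 1) * W := by
    rw [hlo]
    have : G.p J ≤ (J + 1) * W := by omega
    exact_mod_cast this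
  have hR : ((J * J * W : ℕ) : ℝ) = (J : ℝ) * J * W := by push_cast; ring
  have hpos : (0 : ℝ) < G.p G.lo := lt_of_lt_of_le (by positivity) hlow
  refine ⟨?_, ?_, ?_, ?_, ?_⟩
  · rw [hR, div_le_iff₀ hpos]
    calc (J : ℝ) * J * W = J * (J * W) := by ring
      _ ≤ J * G.p G.lo := mul_le_mul_of_nonneg_left hlow hJR.le
  · rw [hR]
    calc 1 / (J : ℝ) * (J * J * W) = J * W := by field_simp
      _ ≤ _ := hlow
  · rw [gridExp, hR, div_le_div_iff₀ (by positivity) hJR]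
    have h2 : (2 : ℝ) ≤ J := by exact_mod_cast hJ
    calc (G.p G.lo : ℝ) * J ≤ ((J : ℝ) + 1) * W * J := mul_le_mul_of_nonneg_right hup hJR.le
      _ ≤ 2 * (J * J * W) := by nlinarith [mul_pos hWR hJR]
  · intro k hk1 hk2
    obtain ⟨b1, -, -⟩ := hband k (by omega) (by omega)
    have hstep : G.p (k + 1) ≤ (k + 2) * W := by
      rcases eq_or_lt_of_le (Nat.succ_le_of_lt hk2) with h | h
      · rw [show G.p (k + 1) = J * J * W by
          rw [show k + 1 = G.B from h, hG.2.1], ← hB, ← h]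
        exact Nat.mul_le_mul_right _ (by omega)
      · obtain ⟨-, d2, -⟩ := hband (k + 1) (by omega) (by omega)
        obtain ⟨-, q2, q3, -⟩ := hG.2.2 (k + 1) (by omega) h
        rw [show k + 1 + 1 = k + 2 from rfl] at d2
        omega
    have hkJ : (J : ℝ) ≤ k := by exact_mod_cast (by omega : J ≤ k)
    calc (G.p (k + 1) : ℝ) ≤ ((k : ℝ) + 2) * W := by exact_mod_cast hstep
      _ ≤ (1 + 2 / (J : ℝ)) * ((k : ℝ) * W) := by
          have : (2 : ℝ) ≤ 2 / J * k := by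
            rw [div_mul_eq_mul_div, le_div_iff₀ hJR]; linarith
          nlinarith [hWR]
      _ ≤ _ := mul_le_mul_of_nonneg_left (by exact_mod_cast b1) (by positivity)
  · intro k hk1 hk2
    obtain ⟨-, -, b3⟩ := hband k (by omega) hk2
    rw [b3, Nat.cast_add, hR, hW]
    push_cast
    have : (0 : ℝ) < Mw := by exact_mod_cast hMw
    rw [show (G.t k : ℝ) + w - G.t k = w by ring]
    exact le_of_eq (by field_simp)

/-- Arithmetic of the square root bound. -/
lemma sqrt_le_affine {x r : ℝ} (hx : 0 ≤ x) (hr : 0 < r) :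
    Real.sqrt x ≤ r / 2 + x / (2 * r) := by
  rw [show r / 2 + x / (2 * r) = (r * r + x) / (2 * r) by field_simp,
    le_div_iff₀ (by positivity)]
  nlinarith [sq_nonneg (Real.sqrt x - r), Real.mul_self_sqrt hx]

/-- The error of one system, affine in the two sums. -/
noncomputable def errTerm (A C s s' Kγ Ke : ℝ) (G : Grid) (n₀ R : ℕ) (c : ℝ) {N : ℕ}
    (H : (Fin N → Bool) → ℝ) : ℝ :=
  A + (C / 2 * s + C / (2 * s) *
    (Kγ / 2 * s' + Kγ / (2 * s') * covSum G n₀ R c H + Ke * incSum G n₀ R c H))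

lemma sqrt_term_le {C s s' Kγ Ke γ e A : ℝ} (hC : 0 ≤ C) (hs : 0 < s) (hs' : 0 < s')
    (hKγ : 0 ≤ Kγ) (hKe : 0 ≤ Ke) (hγ : 0 ≤ γ) (he : 0 ≤ e) :
    A + C * Real.sqrt (Kγ * Real.sqrt γ + Ke * e) ≤
      A + (C / 2 * s + C / (2 * s) * (Kγ / 2 * s' + Kγ / (2 * s') * γ + Ke * e)) := by
  set X := Kγ * Real.sqrt γ + Ke * e with hX
  have hX0 : 0 ≤ X := by positivity
  have h1 := mul_le_mul_of_nonneg_left (sqrt_le_affine hγ hs') hKγ
  have h2 : X ≤ Kγ / 2 * s' + Kγ / (2 * s') * γ + Ke * e := by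
    have e1 : Kγ * (s' / 2 + γ / (2 * s')) = Kγ / 2 * s' + Kγ / (2 * s') * γ := by field_simp
    rw [hX]; linarith
  have h3 := mul_le_mul_of_nonneg_left h2 (by positivity : 0 ≤ C / (2 * s))
  have h4 := mul_le_mul_of_nonneg_left (sqrt_le_affine hX0 hs) hC
  have e2 : C * (s / 2 + X / (2 * s)) = C / 2 * s + C / (2 * s) * X := by field_simp
  linarith

lemma integral_errTerm {A C s s' Kγ Ke : ℝ} {G : Grid} {n₀ R : ℕ} {c : ℝ} {N : ℕ} (hR : 0 < R)
    (hG : G.Ok R) (P : Measure ((Fin N → Bool) → ℝ)) [IsProbabilityMeasure P] :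
    Integrable (errTerm A C s s' Kγ Ke G n₀ R c) P ∧
      ∫ H, errTerm A C s s' Kγ Ke G n₀ R c H ∂P = A + (C / 2 * s + C / (2 * s) *
        (Kγ / 2 * s' + Kγ / (2 * s') * ∫ H, covSum G n₀ R c H ∂P +
          Ke * ∫ H, incSum G n₀ R c H ∂P)) := by
  have h1 := (integrable_covSum (n₀ := n₀) (c := c) hR hG P).const_mul (Kγ / (2 * s'))
  have h2 := (integrable_incSum (n₀ := n₀) (c := c) hR G P).const_mul Ke
  have h12 : Integrable (fun H => Kγ / 2 * s' + Kγ / (2 * s') * covSum G n₀ R c H) P :=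
    (integrable_const _).add h1
  have h123 : Integrable (fun H => Kγ / 2 * s' + Kγ / (2 * s') * covSum G n₀ R c H +
      Ke * incSum G n₀ R c H) P := h12.add h2
  have h3 : Integrable (fun H => C / 2 * s + C / (2 * s) * (Kγ / 2 * s' +
      Kγ / (2 * s') * covSum G n₀ R c H + Ke * incSum G n₀ R c H)) P :=
    (integrable_const _).add (h123.const_mul _)
  refine ⟨(integrable_const A).add h3, ?_⟩
  simp only [errTerm]
  rw [integral_add (integrable_const A) h3,
    integral_add (integrable_const (C / 2 * s)) (h123.const_mul _),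
    integral_const_mul (C / (2 * s)), integral_add h12 h2, integral_add (integrable_const _) h1,
    integral_const_mul (Kγ / (2 * s')), integral_const_mul Ke]
  simp

lemma err_budget {C s s' Kγ Ke Iγ Ie εe ε₂ γ e u : ℝ} (hu : 0 < u) (hC : 0 ≤ C) (hKγ : 0 ≤ Kγ)
    (hKe : 0 ≤ Ke) (hIγ : 0 ≤ Iγ) (hIe : 0 ≤ Ie) (hs : s = u / (C + 1))
    (hεe : εe = u / ((C / s + 1) * (Ke + 1) * (Ie + 1)))
    (hs' : s' = u / ((C / s + 1) * (Kγ + 1)))
    (hε₂ : ε₂ = u / ((C / s + 1) * ((Kγ + 1) / s') * (Iγ + 1)))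
    (hγ0 : 0 ≤ γ) (he0 : 0 ≤ e) (hγ : γ ≤ Iγ * ε₂) (he : e ≤ Ie * εe) :
    C / 2 * s + C / (2 * s) * (Kγ / 2 * s' + Kγ / (2 * s') * γ + Ke * e) ≤ 4 * u := by
  have hs0 : 0 < s := by rw [hs]; positivity
  have hs'0 : 0 < s' := by rw [hs']; positivity
  have hε₂0 : 0 < ε₂ := by rw [hε₂]; positivity
  have hεe0 : 0 < εe := by rw [hεe]; positivity
  have hCs : C / (2 * s) ≤ C / s + 1 := by
    have : C / (2 * s) ≤ C / s := div_le_div_of_nonneg_left hC hs0 (by linarith)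
    linarith
  have a1 : C / 2 * s ≤ u := by
    calc C / 2 * s ≤ (C + 1) * s := mul_le_mul_of_nonneg_right (by linarith) hs0.le
      _ = u := by rw [hs]; field_simp
  have a2 : C / (2 * s) * (Kγ / 2 * s') ≤ u := by
    calc C / (2 * s) * (Kγ / 2 * s') ≤ (C / s + 1) * ((Kγ + 1) * s') :=
          mul_le_mul hCs (mul_le_mul_of_nonneg_right (by linarith) hs'0.le) (by positivity)
            (by positivity)
      _ = u := by rw [hs']; field_simp
  have a3 : C / (2 * s) * (Kγ / (2 * s') * γ) ≤ u := by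
    have hk : Kγ / (2 * s') ≤ (Kγ + 1) / s' :=
      div_le_div₀ (by linarith) (by linarith) hs'0 (by linarith)
    calc C / (2 * s) * (Kγ / (2 * s') * γ) ≤ (C / s + 1) * ((Kγ + 1) / s' * ((Iγ + 1) * ε₂)) :=
          mul_le_mul hCs (mul_le_mul hk (hγ.trans (by linarith [hε₂0])) hγ0 (by positivity))
            (by positivity) (by positivity)
      _ = u := by rw [hε₂]; field_simp
  have a4 : C / (2 * s) * (Ke * e) ≤ u := by
    calc C / (2 * s) * (Ke * e) ≤ (C / s + 1) * ((Ke + 1) * ((Ie + 1) * εe)) :=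
          mul_le_mul hCs (mul_le_mul (by linarith) (he.trans (by linarith [hεe0])) he0 (by linarith))
            (by positivity) (by positivity)
      _ = u := by rw [hεe]; field_simp
  rw [mul_add, mul_add]
  linarith

/-- Integrating the pointwise bound. -/
lemma increment_integral_ge {M : Model} (hM : M.Valid) {n₀ R : ℕ} {c : ℝ} {N : ℕ} (hR : 0 < R)
    (P : Measure ((Fin N → Bool) → ℝ)) [IsProbabilityMeasure P] {a u : ℝ}
    {D : ((Fin N → Bool) → ℝ) → ℝ} (hD : Integrable D P)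
    (h : ∀ H, a - (2 * D H + u + u) ≤ incU M n₀ R c H - incV M n₀ R c H) :
    a - 2 * (∫ H, D H ∂P) - (u + u) ≤
      (∫ H, incU M n₀ R c H ∂P) - ∫ H, incV M n₀ R c H ∂P := by
  have hiU := integrable_incU (n₀ := n₀) (c := c) hM hR P
  have hiV := integrable_incV (n₀ := n₀) (c := c) hM hR P
  have h1 : Integrable (fun H => 2 * D H + u) P := (hD.const_mul 2).add (integrable_const u)
  have h2 : Integrable (fun H => 2 * D H + u + u) P := h1.add (integrable_const u)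
  rw [← integral_sub hiU hiV]
  refine le_trans (le_of_eq ?_) (integral_mono ((integrable_const a).sub h2) (hiU.sub hiV) h)
  rw [integral_sub' (integrable_const a) h2, integral_add h1 (integrable_const u),
    integral_add (hD.const_mul 2) (integrable_const u), integral_const_mul]
  simp
  ring

/-- The cavity increment is eventually at least every common lower bound of the trials. -/
theorem inc_ge_eventually {M : Model} (hM : M.Valid) {a : ℝ}
    (ha : ∀ t : Trial, a ≤ trialU M t - trialV M t) {ε : ℝ} (hε : 0 < ε) :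
    ∃ (n₀ R : ℕ) (c : ℝ), 0 < R ∧ 0 ≤ c ∧ (n₀ : ℝ) * c ≤ 1 / 2 ∧
      (Fintype.card (Fam n₀ R) * R * (2 * n₀ * c) : ℝ) ≤ ε ∧ ∃ N₀ : ℕ, ∀ N : ℕ, N₀ ≤ N →
        a - ε ≤ meanLogZ M n₀ R c (M.lam * (N + 1)) (N + 1) -
          meanLogZ M n₀ R c (M.lam * N) N := by
  obtain ⟨L₀U, k₀U, hL₀U, hU⟩ := avU_close hM (by positivity : (0 : ℝ) < ε / 16)
  obtain ⟨L₀V, k₀V, hL₀V, hV⟩ := avV_close hM (by positivity : (0 : ℝ) < ε / 16)
  set L := max L₀U L₀V with hLdef
  have hL : 0 ≤ L := hL₀U.trans (le_max_left _ _)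
  obtain ⟨K₁, hK₁, hfac⟩ := val_factor L hL
  -- truncation of the trees
  have htanh : Real.tanh L < 1 := Real.tanh_lt_one L
  have htanh0 : 0 ≤ Real.tanh L := by
    rw [Real.tanh_eq_sinh_div_cosh]
    exact div_nonneg (Real.sinh_nonneg_iff.2 hL) (Real.cosh_pos L).le
  obtain ⟨n₀', hn₀'⟩ := exists_pow_lt_of_lt_one
    (by positivity : (0 : ℝ) < ε / 16 / (K₁ + 1)) htanh
  set n₀ := n₀' + 1 with hn₀
  have htail : K₁ * Real.tanh L ^ n₀ ≤ ε / 16 := by
    have h1 : Real.tanh L ^ n₀ ≤ ε / 16 / (K₁ + 1) :=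
      le_trans (pow_le_pow_of_le_one htanh0 htanh.le (by omega)) hn₀'.le
    calc K₁ * Real.tanh L ^ n₀ ≤ (K₁ + 1) * (ε / 16 / (K₁ + 1)) :=
          mul_le_mul (by linarith) h1 (pow_nonneg htanh0 _) (by linarith)
      _ = ε / 16 := by field_simp
  -- number of bands
  obtain ⟨J', hJ'⟩ := exists_nat_ge ((4 * L ^ 2 + 4 * L) / (ε / 16))
  set J := J' + 2 with hJdef
  have hJ : 2 ≤ J := by omega
  have hJR : (0 : ℝ) < J := by positivity
  have hband : (4 * L ^ 2 + 4 * L) / (J : ℝ) ≤ ε / 16 := by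
    rw [div_le_iff₀ hJR]
    rw [div_le_iff₀ (by positivity)] at hJ'
    have : (J' : ℝ) ≤ J := by exact_mod_cast (by omega : J' ≤ J)
    nlinarith
  obtain ⟨K₂, hK₂, hfac2⟩ := hfac n₀ (max k₀U k₀V * M.K) (J * J)
  obtain ⟨Ke, hKe, hsnap⟩ := snap_avgCov_le n₀ (J * J)
  set C := (J : ℝ) * K₂ with hCdef
  have hC : 0 ≤ C := by positivity
  -- linearisation of the square root
  set s := ε / 16 / (C + 1) with hs
  have hs0 : 0 < s := by positivity
  set Ie : ℝ := (Fintype.card (IncIdx n₀ (J * J)) : ℝ) with hIe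
  set εe := ε / 16 / ((C / s + 1) * (Ke + 1) * (Ie + 1)) with hεe
  have hεe0 : 0 < εe := by positivity
  obtain ⟨Mw, hMw, hsel⟩ := exists_grid n₀ J hJ hεe0
  obtain ⟨Kγ, hKγ, hsnap2⟩ := hsnap (1 / (J : ℝ)) (1 / (2 * (Mw : ℝ) * ((J : ℝ) * J)))
    (by positivity) (by
      have : (0 : ℝ) < Mw := by exact_mod_cast hMw
      positivity)
  set s' := ε / 16 / ((C / s + 1) * (Kγ + 1)) with hs'
  have hs'0 : 0 < s' := by positivity
  set Iγ : ℝ := (Fintype.card (CovIdx n₀ (J * J)) : ℝ) with hIγ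
  set ε₂ := ε / 16 / ((C / s + 1) * ((Kγ + 1) / s') * (Iγ + 1)) with hε₂
  have hε₂0 : 0 < ε₂ := by positivity
  obtain ⟨w₀, hsel2⟩ := hsel ε₂ hε₂0
  obtain ⟨hw, c₀, hc₀, hsel3⟩ := hsel2 w₀ le_rfl
  set R := J * J * (2 * Mw * w₀) with hRdef
  have hR : 0 < R := by positivity
  set c := min c₀ (min (1 / (2 * (n₀ : ℝ)))
    (ε / 16 / ((Fintype.card (Fam n₀ R) : ℝ) * R * (2 * n₀) + 1))) with hcdef
  have hn₀R : (0 : ℝ) < n₀ := by positivity
  have hc : 0 < c := lt_min hc₀ (lt_min (by positivity) (by positivity))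
  have hc' : (n₀ : ℝ) * c ≤ 1 / 2 := by
    calc (n₀ : ℝ) * c ≤ n₀ * (1 / (2 * n₀)) :=
          mul_le_mul_of_nonneg_left ((min_le_right _ _).trans (min_le_left _ _)) hn₀R.le
      _ = 1 / 2 := by field_simp
  have hcost : (Fintype.card (Fam n₀ R) * R * (2 * n₀ * c) : ℝ) ≤ ε / 16 := by
    have h1 : c ≤ ε / 16 / ((Fintype.card (Fam n₀ R) : ℝ) * R * (2 * n₀) + 1) :=
      (min_le_right _ _).trans (min_le_right _ _)
    rw [le_div_iff₀ (by positivity)] at h1
    nlinarith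
  obtain ⟨N₀, hsel4⟩ := hsel3 c hc (min_le_left _ _)
  obtain ⟨N₁, hcav⟩ := cavity hM (by positivity : (0 : ℝ) < ε / 16)
  refine ⟨n₀, R, c, hR, hc.le, hc', hcost.trans (by linarith),
    max (max N₀ N₁) 1, fun N hN => ?_⟩
  have hN0 : 0 < N := by
    have := (le_max_right (max N₀ N₁) 1).trans hN; omega
  have hrate : 0 ≤ oldRate M N := by
    have := hM.lam_pos
    unfold oldRate; positivity
  set P := hamLaw M (oldRate M N) N with hP
  have : IsProbabilityMeasure P := isProbabilityMeasure_hamLaw hM hrate hN0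
  obtain ⟨G, hlo, hB, hG, hbands, hcov, hinc⟩ :=
    hsel4 N (((le_max_left _ _).trans (le_max_left _ _)).trans hN) P inferInstance
  obtain ⟨hg1, hg2, hg3, hg4, hg5⟩ := grid_geometry hJ hMw hw hlo hB hG hbands
  -- the sums
  have hγ : ∫ H, covSum G n₀ R c H ∂P ≤ Iγ * ε₂ := by
    have := integral_covSum_le (n₀ := n₀) (c := c) hR hG P hε₂0.le
      fun n hn1 hn j k hj hjk hk g hg => hcov n hn1 hn j k (hlo ▸ hj) hjk (hB ▸ hk)
        (fun v w => (((g v w).1 : ℕ), (g v w).2))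
        fun v w hvw => ⟨hg v w hvw, hB ▸ (g v w).1.2⟩
    rw [hB] at this
    exact this
  have he : ∫ H, incSum G n₀ R c H ∂P ≤ Ie * εe := by
    have := integral_incSum_le (n₀ := n₀) (c := c) hR G P hεe0.le
      fun n hn1 hn k hk hkB κ hκ => hinc n hn1 hn k (hlo ▸ hk) (hB ▸ hkB)
        (fun v w => (κ v w : ℕ)) (hB ▸ hκ)
    rw [hB] at this
    exact this
  -- the pointwise error
  set A := ε / 16 + ε / 16 with hA
  have htop : 2 * gridExp R (G.p G.lo) * L ^ 2 + 2 * (1 + 2 / (J : ℝ) - 1) * L ≤ ε / 16 := by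
    refine le_trans ?_ hband
    have h1 : 2 * gridExp R (G.p G.lo) * L ^ 2 ≤ 2 * (2 / J) * L ^ 2 :=
      mul_le_mul_of_nonneg_right (mul_le_mul_of_nonneg_left hg3 zero_le_two) (sq_nonneg L)
    have e1 : (4 * L ^ 2 + 4 * L) / (J : ℝ) = 2 * (2 / J) * L ^ 2 + 2 * (2 / (J : ℝ)) * L := by
      ring
    linarith
  have hpoint : ∀ H : (Fin N → Bool) → ℝ, a - (2 * errTerm A C s s' Kγ Ke G n₀ R c H + ε / 16 + ε / 16) ≤
      incU M n₀ R c H - incV M n₀ R c H := by
    intro H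
    have hγ0 := covSum_nonneg (n₀ := n₀) (c := c) hR hG H
    have he0 := incSum_nonneg (n₀ := n₀) (c := c) hR G H
    have hkey := snap_cov_le (c := c) (n₀ := n₀) hR hG hB hg2 hg5 hsnap2 H
    have hterm := sqrt_term_le (A := A) hC hs0 hs'0 hKγ hKe hγ0 he0
    have hE : 0 ≤ errTerm A C s s' Kγ Ke G n₀ R c H :=
      le_trans (add_nonneg (by rw [hA]; linarith) (mul_nonneg hC (Real.sqrt_nonneg _))) hterm
    refine inc_ge hR hM ha hG hN0 H (L := L) hE hU hV (le_max_left _ _) (le_max_right _ _)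
      fun k hk F hF => ?_
    have hcard : Fintype.card (Fin k × Fin M.K) ≤ max k₀U k₀V * M.K := by
      rw [Fintype.card_prod, Fintype.card_fin, Fintype.card_fin]
      exact Nat.mul_le_mul_right _ hk
    have hf := hfac2 (PSpace N n₀ R) (pertSys n₀ R c H) (pertSys_good hR H) rfl G hG hB N siteBit
      (fun i => obs_siteObs hR H i) (origin N n₀ R) _ (by positivity) hkey (Fin k × Fin M.K) hcard
      F hF
    refine ((siteInc_close hR hG H (θ := 1 + 2 / (J : ℝ))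
      (le_add_of_nonneg_right (by positivity)) hg4 hL hF hf).trans ?_).trans hterm
    have hRp : (R : ℝ) / G.p G.lo * K₂ ≤ C := mul_le_mul_of_nonneg_right hg1 hK₂
    have := mul_le_mul_of_nonneg_right hRp
      (Real.sqrt_nonneg (Kγ * Real.sqrt (covSum G n₀ R c H) + Ke * incSum G n₀ R c H))
    rw [show (pertSys n₀ R c H).R = R from rfl, hA]
    linarith
  -- integrate
  obtain ⟨hDint, hDeq⟩ := integral_errTerm (A := A) (C := C) (s := s) (s' := s') (Kγ := Kγ)
    (Ke := Ke) (n₀ := n₀) (c := c) hR hG P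
  have hDle : ∫ H, errTerm A C s s' Kγ Ke G n₀ R c H ∂P ≤ A + 4 * (ε / 16) := by
    rw [hDeq]
    exact add_le_add le_rfl (err_budget (by positivity) hC hKγ hKe (Nat.cast_nonneg _)
      (Nat.cast_nonneg _) hs hεe hs' hε₂
      (integral_nonneg fun H => covSum_nonneg hR hG H)
      (integral_nonneg fun H => incSum_nonneg hR G H) hγ he)
  have hint := increment_integral_ge hM hR P hDint hpoint
  have hc2 := hcav N (((le_max_right _ _).trans (le_max_left _ _)).trans hN) n₀ R c hR hc.le hc'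
  rw [abs_le] at hc2
  linarith [hc2.1]

/-- The pressure is asymptotically at least every common lower bound of the trial functional. -/
theorem pressure_ge_of_le_trials {M : Model} (hM : M.Valid) {a : ℝ}
    (ha : ∀ t : Trial, a ≤ trialU M t - trialV M t) {ε : ℝ} (hε : 0 < ε) :
    ∃ N₀ : ℕ, ∀ N : ℕ, N₀ ≤ N → a - ε ≤ pressure M N := by
  obtain ⟨n₀, R, c, hR, hc, hc', hcost, N₁, hinc⟩ :=
    inc_ge_eventually hM ha (by positivity : (0 : ℝ) < ε / 3)
  set Z : ℕ → ℝ := fun N => meanLogZ M n₀ R c (M.lam * N) N with hZ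
  have hsum : ∀ m, Z N₁ + m * (a - ε / 3) ≤ Z (N₁ + m) := by
    intro m
    induction m with
    | zero => simp
    | succ m ih =>
      have h := hinc (N₁ + m) (Nat.le_add_right _ _)
      have e : Z (N₁ + (m + 1)) = meanLogZ M n₀ R c (M.lam * ((N₁ + m : ℕ) + 1)) (N₁ + m + 1) := by
        show meanLogZ M n₀ R c (M.lam * ((N₁ + (m + 1) : ℕ) : ℝ)) (N₁ + (m + 1)) = _
        rw [← Nat.add_assoc]
        norm_num [Nat.cast_add, Nat.cast_one]
      have e2 : Z (N₁ + m) = meanLogZ M n₀ R c (M.lam * (N₁ + m : ℕ)) (N₁ + m) := rfl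
      push_cast
      linarith
  obtain ⟨N₂, hN₂⟩ := exists_nat_ge (|Z N₁ - N₁ * (a - ε / 3)| / (ε / 3))
  refine ⟨max (max N₁ N₂) 1, fun N hN => ?_⟩
  have hN0 : 0 < N := by have := (le_max_right (max N₁ N₂) 1).trans hN; omega
  have hN1 : N₁ ≤ N := ((le_max_left _ _).trans (le_max_left _ _)).trans hN
  have h := hsum (N - N₁)
  rw [Nat.add_sub_cancel' hN1, Nat.cast_sub hN1] at h
  have hnear := meanLogZ_near hM hR hc hc' hN0
  rw [abs_le] at hnear
  have hNR : (0 : ℝ) < N := by exact_mod_cast hN0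
  have hN2 : |Z N₁ - N₁ * (a - ε / 3)| ≤ ε / 3 * N := by
    rw [div_le_iff₀ (by positivity)] at hN₂
    have : (N₂ : ℝ) ≤ N := by
      exact_mod_cast ((le_max_right _ _).trans (le_max_left _ _)).trans hN
    nlinarith
  rw [abs_le] at hN2
  have hcN : (N : ℝ) * (Fintype.card (Fam n₀ R) * R * (2 * n₀ * c)) ≤ N * (ε / 3) :=
    mul_le_mul_of_nonneg_left hcost hNR.le
  have hz : Z N = meanLogZ M n₀ R c (M.lam * N) N := rfl
  have hfin : (N : ℝ) * (a - ε) ≤ N * pressure M N := by linarith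
  exact le_of_mul_le_mul_left hfin hNR

end Vale.Agent.P168
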