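import Vale.Agent.P168.Upper.Main
import Vale.Agent.P168.Lower

/-!
From the two bounds to the limit.
-/

namespace Vale.Agent.P168

open MeasureTheory Finset Filter Topology

/-- A trial of every depth. -/
noncomputable def flatTrial (r : ℕ) : Trial where
  r := r
  m p := ((p : ℝ) + 1) / ((r : ℝ) + 1)
  x _ := 0
  m_mono := fun p q h => by
    have : (p : ℝ) < (q : ℝ) := by exact_mod_cast h
    show ((p : ℝ) + 1) / ((r : ℝ) + 1) < ((q : ℝ) + 1) / ((r : ℝ) + 1)
    gcongr
  m_mem p := by
    refine ⟨by positivity, (div_lt_one (by positivity)).2 ?_⟩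
    have : (p : ℝ) < (r : ℝ) := by exact_mod_cast p.2
    linarith
  x_meas := measurable_const
  x_mem _ := by simp

variable {M : Model}

theorem depthValues_nonempty (M : Model) (r : ℕ) : (depthValues M r).Nonempty :=
  ⟨_, flatTrial r, rfl, rfl⟩

theorem depthValues_ge (hM : M.Valid) {N : ℕ} (hN : 0 < N) {r : ℕ} {v : ℝ}
    (hv : v ∈ depthValues M r) : pressure M N ≤ v := by
  obtain ⟨t, -, rfl⟩ := hv
  exact pressure_le_trial hM t hN

theorem depthValues_bddBelow (hM : M.Valid) (r : ℕ) : BddBelow (depthValues M r) :=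
  ⟨pressure M 1, fun _ hv => depthValues_ge hM one_pos hv⟩

theorem pressure_le_phi (hM : M.Valid) {N : ℕ} (hN : 0 < N) (r : ℕ) :
    pressure M N ≤ phi M r :=
  le_csInf (depthValues_nonempty M r) fun _ hv => depthValues_ge hM hN hv

theorem phi_bddBelow (hM : M.Valid) : BddBelow (Set.range (phi M)) :=
  ⟨pressure M 1, by rintro _ ⟨r, rfl⟩; exact pressure_le_phi hM one_pos r⟩

/-- The infimum over all depths is a common lower bound of the trial functional. -/
theorem iInf_phi_le (hM : M.Valid) (t : Trial) : ⨅ r, phi M r ≤ trialU M t - trialV M t :=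
  (ciInf_le (phi_bddBelow hM) t.r).trans (csInf_le (depthValues_bddBelow hM t.r) ⟨t, rfl, rfl⟩)

/-- The pressure converges to the infimum over all depths of the trial functional. -/
theorem pressure_tendsto (hM : M.Valid) :
    Tendsto (pressure M) atTop (𝓝 (⨅ r, phi M r)) := by
  rw [Metric.tendsto_atTop]
  intro ε hε
  obtain ⟨N₀, hN₀⟩ := pressure_ge_of_le_trials hM (iInf_phi_le hM) (half_pos hε)
  refine ⟨max N₀ 1, fun N hN => ?_⟩
  have h1 := hN₀ N ((le_max_left _ _).trans hN)
  have h2 : pressure M N ≤ ⨅ r, phi M r :=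
    le_ciInf fun r => pressure_le_phi hM (lt_of_lt_of_le one_pos ((le_max_right _ _).trans hN)) r
  rw [Real.dist_eq, abs_lt]
  constructor <;> linarith

end Vale.Agent.P168
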