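import Vale.Agent.P168.GadgetExpand

/-!
One probe responds linearly through the response.
-/

set_option linter.unusedVariables false
set_option linter.unusedSectionVars false

namespace Vale.Agent.P168

open MeasureTheory Finset Function

variable {Ω : Type} [MeasurableSpace Ω] {S : Sys Ω}

/-- The sign of a label in a gadget with own sign `η`. -/
def labSign {n : ℕ} (η : Bool) (v : Fin n) : ℝ := if (v : ℕ) = 0 then spin η else 1

lemma prod_labSign {n d : ℕ} {T : Tree d} (v0 : Fin n) (h0 : (v0 : ℕ) = 0) (η : Bool)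
    (φ : Leaves d T → Fin n) :
    ∏ u, labSign η (φ u) = spin η ^ mult (fun u => some (φ u)) v0 := by
  simp only [labSign, prod_ite, prod_const, one_pow, mul_one, mult]
  congr 2
  ext u
  simp only [mem_filter, mem_univ, true_and, Option.some_inj]
  rw [Fin.ext_iff, h0]

lemma spin_pow_diff (N : ℕ) : (spin true ^ N - spin false ^ N) / 2 = if Odd N then 1 else 0 := by
  rcases Nat.even_or_odd N with h | h
  · rw [if_neg (Nat.not_odd_iff_even.2 h)]; simp [spin, h.neg_one_pow]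
  · rw [if_pos h]; simp [spin, h.neg_one_pow]

/-- The terms of one probe. -/
noncomputable def Sys.oneTerm (S : Sys Ω) (C : Cons) (c : ℝ) (a : (ℕ → Ω) → ℝ) {d : ℕ} (l : ℕ)
    (T : Tree d) (η : Bool) (ω : ℕ → Ω) : ℝ :=
  Tree.weight S.x d l T * ∑ φ : Leaves d T → Fin C.n, (∏ u, -(c * labSign η (φ u))) *
    (S.mom d l T (fun _ => a) ω * C.labMom S.R S.x l T fun u => some (φ u))

lemma Sys.oneTerm_odd (hS : S.Good) {C : Cons} {c : ℝ} (hc : 0 ≤ c) (hc1 : c ≤ 1)
    (hnc : (C.n : ℝ) * c ≤ 1 / 2) {a : (ℕ → Ω) → ℝ} (ha : Obs S a) {d l : ℕ} (h1 : 1 ≤ l)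
    (hd : l + d = S.R) (hlev : ∀ v w, v < w → l < C.lev v w ∧ C.lev v w ≤ S.R) (v0 : Fin C.n)
    (h0 : (v0 : ℕ) = 0) (T : Tree d) (ω : ℕ → Ω) :
    |(S.oneTerm C c a l T true ω - S.oneTerm C c a l T false ω) / 2 -
        (-c) ^ C.n * S.respTerm C a l T ω| ≤
      (2 * C.n * c) ^ (C.n + 1) * (Tree.weight S.x d l T * (1 / 2 : ℝ) ^ T.size) := by
  set Q := fun φ : Leaves d T → Fin C.n =>
    if Odd (mult (fun u => some (φ u)) v0) then C.labMom S.R S.x l T (fun u => some (φ u)) else 0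
  have key : (S.oneTerm C c a l T true ω - S.oneTerm C c a l T false ω) / 2 =
      Tree.weight S.x d l T * ((-c) ^ T.size * S.mom d l T (fun _ => a) ω * ∑ φ, Q φ) := by
    rw [Sys.oneTerm, Sys.oneTerm, ← mul_sub, ← sum_sub_distrib, mul_div_assoc, sum_div, mul_sum]
    simp only [mul_sum]
    refine sum_congr rfl fun φ _ => ?_
    have e : ∀ η, ∏ u, -(c * labSign η (φ u)) = (-c) ^ T.size * ∏ u, labSign η (φ u) := fun η => by
      simp only [← neg_mul, prod_mul_distrib, prod_const, card_univ]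
      rfl
    simp only [e, prod_labSign v0 h0, Q]
    have := spin_pow_diff (mult (fun u => some (φ u)) v0)
    split_ifs at this ⊢ with hodd <;> linear_combination
      Tree.weight S.x d l T * (-c) ^ T.size * S.mom d l T (fun _ => a) ω *
        C.labMom S.R S.x l T (fun u => some (φ u)) * this
  have hw := Sys.weight_nonneg hS h1 hd T
  rcases eq_or_ne T.size C.n with hsz | hsz
  · rw [key, C.sum_odd_labMom hS.R_pos hS.expo hd T hlev hsz v0, Sys.respTerm, hsz,
      show Tree.weight S.x d l T * ((-c) ^ C.n * S.mom d l T (fun _ => a) ω * (C.count d l T : ℝ)) -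
        (-c) ^ C.n * (Tree.weight S.x d l T * (C.count d l T : ℝ) * S.mom d l T (fun _ => a) ω) = 0
        by ring, abs_zero]
    positivity
  rw [key, Sys.respTerm, C.count_eq_zero hsz]
  simp only [Nat.cast_zero, mul_zero, zero_mul, sub_zero]
  rcases lt_or_gt_of_ne hsz with hlt | hgt
  · rw [sum_eq_zero fun φ _ => ?_, mul_zero, mul_zero, abs_zero]
    · positivity
    · by_contra hne
      simp only [Q, ite_eq_right_iff] at hne
      push Not at hne
      have := le_card_some (fun v => C.labMom_parity hS.R_pos hS.expo hd T hlev hne.2 hne.1 v)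
      have h2 := this.trans (card_filter_le _ _)
      rw [card_univ] at h2
      exact absurd (lt_of_le_of_lt h2 hlt) (lt_irrefl _)
  · have hn1 : (1 : ℝ) ≤ C.n := by exact_mod_cast (Nat.succ_le_of_lt v0.pos)
    have hsum : |∑ φ, Q φ| ≤ (C.n : ℝ) ^ T.size := by
      refine (abs_sum_le_sum_abs _ _).trans ((sum_le_card_nsmul _ _ 1 fun φ _ => ?_).trans_eq ?_)
      · simp only [Q]
        split_ifs
        · exact Cons.abs_labMom_le hS.R_pos hS.expo T _
        · simp
      · rw [card_univ, Fintype.card_fun, Fintype.card_fin, nsmul_one, Nat.cast_pow]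
        rfl
    have hmom : |S.mom d l T (fun _ => a) ω| ≤ 1 :=
      (Sys.mom_abs_le hS T (fun _ => ha.1) (fun _ => ha.2.2) ω).trans_eq prod_const_one
    rw [abs_mul, abs_of_nonneg hw, abs_mul, abs_mul, abs_pow, abs_neg, abs_of_nonneg hc,
      mul_left_comm _ (Tree.weight S.x d l T)]
    refine mul_le_mul_of_nonneg_left ?_ hw
    have := pow_scale hn1 hc hnc T.size (C.n + 1)
    rw [max_eq_left (by omega)] at this
    refine le_trans ?_ this
    rw [mul_comm ((C.n : ℝ) ^ T.size)]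
    exact mul_le_mul ((mul_le_of_le_one_right (pow_nonneg hc _) hmom)) hsum (abs_nonneg _)
      (pow_nonneg hc _)

lemma Cons.abs_gadget_le (C : Cons) {c : ℝ} (hc : 0 ≤ c) (η : Bool) {σ : ℝ} (hσ : |σ| ≤ 1)
    (s : ℕ → Slot C.n) : |C.gadget c η σ s| ≤ C.n * c := by
  rw [Cons.gadget, abs_mul, abs_mul, abs_of_nonneg hc]
  have h : |∑ v : Fin C.n, (if (v : ℕ) = 0 then spin η else 1) * C.feature v s| ≤ C.n := by
    refine (abs_sum_le_sum_abs _ _).trans ((sum_le_card_nsmul _ _ 1 fun v _ => ?_).trans_eq (by simp))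
    rw [abs_mul]
    refine (mul_le_mul_of_nonneg_left (C.abs_featureO_le (some v) s) (abs_nonneg _)).trans_eq ?_
    split_ifs <;> simp [abs_spin_eq_one]
  calc c * |σ| * _ ≤ c * 1 * C.n := by gcongr
    _ = C.n * c := by ring

lemma Cons.gadget_bdd (C : Cons) (c : ℝ) (η : Bool) {a : (ℕ → Ω) → ℝ} (ha : Bdd a) {α : Type}
    [MeasurableSpace α] {π : α → Slot C.n} (hπ : Measurable π) :
    Bdd fun p : ℕ → Ω × α => C.gadget c η (a fun i => (p i).1) fun i => π (p i).2 := by
  have hf : ∀ v : Fin C.n, Bdd fun p : ℕ → Ω × α =>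
      (if (v : ℕ) = 0 then spin η else 1) * C.feature v fun i => π (p i).2 := fun v =>
    ((C.featureO_bdd (some v)).comp (measurable_pi_lambda (fun (p : ℕ → Ω × α) i => π (p i).2)
      fun i => hπ.comp (measurable_pi_apply i).snd)).const_mul _
  exact ((ha.comp (measurable_pi_lambda (fun (p : ℕ → Ω × α) i => (p i).1)
      fun i => (measurable_pi_apply i).fst)).const_mul c).mul (Bdd.sum univ hf)

lemma Sys.hasSum_oneTerm (hS : S.Good) {C : Cons} {c : ℝ} (hc : 0 ≤ c)
    (hnc : (C.n : ℝ) * c < 1) {a : (ℕ → Ω) → ℝ} (ha : Obs S a) {d l : ℕ} (h1 : 1 ≤ l)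
    (hd : l + d = S.R) (η : Bool) (ω : ℕ → Ω) :
    ∃ y, HasSum (fun T : Tree d => S.oneTerm C c a l T η ω) y ∧ |y| ≤ C.n * c ∧
      S.x l * S.probe1 C c a η l ω = Real.log (1 - y) := by
  obtain ⟨y, hy, hyb, hlog⟩ := Sys.val_log (prodSign_good (α := Slot C.n) hS)
    (C.gadget_bdd c η ha.1 (π := id) measurable_id) (by positivity : 0 ≤ (C.n : ℝ) * c) hnc
    (fun p => C.abs_gadget_le hc η (ha.2.2 _) _) h1 hd (fun i => (ω i, fun _ => false))
  obtain rfl : d = S.R - l := by omega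
  refine ⟨y, hy.congr_fun fun T => ?_, hyb, hlog⟩
  show _ = Tree.weight S.x _ l T * _
  rw [Sys.oneTerm]
  congr 1
  have e := Sys.mom_label hS (fun v : Fin C.n => -(c * labSign η v)) (o := fun _ => a)
    (f := fun v => C.featureO (some v)) (fun _ => ha.1) (fun v => C.featureO_bdd _) hd T ω
    fun _ _ => false
  refine Eq.trans e.symm ?_
  congr 1
  funext u p
  simp only [Cons.gadget, mul_sum, ← sum_neg_distrib, id_eq]
  refine sum_congr rfl fun v _ => ?_
  show _ = -(c * a (fun i => (p i).1) * (labSign η v * C.feature v fun i => (p i).2))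
  show -(c * labSign η v) * (a (fun j => (p j).1) * C.feature v fun j => (p j).2) = _
  ring

/-- One probe responds linearly through the response. -/
theorem beta_resp (n R : ℕ) : ∃ K c₀ : ℝ, 0 < c₀ ∧ ∀ (Ω : Type) [MeasurableSpace Ω] (S : Sys Ω),
    S.Good → S.R = R → S.x = gridExp R → ∀ C : Cons, C.n = n → C.Ok R → ∀ c, 0 < c → c ≤ c₀ →
    ∀ a, Obs S a → ∀ l, 1 ≤ l → l ≤ R → l < C.first R → ∀ ω,
      |S.beta C c a l ω - (-1) ^ (n + 1) * S.resp C a l ω| ≤ K * c := by
  set Kt : ℝ := (2 * n) ^ (n + 1)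
  refine ⟨(R : ℝ) * (2 * n * (Nat.factorial n + Kt) + Kt), 1 / (4 * ((n : ℝ) + 1)), by positivity,
    fun Ω _ S hS hR hx C hn hC c hc hc0 a ha l h1 hl hf ω => ?_⟩
  subst hn hR
  obtain ⟨d, hd⟩ : ∃ d, l + d = S.R := ⟨S.R - l, by omega⟩
  have hc4 : c * (4 * ((C.n : ℝ) + 1)) ≤ 1 := by rwa [le_div_iff₀ (by positivity)] at hc0
  have hn0 : (0 : ℝ) ≤ C.n := Nat.cast_nonneg _
  have hnc : (C.n : ℝ) * c ≤ 1 / 2 := by nlinarith
  have hc1 : c ≤ 1 := by nlinarith
  obtain ⟨yt, st, bt, lt⟩ := Sys.hasSum_oneTerm hS hc.le (by linarith) ha h1 hd true ω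
  obtain ⟨yf, sf, bf, lf⟩ := Sys.hasSum_oneTerm hS hc.le (by linarith) ha h1 hd false ω
  have hsum := ((st.sub sf).div_const 2).sub
    ((Sys.hasSum_resp (C := C) hS ha h1 hd ω).mul_left ((-c) ^ C.n))
  have herr : |(yt - yf) / 2 - (-c) ^ C.n * (S.x l * S.resp C a l ω)| ≤
      (2 * C.n * c) ^ (C.n + 1) :=
    Sys.abs_le_of_half hS h1 hd hsum (by positivity) fun T =>
      Sys.oneTerm_odd hS hc.le hc1 hnc ha h1 hd (Cons.lt_lev hC hf) ⟨0, hC.1⟩ rfl T ω
  have hK : (2 * (C.n : ℝ) * c) ^ (C.n + 1) = Kt * (c ^ C.n * c) := by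
    rw [mul_pow, pow_succ c]
  rw [hK] at herr
  have hG : |(-c) ^ C.n * (S.x l * S.resp C a l ω)| ≤ c ^ C.n * Nat.factorial C.n := by
    rw [abs_mul, abs_pow, abs_neg, abs_of_pos hc, abs_mul]
    refine mul_le_mul_of_nonneg_left ((mul_le_mul ?_ (Sys.resp_abs_le hS hC ha h1 hl ω)
      (abs_nonneg _) zero_le_one).trans_eq (one_mul _)) (by positivity)
    rw [abs_of_pos (hS.x_pos l h1 hl)]
    exact hS.expo.le_one h1 hd
  have hKt : 0 ≤ Kt := by positivity
  have hΔ : |(yt - yf) / 2| ≤ c ^ C.n * (Nat.factorial C.n + Kt) := by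
    have := abs_sub_abs_le_abs_sub ((yt - yf) / 2) ((-c) ^ C.n * (S.x l * S.resp C a l ω))
    have h2 : Kt * (c ^ C.n * c) ≤ Kt * c ^ C.n :=
      mul_le_mul_of_nonneg_left (mul_le_of_le_one_right (by positivity) hc1) hKt
    linarith
  have hlog := abs_log_sub_le bt bf hnc
  have hxl : 1 / (S.R : ℝ) ≤ S.x l := by
    rw [hx, gridExp]
    gcongr
    exact_mod_cast h1
  have hxp := hS.x_pos l h1 hl
  have e : S.beta C c a l ω - (-1) ^ (C.n + 1) * S.resp C a l ω =
      ((Real.log (1 - yt) - Real.log (1 - yf) + (yt - yf)) -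
        2 * ((yt - yf) / 2 - (-c) ^ C.n * (S.x l * S.resp C a l ω))) /
          (S.x l * (2 * c ^ C.n)) := by
    rw [Sys.beta, ← lt, ← lf, neg_pow c, pow_succ (-1 : ℝ)]
    field_simp
    ring
  rw [e, abs_div, abs_of_pos (by positivity : 0 < S.x l * (2 * c ^ C.n)),
    div_le_iff₀ (by positivity)]
  have hnum : |(Real.log (1 - yt) - Real.log (1 - yf) + (yt - yf)) -
      2 * ((yt - yf) / 2 - (-c) ^ C.n * (S.x l * S.resp C a l ω))| ≤
      (2 * C.n * (Nat.factorial C.n + Kt) + Kt) * c * (2 * c ^ C.n) := by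
    refine (abs_sub _ _).trans ?_
    rw [abs_mul 2, abs_of_pos (by norm_num : (0 : ℝ) < 2)]
    have h2 : |yt - yf| = 2 * |(yt - yf) / 2| := by
      rw [abs_div, abs_of_pos (by norm_num : (0 : ℝ) < 2)]; ring
    have h3 := mul_le_mul_of_nonneg_left hΔ (show 0 ≤ 4 * ((C.n : ℝ) * c) by positivity)
    rw [h2] at hlog
    linarith
  refine hnum.trans ?_
  have hRx : 1 ≤ (S.R : ℝ) * S.x l := by
    have hR0 : (0 : ℝ) < S.R := Nat.cast_pos.2 hS.R_pos
    rwa [div_le_iff₀' hR0] at hxl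
  have := mul_le_mul_of_nonneg_left hRx
    (show 0 ≤ (2 * (C.n : ℝ) * (Nat.factorial C.n + Kt) + Kt) * c * (2 * c ^ C.n) by positivity)
  linarith

end Vale.Agent.P168
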