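import Vale.Agent.P168.GadgetResp

/-!
Expansion of the probes over labelled trees, and the elementary estimates for logarithms.
-/

set_option linter.unusedVariables false
set_option linter.unusedSectionVars false

namespace Vale.Agent.P168

open MeasureTheory Finset Function

variable {Ω : Type} [MeasurableSpace Ω] {S : Sys Ω}
  {α : Type} [Fintype α] [MeasurableSpace α] [MeasurableSingletonClass α] [Nonempty α]

lemma prodSign_good (hS : S.Good) : (S.prod (signSys S.R S.x α)).Good :=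
  Sys.prod_good hS (signSys_good hS.R_pos hS.expo) rfl rfl

/-- The moment of a sum of labels in the product with a system of signs. -/
lemma Sys.mom_label (hS : S.Good) {Λ : Type} [Fintype Λ] (k : Λ → ℝ)
    {o : Λ → (ℕ → Ω) → ℝ} {f : Λ → (ℕ → α) → ℝ} (ho : ∀ i, Bdd (o i)) (hf : ∀ i, Bdd (f i))
    {d l : ℕ} (hd : l + d = S.R) (T : Tree d) (ω : ℕ → Ω) (b : ℕ → α) :
    (S.prod (signSys S.R S.x α)).mom d l T
        (fun _ p => ∑ i, k i * (o i (fun j => (p j).1) * f i fun j => (p j).2))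
        (fun j => (ω j, b j)) =
      ∑ φ : Leaves d T → Λ, (∏ u, k (φ u)) *
        (S.mom d l T (fun u => o (φ u)) ω *
          (signSys S.R S.x α).mom d l T (fun u => f (φ u)) b) := by
  have hP := prodSign_good (α := α) hS
  have hb : ∀ i, Bdd (fun p : ℕ → Ω × α => o i (fun j => (p j).1) * f i fun j => (p j).2) := fun i =>
    ((ho i).comp (measurable_pi_lambda (fun (p : ℕ → Ω × α) j => (p j).1)
      fun j => (measurable_pi_apply j).fst)).mul
    ((hf i).comp (measurable_pi_lambda (fun (p : ℕ → Ω × α) j => (p j).2)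
      fun j => (measurable_pi_apply j).snd))
  rw [Sys.mom_sum hP T (h := fun _ i p => k i * (o i (fun j => (p j).1) * f i fun j => (p j).2))
    (fun _ i => (hb i).const_mul (k i))]
  refine sum_congr rfl fun φ _ => ?_
  refine (Sys.mom_smul hP T (fun u => k (φ u))
    (fun u p => o (φ u) (fun j => (p j).1) * f (φ u) fun j => (p j).2) _).trans ?_
  congr 1
  exact Sys.mom_prod hS (signSys_good (α := α) hS.R_pos hS.expo) rfl rfl hd T
    (g := fun u => o (φ u)) (g' := fun u => f (φ u)) (fun u => ho _) (fun u => hf _) _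

/-- `x log` of a nested evaluation: the logarithm of one minus its tree mean. -/
lemma Sys.val_log (hS : S.Good) {z : (ℕ → Ω) → ℝ} (hz : Bdd z) {ρ : ℝ} (h0 : 0 ≤ ρ) (hρ : ρ < 1)
    (h : ∀ ω, |z ω| ≤ ρ) {d l : ℕ} (h1 : 1 ≤ l) (hd : l + d = S.R) (ω : ℕ → Ω) :
    ∃ y, HasSum (fun T : Tree d => Tree.weight S.x d l T * S.mom d l T (fun _ v => -z v) ω) y ∧
      |y| ≤ ρ ∧ S.x l * S.val S.x (fun v => Real.log (1 + z v)) d l ω = Real.log (1 - y) := by
  have h' : ∀ v, |-z v| ≤ ρ := fun v => by rw [abs_neg]; exact h v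
  refine ⟨_, Sys.hasSum_treeMeanW hS hS.expo h1 hd hz.neg h0 hρ h' ω, ?_, ?_⟩
  · refine (Sys.abs_treeMeanW_le hS hS.expo h1 hd hz.neg h0 hρ h' ω).trans ?_
    have := Real.self_le_rpow_of_le_one (show 0 ≤ 1 - ρ by linarith) (by linarith)
      (hS.expo.le_one h1 hd)
    linarith
  · rw [← Sys.exp_val hS hS.expo hz hρ h h1 hd, Real.log_exp]

/-- The weights of the trees, damped by one half for each leaf, sum to at most one. -/
lemma Sys.half_pow_sum (hS : S.Good) {d l : ℕ} (h1 : 1 ≤ l) (hd : l + d = S.R) :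
    ∃ v ≤ 1, HasSum (fun T : Tree d => Tree.weight S.x d l T * (1 / 2 : ℝ) ^ T.size) v :=
  ⟨_, sub_le_self _ (Real.rpow_nonneg (by norm_num) _),
    Sys.hasSum_weight_pow hS h1 hd (by norm_num) (by norm_num)⟩

/-- Sums over trees with termwise bound `K w 2^(-size)` are at most `K`. -/
lemma Sys.abs_le_of_half (hS : S.Good) {d l : ℕ} (h1 : 1 ≤ l) (hd : l + d = S.R)
    {F : Tree d → ℝ} {y K : ℝ} (hF : HasSum F y) (hK : 0 ≤ K)
    (h : ∀ T, |F T| ≤ K * (Tree.weight S.x d l T * (1 / 2 : ℝ) ^ T.size)) : |y| ≤ K := by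
  obtain ⟨v, hv, hs⟩ := Sys.half_pow_sum hS h1 hd
  have := tsum_of_norm_bounded (hs.mul_left K) fun T => (Real.norm_eq_abs _).trans_le (h T)
  rw [hF.tsum_eq, Real.norm_eq_abs] at this
  exact this.trans (mul_le_of_le_one_right hK hv)

/-- Scaling of a term with `m` leaves and degree at least `k`. -/
lemma pow_scale {q c : ℝ} (hq : 1 ≤ q) (hc : 0 ≤ c) (hqc : q * c ≤ 1 / 2) (m k : ℕ) :
    q ^ m * c ^ max m k ≤ (2 * q * c) ^ k * (1 / 2) ^ m := by
  have hq0 : 0 ≤ q := by linarith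
  rcases le_total m k with h | h
  · obtain ⟨j, rfl⟩ := Nat.exists_eq_add_of_le h
    rw [max_eq_right h, mul_pow, mul_pow, mul_assoc, mul_assoc, mul_comm ((2 : ℝ) ^ (m + j))]
    have e : (1 : ℝ) ≤ 2 ^ (m + j) * (1 / 2) ^ m := by
      rw [pow_add, mul_comm ((2 : ℝ) ^ m), mul_assoc, ← mul_pow]
      norm_num
      exact one_le_pow₀ (by norm_num)
    have e2 : q ^ m ≤ q ^ (m + j) := pow_le_pow_right₀ hq (Nat.le_add_right _ _)
    nlinarith [mul_le_mul_of_nonneg_right e2 (pow_nonneg hc (m + j)),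
      mul_le_mul_of_nonneg_left e (mul_nonneg (pow_nonneg hq0 (m + j)) (pow_nonneg hc (m + j)))]
  · obtain ⟨j, rfl⟩ := Nat.exists_eq_add_of_le h
    rw [max_eq_left h]
    calc q ^ (k + j) * c ^ (k + j) = (q * c) ^ k * (q * c) ^ j := by
          rw [mul_pow, mul_pow, pow_add, pow_add]; ring
      _ ≤ (q * c) ^ k * (1 / 2) ^ j :=
          mul_le_mul_of_nonneg_left (pow_le_pow_left₀ (by positivity) hqc j) (by positivity)
      _ = (2 * q * c) ^ k * (1 / 2) ^ (k + j) := by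
          rw [show q * c = 2 * q * c * (1 / 2) by ring, mul_pow, pow_add]; ring

/-- The difference of two logarithms to first order. -/
lemma abs_log_sub_le {a b δ : ℝ} (ha : |a| ≤ δ) (hb : |b| ≤ δ) (hδ : δ ≤ 1 / 2) :
    |Real.log (1 - a) - Real.log (1 - b) + (a - b)| ≤ 2 * δ * |a - b| := by
  obtain ⟨a1, a2⟩ := abs_le.1 ha
  obtain ⟨b1, b2⟩ := abs_le.1 hb
  have ha0 : 0 < 1 - a := by linarith
  have hb0 : 0 < 1 - b := by linarith
  have u1 := Real.log_le_sub_one_of_pos (div_pos ha0 hb0)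
  have u2 := Real.log_le_sub_one_of_pos (div_pos hb0 ha0)
  rw [Real.log_div ha0.ne' hb0.ne'] at u1
  rw [Real.log_div hb0.ne' ha0.ne'] at u2
  have e1 : (1 - a) / (1 - b) - 1 + (a - b) = (b - a) * b / (1 - b) := by field_simp; ring
  have e2 : (1 - b) / (1 - a) - 1 - (a - b) = (a - b) * a / (1 - a) := by field_simp; ring
  have h1 : |(b - a) * b / (1 - b)| ≤ 2 * δ * |a - b| := by
    rw [abs_div, abs_mul, abs_sub_comm b a, abs_of_pos hb0, div_le_iff₀ hb0]
    nlinarith [mul_le_mul_of_nonneg_left hb (abs_nonneg (a - b)), mul_nonneg (mul_nonneg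
      ((abs_nonneg b).trans hb) (abs_nonneg (a - b))) (show 0 ≤ 1 / 2 - b by linarith)]
  have h2 : |(a - b) * a / (1 - a)| ≤ 2 * δ * |a - b| := by
    rw [abs_div, abs_mul, abs_of_pos ha0, div_le_iff₀ ha0]
    nlinarith [mul_le_mul_of_nonneg_left ha (abs_nonneg (a - b)), mul_nonneg (mul_nonneg
      ((abs_nonneg a).trans ha) (abs_nonneg (a - b))) (show 0 ≤ 1 / 2 - a by linarith)]
  rw [abs_le]
  constructor <;> linarith [(abs_le.1 h1).1, (abs_le.1 h1).2, (abs_le.1 h2).1, (abs_le.1 h2).2]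

/-- The mixed difference of four logarithms to second order. -/
lemma abs_log_mixed_le {y₁ y₂ y₃ y₄ δ γ A B : ℝ} (h₁ : |y₁| ≤ δ) (h₂ : |y₂| ≤ δ) (h₃ : |y₃| ≤ δ)
    (h₄ : |y₄| ≤ δ) (hδ : δ ≤ 1 / 32) (hγ : γ = (y₁ - y₂ - y₃ + y₄) / 4)
    (hA : A = (y₁ + y₂ - y₃ - y₄) / 4) (hB : B = (y₁ - y₂ + y₃ - y₄) / 4) :
    |Real.log (1 - y₁) - Real.log (1 - y₂) - Real.log (1 - y₃) + Real.log (1 - y₄) +
      4 * (γ + A * B)| ≤ 1000 * δ * (|γ| + |A| * |B|) := by
  obtain ⟨a1, b1⟩ := abs_le.1 h₁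
  obtain ⟨a2, b2⟩ := abs_le.1 h₂
  obtain ⟨a3, b3⟩ := abs_le.1 h₃
  obtain ⟨a4, b4⟩ := abs_le.1 h₄
  have hδ0 : 0 ≤ δ := (abs_nonneg _).trans h₁
  set p₀ := 1 - (y₁ + y₂ + y₃ + y₄) / 4 with hp₀
  set D := (1 - y₂) * (1 - y₃) with hD
  set u := -4 * (p₀ * γ + A * B) / D with hu
  have hDlo : 9 / 10 ≤ D := by rw [hD]; nlinarith
  have hD1 : |D - 1| ≤ 3 * δ := by rw [abs_le, hD]; constructor <;> nlinarith
  have hp1 : |p₀ - 1| ≤ δ := by rw [abs_le, hp₀]; constructor <;> linarith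
  have hS : |γ| + |A| * |B| ≤ 2 * δ := by
    have g1 : |γ| ≤ δ := by rw [abs_le, hγ]; constructor <;> linarith
    have g2 : |A| ≤ δ := by rw [abs_le, hA]; constructor <;> linarith
    have g3 : |B| ≤ δ := by rw [abs_le, hB]; constructor <;> linarith
    nlinarith [mul_le_mul g2 g3 (abs_nonneg B) hδ0, abs_nonneg A, abs_nonneg B]
  set s := |γ| + |A| * |B| with hs
  have hs0 : 0 ≤ s := by positivity
  have hu8 : |u| ≤ 5 * s := by
    rw [hu, abs_div, abs_of_pos (show 0 < D by linarith), div_le_iff₀ (by linarith), abs_mul]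
    have := abs_add_le (p₀ * γ) (A * B)
    rw [abs_mul, abs_mul] at this
    have hp : |p₀| ≤ 11 / 10 := by
      rw [abs_le] at hp1 ⊢; constructor <;> linarith [hp1.1, hp1.2]
    have m1 := mul_le_mul_of_nonneg_right hp (abs_nonneg γ)
    have m2 := mul_le_mul_of_nonneg_left hDlo (show 0 ≤ 5 * s by positivity)
    have m3 : s = |γ| + |A| * |B| := hs
    have m4 : 0 ≤ |A| * |B| := by positivity
    norm_num
    linarith [abs_nonneg γ]
  have hu2 : |u| ≤ 1 / 2 := by linarith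
  have hu1 := abs_le.1 hu2
  have hprod : Real.log (1 - y₁) - Real.log (1 - y₂) - Real.log (1 - y₃) + Real.log (1 - y₄) =
      Real.log (1 + u) := by
    have e : 1 + u = (1 - y₁) * (1 - y₄) / D := by
      have hD0 : D ≠ 0 := by linarith
      rw [hu, eq_div_iff hD0, add_mul, div_mul_cancel₀ _ hD0, hp₀, hD, hγ, hA, hB]
      ring
    rw [e, hD, Real.log_div (by apply mul_ne_zero <;> linarith) (by apply mul_ne_zero <;> linarith),
      Real.log_mul (by linarith) (by linarith), Real.log_mul (by linarith) (by linarith)]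
    ring
  have hlog : |Real.log (1 + u) - u| ≤ 2 * u ^ 2 := by
    have l1 := Real.log_le_sub_one_of_pos (show 0 < 1 + u by linarith)
    have l2 := Real.one_sub_inv_le_log_of_pos (show 0 < 1 + u by linarith)
    have e : 1 - (1 + u)⁻¹ = u - u ^ 2 / (1 + u) := by
      have : (1 + u) ≠ 0 := by linarith
      field_simp; ring
    have e2 : u ^ 2 / (1 + u) ≤ 2 * u ^ 2 := by
      rw [div_le_iff₀ (by linarith)]; nlinarith
    rw [e] at l2
    rw [abs_le]; constructor <;> linarith [sq_nonneg u]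
  have hlin : |u + 4 * (γ + A * B)| ≤ 20 * δ * s := by
    have e : u + 4 * (γ + A * B) = 4 * (γ * (D - p₀) + A * B * (D - 1)) / D := by
      rw [hu]
      have : D ≠ 0 := by linarith
      field_simp
      ring
    rw [e, abs_div, abs_of_pos (show 0 < D by linarith), div_le_iff₀ (by linarith), abs_mul]
    have := abs_add_le (γ * (D - p₀)) (A * B * (D - 1))
    rw [abs_mul, abs_mul, abs_mul] at this
    have hdp : |D - p₀| ≤ 4 * δ := (abs_sub_le D 1 p₀).trans (by rw [abs_sub_comm 1 p₀]; linarith)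
    have m1 := mul_le_mul_of_nonneg_left hdp (abs_nonneg γ)
    have m2 := mul_le_mul_of_nonneg_left (hD1.trans (by linarith : 3 * δ ≤ 4 * δ))
      (mul_nonneg (abs_nonneg A) (abs_nonneg B))
    have m3 := mul_le_mul_of_nonneg_left hDlo (show 0 ≤ 20 * δ * s by positivity)
    have m4 : |γ| * (4 * δ) + |A| * |B| * (4 * δ) = 4 * δ * s := by rw [hs]; ring
    norm_num
    linarith [mul_nonneg hδ0 hs0]
  have hu3 : u ^ 2 ≤ 50 * δ * s := by
    rw [← sq_abs, pow_two]
    have m1 := mul_le_mul hu8 hu8 (abs_nonneg u) (by positivity)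
    have m2 := mul_le_mul_of_nonneg_left hS hs0
    linarith
  rw [hprod, show Real.log (1 + u) + 4 * (γ + A * B) =
    (Real.log (1 + u) - u) + (u + 4 * (γ + A * B)) by ring]
  refine (abs_add_le _ _).trans ?_
  linarith [mul_nonneg hδ0 hs0]

end Vale.Agent.P168
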