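import Vale.Agent.P168.GadgetBeta

/-!
The mixed part of two probes: boundedness, stability under a small potential, symmetry.
-/

set_option linter.unusedVariables false
set_option linter.unusedSectionVars false

namespace Vale.Agent.P168

open MeasureTheory Finset Function

variable {Ω : Type} [MeasurableSpace Ω] {S : Sys Ω}

/-! A moment moves little under a small change of the potential. -/

lemma abs_prod_sub_prod_le {ι : Type} (t : Finset ι) (f g : ι → ℝ) (hf : ∀ i, |f i| ≤ 1)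
    (hg : ∀ i, |g i| ≤ 1) : |(∏ i ∈ t, f i) - ∏ i ∈ t, g i| ≤ ∑ i ∈ t, |f i - g i| := by
  classical
  induction t using Finset.induction_on with
  | empty => simp
  | @insert i t hi ih =>
    simp only [prod_insert hi, sum_insert hi]
    rw [show f i * (∏ j ∈ t, f j) - g i * ∏ j ∈ t, g j =
      (f i - g i) * (∏ j ∈ t, f j) + g i * ((∏ j ∈ t, f j) - ∏ j ∈ t, g j) by ring]
    refine (abs_add_le _ _).trans (add_le_add ?_ ?_)
    · rw [abs_mul, abs_prod]
      exact mul_le_of_le_one_right (abs_nonneg _)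
        (prod_le_one (fun j _ => abs_nonneg _) fun j _ => hf j)
    · rw [abs_mul]
      exact (mul_le_of_le_one_left (abs_nonneg _) (hg i)).trans ih

lemma Sys.mom_add_le (hS : S.Good) {V : (ℕ → Ω) → ℝ} (hV : Bdd V) (hVd : DependsTo V S.R) {ε : ℝ}
    (hε1 : ε ≤ 1) (hVε : ∀ v, |V v| ≤ ε) {d l : ℕ} (hd : l + d = S.R) (T : Tree d)
    {g : Leaves d T → (ℕ → Ω) → ℝ} (hg : ∀ u, Bdd (g u)) (hg1 : ∀ u v, |g u v| ≤ 1) (ω : ℕ → Ω) :
    |(S.add V).mom d l T g ω - S.mom d l T g ω| ≤ (T.size : ℝ) * d * (16 * ε) := by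
  have hS' := Sys.add_good hS hV hVd
  have hε : 0 ≤ ε := (abs_nonneg _).trans (hVε ω)
  induction d generalizing l ω with
  | zero => simp [Sys.mom]
  | succ d ih =>
    simp only [Sys.mom]
    refine (abs_prod_sub_prod_le univ _ _ (fun c => ?_) fun c => ?_).trans ?_
    · exact Sys.A_abs_le hS'.reg (Sys.mom_bdd hS' _ fun v => hg ⟨c, v⟩)
        (fun v => (Sys.mom_abs_le hS' _ (fun v => hg ⟨c, v⟩) (fun v => hg1 ⟨c, v⟩) v).trans_eq
          prod_const_one) l ω
    · exact Sys.A_abs_le hS.reg (Sys.mom_bdd hS _ fun v => hg ⟨c, v⟩)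
        (fun v => (Sys.mom_abs_le hS _ (fun v => hg ⟨c, v⟩) (fun v => hg1 ⟨c, v⟩) v).trans_eq
          prod_const_one) l ω
    rw [Tree.size_succ, Nat.cast_sum, sum_mul, sum_mul]
    refine sum_le_sum fun c _ => ?_
    set f' := (S.add V).mom d (l + 1) (T.2 c) (fun v => g ⟨c, v⟩)
    set f := S.mom d (l + 1) (T.2 c) (fun v => g ⟨c, v⟩)
    have hfb : Bdd f := Sys.mom_bdd hS _ fun v => hg ⟨c, v⟩
    have hf'b : Bdd f' := Sys.mom_bdd hS' _ fun v => hg ⟨c, v⟩
    have hstep : |(S.add V).A l f ω - S.A l f ω| ≤ 16 * ε := by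
      have h := Sys.cond_add_le hS hV hfb hVε (fun v => (Sys.mom_abs_le hS _ (fun v => hg ⟨c, v⟩)
        (fun v => hg1 ⟨c, v⟩) v).trans_eq prod_const_one) (Nat.le_succ l)
        (show l + 1 ≤ S.R by omega) ω
      rw [Sys.cond_succ, Sys.cond_succ, one_mul] at h
      refine h.trans ?_
      have e := Real.add_one_le_exp (-(2 * ε))
      rw [Real.exp_neg] at e
      have hp := Real.exp_pos (2 * ε)
      have e8 : Real.exp (2 * ε) ≤ 8 := by
        refine (Real.exp_le_exp.2 (by linarith : 2 * ε ≤ 1 + 1)).trans ?_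
        rw [Real.exp_add]
        nlinarith [Real.exp_one_lt_d9, Real.exp_pos 1]
      have e2 := mul_le_mul_of_nonneg_right e hp.le
      rw [inv_mul_cancel₀ hp.ne'] at e2
      nlinarith [mul_le_mul_of_nonneg_left e8 hε]
    have hm : (1 : ℝ) ≤ (T.2 c).size := by
      have : Nonempty (Leaves d (T.2 c)) := inferInstance
      exact_mod_cast Fintype.card_pos
    have hind : |(S.add V).A l f' ω - (S.add V).A l f ω| ≤
        ((T.2 c).size : ℝ) * d * (16 * ε) := by
      have e : (fun v => f' v + (-1) * f v) = fun v => f' v - f v := funext fun v => by ring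
      have h := Sys.A_abs_le hS'.reg (hf'b.sub hfb)
        (fun v => ih (show l + 1 + d = S.R by omega) (T.2 c) (fun v => hg ⟨c, v⟩)
          (fun v => hg1 ⟨c, v⟩) v) l ω
      rw [← e, Sys.A_add hS' hf'b (hfb.const_mul _), Sys.A_const_mul hS'] at h
      rwa [neg_one_mul, ← sub_eq_add_neg] at h
    refine (abs_sub_le _ ((S.add V).A l f ω) _).trans ((add_le_add hind hstep).trans ?_)
    push_cast
    nlinarith [mul_le_mul_of_nonneg_right hm (show 0 ≤ 16 * ε by positivity)]

/-! Labels of two gadgets -/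

/-- A pair of labels. -/
abbrev Lab2 (n : ℕ) := Option (Fin n) × Option (Fin n)

/-- The scale of a label. -/
def labC {n : ℕ} (c : ℝ) (i : Option (Fin n)) : ℝ := i.elim 1 fun _ => c

/-- The observable of a label. -/
def labObs {n : ℕ} (a : (ℕ → Ω) → ℝ) (i : Option (Fin n)) (ω : ℕ → Ω) : ℝ := i.elim 1 fun _ => a ω

lemma labObs_bdd {n : ℕ} {a : (ℕ → Ω) → ℝ} (ha : Obs S a) (i : Option (Fin n)) :
    Bdd (labObs a i) ∧ ∀ ω, |labObs a i ω| ≤ 1 := by
  cases i with
  | none => exact ⟨bdd_const 1, fun ω => by simp [labObs]⟩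
  | some v => exact ⟨ha.1, ha.2.2⟩

/-- The scale of a pair of labels, zero for the empty pair. -/
def labK {n : ℕ} (c : ℝ) (p : Lab2 n) : ℝ :=
  if p.1 = none ∧ p.2 = none then 0 else -(labC c p.1 * labC c p.2)

/-- The parity selector. -/
noncomputable def parSel (p : Bool) (N : ℕ) : ℝ :=
  if p then (if Odd N then 1 else 0) else (if Odd N then 0 else 1)

/-- One parity part of the terms of two probes, with moments `M`. -/
noncomputable def Cons.part2 (C : Cons) (R : ℕ) (x : ℕ → ℝ) (c : ℝ) (v0 : Fin C.n) {d : ℕ} (l : ℕ)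
    (T : Tree d) (p q : Bool) (M : (Leaves d T → Lab2 C.n) → ℝ) : ℝ :=
  Tree.weight x d l T * ∑ ψ : Leaves d T → Lab2 C.n,
    parSel p (mult (fun u => (ψ u).1) v0) * parSel q (mult (fun u => (ψ u).2) v0) *
      (∏ u, labK c (ψ u)) * (M ψ * (C.labMom R x l T (fun u => (ψ u).1) *
        C.labMom R x l T (fun u => (ψ u).2)))

lemma abs_parSel (p : Bool) (N : ℕ) : |parSel p N| ≤ 1 := by
  unfold parSel; split_ifs <;> simp

/-- The guaranteed degree of a parity part. -/
def parDeg (n : ℕ) (p q : Bool) : ℕ := (if p then n else 0) + if q then n else 0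

lemma Cons.abs_part2_le {C : Cons} {R : ℕ} (hR : 0 < R) {x : ℕ → ℝ} (hx : Expo R x) {c : ℝ}
    (hc : 0 ≤ c) (hc1 : c ≤ 1) (hqc : ((C.n : ℝ) + 1) ^ 2 * c ≤ 1 / 2) {d l : ℕ} (h1 : 1 ≤ l)
    (hd : l + d = R) (hlev : ∀ v w, v < w → l < C.lev v w ∧ C.lev v w ≤ R) (v0 : Fin C.n)
    (T : Tree d) (p q : Bool) {M : (Leaves d T → Lab2 C.n) → ℝ} {B : ℝ} (hB : 0 ≤ B)
    (hM : ∀ ψ, |M ψ| ≤ B) {k : ℕ} (hk : k ≤ max T.size (parDeg C.n p q)) :
    |C.part2 R x c v0 l T p q M| ≤
      B * (2 * ((C.n : ℝ) + 1) ^ 2 * c) ^ k * (Tree.weight x d l T * (1 / 2 : ℝ) ^ T.size) := by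
  have hw := hx.weight_nonneg h1 hd T
  have hterm : ∀ ψ : Leaves d T → Lab2 C.n,
      |parSel p (mult (fun u => (ψ u).1) v0) * parSel q (mult (fun u => (ψ u).2) v0) *
        (∏ u, labK c (ψ u)) * (M ψ * (C.labMom R x l T (fun u => (ψ u).1) *
          C.labMom R x l T (fun u => (ψ u).2)))| ≤ B * c ^ max T.size k := by
    intro ψ
    by_cases hz : parSel p (mult (fun u => (ψ u).1) v0) * parSel q (mult (fun u => (ψ u).2) v0) *
        (∏ u, labK c (ψ u)) * (M ψ * (C.labMom R x l T (fun u => (ψ u).1) *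
          C.labMom R x l T (fun u => (ψ u).2))) = 0
    · rw [hz, abs_zero]; positivity
    simp only [mul_eq_zero, not_or] at hz
    obtain ⟨⟨⟨hp, hq⟩, hk0⟩, -, hQ1, hQ2⟩ := hz
    have hnn : ∀ u, ¬((ψ u).1 = none ∧ (ψ u).2 = none) := fun u h =>
      hk0 (prod_eq_zero (mem_univ u) (if_pos h))
    set s1 := univ.filter fun u => (ψ u).1 ≠ none
    set s2 := univ.filter fun u => (ψ u).2 ≠ none
    have hprod : |∏ u, labK c (ψ u)| = c ^ (s1.card + s2.card) := by
      rw [abs_prod, pow_add, ← prod_const c, ← prod_const c, prod_filter, prod_filter,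
        ← prod_mul_distrib]
      refine prod_congr rfl fun u _ => ?_
      rw [labK, if_neg (hnn u), abs_neg, abs_mul]
      rcases h1 : (ψ u).1 with _ | v <;> rcases h2 : (ψ u).2 with _ | w <;>
        simp [labC, abs_of_nonneg hc]
    have hm : T.size ≤ s1.card + s2.card := by
      refine le_trans ?_ (card_union_le s1 s2)
      refine le_of_eq_of_le (card_univ).symm (card_le_card fun u _ => ?_)
      by_contra h
      simp only [s1, s2, mem_union, mem_filter, mem_univ, true_and, not_or, ne_eq, not_not] at h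
      exact hnn u h
    have hp' : (if p then C.n else 0) ≤ s1.card := by
      cases p with
      | false => simp
      | true =>
        have ho : Odd (mult (fun u => (ψ u).1) v0) := by
          by_contra h; exact hp (by simp [parSel, h])
        exact le_card_some fun v => C.labMom_parity hR hx hd T hlev hQ1 ho v
    have hq' : (if q then C.n else 0) ≤ s2.card := by
      cases q with
      | false => simp
      | true =>
        have ho : Odd (mult (fun u => (ψ u).2) v0) := by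
          by_contra h; exact hq (by simp [parSel, h])
        exact le_card_some fun v => C.labMom_parity hR hx hd T hlev hQ2 ho v
    have hdeg : max T.size k ≤ s1.card + s2.card :=
      max_le hm (hk.trans (max_le hm (Nat.add_le_add hp' hq')))
    rw [abs_mul, abs_mul, abs_mul, hprod, abs_mul (M ψ), abs_mul (C.labMom R x l T _)]
    refine (mul_le_mul (mul_le_mul (mul_le_one₀ (abs_parSel _ _) (abs_nonneg _) (abs_parSel _ _))
      (pow_le_pow_of_le_one hc hc1 hdeg) (pow_nonneg hc _) zero_le_one)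
      (mul_le_mul (hM ψ) (mul_le_one₀ (Cons.abs_labMom_le hR hx T _) (abs_nonneg _)
        (Cons.abs_labMom_le hR hx T _)) (by positivity) hB) (by positivity) (by positivity)).trans_eq ?_
    ring
  rw [Cons.part2, abs_mul, abs_of_nonneg hw, mul_left_comm _ (Tree.weight x d l T)]
  refine mul_le_mul_of_nonneg_left ?_ hw
  refine (abs_sum_le_sum_abs _ _).trans ((sum_le_card_nsmul _ _ _ fun ψ _ => hterm ψ).trans ?_)
  have hcard : (univ : Finset (Leaves d T → Lab2 C.n)).card = ((C.n + 1) * (C.n + 1)) ^ T.size := by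
    simp [Tree.size, Lab2]
  rw [hcard, nsmul_eq_mul]
  push_cast
  rw [← sq, mul_left_comm, mul_assoc B]
  refine mul_le_mul_of_nonneg_left ?_ hB
  exact pow_scale (one_le_pow₀ (by linarith [Nat.cast_nonneg (α := ℝ) C.n])) hc hqc T.size k

/-- The moments of the labels of two probes. -/
noncomputable def Sys.mom2 (S : Sys Ω) {n : ℕ} (a b : (ℕ → Ω) → ℝ) {d : ℕ} (l : ℕ) (T : Tree d)
    (ω : ℕ → Ω) (ψ : Leaves d T → Lab2 n) : ℝ :=
  S.mom d l T (fun u v => labObs a (ψ u).1 v * labObs b (ψ u).2 v) ω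

lemma Sys.abs_mom2_le (hS : S.Good) {n : ℕ} {a b : (ℕ → Ω) → ℝ} (ha : Obs S a) (hb : Obs S b)
    {d l : ℕ} (T : Tree d) (ω : ℕ → Ω) (ψ : Leaves d T → Lab2 n) : |S.mom2 a b l T ω ψ| ≤ 1 :=
  (Sys.mom_abs_le hS T (fun u => (labObs_bdd ha _).1.mul (labObs_bdd hb _).1)
    (fun u v => by
      rw [abs_mul]
      exact mul_le_one₀ ((labObs_bdd ha _).2 v) (abs_nonneg _) ((labObs_bdd hb _).2 v)) ω).trans_eq
    prod_const_one

lemma signMom_pair {C : Cons} {R : ℕ} (hR : 0 < R) {x : ℕ → ℝ} (hx : Expo R x) {d l : ℕ}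
    (hd : l + d = R) (T : Tree d) (ψ : Leaves d T → Lab2 C.n) :
    (signSys R x (Slot C.n × Slot C.n)).mom d l T
        (fun u s => C.featureO (ψ u).1 (fun i => (s i).1) * C.featureO (ψ u).2 fun i => (s i).2)
        (fun _ => (fun _ => false, fun _ => false)) =
      C.labMom R x l T (fun u => (ψ u).1) * C.labMom R x l T (fun u => (ψ u).2) := by
  have h := Sys.mom_prod (S' := signSys R x (Slot C.n)) (signSys_good (α := Slot C.n) hR hx)
    (signSys_good (α := Slot C.n) hR hx) rfl rfl hd T (g := fun u => C.featureO (ψ u).1)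
    (g' := fun u => C.featureO (ψ u).2) (fun u => C.featureO_bdd _) (fun u => C.featureO_bdd _)
    fun _ => (fun _ => false, fun _ => false)
  rw [signSys_prod] at h
  exact h

/-- The sum of a parity part over all trees. -/
lemma Sys.hasSum_part2 (hS : S.Good) {C : Cons} {c : ℝ} (hc : 0 ≤ c) (hc1 : c ≤ 1)
    (hqc : ((C.n : ℝ) + 1) ^ 2 * c ≤ 1 / 2) {a b : (ℕ → Ω) → ℝ} (ha : Obs S a) (hb : Obs S b)
    {d l : ℕ} (h1 : 1 ≤ l) (hd : l + d = S.R)
    (hlev : ∀ v w, v < w → l < C.lev v w ∧ C.lev v w ≤ S.R) (v0 : Fin C.n) (p q : Bool)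
    (ω : ℕ → Ω) :
    Summable fun T : Tree d => C.part2 S.R S.x c v0 l T p q (S.mom2 a b l T ω) := by
  obtain ⟨v, -, hs⟩ := Sys.half_pow_sum hS h1 hd
  refine Summable.of_norm_bounded (hs.summable.mul_left (1 * 1)) fun T => ?_
  rw [Real.norm_eq_abs, ← pow_zero (2 * ((C.n : ℝ) + 1) ^ 2 * c)]
  exact Cons.abs_part2_le hS.R_pos hS.expo hc hc1 hqc h1 hd hlev v0 T p q zero_le_one
    (Sys.abs_mom2_le hS ha hb T ω) (Nat.zero_le _)

/-- The sum of a parity part. -/
noncomputable def Sys.partSum (S : Sys Ω) (C : Cons) (c : ℝ) (a b : (ℕ → Ω) → ℝ) (v0 : Fin C.n)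
    (d l : ℕ) (p q : Bool) (ω : ℕ → Ω) : ℝ :=
  ∑' T : Tree d, C.part2 S.R S.x c v0 l T p q (S.mom2 a b l T ω)

lemma Sys.abs_partSum_le (hS : S.Good) {C : Cons} {c : ℝ} (hc : 0 ≤ c) (hc1 : c ≤ 1)
    (hqc : ((C.n : ℝ) + 1) ^ 2 * c ≤ 1 / 2) {a b : (ℕ → Ω) → ℝ} (ha : Obs S a) (hb : Obs S b)
    {d l : ℕ} (h1 : 1 ≤ l) (hd : l + d = S.R)
    (hlev : ∀ v w, v < w → l < C.lev v w ∧ C.lev v w ≤ S.R) (v0 : Fin C.n) (p q : Bool)
    (ω : ℕ → Ω) :
    |S.partSum C c a b v0 d l p q ω| ≤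
      (2 * ((C.n : ℝ) + 1) ^ 2 * c) ^ parDeg C.n p q := by
  refine Sys.abs_le_of_half hS h1 hd
    (Sys.hasSum_part2 hS hc hc1 hqc ha hb h1 hd hlev v0 p q ω).hasSum (by positivity) fun T => ?_
  simpa using Cons.abs_part2_le hS.R_pos hS.expo hc hc1 hqc h1 hd hlev v0 T p q zero_le_one
    (Sys.abs_mom2_le hS ha hb T ω) (le_max_right _ _)

lemma Sys.abs_partSum_add_le (hS : S.Good) {C : Cons} {c : ℝ} (hc : 0 ≤ c) (hc1 : c ≤ 1)
    (hqc : ((C.n : ℝ) + 1) ^ 2 * c ≤ 1 / 2) {a b : (ℕ → Ω) → ℝ} (ha : Obs S a) (hb : Obs S b)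
    {d l : ℕ} (h1 : 1 ≤ l) (hd : l + d = S.R)
    (hlev : ∀ v w, v < w → l < C.lev v w ∧ C.lev v w ≤ S.R) (v0 : Fin C.n) (p q : Bool)
    {V : (ℕ → Ω) → ℝ} (hV : Bdd V) (hVd : DependsTo V S.R) {ε : ℝ} (hε1 : ε ≤ 1)
    (hVε : ∀ v, |V v| ≤ ε) (ω : ℕ → Ω) :
    |(S.add V).partSum C c a b v0 d l p q ω - S.partSum C c a b v0 d l p q ω| ≤
      (16 * parDeg C.n p q * S.R + 4 * ((C.n : ℝ) + 1) ^ 2) * (ε + c) *
        (2 * ((C.n : ℝ) + 1) ^ 2 * c) ^ parDeg C.n p q := by
  have hS' := Sys.add_good hS hV hVd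
  have hε : 0 ≤ ε := (abs_nonneg _).trans (hVε ω)
  have ha' : Obs (S.add V) a := ha
  have hb' : Obs (S.add V) b := hb
  set k := parDeg C.n p q
  set Q := ((C.n : ℝ) + 1) ^ 2
  have hdiff : ∀ T : Tree d,
      C.part2 S.R S.x c v0 l T p q ((S.add V).mom2 a b l T ω) -
        C.part2 S.R S.x c v0 l T p q (S.mom2 a b l T ω) =
      C.part2 S.R S.x c v0 l T p q fun ψ => (S.add V).mom2 a b l T ω ψ - S.mom2 a b l T ω ψ := by
    intro T
    simp only [Cons.part2]
    rw [← mul_sub, ← Finset.sum_sub_distrib]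
    congr 1
    exact Finset.sum_congr rfl fun ψ _ => by ring
  have hs := ((Sys.hasSum_part2 hS' hc hc1 hqc ha' hb' h1 hd hlev v0 p q ω).hasSum.sub
    (Sys.hasSum_part2 hS hc hc1 hqc ha hb h1 hd hlev v0 p q ω).hasSum).congr_fun
      fun T => (hdiff T).symm
  refine Sys.abs_le_of_half hS h1 hd hs (by positivity) fun T => ?_
  have hw : 0 ≤ Tree.weight S.x d l T * (1 / 2 : ℝ) ^ T.size :=
    mul_nonneg (Sys.weight_nonneg hS h1 hd T) (by positivity)
  by_cases hm : T.size ≤ k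
  · have hΔ : ∀ ψ : Leaves d T → Lab2 C.n,
        |(S.add V).mom2 a b l T ω ψ - S.mom2 a b l T ω ψ| ≤ 16 * k * S.R * ε := fun ψ => by
      refine (Sys.mom_add_le hS hV hVd hε1 hVε hd T
        (fun u => (labObs_bdd ha _).1.mul (labObs_bdd hb _).1) (fun u v => by
          rw [abs_mul]
          exact mul_le_one₀ ((labObs_bdd ha _).2 v) (abs_nonneg _) ((labObs_bdd hb _).2 v))
        ω).trans ?_
      have h2 : (T.size : ℝ) * d ≤ k * S.R := by
        have : d ≤ S.R := by omega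
        gcongr
      nlinarith
    refine (Cons.abs_part2_le hS.R_pos hS.expo hc hc1 hqc h1 hd hlev v0 T p q (by positivity) hΔ
      (le_max_right T.size _)).trans ?_
    refine mul_le_mul_of_nonneg_right (mul_le_mul_of_nonneg_right ?_ (by positivity)) hw
    have : 0 ≤ 16 * (k : ℝ) * S.R * c + 4 * Q * (ε + c) := by positivity
    linarith
  · have hΔ : ∀ ψ : Leaves d T → Lab2 C.n,
        |(S.add V).mom2 a b l T ω ψ - S.mom2 a b l T ω ψ| ≤ 2 := fun ψ =>
      (abs_sub _ _).trans ((add_le_add (Sys.abs_mom2_le hS' ha' hb' T ω ψ)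
        (Sys.abs_mom2_le hS ha hb T ω ψ)).trans_eq one_add_one_eq_two)
    refine (Cons.abs_part2_le hS.R_pos hS.expo hc hc1 hqc h1 hd hlev v0 T p q zero_le_two hΔ
      (k := k + 1) (le_max_of_le_left (by omega))).trans ?_
    refine mul_le_mul_of_nonneg_right ?_ hw
    rw [pow_succ', ← mul_assoc]
    refine mul_le_mul_of_nonneg_right ?_ (by positivity)
    have : 0 ≤ 16 * (k : ℝ) * S.R * (ε + c) + 4 * Q * ε := by positivity
    linarith

/-- The terms of two probes. -/
noncomputable def Sys.twoTerm (S : Sys Ω) (C : Cons) (c : ℝ) (a b : (ℕ → Ω) → ℝ) (v0 : Fin C.n)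
    {d : ℕ} (l : ℕ) (T : Tree d) (η η' : Bool) (ω : ℕ → Ω) : ℝ :=
  Tree.weight S.x d l T * ∑ ψ : Leaves d T → Lab2 C.n,
    spin η ^ mult (fun u => (ψ u).1) v0 * spin η' ^ mult (fun u => (ψ u).2) v0 *
      (∏ u, labK c (ψ u)) * (S.mom2 a b l T ω ψ * (C.labMom S.R S.x l T (fun u => (ψ u).1) *
        C.labMom S.R S.x l T (fun u => (ψ u).2)))

lemma parSel_combo (p q : Bool) (N N' : ℕ) :
    parSel p N * parSel q N' =
      ((spin true ^ N + (if p then -1 else 1) * spin false ^ N) / 2) *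
        ((spin true ^ N' + (if q then -1 else 1) * spin false ^ N') / 2) := by
  have h : ∀ (p : Bool) (N : ℕ),
      parSel p N = (spin true ^ N + (if p then -1 else 1) * spin false ^ N) / 2 := by
    intro p N
    rcases Nat.even_or_odd N with h | h
    · cases p <;> simp [parSel, Nat.not_odd_iff_even.2 h, spin, h.neg_one_pow]
    · cases p <;> simp [parSel, h, spin, h.neg_one_pow]
  rw [h p N, h q N']

/-- The parity parts are combinations of the four signs. -/
lemma Sys.part2_combo (C : Cons) (c : ℝ) (a b : (ℕ → Ω) → ℝ) (v0 : Fin C.n) {d : ℕ} (l : ℕ)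
    (T : Tree d) (p q : Bool) (ω : ℕ → Ω) :
    C.part2 S.R S.x c v0 l T p q (S.mom2 a b l T ω) =
      (S.twoTerm C c a b v0 l T true true ω +
        (if q then -1 else 1) * S.twoTerm C c a b v0 l T true false ω +
        (if p then -1 else 1) * S.twoTerm C c a b v0 l T false true ω +
        (if p then -1 else 1) * (if q then -1 else 1) * S.twoTerm C c a b v0 l T false false ω) / 4 := by
  simp only [Cons.part2, Sys.twoTerm, mul_sum, ← sum_add_distrib, sum_div, parSel_combo]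
  exact sum_congr rfl fun ψ _ => by ring

lemma prod_labSign2 {n d : ℕ} {T : Tree d} (v0 : Fin n) (h0 : (v0 : ℕ) = 0) (η : Bool)
    (φ : Leaves d T → Option (Fin n)) :
    ∏ u, (φ u).elim 1 (labSign η) = spin η ^ mult φ v0 := by
  have e : ∀ u, (φ u).elim 1 (labSign η) = if φ u = some v0 then spin η else 1 := fun u => by
    rcases h : φ u with _ | v
    · simp
    · simp [labSign, Fin.ext_iff, h0]
  simp only [e, prod_ite, prod_const, one_pow, mul_one, mult]

/-- The sum over the pairs of labels is minus the excess of the product of the two gadgets. -/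
lemma Cons.label_sum (C : Cons) (c : ℝ) (η η' : Bool) (σ σ' : ℝ) (s s' : ℕ → Slot C.n)
    (o o' : Option (Fin C.n) → ℝ) (h0 : o none = 1) (h0' : o' none = 1)
    (h : ∀ v, o (some v) = σ) (h' : ∀ v, o' (some v) = σ') :
    ∑ i : Lab2 C.n, labK c i * ((i.1).elim 1 (labSign η) * (i.2).elim 1 (labSign η')) *
        ((o i.1 * o' i.2) * (C.featureO i.1 s * C.featureO i.2 s')) =
      -(C.gadget c η σ s + C.gadget c η' σ' s' + C.gadget c η σ s * C.gadget c η' σ' s') := by
  set A := fun i : Option (Fin C.n) => labC c i * i.elim 1 (labSign η) * o i * C.featureO i s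
  set B := fun i : Option (Fin C.n) => labC c i * i.elim 1 (labSign η') * o' i * C.featureO i s'
  have e : ∀ i : Lab2 C.n, labK c i * ((i.1).elim 1 (labSign η) * (i.2).elim 1 (labSign η')) *
      ((o i.1 * o' i.2) * (C.featureO i.1 s * C.featureO i.2 s')) =
      (if i = (none, none) then (1 : ℝ) else 0) + -(A i.1 * B i.2) := by
    rintro ⟨i, j⟩
    rcases i with _ | v <;> rcases j with _ | w <;>
      simp [A, B, labK, labC, h0, h0', Cons.featureO] <;> ring
  have hA : ∑ i, A i = 1 + C.gadget c η σ s := by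
    rw [Fintype.sum_option, Cons.gadget, mul_sum]
    simp only [A, labC, Cons.featureO, Option.elim_none, Option.elim_some, h0, h, mul_one]
    exact congrArg _ (sum_congr rfl fun v _ => by simp only [labSign]; ring)
  have hB : ∑ i, B i = 1 + C.gadget c η' σ' s' := by
    rw [Fintype.sum_option, Cons.gadget, mul_sum]
    simp only [B, labC, Cons.featureO, Option.elim_none, Option.elim_some, h0', h', mul_one]
    exact congrArg _ (sum_congr rfl fun v _ => by simp only [labSign]; ring)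
  simp only [e, sum_add_distrib, sum_ite_eq', mem_univ, if_true,
    sum_neg_distrib, Fintype.sum_prod_type, ← mul_sum, ← sum_mul, hA, hB]
  ring

lemma Cons.featurePair_bdd (C : Cons) (i : Lab2 C.n) :
    Bdd fun s : ℕ → Slot C.n × Slot C.n =>
      C.featureO i.1 (fun j => (s j).1) * C.featureO i.2 fun j => (s j).2 := by
  have m1 : Measurable fun (s : ℕ → Slot C.n × Slot C.n) (j : ℕ) => (s j).1 :=
    measurable_pi_lambda _ fun j => (measurable_pi_apply j).fst
  have m2 : Measurable fun (s : ℕ → Slot C.n × Slot C.n) (j : ℕ) => (s j).2 :=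
    measurable_pi_lambda _ fun j => (measurable_pi_apply j).snd
  exact Bdd.mul (Bdd.comp (C.featureO_bdd i.1) m1) (Bdd.comp (C.featureO_bdd i.2) m2)

lemma Sys.mom_two (hS : S.Good) (C : Cons) (c : ℝ) (a b : (ℕ → Ω) → ℝ) (ha : Obs S a) (hb : Obs S b)
    (v0 : Fin C.n) (h0 : (v0 : ℕ) = 0) {d l : ℕ} (hd : l + d = S.R) (η η' : Bool) (T : Tree d)
    (ω : ℕ → Ω) :
    (S.prod (signSys S.R S.x (Slot C.n × Slot C.n))).mom d l T
        (fun _ p => ∑ i : Lab2 C.n,
          labK c i * ((i.1).elim 1 (labSign η) * (i.2).elim 1 (labSign η')) *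
            ((labObs a i.1 (fun j => (p j).1) * labObs b i.2 fun j => (p j).1) *
              (C.featureO i.1 (fun j => (p j).2.1) * C.featureO i.2 fun j => (p j).2.2)))
        (fun j => (ω j, (fun _ => false, fun _ => false))) =
      ∑ ψ : Leaves d T → Lab2 C.n,
        spin η ^ mult (fun u => (ψ u).1) v0 * spin η' ^ mult (fun u => (ψ u).2) v0 *
          (∏ u, labK c (ψ u)) * (S.mom2 a b l T ω ψ *
            (C.labMom S.R S.x l T (fun u => (ψ u).1) * C.labMom S.R S.x l T (fun u => (ψ u).2))) := by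
  have e := Sys.mom_label (α := Slot C.n × Slot C.n) hS (Λ := Lab2 C.n)
    (fun i : Lab2 C.n => labK c i * ((i.1).elim 1 (labSign η) * (i.2).elim 1 (labSign η')))
    (o := fun i v => labObs a i.1 v * labObs b i.2 v)
    (f := fun i s => C.featureO i.1 (fun j => (s j).1) * C.featureO i.2 fun j => (s j).2)
    (fun i => (labObs_bdd ha _).1.mul (labObs_bdd hb _).1) C.featurePair_bdd hd T ω
    fun _ => (fun _ => false, fun _ => false)
  refine e.trans (sum_congr rfl fun ψ _ => ?_)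
  simp only [prod_mul_distrib, prod_labSign2 v0 h0, signMom_pair hS.R_pos hS.expo hd T ψ, Sys.mom2]
  ring

lemma Sys.hasSum_twoTerm (hS : S.Good) {C : Cons} {c : ℝ} (hc : 0 ≤ c)
    (hnc : (C.n : ℝ) * c ≤ 1 / 4) {a b : (ℕ → Ω) → ℝ} (ha : Obs S a) (hb : Obs S b) (v0 : Fin C.n)
    (h0 : (v0 : ℕ) = 0) {d l : ℕ} (h1 : 1 ≤ l) (hd : l + d = S.R) (η η' : Bool) (ω : ℕ → Ω) :
    ∃ y, HasSum (fun T : Tree d => S.twoTerm C c a b v0 l T η η' ω) y ∧ |y| ≤ 3 * (C.n * c) ∧
      S.x l * S.probe2 C c a b η η' l ω = Real.log (1 - y) := by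
  set ga := fun p : ℕ → Ω × (Slot C.n × Slot C.n) =>
    C.gadget c η (a fun i => (p i).1) fun i => (p i).2.1
  set gb := fun p : ℕ → Ω × (Slot C.n × Slot C.n) =>
    C.gadget c η' (b fun i => (p i).1) fun i => (p i).2.2
  set z := fun p => ga p + gb p + ga p * gb p
  have hga : Bdd ga := C.gadget_bdd c η ha.1 (π := Prod.fst) measurable_fst
  have hgb : Bdd gb := C.gadget_bdd c η' hb.1 (π := Prod.snd) measurable_snd
  have ba : ∀ p, |ga p| ≤ C.n * c := fun p => C.abs_gadget_le hc η (ha.2.2 _) _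
  have bb : ∀ p, |gb p| ≤ C.n * c := fun p => C.abs_gadget_le hc η' (hb.2.2 _) _
  have hn0 : 0 ≤ (C.n : ℝ) * c := by positivity
  have hz : ∀ p, |z p| ≤ 3 * (C.n * c) := fun p => by
    refine (abs_add_le _ _).trans ?_
    have h3 := abs_add_le (ga p) (gb p)
    rw [abs_mul]
    nlinarith [mul_le_mul (ba p) (bb p) (abs_nonneg _) hn0, ba p, bb p]
  obtain ⟨y, hy, hyb, hlog⟩ := Sys.val_log (prodSign_good (α := Slot C.n × Slot C.n) hS)
    ((hga.add hgb).add (hga.mul hgb)) (by positivity : 0 ≤ 3 * ((C.n : ℝ) * c)) (by linarith) hz h1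
    hd (fun i => (ω i, (fun _ => false, fun _ => false)))
  obtain rfl : d = S.R - l := by omega
  refine ⟨y, hy.congr_fun fun T => ?_, hyb, ?_⟩
  · show _ = Tree.weight S.x _ l T * _
    rw [Sys.twoTerm]
    congr 1
    refine Eq.trans ?_ ((Sys.mom_two hS C c a b ha hb v0 h0 hd η η' T ω).symm.trans ?_)
    · rfl
    refine congrArg (fun g => (S.prod (signSys S.R S.x (Slot C.n × Slot C.n))).mom _ l T g _) ?_
    funext u p
    exact C.label_sum c η η' (a fun j => (p j).1) (b fun j => (p j).1) (fun j => (p j).2.1)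
      (fun j => (p j).2.2) (labObs a · fun j => (p j).1) (labObs b · fun j => (p j).1)
      rfl rfl (fun v => rfl) (fun v => rfl)
  · rw [← hlog]
    unfold Sys.probe2
    show S.x l * _ = S.x l * _
    congr 2
    funext p
    have hgp : -(1 / 4 : ℝ) ≤ ga p := by linarith [(abs_le.1 (ba p)).1]
    have hgq : -(1 / 4 : ℝ) ≤ gb p := by linarith [(abs_le.1 (bb p)).1]
    show Real.log (1 + ga p) + Real.log (1 + gb p) = Real.log (1 + z p)
    rw [← Real.log_mul (by linarith) (by linarith)]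
    congr 1
    simp only [z]
    ring

/-- The mixed part to leading order. -/
lemma Sys.jay_approx (hS : S.Good) {C : Cons} {c : ℝ} (hc : 0 < c)
    (hqc : 128 * (((C.n : ℝ) + 1) ^ 2 * c) ≤ 1) {a b : (ℕ → Ω) → ℝ} (ha : Obs S a) (hb : Obs S b)
    {d l : ℕ} (h1 : 1 ≤ l) (hd : l + d = S.R)
    (hlev : ∀ v w, v < w → l < C.lev v w ∧ C.lev v w ≤ S.R) (v0 : Fin C.n) (h0 : (v0 : ℕ) = 0)
    (ω : ℕ → Ω) :
    |S.jay C c a b l ω * (S.x l * c ^ (2 * C.n)) +
        (S.partSum C c a b v0 d l true true ω +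
          S.partSum C c a b v0 d l true false ω * S.partSum C c a b v0 d l false true ω)| ≤
      1500 * C.n * ((2 * ((C.n : ℝ) + 1) ^ 2) ^ C.n) ^ 2 * (c * c ^ (2 * C.n)) := by
  have hn1 : (C.n : ℝ) ≤ ((C.n : ℝ) + 1) ^ 2 := by nlinarith [Nat.cast_nonneg (α := ℝ) C.n]
  have hq1 : (1 : ℝ) ≤ ((C.n : ℝ) + 1) ^ 2 :=
    one_le_pow₀ (by linarith [Nat.cast_nonneg (α := ℝ) C.n])
  have hnc : (C.n : ℝ) * c ≤ 1 / 128 := by nlinarith
  have hc1 : c ≤ 1 := by nlinarith
  have hqc' : ((C.n : ℝ) + 1) ^ 2 * c ≤ 1 / 2 := by linarith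
  obtain ⟨y₁, s₁, b₁, l₁⟩ :=
    Sys.hasSum_twoTerm hS hc.le (by linarith) ha hb v0 h0 h1 hd true true ω
  obtain ⟨y₂, s₂, b₂, l₂⟩ :=
    Sys.hasSum_twoTerm hS hc.le (by linarith) ha hb v0 h0 h1 hd true false ω
  obtain ⟨y₃, s₃, b₃, l₃⟩ :=
    Sys.hasSum_twoTerm hS hc.le (by linarith) ha hb v0 h0 h1 hd false true ω
  obtain ⟨y₄, s₄, b₄, l₄⟩ :=
    Sys.hasSum_twoTerm hS hc.le (by linarith) ha hb v0 h0 h1 hd false false ω
  have key : ∀ p q : Bool, S.partSum C c a b v0 d l p q ω = (y₁ + (if q then -1 else 1) * y₂ +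
      (if p then -1 else 1) * y₃ + (if p then -1 else 1) * (if q then -1 else 1) * y₄) / 4 := by
    intro p q
    refine (Sys.hasSum_part2 hS hc.le hc1 hqc' ha hb h1 hd hlev v0 p q ω).hasSum.unique ?_
    exact ((((s₁.add (s₂.mul_left _)).add (s₃.mul_left _)).add (s₄.mul_left _)).div_const 4).congr_fun
      fun T => Sys.part2_combo C c a b v0 l T p q ω
  have hb11 := Sys.abs_partSum_le hS hc.le hc1 hqc' ha hb h1 hd hlev v0 true true ω
  have hb10 := Sys.abs_partSum_le hS hc.le hc1 hqc' ha hb h1 hd hlev v0 true false ω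
  have hb01 := Sys.abs_partSum_le hS hc.le hc1 hqc' ha hb h1 hd hlev v0 false true ω
  simp only [parDeg, if_true, if_false, add_zero, zero_add, Bool.false_eq_true] at hb11 hb10 hb01
  set γ := S.partSum C c a b v0 d l true true ω with hγ
  set A := S.partSum C c a b v0 d l true false ω with hA
  set B := S.partSum C c a b v0 d l false true ω with hB
  have hmix := abs_log_mixed_le (γ := γ) (A := A) (B := B) b₁ b₂ b₃ b₄ (by linarith)
    (by rw [hγ, key]; simp; ring) (by rw [hA, key]; simp; ring) (by rw [hB, key]; simp; ring)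
  rw [← two_mul, mul_pow, mul_comm 2 C.n, pow_mul, pow_mul c C.n 2] at hb11
  rw [mul_pow] at hb10 hb01
  set P := (2 * ((C.n : ℝ) + 1) ^ 2) ^ C.n
  have hcn : 0 < c ^ C.n := pow_pos hc _
  have hsum : |γ| + |A| * |B| ≤ 2 * (P ^ 2 * (c ^ C.n) ^ 2) := by
    have := mul_le_mul hb10 hb01 (abs_nonneg B) (by positivity)
    linarith [show P * c ^ C.n * (P * c ^ C.n) = P ^ 2 * (c ^ C.n) ^ 2 by ring]
  have e : S.jay C c a b l ω * (S.x l * c ^ (2 * C.n)) + (γ + A * B) =
      (Real.log (1 - y₁) - Real.log (1 - y₂) - Real.log (1 - y₃) + Real.log (1 - y₄) +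
        4 * (γ + A * B)) / 4 := by
    rw [Sys.jay, ← l₁, ← l₂, ← l₃, ← l₄]
    have := (pow_pos hc (2 * C.n)).ne'
    field_simp
  rw [e, abs_div, abs_of_pos (by norm_num : (0 : ℝ) < 4), div_le_iff₀ (by norm_num),
    pow_mul' c 2]
  refine hmix.trans ?_
  have := mul_le_mul_of_nonneg_left hsum (show 0 ≤ 1000 * (3 * ((C.n : ℝ) * c)) by positivity)
  linarith

/-- Two probes: boundedness and stability of the mixed part. -/
theorem jay_bound (n R : ℕ) : ∃ K c₀ : ℝ, 0 < c₀ ∧ ∀ (Ω : Type) [MeasurableSpace Ω] (S : Sys Ω),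
    S.Good → S.R = R → S.x = gridExp R → ∀ C : Cons, C.n = n → C.Ok R → ∀ c, 0 < c → c ≤ c₀ →
    ∀ a b, Obs S a → Obs S b → ∀ l, 1 ≤ l → l ≤ R → l < C.first R → ∀ ω,
      |S.jay C c a b l ω| ≤ K ∧
      ∀ V, Bdd V → DependsTo V R → ∀ ε ≤ 1, (∀ v, |V v| ≤ ε) →
        |(S.add V).jay C c a b l ω - S.jay C c a b l ω| ≤ K * (ε + c) := by
  set q : ℝ := ((n : ℝ) + 1) ^ 2
  set P : ℝ := (2 * q) ^ n
  set L : ℝ := 32 * n * R + 4 * q
  refine ⟨R * (P ^ 2 * (2 + 3000 * n + 3 * L)), 1 / (128 * q), by positivity,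
    fun Ω _ S hS hR hx C hn hC c hc hc0 a b ha hb l h1 hl hf ω => ?_⟩
  subst hn hR
  obtain ⟨d, hd⟩ : ∃ d, l + d = S.R := ⟨S.R - l, by omega⟩
  have hqc : 128 * (q * c) ≤ 1 := by
    rw [le_div_iff₀ (by positivity)] at hc0; linarith
  have hq1 : 1 ≤ q := one_le_pow₀ (by linarith [Nat.cast_nonneg (α := ℝ) C.n])
  have hc1 : c ≤ 1 := by nlinarith
  have hqc' : q * c ≤ 1 / 2 := by linarith
  have hlev := Cons.lt_lev hC hf
  set v0 : Fin C.n := ⟨0, hC.1⟩
  have hcn : 0 < c ^ C.n := pow_pos hc _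
  have hc2 : c ^ (2 * C.n) = (c ^ C.n) ^ 2 := pow_mul' c 2 C.n
  have hxp := hS.x_pos l h1 hl
  have hxl : 1 ≤ (S.R : ℝ) * S.x l := by
    rw [hx, gridExp, mul_div_cancel₀ _ (Nat.cast_pos.2 hS.R_pos).ne']
    exact_mod_cast h1
  have hden : 0 < S.x l * c ^ (2 * C.n) := by positivity
  have conv : ∀ J K' : ℝ, 0 ≤ K' → |J * (S.x l * c ^ (2 * C.n))| ≤ K' * c ^ (2 * C.n) →
      |J| ≤ S.R * K' := by
    intro J K' hK h
    rw [abs_mul, abs_of_pos hden, ← mul_assoc] at h
    have h2 : |J| * S.x l ≤ K' := le_of_mul_le_mul_right h (by positivity)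
    have := mul_le_mul_of_nonneg_left h2 (Nat.cast_nonneg (α := ℝ) S.R)
    nlinarith [abs_nonneg J]
  have hj := Sys.jay_approx hS hc hqc ha hb h1 hd hlev v0 rfl ω
  have g1 := Sys.abs_partSum_le hS hc.le hc1 hqc' ha hb h1 hd hlev v0 true true ω
  have a1 := Sys.abs_partSum_le hS hc.le hc1 hqc' ha hb h1 hd hlev v0 true false ω
  have b1 := Sys.abs_partSum_le hS hc.le hc1 hqc' ha hb h1 hd hlev v0 false true ω
  simp only [parDeg, if_true, if_false, add_zero, zero_add, Bool.false_eq_true] at g1 a1 b1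
  rw [← two_mul, mul_pow, mul_comm 2 C.n, pow_mul, pow_mul c C.n 2] at g1
  rw [mul_pow] at a1 b1
  set γ := S.partSum C c a b v0 d l true true ω
  set A := S.partSum C c a b v0 d l true false ω
  set B := S.partSum C c a b v0 d l false true ω
  have hAB := mul_le_mul a1 b1 (abs_nonneg B) (by positivity)
  rw [show P * c ^ C.n * (P * c ^ C.n) = P ^ 2 * (c ^ C.n) ^ 2 by ring, ← abs_mul] at hAB
  rw [hc2] at hj
  have hP : 0 ≤ P ^ 2 := sq_nonneg _
  have hL : 0 ≤ L := by positivity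
  have hsmall : 1500 * (C.n : ℝ) * P ^ 2 * (c * (c ^ C.n) ^ 2) ≤
      1500 * C.n * P ^ 2 * (c ^ C.n) ^ 2 :=
    mul_le_mul_of_nonneg_left (mul_le_of_le_one_left (sq_nonneg _) hc1) (by positivity)
  refine ⟨?_, fun V hV hVd ε hε1 hVε => ?_⟩
  · refine conv _ _ (by positivity) ?_
    rw [hc2]
    have h2 := abs_add_le γ (A * B)
    have h3 := abs_sub (S.jay C c a b l ω * (S.x l * (c ^ C.n) ^ 2) + (γ + A * B)) (γ + A * B)
    rw [add_sub_cancel_right] at h3
    have h4 : 0 ≤ (1500 * (C.n : ℝ) + 3 * L) * P ^ 2 * (c ^ C.n) ^ 2 := by positivity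
    linarith
  · have hε : 0 ≤ ε := (abs_nonneg _).trans (hVε ω)
    have hS' := Sys.add_good hS hV hVd
    have ha' : Obs (S.add V) a := ha
    have hb' : Obs (S.add V) b := hb
    have hj' : |(S.add V).jay C c a b l ω * (S.x l * c ^ (2 * C.n)) +
        ((S.add V).partSum C c a b v0 d l true true ω + (S.add V).partSum C c a b v0 d l true false ω *
          (S.add V).partSum C c a b v0 d l false true ω)| ≤
        1500 * C.n * P ^ 2 * (c * c ^ (2 * C.n)) :=
      Sys.jay_approx hS' hc hqc ha' hb' h1 hd hlev v0 rfl ω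
    have dg := Sys.abs_partSum_add_le hS hc.le hc1 hqc' ha hb h1 hd hlev v0 true true hV hVd hε1 hVε ω
    have da := Sys.abs_partSum_add_le hS hc.le hc1 hqc' ha hb h1 hd hlev v0 true false hV hVd hε1 hVε ω
    have db := Sys.abs_partSum_add_le hS hc.le hc1 hqc' ha hb h1 hd hlev v0 false true hV hVd hε1 hVε ω
    have b1' : |(S.add V).partSum C c a b v0 d l false true ω| ≤ P * c ^ C.n := by
      have := Sys.abs_partSum_le hS' hc.le hc1 hqc' ha' hb' h1 hd hlev v0 false true ω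
      simp only [parDeg, if_true, if_false, zero_add, Bool.false_eq_true] at this
      rwa [mul_pow] at this
    simp only [parDeg, if_true, if_false, add_zero, zero_add, Bool.false_eq_true, Nat.cast_add]
      at dg da db
    rw [← two_mul (C.n), mul_pow, mul_comm 2 C.n, pow_mul, pow_mul c C.n 2] at dg
    rw [mul_pow] at da db
    rw [hc2] at hj'
    refine (conv _ ((ε + c) * (P ^ 2 * (3 * L + 3000 * C.n))) (by positivity) ?_).trans ?_
    · set γ' := (S.add V).partSum C c a b v0 d l true true ω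
      set A' := (S.add V).partSum C c a b v0 d l true false ω
      set B' := (S.add V).partSum C c a b v0 d l false true ω
      have hAB' : |A' * B' - A * B| ≤ 2 * (L * (ε + c) * (P ^ 2 * (c ^ C.n) ^ 2)) := by
        have e : A' * B' - A * B = (A' - A) * B' + A * (B' - B) := by ring
        have hL' : 16 * (C.n : ℝ) * S.R + 4 * q ≤ L := by
          have : 0 ≤ 16 * (C.n : ℝ) * S.R := by positivity
          simp only [L]; linarith
        have t1 : |A' - A| ≤ L * (ε + c) * (P * c ^ C.n) := da.trans (by gcongr)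
        have t2 : |B' - B| ≤ L * (ε + c) * (P * c ^ C.n) := db.trans (by gcongr)
        have m1 := mul_le_mul t1 b1' (abs_nonneg B') (by positivity)
        have m2 := mul_le_mul a1 t2 (abs_nonneg _) (by positivity)
        rw [e]
        refine (abs_add_le _ _).trans ?_
        rw [abs_mul, abs_mul]
        linarith
      rw [hc2]
      have h2 := abs_add_le (γ' - γ) (A' * B' - A * B)
      have e : ((S.add V).jay C c a b l ω - S.jay C c a b l ω) * (S.x l * (c ^ C.n) ^ 2) =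
          ((S.add V).jay C c a b l ω * (S.x l * (c ^ C.n) ^ 2) + (γ' + A' * B')) -
            (S.jay C c a b l ω * (S.x l * (c ^ C.n) ^ 2) + (γ + A * B)) -
              ((γ' - γ) + (A' * B' - A * B)) := by ring
      rw [e]
      refine (abs_sub _ _).trans ((add_le_add (abs_sub _ _) h2).trans ?_)
      have h4 : 0 ≤ 3000 * (C.n : ℝ) * P ^ 2 * (ε * (c ^ C.n) ^ 2) := by positivity
      simp only [L] at *
      linarith
    · have : 0 ≤ (S.R : ℝ) * (ε + c) * P ^ 2 * 2 := by positivity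
      linarith

/-! Symmetry and the top level -/

/-- A nested evaluation read through a measure preserving change of variables. -/
lemma Sys.val_map {Ω' : Type} [MeasurableSpace Ω'] {S' : Sys Ω'} (hS : S.Good) (hS' : S'.Good)
    {π : Ω → Ω'} (hπ : Measurable π) (hμ : S.μ.map π = S'.μ) (hR : S'.R = S.R) (hx : S'.x = S.x)
    (hH : ∀ ω, S.H ω = S'.H fun i => π (ω i)) (ξ : ℕ → ℝ) {F : (ℕ → Ω') → ℝ} (hF : Bdd F)
    (d : ℕ) : ∀ (l : ℕ) (ω : ℕ → Ω),
      S.val ξ (fun p => F fun i => π (p i)) d l ω = S'.val ξ F d l fun i => π (ω i) := by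
  have hupd : ∀ (ω : ℕ → Ω) (k : ℕ) (e : Ω),
      (fun i => π (update ω k e i)) = update (fun i => π (ω i)) k (π e) := fun ω k e =>
    funext fun i => by by_cases h : i = k <;> simp [h]
  have hint : ∀ (ω : ℕ → Ω) (k : ℕ) {G : (ℕ → Ω') → ℝ}, Bdd G →
      ∫ e, G (fun i => π (update ω k e i)) ∂S.μ = ∫ e', G (update (fun i => π (ω i)) k e') ∂S'.μ := by
    intro ω k G hG
    simp only [hupd]
    rw [← hμ]
    exact (integral_map hπ.aemeasurable (f := fun e' => G (update (fun i => π (ω i)) k e'))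
      (hG.1.comp (measurable_update _)).aestronglyMeasurable).symm
  have hu : ∀ d ω, S.uUp d ω = S'.uUp d fun i => π (ω i) := by
    intro d
    induction d with
    | zero => exact hH
    | succ d ih =>
      intro ω
      simp only [Sys.uUp, hR, hx]
      rw [← hint ω (S.R - d) (G := fun v => Real.exp (S.x (S.R - d) * S'.uUp d v))
        ((Sys.uUp_bdd hS'.reg d).const_mul _).exp]
      simp only [ih]
  have hA : ∀ l {f : (ℕ → Ω') → ℝ}, Bdd f → ∀ ω,
      S.A l (fun p => f fun i => π (p i)) ω = S'.A l f fun i => π (ω i) := by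
    intro l f hf ω
    simp only [Sys.A, Sys.u, hu, hR, hx]
    have hw := ((Sys.uUp_bdd hS'.reg (S.R - (l + 1))).const_mul (S.x (l + 1))).exp
    rw [hint ω (l + 1) (G := fun v => Real.exp (S.x (l + 1) * S'.uUp (S.R - (l + 1)) v) * f v)
      (hw.mul hf), hint ω (l + 1) (G := fun v => Real.exp (S.x (l + 1) * S'.uUp (S.R - (l + 1)) v)) hw]
  induction d with
  | zero => intro l ω; rfl
  | succ d ih =>
    intro l ω
    simp only [Sys.val]
    rw [← hA l ((Sys.val_bdd hS' hF d (l + 1)).const_mul (ξ (l + 1))).exp ω]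
    simp only [ih]

theorem Sys.jay_symm (hS : S.Good) (C : Cons) {c : ℝ} (hc : 0 ≤ c) (hc' : (C.n : ℝ) * c ≤ 1 / 2)
    {a b : (ℕ → Ω) → ℝ} (ha : Obs S a) (hb : Obs S b) (l : ℕ) (ω : ℕ → Ω) :
    S.jay C c a b l ω = S.jay C c b a l ω := by
  set π : Ω × (Slot C.n × Slot C.n) → Ω × (Slot C.n × Slot C.n) := fun p => (p.1, p.2.swap) with hπd
  have hπ : Measurable π := measurable_fst.prodMk (measurable_swap.comp measurable_snd)
  have key : ∀ η η', S.probe2 C c a b η η' l ω = S.probe2 C c b a η' η l ω := by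
    intro η η'
    have hP := prodSign_good (α := Slot C.n × Slot C.n) hS
    have hμ : (S.prod (signSys S.R S.x (Slot C.n × Slot C.n))).μ.map π =
        (S.prod (signSys S.R S.x (Slot C.n × Slot C.n))).μ := by
      have := hS.prob
      show (S.μ.prod (finLaw (Slot C.n × Slot C.n))).map (Prod.map id Prod.swap) = _
      rw [← Measure.map_prod_map S.μ _ measurable_id measurable_swap, Measure.map_id,
        ← finLaw_prod, Measure.prod_swap, finLaw_prod]
      rfl
    have hlog : ∀ (η : Bool) {a : (ℕ → Ω) → ℝ}, Obs S a → ∀ {π' : Slot C.n × Slot C.n → Slot C.n},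
        Measurable π' → Bdd fun p : ℕ → Ω × (Slot C.n × Slot C.n) =>
          Real.log (1 + C.gadget c η (a fun i => (p i).1) fun i => π' (p i).2) :=
      fun η a ha π' hπ' => bdd_log_one_add (C.gadget_bdd c η ha.1 hπ') (by linarith : (C.n : ℝ) * c < 1)
        fun p => C.abs_gadget_le hc η (ha.2.2 _) _
    have hv := Sys.val_map hP hP hπ hμ rfl rfl (fun p => by simp [Sys.prod, signSys, hπd]) S.x
      ((hlog η ha measurable_fst).add (hlog η' hb measurable_snd)) (S.R - l) l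
      (fun i => (ω i, (fun _ => false, fun _ => false)))
    refine hv.symm.trans ?_
    unfold Sys.probe2
    congr 1
    funext p
    exact add_comm _ _
  simp only [Sys.jay, key]
  ring

theorem Sys.jay_top (hS : S.Good) {C : Cons} (hn : C.n = 1) {c : ℝ} (hc : 0 < c) (hc' : c < 1)
    {a b : (ℕ → Ω) → ℝ} (ha : Obs S a) (hb : Obs S b) (ω : ℕ → Ω) :
    S.jay C c a b S.R ω = 0 := by
  simp only [Sys.jay, Sys.probe2, Nat.sub_self, Sys.val]
  ring

end Vale.Agent.P168
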