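import Vale.Agent.P168.GadgetMom

/-!
Sign moments of labelled trees: the parity of the labels and the constraint of a bijective
labelling.
-/

set_option linter.unusedVariables false
set_option linter.unusedSectionVars false

namespace Vale.Agent.P168

open MeasureTheory Finset Function

lemma Cons.first_le (C : Cons) (R : ℕ) {v w : Fin C.n} (h : v < w) : C.first R ≤ C.lev v w :=
  min'_le _ _ (mem_insert_of_mem (mem_image.2 ⟨(v, w), by simp [h], rfl⟩))

lemma Cons.lt_lev {C : Cons} {R l : ℕ} (hC : C.Ok R) (hl : l < C.first R) :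
    ∀ v w, v < w → l < C.lev v w ∧ C.lev v w ≤ R :=
  fun v w h => ⟨hl.trans_le (C.first_le R h), (hC.2 v w h).2⟩

/-- Whether a pair of leaves puts a sign at a label. -/
def hit {n : ℕ} (i : Option (Fin n)) (p : Fin n × Fin n) : Bool :=
  decide (p.1 < p.2 ∧ (i = some p.1 ∨ i = some p.2))

/-- The signs of a label: none for the empty label. -/
def Cons.featureO (C : Cons) (i : Option (Fin C.n)) (s : ℕ → Slot C.n) : ℝ :=
  i.elim 1 fun v => C.feature v s

/-- The factor of one slot in the signs of a label. -/
def Cons.slotObs (C : Cons) (i : Option (Fin C.n)) :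
    Option (Fin C.n × Fin C.n) → (ℕ → Bool) → ℝ
  | none, _ => 1
  | some p, q => if hit i p then spin (q (C.lev p.1 p.2)) else 1

lemma Cons.featureO_eq (C : Cons) (i : Option (Fin C.n)) (s : ℕ → Slot C.n) :
    C.featureO i s = ∏ o, C.slotObs i o fun j => s j o := by
  rw [Fintype.prod_option]
  simp only [Cons.slotObs, one_mul]
  cases i with
  | none => simp [Cons.featureO, hit]
  | some v =>
    have e : ∀ a b : Fin C.n,
        (if hit (some v) (a, b) then spin (s (C.lev a b) (some (a, b))) else 1) =
          (if a = v then (if v < b then spin (s (C.lev v b) (some (v, b))) else 1) else 1) *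
            (if b = v then (if a < v then spin (s (C.lev a v) (some (a, v))) else 1) else 1) := by
      intro a b
      by_cases ha : a = v <;> by_cases hb : b = v
      · subst ha; subst hb; simp [hit]
      · subst ha
        by_cases h : a < b <;> simp [hit, hb, h, Ne.symm hb]
      · subst hb
        by_cases h : a < b <;> simp [hit, ha, h, Ne.symm ha]
      · simp [hit, ha, hb, Ne.symm ha, Ne.symm hb]
    simp only [Cons.featureO, Option.elim_some, Fintype.prod_prod_type, e, prod_mul_distrib,
      prod_ite_eq', mem_univ, if_true]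
    rw [Fintype.prod_eq_single v fun a ha => by simp [ha]]
    simp only [if_true, ← prod_mul_distrib, Cons.feature]
    refine prod_congr rfl fun w _ => ?_
    by_cases h1 : v < w
    · simp [h1, h1.asymm]
    · by_cases h2 : w < v <;> simp [h1, h2]

lemma Cons.abs_featureO_le (C : Cons) (i : Option (Fin C.n)) (s : ℕ → Slot C.n) :
    |C.featureO i s| ≤ 1 := by
  rw [C.featureO_eq, abs_prod]
  refine prod_le_one (fun o _ => abs_nonneg _) fun o _ => ?_
  cases o with
  | none => simp [Cons.slotObs]
  | some p => simp only [Cons.slotObs]; split_ifs <;> simp [abs_spin_eq_one]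

lemma Cons.slotObs_bdd (C : Cons) (i : Option (Fin C.n)) (o : Option (Fin C.n × Fin C.n)) :
    Bdd (C.slotObs i o) := by
  cases o with
  | none => exact bdd_const 1
  | some p =>
    by_cases h : hit i p
    · rw [show C.slotObs i (some p) = fun q => spin (q (C.lev p.1 p.2)) from
        funext fun q => by simp [Cons.slotObs, h]]
      exact ⟨(measurable_of_countable spin).comp (measurable_pi_apply _), 1,
        fun q => (abs_spin_eq_one _).le⟩
    · rw [show C.slotObs i (some p) = fun _ => 1 from funext fun q => by simp [Cons.slotObs, h]]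
      exact bdd_const 1

lemma Cons.featureO_bdd (C : Cons) (i : Option (Fin C.n)) : Bdd (C.featureO i) := by
  refine ⟨?_, 1, C.abs_featureO_le i⟩
  rw [show C.featureO i = fun s => ∏ o, C.slotObs i o fun j => s j o from funext (C.featureO_eq i)]
  refine Finset.measurable_prod _ fun o _ => ?_
  exact (C.slotObs_bdd i o).1.comp (measurable_pi_lambda (fun (s : ℕ → Slot C.n) j => s j o)
    fun j => (measurable_pi_apply o).comp (measurable_pi_apply j))

/-- The sign moment of a labelled tree. -/
noncomputable def Cons.labMom (C : Cons) (R : ℕ) (x : ℕ → ℝ) {d : ℕ} (l : ℕ) (T : Tree d)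
    (ψ : Leaves d T → Option (Fin C.n)) : ℝ :=
  (signSys R x (Slot C.n)).mom d l T (fun u => C.featureO (ψ u)) fun _ _ => false

variable {C : Cons} {R : ℕ} {x : ℕ → ℝ}

lemma Cons.abs_labMom_le (hR : 0 < R) (hx : Expo R x) {d l : ℕ} (T : Tree d)
    (ψ : Leaves d T → Option (Fin C.n)) : |C.labMom R x l T ψ| ≤ 1 :=
  (Sys.mom_abs_le (signSys_good hR hx) T (fun u => C.featureO_bdd _)
    (fun u => C.abs_featureO_le (ψ u)) _).trans_eq prod_const_one

lemma Cons.labMom_eq (hR : 0 < R) (hx : Expo R x) {d l : ℕ} (hd : l + d = R) (T : Tree d)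
    (ψ : Leaves d T → Option (Fin C.n)) :
    C.labMom R x l T ψ = ∏ o, (signSys R x Bool).mom d l T (fun u => C.slotObs (ψ u) o)
      fun _ => false := by
  have h := Sys.mom_copies (signSys_good (α := Bool) hR hx) (Option (Fin C.n × Fin C.n))
    (d := d) (l := l) hd T (g := fun u o => C.slotObs (ψ u) o) (fun u o => C.slotObs_bdd _ o)
    fun _ _ => false
  rw [signSys_copies] at h
  rw [← h]
  simp only [Cons.labMom]
  congr 1
  funext u p
  exact C.featureO_eq _ _

/-- The multiplicity of a label. -/
def mult {n d : ℕ} {T : Tree d} (ψ : Leaves d T → Option (Fin n)) (v : Fin n) : ℕ :=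
  (univ.filter fun u => ψ u = some v).card

lemma Cons.slot_pair_eq {d : ℕ} {T : Tree d} (ψ : Leaves d T → Option (Fin C.n))
    (a b : Fin C.n) : (fun u => C.slotObs (ψ u) (some (a, b))) =
      bitObs (fun u => hit (ψ u) (a, b)) (C.lev a b) :=
  rfl

/-- A nonzero sign moment forces a common parity of the multiplicities. -/
lemma Cons.labMom_parity (hR : 0 < R) (hx : Expo R x) {d l : ℕ} (hd : l + d = R) (T : Tree d)
    (hlev : ∀ v w, v < w → l < C.lev v w ∧ C.lev v w ≤ R)
    {ψ : Leaves d T → Option (Fin C.n)} (h0 : C.labMom R x l T ψ ≠ 0) {a : Fin C.n}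
    (ha : Odd (mult ψ a)) (b : Fin C.n) : Odd (mult ψ b) := by
  have key : ∀ v w : Fin C.n, v < w → Even (mult ψ v + mult ψ w) := by
    intro v w hvw
    by_contra hodd
    refine h0 ?_
    rw [C.labMom_eq hR hx hd]
    refine prod_eq_zero (mem_univ (some (v, w))) ?_
    rw [C.slot_pair_eq]
    refine bitMom_odd hR hx hd T _ (hlev v w hvw).1 (hlev v w hvw).2 ?_ _
    have e : (univ.filter fun u => hit (ψ u) (v, w) = true) =
        (univ.filter fun u => ψ u = some v) ∪ univ.filter fun u => ψ u = some w := by
      ext u; simp [hit, hvw]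
    rw [e, card_union_of_disjoint]
    · exact Nat.not_even_iff_odd.1 hodd
    · refine disjoint_filter.2 fun u _ h1 h2 => hvw.ne ?_
      exact Option.some_injective _ (h1.symm.trans h2)
  rcases lt_trichotomy a b with h | h | h
  · have := key a b h
    rw [Nat.even_add] at this
    exact Nat.not_even_iff_odd.1 fun hb => Nat.not_even_iff_odd.2 ha (this.2 hb)
  · exact h ▸ ha
  · have := key b a h
    rw [Nat.even_add] at this
    exact Nat.not_even_iff_odd.1 fun hb => Nat.not_even_iff_odd.2 ha (this.1 hb)

/-- If all multiplicities are odd, at least `n` leaves carry a label. -/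
lemma le_card_some {n d : ℕ} {T : Tree d} {ψ : Leaves d T → Option (Fin n)}
    (h : ∀ v, Odd (mult ψ v)) : n ≤ (univ.filter fun u => ψ u ≠ none).card := by
  have hf : ∀ v, ∃ u, ψ u = some v := fun v => by
    obtain ⟨u, hu⟩ := card_pos.1 (h v).pos
    exact ⟨u, (mem_filter.1 hu).2⟩
  choose f hf using hf
  calc n = (univ : Finset (Fin n)).card := by simp
    _ ≤ _ := card_le_card_of_injOn f (fun v _ => by simp [hf v]) fun v _ w _ e =>
      Option.some_injective _ (by rw [← hf v, ← hf w, e])

/-- The sign moment of a bijective labelling is the indicator of its constraint. -/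
lemma Cons.labMom_equiv (hR : 0 < R) (hx : Expo R x) {d l : ℕ} (hd : l + d = R) (T : Tree d)
    (hlev : ∀ v w, v < w → l < C.lev v w ∧ C.lev v w ≤ R) (lab : Fin C.n ≃ Leaves d T) :
    C.labMom R x l T (fun u => some (lab.symm u)) =
      if ∀ v w, v < w → C.lev v w ≤ Tree.meet d l T (lab v) (lab w) then 1 else 0 := by
  rw [C.labMom_eq hR hx hd, Fintype.prod_option]
  have h1 : (signSys R x Bool).mom d l T
      (fun u => C.slotObs (some (lab.symm u)) none) (fun _ => false) = 1 :=
    Sys.mom_one (signSys_good hR hx) T _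
  have h2 : ∀ p : Fin C.n × Fin C.n, (signSys R x Bool).mom d l T
      (fun u => C.slotObs (some (lab.symm u)) (some p)) (fun _ => false) =
        if p.1 < p.2 → C.lev p.1 p.2 ≤ Tree.meet d l T (lab p.1) (lab p.2) then 1 else 0 := by
    rintro ⟨a, b⟩
    rw [C.slot_pair_eq (fun u => some (lab.symm u))]
    by_cases hab : a < b
    · rw [bitMom_pair hR hx hd T _ (hlev a b hab).1 (hlev a b hab).2 (u := lab a) (u' := lab b)
        (fun h => hab.ne (lab.injective h))]
      · simp [hab]
      · intro v
        simp [hit, hab, Equiv.symm_apply_eq]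
    · rw [bitMom_none hR hx T _ (fun u => by simp [hit, hab]), if_pos fun h => absurd h hab]
  rw [h1, one_mul]
  simp only [h2]
  by_cases hall : ∀ v w, v < w → C.lev v w ≤ Tree.meet d l T (lab v) (lab w)
  · rw [if_pos hall]
    exact prod_eq_one fun p _ => if_pos (hall p.1 p.2)
  · rw [if_neg hall]
    push Not at hall
    obtain ⟨v, w, hvw, hm⟩ := hall
    exact prod_eq_zero (mem_univ (v, w)) (if_neg fun h => absurd (h hvw) (not_le.2 hm))

/-- With as many leaves as labels, the odd labellings count the constrained bijections. -/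
lemma Cons.sum_odd_labMom (hR : 0 < R) (hx : Expo R x) {d l : ℕ} (hd : l + d = R) (T : Tree d)
    (hlev : ∀ v w, v < w → l < C.lev v w ∧ C.lev v w ≤ R) (hsize : T.size = C.n) (v0 : Fin C.n) :
    ∑ φ : Leaves d T → Fin C.n, (if Odd (mult (fun u => some (φ u)) v0)
        then C.labMom R x l T (fun u => some (φ u)) else 0) = (C.count d l T : ℝ) := by
  classical
  have hinj : Injective fun lab : Fin C.n ≃ Leaves d T => (lab.symm : Leaves d T → Fin C.n) :=
    fun a b h => Equiv.symm_bijective.injective (Equiv.coe_fn_injective h)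
  have hodd : ∀ lab : Fin C.n ≃ Leaves d T, Odd (mult (fun u => some (lab.symm u)) v0) := fun lab => by
    have e : (univ.filter fun u => (some (lab.symm u)) = some v0) = {lab v0} := by
      ext u; simp [Equiv.symm_apply_eq]
    rw [mult, e, card_singleton]
    exact odd_one
  rw [← Fintype.sum_of_injective _ hinj
    (fun lab => if ∀ v w, v < w → C.lev v w ≤ Tree.meet d l T (lab v) (lab w) then (1 : ℝ) else 0) _
    (fun φ hφ => ?_) fun lab => by rw [if_pos (hodd lab), C.labMom_equiv hR hx hd T hlev]]
  · rw [sum_boole, Cons.count, Fintype.card_subtype]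
  · by_contra hne
    rw [ite_eq_right_iff] at hne
    push Not at hne
    have hall := fun v => C.labMom_parity hR hx hd T hlev hne.2 hne.1 v
    have hs : Surjective φ := fun v => by
      obtain ⟨u, hu⟩ := card_pos.1 (hall v).pos
      exact ⟨u, Option.some_injective _ (mem_filter.1 hu).2⟩
    have hb : Bijective φ := (Fintype.bijective_iff_surjective_and_card φ).2
      ⟨hs, by rw [Fintype.card_fin]; exact hsize⟩
    exact hφ ⟨(Equiv.ofBijective φ hb).symm, rfl⟩

end Vale.Agent.P168
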