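import Vale.Agent.P168.Trees
import Vale.Agent.P168.LowerDefs

/-!
Multilinearity of the moments of trees and the moments of systems of independent uniform signs.
-/

set_option linter.unusedVariables false
set_option linter.unusedSectionVars false

namespace Vale.Agent.P168

open MeasureTheory Finset Function

variable {Ω : Type} [MeasurableSpace Ω] {S : Sys Ω}

lemma Sys.cond_succ (S : Sys Ω) (l : ℕ) (f : (ℕ → Ω) → ℝ) : S.cond l (l + 1) f = S.A l f := by
  simp [Sys.cond, Sys.down]

lemma Sys.A_sum (hS : S.Good) {ι : Type} (t : Finset ι) {f : ι → (ℕ → Ω) → ℝ}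
    (hf : ∀ i, Bdd (f i)) (l : ℕ) (ω : ℕ → Ω) :
    S.A l (fun v => ∑ i ∈ t, f i v) ω = ∑ i ∈ t, S.A l (f i) ω := by
  classical
  induction t using Finset.induction_on with
  | empty => simp only [sum_empty]; exact Sys.A_const hS l 0 ω
  | @insert i t hi ih =>
    simp only [sum_insert hi]
    rw [Sys.A_add hS (hf i) (Bdd.sum t hf), ih]

/-- A sum at every leaf expands into the sum over labellings. -/
lemma Sys.mom_sum (hS : S.Good) {Λ : Type} [Fintype Λ] {d l : ℕ} (T : Tree d)
    {h : Leaves d T → Λ → (ℕ → Ω) → ℝ} (hh : ∀ u i, Bdd (h u i)) (ω : ℕ → Ω) :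
    S.mom d l T (fun u p => ∑ i, h u i p) ω =
      ∑ φ : Leaves d T → Λ, S.mom d l T (fun u => h u (φ u)) ω := by
  induction d generalizing l ω with
  | zero =>
    refine Fintype.sum_equiv
      { toFun := fun i _ => i, invFun := fun φ => φ (), left_inv := fun i => rfl,
        right_inv := fun φ => funext fun u => rfl } _ _ fun i => rfl
  | succ d ih =>
    simp only [Sys.mom]
    have e : ∀ c, S.A l (S.mom d (l + 1) (T.2 c) fun v p => ∑ i, h ⟨c, v⟩ i p) ω =
        ∑ φ : Leaves d (T.2 c) → Λ,
          S.A l (S.mom d (l + 1) (T.2 c) fun v => h ⟨c, v⟩ (φ v)) ω := fun c => by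
      refine (congrArg (fun f => S.A l f ω)
        (funext fun p => ih (l := l + 1) (T.2 c) (fun v i => hh ⟨c, v⟩ i) p)).trans ?_
      exact Sys.A_sum hS (univ : Finset (Leaves d (T.2 c) → Λ)) (fun φ => Sys.mom_bdd hS _ fun v => hh ⟨c, v⟩ (φ v)) l ω
    simp only [e]
    rw [Fintype.prod_sum]
    exact Fintype.sum_equiv
      (Equiv.piCurry (fun (c : Fin (T.1 + 1)) (_ : Leaves d (T.2 c)) => Λ)).symm _ _ fun φ => rfl

/-- Constants at the leaves come out of a moment. -/
lemma Sys.mom_smul (hS : S.Good) {d l : ℕ} (T : Tree d) (k : Leaves d T → ℝ)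
    (g : Leaves d T → (ℕ → Ω) → ℝ) (ω : ℕ → Ω) :
    S.mom d l T (fun u p => k u * g u p) ω = (∏ u, k u) * S.mom d l T g ω := by
  induction d generalizing l ω with
  | zero =>
    have : Unique (Leaves 0 T) := inferInstanceAs (Unique Unit)
    rw [Fintype.prod_unique]
    rfl
  | succ d ih =>
    simp only [Sys.mom]
    rw [show (∏ u, k u) = ∏ c, ∏ v, k ⟨c, v⟩ from Fintype.prod_sigma k, ← prod_mul_distrib]
    refine prod_congr rfl fun c _ => ?_
    exact (congrArg (fun f => S.A l f ω) (funext fun p =>
      ih (l := l + 1) (T.2 c) (fun v => k ⟨c, v⟩) (fun v => g ⟨c, v⟩) p)).trans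
        (Sys.A_const_mul hS _ _ l ω)

lemma Sys.mom_one (hS : S.Good) {d l : ℕ} (T : Tree d) (ω : ℕ → Ω) :
    S.mom d l T (fun _ _ => 1) ω = 1 := by
  induction d generalizing l ω with
  | zero => rfl
  | succ d ih =>
    simp only [Sys.mom]
    refine prod_eq_one fun c _ => ?_
    exact (congrArg (fun f => S.A l f ω) (funext fun p => ih (l := l + 1) (T.2 c) p)).trans
      (Sys.A_const hS l 1 ω)

lemma Sys.mom_dep (hS : S.Good) {d l : ℕ} (hd : l + d ≤ S.R) (T : Tree d)
    {g : Leaves d T → (ℕ → Ω) → ℝ} (hg : ∀ u, DependsTo (g u) (l + d)) :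
    DependsTo (S.mom d l T g) l := by
  induction d generalizing l with
  | zero => simpa [Sys.mom] using hg ()
  | succ d ih =>
    intro ω ω' h
    simp only [Sys.mom]
    refine prod_congr rfl fun c _ => Sys.A_dep hS (show l < S.R by omega) (ih (by omega) (T.2 c)
      fun v => ?_) ω ω' h
    rw [show l + 1 + d = l + (d + 1) by omega]
    exact hg ⟨c, v⟩

/-! Meeting levels -/

lemma Tree.le_meet : ∀ {d l : ℕ} (T : Tree d) (v w : Leaves d T), l ≤ Tree.meet d l T v w := by
  intro d
  induction d with
  | zero => intro l T v w; exact le_rfl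
  | succ d ih =>
    intro l T v w
    simp only [Tree.meet]
    split_ifs with h
    · exact le_trans (Nat.le_succ l) (ih _ _ _)
    · exact le_rfl

lemma Tree.meet_same {d l : ℕ} (T : Tree (d + 1)) (c : Fin (T.1 + 1)) (v w : Leaves d (T.2 c)) :
    Tree.meet (d + 1) l T ⟨c, v⟩ ⟨c, w⟩ = Tree.meet d (l + 1) (T.2 c) v w := by
  simp [Tree.meet]

lemma Tree.meet_ne {d l : ℕ} (T : Tree (d + 1)) {c c' : Fin (T.1 + 1)} (h : c ≠ c')
    (v : Leaves d (T.2 c)) (w : Leaves d (T.2 c')) :
    Tree.meet (d + 1) l T ⟨c, v⟩ ⟨c', w⟩ = l := by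
  simp [Tree.meet, h]

/-! Systems of uniform signs -/

variable {α β : Type} [Fintype α] [Fintype β] [MeasurableSpace α] [MeasurableSpace β]
  [MeasurableSingletonClass α] [MeasurableSingletonClass β] [Nonempty α] [Nonempty β]

instance finLaw_prob : IsProbabilityMeasure (finLaw α) := by
  constructor
  simp only [finLaw, Measure.smul_apply, smul_eq_mul]
  rw [Measure.count_apply MeasurableSet.univ, Set.encard_univ, ENat.card_eq_coe_fintype_card,
    ENat.toENNReal_coe]
  exact ENNReal.inv_mul_cancel (by simp) (ENNReal.natCast_ne_top _)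

lemma integral_finLaw_sum (f : α → ℝ) : ∫ a, f a ∂finLaw α = (∑ a, f a) / Fintype.card α := by
  rw [finLaw, integral_smul_measure, integral_count]
  simp [div_eq_inv_mul]

lemma finLaw_prod : (finLaw α).prod (finLaw β) = finLaw (α × β) := by
  refine Measure.ext_of_singleton fun x => ?_
  rw [← Set.singleton_prod_singleton, Measure.prod_prod]
  simp only [finLaw, Measure.smul_apply, Measure.count_singleton, Set.singleton_prod_singleton,
    smul_eq_mul, mul_one, Fintype.card_prod, Nat.cast_mul]
  exact (ENNReal.mul_inv (Or.inr (ENNReal.natCast_ne_top _))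
    (Or.inl (ENNReal.natCast_ne_top _))).symm

lemma finLaw_pi (ι : Type) [Fintype ι] [DecidableEq ι] :
    (Measure.pi fun _ : ι => finLaw α) = finLaw (ι → α) := by
  refine Measure.ext_of_singleton fun x => ?_
  rw [Measure.pi_singleton]
  simp [finLaw, ENNReal.inv_pow]

lemma signSys_good {R : ℕ} {x : ℕ → ℝ} (hR : 0 < R) (hx : Expo R x) : (signSys R x α).Good where
  prob := finLaw_prob
  x_pos := hx.pos
  x_mono := hx.mono
  x_last := hx.last
  R_pos := hR
  H_bdd := ⟨measurable_const, 0, fun _ => by simp [signSys]⟩
  H_dep := fun _ _ _ => rfl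

lemma signSys_u (R : ℕ) (x : ℕ → ℝ) (l : ℕ) : (signSys R x α).u l = fun _ => 0 := by
  have h : ∀ d, (signSys R x α).uUp d = fun _ => 0 := by
    intro d
    induction d with
    | zero => rfl
    | succ d ih =>
      funext ω
      simp only [Sys.uUp, ih]
      have : IsProbabilityMeasure (signSys R x α).μ := finLaw_prob
      simp
  exact h _

lemma signSys_A (R : ℕ) (x : ℕ → ℝ) (l : ℕ) (f : (ℕ → α) → ℝ) (ω : ℕ → α) :
    (signSys R x α).A l f ω = (∑ e, f (update ω (l + 1) e)) / Fintype.card α := by
  have : IsProbabilityMeasure (signSys R x α).μ := finLaw_prob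
  simp only [Sys.A, signSys_u, mul_zero, Real.exp_zero, one_mul, integral_const, probReal_univ,
    smul_eq_mul, div_one]
  exact integral_finLaw_sum _

lemma signSys_prod (R : ℕ) (x : ℕ → ℝ) :
    (signSys R x α).prod (signSys R x β) = signSys R x (α × β) := by
  simp [Sys.prod, signSys, finLaw_prod]

lemma signSys_copies (R : ℕ) (x : ℕ → ℝ) (ι : Type) [Fintype ι] [DecidableEq ι] :
    (signSys R x α).copies ι = signSys R x (ι → α) := by
  simp [Sys.copies, signSys, finLaw_pi]

/-- Moments of uniform signs are invariant under a change of variables in each step. -/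
lemma signSys_mom_map {R : ℕ} {x : ℕ → ℝ} (τ : ℕ → α ≃ α) {d l : ℕ} (T : Tree d)
    (g : Leaves d T → (ℕ → α) → ℝ) (ω : ℕ → α) :
    (signSys R x α).mom d l T (fun u p => g u fun i => τ i (p i)) ω =
      (signSys R x α).mom d l T g fun i => τ i (ω i) := by
  induction d generalizing l ω with
  | zero => rfl
  | succ d ih =>
    simp only [Sys.mom]
    refine prod_congr rfl fun c _ => ?_
    refine (congrArg (fun f => (signSys R x α).A l f ω)
      (funext fun p => ih (l := l + 1) (T.2 c) (fun v => g ⟨c, v⟩) p)).trans ?_
    simp only [signSys_A]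
    congr 1
    refine Fintype.sum_equiv (τ (l + 1)) _ _ fun e => congrArg _ (funext fun i => ?_)
    by_cases h : i = l + 1
    · subst h; simp
    · simp [update_of_ne h]

/-! One sign per step -/

lemma abs_spin_eq_one (s : Bool) : |spin s| = 1 := by cases s <;> simp [spin]

lemma spin_not (s : Bool) : spin (!s) = -spin s := by cases s <;> simp [spin]

lemma spin_sq (s : Bool) : spin s * spin s = 1 := by cases s <;> simp [spin]

/-- The sign of level `L` at the leaves in `A`. -/
def bitObs {d : ℕ} {T : Tree d} (A : Leaves d T → Bool) (L : ℕ) (u : Leaves d T) (p : ℕ → Bool) :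
    ℝ :=
  if A u then spin (p L) else 1

lemma bitObs_bdd {d : ℕ} {T : Tree d} (A : Leaves d T → Bool) (L : ℕ) (u : Leaves d T) :
    Bdd (bitObs A L u) := by
  refine ⟨?_, 1, fun p => ?_⟩
  · unfold bitObs
    cases A u
    · simp
    · exact (measurable_of_countable spin).comp (measurable_pi_apply L)
  · unfold bitObs; split_ifs <;> simp [abs_spin_eq_one]

lemma bitObs_dep {d : ℕ} {T : Tree d} (A : Leaves d T → Bool) {L m : ℕ} (h1 : 1 ≤ L) (h : L ≤ m)
    (u : Leaves d T) : DependsTo (bitObs A L u) m :=
  fun ω ω' he => by unfold bitObs; rw [he L h1 h]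

/-- An odd number of leaves at a sign of a higher step: the moment vanishes. -/
lemma bitMom_odd {R : ℕ} {x : ℕ → ℝ} (hR : 0 < R) (hx : Expo R x) {d l : ℕ} (hd : l + d = R)
    (T : Tree d) (A : Leaves d T → Bool) {L : ℕ} (hl : l < L) (hL : L ≤ R)
    (hA : Odd (univ.filter fun u => A u = true).card) (ω : ℕ → Bool) :
    (signSys R x Bool).mom d l T (bitObs A L) ω = 0 := by
  have hB := signSys_good (α := Bool) hR hx
  set τ : ℕ → Bool ≃ Bool := fun i => if i = L then Equiv.boolNot else Equiv.refl Bool
  have e : (fun u p => bitObs A L u fun i => τ i (p i)) =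
      fun u p => (if A u then (-1 : ℝ) else 1) * bitObs A L u p := by
    funext u p
    unfold bitObs
    split_ifs
    · simp [τ, spin_not]
    · simp
  have h := signSys_mom_map (R := R) (x := x) (l := l) τ T (bitObs A L) ω
  rw [e, Sys.mom_smul hB, prod_ite, prod_const, prod_const_one, mul_one, hA.neg_one_pow,
    Sys.mom_dep hB (l := l) (by simp only [signSys]; omega) T
      (fun u => bitObs_dep A (by omega) (by omega) u) (fun i => τ i (ω i)) ω
      (fun i _ hi => by simp [τ, show i ≠ L by omega])] at h
  linarith

lemma bitMom_none {R : ℕ} {x : ℕ → ℝ} (hR : 0 < R) (hx : Expo R x) {d l : ℕ} (T : Tree d)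
    (A : Leaves d T → Bool) {L : ℕ} (hA : ∀ u, A u = false) (ω : ℕ → Bool) :
    (signSys R x Bool).mom d l T (bitObs A L) ω = 1 := by
  have e : bitObs A L = fun (_ : Leaves d T) (_ : ℕ → Bool) => (1 : ℝ) := by
    funext u p; simp [bitObs, hA u]
  rw [e, Sys.mom_one (signSys_good hR hx)]

/-- Two leaves at a sign of a higher step: the moment tests their meeting level. -/
lemma bitMom_pair {R : ℕ} {x : ℕ → ℝ} (hR : 0 < R) (hx : Expo R x) {d l : ℕ} (hd : l + d = R)
    (T : Tree d) (A : Leaves d T → Bool) {L : ℕ} (hl : l < L) (hL : L ≤ R) {u u' : Leaves d T}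
    (hne : u ≠ u') (hA : ∀ v, A v = true ↔ v = u ∨ v = u') (ω : ℕ → Bool) :
    (signSys R x Bool).mom d l T (bitObs A L) ω =
      if L ≤ Tree.meet d l T u u' then 1 else 0 := by
  have hB := signSys_good (α := Bool) hR hx
  induction d generalizing l ω with
  | zero => omega
  | succ d ih =>
    obtain ⟨c, v⟩ := u
    obtain ⟨c', v'⟩ := u'
    simp only [Sys.mom]
    by_cases hc : c = c'
    · subst hc
      have hv : v ≠ v' := fun h => hne (by rw [h])
      have hin : ∀ w, A ⟨c, w⟩ = true ↔ w = v ∨ w = v' := fun w => by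
        rw [hA ⟨c, w⟩]
        constructor
        · rintro (h | h)
          · exact Or.inl (eq_of_heq (Sigma.mk.inj h).2)
          · exact Or.inr (eq_of_heq (Sigma.mk.inj h).2)
        · rintro (h | h) <;> subst h
          exacts [Or.inl rfl, Or.inr rfl]
      rw [prod_eq_single c (fun j _ hj => ?_) (fun h => absurd (mem_univ c) h), Tree.meet_same]
      · show (signSys R x Bool).A l
          ((signSys R x Bool).mom d (l + 1) (T.2 c) (bitObs (fun w => A ⟨c, w⟩) L)) ω = _
        rcases lt_or_ge (l + 1) L with h | h
        · rw [funext fun p => ih (show l + 1 + d = R by omega) (T.2 c) (fun w => A ⟨c, w⟩) h hv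
            hin p, Sys.A_const hB]
        · obtain rfl : L = l + 1 := by omega
          rw [if_pos (Tree.le_meet _ _ _)]
          have key : ∀ p : ℕ → Bool, (signSys R x Bool).mom d (l + 1) (T.2 c)
              (bitObs (fun w => A ⟨c, w⟩) (l + 1)) p = 1 := by
            intro p
            have h1 : (signSys R x Bool).mom d (l + 1) (T.2 c)
                (bitObs (fun w => A ⟨c, w⟩) (l + 1)) p =
                (signSys R x Bool).mom d (l + 1) (T.2 c) (fun w (_ : ℕ → Bool) =>
                  if A ⟨c, w⟩ then spin (p (l + 1)) else 1) p := by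
              clear ih hin
              have gen : ∀ {d k : ℕ} (T : Tree d) (B : Leaves d T → Bool) (p q : ℕ → Bool),
                  l + 1 ≤ k → q (l + 1) = p (l + 1) →
                  (signSys R x Bool).mom d k T (bitObs B (l + 1)) q =
                    (signSys R x Bool).mom d k T
                      (fun w (_ : ℕ → Bool) => if B w then spin (p (l + 1)) else 1) q := by
                intro d
                induction d with
                | zero => intro k T B p q _ hq; simp [Sys.mom, bitObs, hq]
                | succ d ih =>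
                  intro k T B p q hk hq
                  simp only [Sys.mom, signSys_A]
                  refine prod_congr rfl fun j _ => congrArg (· / _) (sum_congr rfl fun e _ => ?_)
                  exact ih (T.2 j) (fun w => B ⟨j, w⟩) p _ (by omega)
                    (by rw [update_of_ne (by omega), hq])
              exact gen _ _ p p le_rfl rfl
            rw [h1]
            have h2 := Sys.mom_smul hB (l := l + 1) (T.2 c)
              (fun w => if A ⟨c, w⟩ then spin (p (l + 1)) else 1) (fun _ _ => 1) p
            simp only [mul_one, Sys.mom_one hB] at h2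
            rw [h2, prod_ite, prod_const_one, mul_one, prod_const]
            have h3 : (univ.filter fun w => A ⟨c, w⟩ = true) = {v, v'} := by
              ext w; simp [hin w]
            rw [h3, card_pair hv, pow_two, spin_sq]
          rw [funext key, Sys.A_const hB]
      · show (signSys R x Bool).A l
          ((signSys R x Bool).mom d (l + 1) (T.2 j) (bitObs (fun w => A ⟨j, w⟩) L)) ω = 1
        refine (congrArg (fun f => (signSys R x Bool).A l f ω) (funext fun p =>
          bitMom_none hR hx (l := l + 1) (L := L) (T.2 j) (fun w => A ⟨j, w⟩) (fun w => ?_) p)).trans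
            (Sys.A_const hB l 1 ω)
        cases hw : A ⟨j, w⟩
        · rfl
        · rcases (hA _).1 hw with h | h <;> exact absurd (Sigma.mk.inj h).1 hj
    · rw [Tree.meet_ne _ hc, if_neg (by omega)]
      refine prod_eq_zero (mem_univ c) ?_
      have hone : (univ.filter fun w => A ⟨c, w⟩ = true) = {v} := by
        ext w
        simp only [mem_filter, mem_univ, true_and, mem_singleton, hA ⟨c, w⟩]
        refine ⟨?_, fun h => Or.inl (by rw [h])⟩
        rintro (h | h)
        · exact eq_of_heq (Sigma.mk.inj h).2
        · exact absurd (Sigma.mk.inj h).1 hc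
      show (signSys R x Bool).A l
        ((signSys R x Bool).mom d (l + 1) (T.2 c) (bitObs (fun w => A ⟨c, w⟩) L)) ω = 0
      rcases lt_or_ge (l + 1) L with h | h
      · rw [funext fun p => bitMom_odd hR hx (show l + 1 + d = R by omega) (T.2 c)
          (fun w => A ⟨c, w⟩) h hL (by rw [hone]; simp) p, Sys.A_const hB]
      · obtain rfl : L = l + 1 := by omega
        have hm := signSys_mom_map (R := R) (x := x) (l := l + 1)
          (fun i => if i = l + 1 then Equiv.boolNot else Equiv.refl Bool) (T.2 c)
          (bitObs (fun w => A ⟨c, w⟩) (l + 1))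
        have e : (fun w p => bitObs (fun w => A ⟨c, w⟩) (l + 1) w fun i =>
              (if i = l + 1 then Equiv.boolNot else Equiv.refl Bool) (p i)) =
            fun w p => (if A ⟨c, w⟩ then (-1 : ℝ) else 1) * bitObs (fun w => A ⟨c, w⟩) (l + 1) w p := by
          funext w p
          unfold bitObs
          split_ifs
          · simp [spin_not]
          · simp
        rw [e] at hm
        simp only [Sys.mom_smul hB, prod_ite, prod_const, hone,
          card_singleton, pow_one, neg_one_mul] at hm
        simp only [signSys_A, Fintype.sum_bool]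
        have h0 := hm (update ω (l + 1) false)
        have e2 : (fun i => (if i = l + 1 then Equiv.boolNot else Equiv.refl Bool)
            (update ω (l + 1) false i)) = update ω (l + 1) true := by
          funext i
          by_cases hi : i = l + 1
          · subst hi; simp
          · simp [hi]
        rw [e2] at h0
        rw [← h0]
        simp

end Vale.Agent.P168
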