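import Vale.Agent.P168.GadgetLabel

/-!
Responses to constraints: bounds, the martingale property, the sum of the gaps.
-/

set_option linter.unusedVariables false
set_option linter.unusedSectionVars false

namespace Vale.Agent.P168

open MeasureTheory Finset Function

variable {Ω : Type} [MeasurableSpace Ω] {S : Sys Ω}

/-- A tilted step commutes with a dominated sum. -/
lemma Sys.hasSum_A (hS : S.Good) {ι : Type} [Countable ι] {F : ι → (ℕ → Ω) → ℝ} {f : (ℕ → Ω) → ℝ}
    {B : ι → ℝ} (hF : ∀ i, Bdd (F i)) (hB : ∀ i v, |F i v| ≤ B i) (hs : Summable B)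
    (hf : ∀ v, HasSum (fun i => F i v) (f v)) (l : ℕ) (ω : ℕ → Ω) :
    HasSum (fun i => S.A l (F i) ω) (S.A l f ω) := by
  have := hS.prob
  obtain ⟨hum, C, hC⟩ := ((Sys.u_bdd hS (l + 1)).const_mul (S.x (l + 1))).exp
  have hm : Measurable fun e => Real.exp (S.x (l + 1) * S.u (l + 1) (update ω (l + 1) e)) :=
    hum.comp (measurable_update ω)
  refine (hasSum_integral_of_dominated_convergence (μ := S.μ)
    (F := fun i e => Real.exp (S.x (l + 1) * S.u (l + 1) (update ω (l + 1) e)) *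
      F i (update ω (l + 1) e))
    (f := fun e => Real.exp (S.x (l + 1) * S.u (l + 1) (update ω (l + 1) e)) *
      f (update ω (l + 1) e))
    (fun i _ => C * B i) (fun i => ?_) (fun i => ?_) ?_ ?_ ?_).div_const _
  · exact (hm.mul ((hF i).1.comp (measurable_update ω))).aestronglyMeasurable
  · refine ae_of_all _ fun e => ?_
    rw [Real.norm_eq_abs, abs_mul]
    exact mul_le_mul (hC _) (hB i _) (abs_nonneg _) ((abs_nonneg _).trans (hC ω))
  · exact ae_of_all _ fun e => hs.mul_left C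
  · exact integrable_const _
  · exact ae_of_all _ fun e => (hf _).mul_left _

instance Leaves.nonempty : ∀ (d : ℕ) (T : Tree d), Nonempty (Leaves d T)
  | 0, _ => ⟨()⟩
  | d + 1, T => (Leaves.nonempty d (T.2 0)).map fun v => ⟨0, v⟩

lemma Cons.count_eq_zero (C : Cons) {d l : ℕ} {T : Tree d} (h : T.size ≠ C.n) :
    C.count d l T = 0 := by
  rw [Cons.count, Fintype.card_eq_zero_iff]
  exact ⟨fun lab => h (by simpa [Tree.size] using (Fintype.card_congr lab.1).symm)⟩

lemma Cons.count_le (C : Cons) {d l : ℕ} (T : Tree d) :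
    C.count d l T ≤ Nat.factorial C.n := by
  rcases isEmpty_or_nonempty (Fin C.n ≃ Leaves d T) with h | ⟨⟨lab⟩⟩
  · rw [Cons.count, Fintype.card_eq_zero]; exact Nat.zero_le _
  · exact (Fintype.card_subtype_le _).trans_eq (by rw [Fintype.card_equiv lab, Fintype.card_fin])

/-- The terms of the response. -/
noncomputable def Sys.respTerm (S : Sys Ω) (C : Cons) (a : (ℕ → Ω) → ℝ) {d : ℕ} (l : ℕ)
    (T : Tree d) (ω : ℕ → Ω) : ℝ :=
  Tree.weight S.x d l T * (C.count d l T : ℝ) * S.mom d l T (fun _ => a) ω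

lemma Sys.resp_def (C : Cons) (a : (ℕ → Ω) → ℝ) {d l : ℕ} (hd : l + d = S.R) (ω : ℕ → Ω) :
    S.resp C a l ω = (S.x l)⁻¹ * ∑' T : Tree d, S.respTerm C a l T ω := by
  obtain rfl : d = S.R - l := by omega
  rfl

lemma Sys.abs_respTerm_le (hS : S.Good) {C : Cons} {a : (ℕ → Ω) → ℝ} (ha : Obs S a) {d l : ℕ}
    (h1 : 1 ≤ l) (hd : l + d = S.R) (T : Tree d) (ω : ℕ → Ω) :
    |S.respTerm C a l T ω| ≤
      (Nat.factorial C.n : ℝ) * if T.size = C.n then Tree.weight S.x d l T else 0 := by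
  have hw := Sys.weight_nonneg hS h1 hd T
  by_cases h : T.size = C.n
  · rw [if_pos h, Sys.respTerm, abs_mul, abs_mul, abs_of_nonneg hw, Nat.abs_cast,
      mul_comm (Nat.factorial C.n : ℝ)]
    refine (mul_le_mul_of_nonneg_left ?_ (by positivity)).trans_eq (mul_one _) |>.trans
      (mul_le_mul_of_nonneg_left (Nat.cast_le.2 (C.count_le T)) hw)
    exact (Sys.mom_abs_le hS T (fun _ => ha.1) (fun _ => ha.2.2) ω).trans_eq prod_const_one
  · simp [Sys.respTerm, C.count_eq_zero h, h]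

lemma Sys.hasSum_resp (hS : S.Good) {C : Cons} {a : (ℕ → Ω) → ℝ} (ha : Obs S a) {d l : ℕ}
    (h1 : 1 ≤ l) (hd : l + d = S.R) (ω : ℕ → Ω) :
    HasSum (fun T : Tree d => S.respTerm C a l T ω) (S.x l * S.resp C a l ω) := by
  rw [Sys.resp_def C a hd, mul_inv_cancel_left₀ (hS.x_pos l h1 (by omega)).ne']
  exact (Summable.of_norm_bounded ((Sys.weight_size_le hS h1 hd C.n).1.mul_left _) fun T =>
    (Real.norm_eq_abs _).trans_le (Sys.abs_respTerm_le hS ha h1 hd T ω)).hasSum

theorem Sys.resp_abs_le (hS : S.Good) {C : Cons} (hC : C.Ok S.R) {a : (ℕ → Ω) → ℝ} (ha : Obs S a)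
    {l : ℕ} (h1 : 1 ≤ l) (hl : l ≤ S.R) (ω : ℕ → Ω) :
    |S.resp C a l ω| ≤ (Nat.factorial C.n : ℝ) := by
  obtain ⟨d, hd⟩ : ∃ d, l + d = S.R := ⟨S.R - l, by omega⟩
  obtain ⟨hs, hsum⟩ := Sys.weight_size_le hS h1 hd C.n
  have hx := hS.x_pos l h1 hl
  have h := tsum_of_norm_bounded (hs.hasSum.mul_left (Nat.factorial C.n : ℝ)) fun T : Tree d =>
    (Real.norm_eq_abs _).trans_le (Sys.abs_respTerm_le hS ha h1 hd T ω)
  rw [(Sys.hasSum_resp hS ha h1 hd ω).tsum_eq, hsum, Real.norm_eq_abs, abs_mul, abs_of_pos hx] at h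
  have h2 := mul_le_mul_of_nonneg_left
    (coef_le hx.le (hS.expo.le_one h1 hd) C.n) (Nat.cast_nonneg (α := ℝ) (Nat.factorial C.n))
  exact le_of_mul_le_mul_left ((h.trans h2).trans_eq (mul_comm _ _)) hx

theorem Sys.resp_bdd (hS : S.Good) {C : Cons} (hC : C.Ok S.R) {a : (ℕ → Ω) → ℝ} (ha : Obs S a)
    {l : ℕ} (h1 : 1 ≤ l) (hl : l ≤ S.R) :
    Bdd (S.resp C a l) ∧ DependsTo (S.resp C a l) l := by
  obtain ⟨d, hd⟩ : ∃ d, l + d = S.R := ⟨S.R - l, by omega⟩
  refine ⟨⟨?_, _, Sys.resp_abs_le hS hC ha h1 hl⟩, fun ω ω' h => ?_⟩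
  · rw [show S.resp C a l = fun ω => (S.x l)⁻¹ * ∑' T : Tree d, S.respTerm C a l T ω from
      funext (Sys.resp_def C a hd)]
    refine Measurable.const_mul (measurable_of_tendsto_metrizable'
      (f := fun (t : Finset (Tree d)) ω => ∑ T ∈ t, S.respTerm C a l T ω) Filter.atTop
      (fun t => Finset.measurable_sum t fun T _ => (Sys.mom_bdd hS T fun _ => ha.1).1.const_mul _)
      (tendsto_pi_nhds.2 fun ω => ?_)) _
    exact (Sys.hasSum_resp hS ha h1 hd ω).summable.hasSum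
  · rw [Sys.resp_def C a hd, Sys.resp_def C a hd]
    congr 1
    refine tsum_congr fun T => ?_
    rw [Sys.respTerm, Sys.respTerm, Sys.mom_dep hS (by omega) T
      (fun u => by rw [hd]; exact ha.2.1) ω ω' h]

theorem Sys.resp_congr (C : Cons) (lev : Fin C.n → Fin C.n → ℕ)
    (h : ∀ v w, v < w → lev v w = C.lev v w) (a : (ℕ → Ω) → ℝ) (l : ℕ) (ω : ℕ → Ω) :
    S.resp ⟨C.n, lev⟩ a l ω = S.resp C a l ω := by
  simp only [Sys.resp]
  congr 1
  refine tsum_congr fun T => ?_
  congr 3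
  exact Fintype.card_congr (Equiv.subtypeEquivRight fun lab =>
    forall_congr' fun v => forall_congr' fun w => forall_congr' fun hvw => by
      show lev v w ≤ _ ↔ _
      rw [h v w hvw])

/-- A tree with one child, read from its child. -/
def consTree {d : ℕ} (T : Tree d) : Tree (d + 1) := ⟨0, fun _ => T⟩

lemma consTree_injective {d : ℕ} : Injective (consTree : Tree d → Tree (d + 1)) := fun T T' h => by
  have := eq_of_heq (Sigma.mk.inj h).2
  exact congrFun this 0

lemma exists_consTree {d : ℕ} (T : Tree (d + 1)) (h : T.1 = 0) : ∃ T', consTree T' = T := by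
  obtain ⟨k, f⟩ := T
  obtain rfl : k = 0 := h
  exact ⟨f 0, congrArg (Sigma.mk 0) (funext fun c => congrArg f (Subsingleton.elim (α := Fin 1) _ _))⟩

/-- The leaves of a tree with one child. -/
def consLeaves {d : ℕ} (T : Tree d) : Leaves d T ≃ Leaves (d + 1) (consTree T) where
  toFun v := ⟨0, v⟩
  invFun u := u.2
  left_inv v := rfl
  right_inv u := by
    obtain ⟨c, v⟩ := u
    obtain rfl : c = 0 := Subsingleton.elim (α := Fin 1) _ _
    rfl

lemma Cons.count_consTree (C : Cons) {d l : ℕ} (T : Tree d) :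
    C.count (d + 1) l (consTree T) = C.count d (l + 1) T := by
  refine (Fintype.card_congr ?_).symm
  refine Equiv.subtypeEquiv ((Equiv.refl _).equivCongr (consLeaves T)) fun lab => ?_
  refine forall_congr' fun v => forall_congr' fun w => forall_congr' fun _ => ?_
  show _ ↔ C.lev v w ≤ Tree.meet (d + 1) l (consTree T) ⟨0, lab v⟩ ⟨0, lab w⟩
  rw [Tree.meet_same (consTree T) 0 (lab v) (lab w)]
  rfl

lemma Cons.count_branched (C : Cons) {R d l : ℕ} (T : Tree (d + 1)) (hf : l + 1 ≤ C.first R)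
    (h : T.1 ≠ 0) : C.count (d + 1) l T = 0 := by
  rw [Cons.count, Fintype.card_eq_zero_iff]
  refine ⟨fun lab => ?_⟩
  obtain ⟨v0⟩ := Leaves.nonempty d (T.2 0)
  obtain ⟨v1⟩ := Leaves.nonempty d (T.2 (Fin.last T.1))
  have hne : (0 : Fin (T.1 + 1)) ≠ Fin.last T.1 := fun e => h (by simpa using (congrArg Fin.val e).symm)
  set v := lab.1.symm ⟨0, v0⟩ with hv
  set w := lab.1.symm ⟨Fin.last T.1, v1⟩ with hw
  rcases lt_trichotomy v w with hlt | heq | hlt
  · have := lab.2 v w hlt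
    replace this := this.trans_eq ((congrArg₂ (Tree.meet (d + 1) l T) (lab.1.apply_symm_apply _)
      (lab.1.apply_symm_apply _)).trans (Tree.meet_ne T hne v0 v1))
    have := (C.first_le R hlt).trans this
    omega
  · have e := lab.1.symm.injective heq
    exact hne (Sigma.mk.inj e).1
  · have := lab.2 w v hlt
    replace this := this.trans_eq ((congrArg₂ (Tree.meet (d + 1) l T) (lab.1.apply_symm_apply _)
      (lab.1.apply_symm_apply _)).trans (Tree.meet_ne T hne.symm v1 v0))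
    have := (C.first_le R hlt).trans this
    omega

lemma weight_consTree (x : ℕ → ℝ) {d l : ℕ} (T : Tree d) :
    Tree.weight x (d + 1) l (consTree T) = x l / x (l + 1) * Tree.weight x d (l + 1) T :=
  congrArg₂ (· * ·) (coef_one (x l / x (l + 1)))
    (Fin.prod_univ_one fun c : Fin 1 => Tree.weight x d (l + 1) T)

lemma Sys.mom_consTree (a : (ℕ → Ω) → ℝ) {d l : ℕ} (T : Tree d) (ω : ℕ → Ω) :
    S.mom (d + 1) l (consTree T) (fun _ => a) ω = S.A l (S.mom d (l + 1) T fun _ => a) ω :=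
  Fin.prod_univ_one fun c : Fin 1 => S.A l (S.mom d (l + 1) T fun _ => a) ω

/-- Below its first level the response is a martingale. -/
theorem Sys.resp_step (hS : S.Good) {C : Cons} (hC : C.Ok S.R) {a : (ℕ → Ω) → ℝ} (ha : Obs S a)
    {l : ℕ} (h1 : 1 ≤ l) (hl : l < S.R) (hf : l + 1 ≤ C.first S.R) (ω : ℕ → Ω) :
    S.resp C a l ω = S.A l (S.resp C a (l + 1)) ω := by
  obtain ⟨d, hd⟩ : ∃ d, l + 1 + d = S.R := ⟨S.R - (l + 1), by omega⟩
  have hx := hS.x_pos (l + 1) (by omega) (by omega)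
  have hx' := hS.x_pos l h1 (by omega)
  have hA : HasSum (fun T : Tree d => S.A l (S.respTerm C a (l + 1) T) ω)
      (S.A l (fun v => S.x (l + 1) * S.resp C a (l + 1) v) ω) :=
    Sys.hasSum_A hS (fun T => (Sys.mom_bdd hS T fun _ => ha.1).const_mul _)
      (fun T v => Sys.abs_respTerm_le hS ha (by omega) hd T v)
      ((Sys.weight_size_le hS (by omega) hd C.n).1.mul_left _)
      (Sys.hasSum_resp hS ha (by omega) hd) l ω
  rw [Sys.A_const_mul hS] at hA
  have key : ∀ T : Tree d, S.respTerm C a l (consTree T) ω =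
      S.x l / S.x (l + 1) * S.A l (S.respTerm C a (l + 1) T) ω := fun T => by
    have e : S.A l (S.respTerm C a (l + 1) T) ω = Tree.weight S.x d (l + 1) T *
        (C.count d (l + 1) T : ℝ) * S.A l (S.mom d (l + 1) T fun _ => a) ω :=
      Sys.A_const_mul hS _ _ l ω
    rw [e, Sys.respTerm, C.count_consTree, weight_consTree, Sys.mom_consTree]
    ring
  have hT := Sys.hasSum_resp (C := C) hS ha h1 (show l + (d + 1) = S.R by omega) ω
  rw [← consTree_injective.hasSum_iff (fun T hT => ?_)] at hT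
  · have h2 := (hA.mul_left (S.x l / S.x (l + 1))).congr_fun key
    have := hT.unique h2
    rw [← mul_assoc, div_mul_cancel₀ _ hx.ne'] at this
    exact mul_left_cancel₀ hx'.ne' this
  · have hne : T.1 ≠ 0 := fun h0 => hT (exists_consTree T h0)
    simp [Sys.respTerm, C.count_branched T hf hne]

lemma Cons.count_single {C : Cons} (hn : C.n = 1) {l : ℕ} {T : Tree 0} : C.count 0 l T = 1 := by
  rw [Cons.count, Fintype.card_eq_one_iff]
  let _ : Unique (Leaves 0 T) := inferInstanceAs (Unique Unit)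
  let _ : Unique (Fin C.n) := by rw [hn]; infer_instance
  exact ⟨⟨Equiv.ofUnique _ _, fun v w h => absurd h (by rw [Subsingleton.elim v w]; exact lt_irrefl w)⟩,
    fun lab => Subtype.ext (Equiv.ext fun v => Subsingleton.elim _ _)⟩

theorem Sys.resp_top (hS : S.Good) {C : Cons} (hn : C.n = 1) {a : (ℕ → Ω) → ℝ} (ha : Obs S a)
    (ω : ℕ → Ω) : S.resp C a S.R ω = a ω := by
  rw [Sys.resp_def C a (Nat.add_zero S.R), hS.x_last, inv_one, one_mul,
    tsum_eq_single (α := ℝ) (β := Tree 0) () fun b hb => absurd rfl hb]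
  have hc : C.count 0 S.R () = 1 := Cons.count_single hn (l := S.R) (T := ())
  simp [Sys.respTerm, hc, Tree.weight, Sys.mom]

theorem Sys.gap_sum_le (hS : S.Good) {C : Cons} (hC : C.Ok S.R) {N : ℕ}
    {a : Fin N → (ℕ → Ω) → ℝ} (ha : ∀ i, Obs S (a i)) (ω : ℕ → Ω) :
    ∑ m ∈ Ico 1 (min S.R (C.first S.R - 1)), S.cond 0 m (S.gap C a m) ω ≤
      (Nat.factorial C.n : ℝ) ^ 2 := by
  set M := min S.R (C.first S.R - 1) with hM
  set F : Fin N → ℕ → ℝ := fun i m => S.cond 0 m (fun v => S.resp C (a i) m v ^ 2) ω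
  have hr := hS.reg
  have hG : ∀ i m, 1 ≤ m → m ≤ S.R → Bdd (S.resp C (a i) m) := fun i m h1 h2 =>
    (Sys.resp_bdd hS hC (ha i) h1 h2).1
  have hstep : ∀ m ∈ Ico 1 M, S.cond 0 m (S.gap C a m) ω =
      (N : ℝ)⁻¹ * ∑ i, (F i (m + 1) - F i m) := by
    intro m hm
    rw [mem_Ico] at hm
    have h1 : m < S.R := by omega
    have h2 : m + 1 ≤ C.first S.R := by omega
    have e : ∀ i v, S.cov m (m + 1) (S.resp C (a i) (m + 1)) (S.resp C (a i) (m + 1)) v =
        S.A m (fun v => S.resp C (a i) (m + 1) v ^ 2) v - S.resp C (a i) m v ^ 2 := fun i v => by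
      rw [Sys.resp_step hS hC (ha i) hm.1 h1 h2 v]
      simp only [Sys.cov, Sys.cond_succ, pow_two]
    have hb : ∀ i, Bdd fun v =>
        S.A m (fun v => S.resp C (a i) (m + 1) v ^ 2) v - S.resp C (a i) m v ^ 2 := fun i =>
      (Sys.A_bdd hS ((hG i (m + 1) (by omega) (by omega)).pow 2) m).sub
        ((hG i m hm.1 h1.le).pow 2)
    have eg : S.gap C a m = fun v => (N : ℝ)⁻¹ * ∑ i,
        (S.A m (fun v => S.resp C (a i) (m + 1) v ^ 2) v - S.resp C (a i) m v ^ 2) := by
      funext v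
      simp only [Sys.gap, avg, e, Fintype.card_fin, div_eq_inv_mul]
    rw [eg, Sys.cond_const_mul _ _ 0 m, Sys.cond_sum hr univ (fun i => hb i) 0 m]
    refine congrArg _ (Finset.sum_congr rfl fun i _ => ?_)
    rw [Sys.cond_sub hr (Sys.A_bdd hS ((hG i (m + 1) (by omega) (by omega)).pow 2) m)
      ((hG i m hm.1 h1.le).pow 2) 0 m]
    simp only [F]
    rw [Sys.cond_tower hS (fun v => S.resp C (a i) (m + 1) v ^ 2) (Nat.zero_le m) (Nat.le_succ m),
      Sys.cond_succ]
  rw [sum_congr rfl hstep, ← mul_sum, sum_comm]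
  rcases Nat.eq_zero_or_pos N with hN | hN
  · subst hN; simp
  rw [inv_mul_le_iff₀ (Nat.cast_pos.2 hN)]
  refine (sum_le_card_nsmul univ _ ((Nat.factorial C.n : ℝ) ^ 2) fun i _ => ?_).trans_eq (by simp)
  rcases le_or_gt M 1 with h | h
  · rw [Ico_eq_empty (by omega)]; simp
  rw [sum_Ico_sub (F i) h.le]
  have hle : F i M ≤ (Nat.factorial C.n : ℝ) ^ 2 := by
    refine (Sys.cond_mono hr ((hG i M h.le (min_le_left _ _)).pow 2) (bdd_const _) (fun v => ?_) 0 M
      ω).trans_eq (congrFun (Sys.cond_const hr _ 0 M) ω)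
    exact sq_le_sq' (abs_le.1 (Sys.resp_abs_le hS hC (ha i) h.le (min_le_left _ _) v)).1
      (abs_le.1 (Sys.resp_abs_le hS hC (ha i) h.le (min_le_left _ _) v)).2
  have hge : 0 ≤ F i 1 := (congrFun (Sys.cond_const hr 0 0 1) ω).symm.trans_le
    (Sys.cond_mono hr (bdd_const _) ((hG i 1 le_rfl hS.R_pos).pow 2) (fun v => sq_nonneg _) 0 1 ω)
  linarith

end Vale.Agent.P168
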