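import Vale.Agent.P168.LowerDefs

/-!
Cavity potentials: size, measurability, and the trial integrands written through them.
-/

namespace Vale.Agent.P168

open MeasureTheory Finset Function

variable {K k : ℕ}

/-- The largest absolute value of `θ`. -/
noncomputable def thetaMax (p : Param K) : ℝ :=
  univ.sup' univ_nonempty fun σ : Fin K → Bool => |theta p σ|

lemma abs_theta_le (p : Param K) (σ : Fin K → Bool) : |theta p σ| ≤ thetaMax p :=
  le_sup' (fun σ => |theta p σ|) (mem_univ σ)

lemma thetaMax_nonneg (p : Param K) : 0 ≤ thetaMax p :=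
  (abs_nonneg _).trans (abs_theta_le p fun _ => true)

lemma measurable_theta (σ : Fin K → Bool) : Measurable fun p : Param K => theta p σ := by
  have h : ∀ j, Measurable fun p : Param K => p.2 j (σ j) := fun j =>
    (measurable_pi_apply (σ j)).comp ((measurable_pi_apply j).comp measurable_snd)
  exact (Real.measurable_log.comp measurable_fst.fst).add (Real.measurable_log.comp
    ((measurable_fst.snd.mul (Finset.measurable_prod _ fun j _ => h j)).const_add 1))

lemma measurable_potV (k : ℕ) :
    Measurable fun θ : Fin k → Param K => fun τ : Fin k × Fin K → Bool => potV θ τ := by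
  refine measurable_pi_lambda _ fun τ => Finset.measurable_sum _ fun c _ => ?_
  exact (measurable_theta _).comp (measurable_pi_apply c)

lemma measurable_potU (k : ℕ) (l : Fin k → Fin K) :
    Measurable fun q : ℝ × (Fin k → Param K) => fun τ : Fin k × Fin K → Bool =>
      potU q.2 l q.1 τ := by
  refine measurable_pi_lambda _ fun τ => Real.measurable_log.comp
    (Finset.measurable_sum _ fun e _ => ?_)
  refine (Real.measurable_exp.comp (measurable_fst.mul_const _)).mul
    (Finset.measurable_prod _ fun c _ => Real.measurable_exp.comp ?_)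
  exact (measurable_theta _).comp ((measurable_pi_apply c).comp measurable_snd)

lemma abs_potV_le (θ : Fin k → Param K) (τ : Fin k × Fin K → Bool) :
    |potV θ τ| ≤ ∑ c, thetaMax (θ c) :=
  (abs_sum_le_sum_abs _ _).trans (sum_le_sum fun c _ => abs_theta_le _ _)

lemma abs_potU_le (θ : Fin k → Param K) (l : Fin k → Fin K) (h : ℝ)
    (τ : Fin k × Fin K → Bool) :
    |potU θ l h τ| ≤ |h| + Real.log 2 + ∑ c, thetaMax (θ c) := by
  set B := |h| + ∑ c, thetaMax (θ c)
  let g : Bool → ℝ := fun e => Real.exp (h * spin e) *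
    ∏ c, Real.exp (theta (θ c) (update (fun j => τ (c, j)) (l c) e))
  have hpot : potU θ l h τ = Real.log (∑ e, g e) := rfl
  have hg : ∀ e, Real.exp (-B) ≤ g e ∧ g e ≤ Real.exp B := by
    intro e
    have h1 : g e = Real.exp (h * spin e +
        ∑ c, theta (θ c) (update (fun j => τ (c, j)) (l c) e)) := by
      rw [Real.exp_add, Real.exp_sum]
    have h2 : |h * spin e + ∑ c, theta (θ c) (update (fun j => τ (c, j)) (l c) e)| ≤ B := by
      refine (abs_add_le _ _).trans (add_le_add (le_of_eq ?_) ((abs_sum_le_sum_abs _ _).trans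
        (sum_le_sum fun c _ => abs_theta_le _ _)))
      cases e <;> simp [spin]
    rw [h1]
    exact ⟨Real.exp_le_exp.2 (abs_le.1 h2).1, Real.exp_le_exp.2 (abs_le.1 h2).2⟩
  have hs : ∑ e, g e = g true + g false := Fintype.sum_bool g
  have hpos : ∀ e, 0 < g e := fun e => (Real.exp_pos _).trans_le (hg e).1
  have hl2 : (0 : ℝ) ≤ Real.log 2 := Real.log_nonneg (by norm_num)
  rw [hpot, hs, abs_le]
  constructor
  · have : Real.exp (-B) ≤ g true + g false := by linarith [(hg true).1, hpos false]
    have := (Real.le_log_iff_exp_le (by linarith [hpos true, hpos false])).2 this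
    linarith
  · have h3 : g true + g false ≤ 2 * Real.exp B := by linarith [(hg true).2, (hg false).2]
    have := Real.log_le_log (by linarith [hpos true, hpos false]) h3
    rw [Real.log_mul (by norm_num) (Real.exp_pos _).ne', Real.log_exp] at this
    linarith

/-- The weight of a spin under a message. -/
noncomputable def msgWt (x : ℝ) (s : Bool) : ℝ := (1 + x * spin s) / 2

lemma msgWt_add (x : ℝ) : msgWt x true + msgWt x false = 1 := by
  simp [msgWt, spin]; ring

/-- Replacing the coordinate `j₀` by `e` integrates out its weight. -/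
lemma sum_update_mul_prod (j₀ : Fin K) (e : Bool) (g : (Fin K → Bool) → ℝ) (x : Fin K → ℝ) :
    ∑ τ : Fin K → Bool, g (update τ j₀ e) * ∏ j, msgWt (x j) (τ j) =
      ∑ σ ∈ univ.filter (fun σ : Fin K → Bool => σ j₀ = e),
        g σ * ∏ j ∈ univ.erase j₀, msgWt (x j) (σ j) := by
  have hsplit : ∀ τ : Fin K → Bool, ∏ j, msgWt (x j) (τ j) =
      msgWt (x j₀) (τ j₀) * ∏ j ∈ univ.erase j₀, msgWt (x j) (τ j) := fun τ =>
    (mul_prod_erase _ _ (mem_univ j₀)).symm
  rw [← sum_fiberwise_of_maps_to (g := fun τ : Fin K → Bool => update τ j₀ e)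
    (t := univ.filter fun σ : Fin K → Bool => σ j₀ = e) (by intro τ _; simp)]
  refine sum_congr rfl fun σ hσ => ?_
  have hσe : σ j₀ = e := (mem_filter.1 hσ).2
  have hfib : (univ.filter fun τ : Fin K → Bool => update τ j₀ e = σ) =
      {update σ j₀ true, update σ j₀ false} := by
    ext τ
    simp only [mem_filter, mem_univ, true_and, mem_insert, mem_singleton]
    constructor
    · intro h
      subst h
      cases hc : τ j₀
      · right; rw [update_idem, ← hc, update_eq_self]
      · left; rw [update_idem, ← hc, update_eq_self]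
    · rintro (h | h) <;> subst h <;> rw [update_idem, ← hσe, update_eq_self]
  have hne : update σ j₀ true ≠ update σ j₀ false := fun h => by
    simpa using congrFun h j₀
  have hrest : ∀ b, ∏ j ∈ univ.erase j₀, msgWt (x j) (update σ j₀ b j) =
      ∏ j ∈ univ.erase j₀, msgWt (x j) (σ j) := fun b =>
    prod_congr rfl fun j hj => by rw [update_of_ne (ne_of_mem_erase hj)]
  have hback : ∀ b, update (update σ j₀ b) j₀ e = σ := fun b => by
    rw [update_idem, ← hσe, update_eq_self]
  rw [hfib, sum_pair hne, hback, hback, hsplit, hsplit, hrest, hrest, update_self, update_self]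
  linear_combination (g σ * ∏ j ∈ univ.erase j₀, msgWt (x j) (σ j)) * msgWt_add (x j₀)

lemma sum_prod_curry (G : Fin k → (Fin K → Bool) → ℝ) :
    ∑ τ : Fin k × Fin K → Bool, ∏ c, G c (fun j => τ (c, j)) = ∏ c, ∑ σ, G c σ := by
  rw [Fintype.prod_sum]
  exact Fintype.sum_equiv (Equiv.curry (Fin k) (Fin K) Bool) _ _ fun τ => rfl

/-- The integrand of `𝒯 V` through the potential. -/
lemma sum_exp_potV (θ : Fin k → Param K) (x : Fin k × Fin K → ℝ) :
    ∑ τ : Fin k × Fin K → Bool, Real.exp (potV θ τ) * ∏ s, (1 + x s * spin (τ s)) / 2 =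
      ∏ c, ∑ σ, Real.exp (theta (θ c) σ) * ∏ j, (1 + x (c, j) * spin (σ j)) / 2 := by
  rw [← sum_prod_curry]
  refine sum_congr rfl fun τ _ => ?_
  rw [potV, Real.exp_sum, Fintype.prod_prod_type, ← prod_mul_distrib]

/-- The integrand of `𝒯 U` through the potential. -/
lemma sum_exp_potU (θ : Fin k → Param K) (l : Fin k → Fin K) (h : ℝ) (x : Fin k × Fin K → ℝ) :
    ∑ τ : Fin k × Fin K → Bool, Real.exp (potU θ l h τ) * ∏ s, (1 + x s * spin (τ s)) / 2 =
      ∑ e : Bool, Real.exp (h * spin e) *
        ∏ c : Fin k, ∑ σ ∈ univ.filter (fun σ : Fin K → Bool => σ (l c) = e),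
          Real.exp (theta (θ c) σ) * ∏ j ∈ univ.erase (l c), (1 + x (c, j) * spin (σ j)) / 2 := by
  have hexp : ∀ τ : Fin k × Fin K → Bool, Real.exp (potU θ l h τ) = ∑ e : Bool,
      Real.exp (h * spin e) *
        ∏ c, Real.exp (theta (θ c) (update (fun j => τ (c, j)) (l c) e)) := fun τ => by
    rw [potU, Real.exp_log]
    refine sum_pos (fun e _ => mul_pos (Real.exp_pos _)
      (prod_pos fun c _ => Real.exp_pos _)) univ_nonempty
  simp_rw [hexp, sum_mul]
  rw [sum_comm]
  refine sum_congr rfl fun e _ => ?_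
  simp_rw [mul_assoc, ← mul_sum, Fintype.prod_prod_type, ← prod_mul_distrib]
  congr 1
  rw [sum_prod_curry fun c σ => Real.exp (theta (θ c) (update σ (l c) e)) *
    ∏ j, (1 + x (c, j) * spin (σ j)) / 2]
  exact prod_congr rfl fun c _ =>
    sum_update_mul_prod (l c) e (fun σ => Real.exp (theta (θ c) σ)) fun j => x (c, j)

end Vale.Agent.P168
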