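import Vale.Agent.P168.LowerDefs
import Vale.Agent.P168.Trees

/-!
Module T: independent copies below a node of a finite system are the collapse of one trial. The
conditional laws of the segments are sampled by inverse distribution functions.
-/

namespace Vale.Agent.P168

open MeasureTheory Finset Function

/-- The uniform law of one coordinate. -/
noncomputable def unitLaw : Measure ℝ := volume.restrict (Set.Icc (0 : ℝ) 1)

instance : IsProbabilityMeasure unitLaw :=
  ⟨by rw [unitLaw, Measure.restrict_apply_univ, Real.volume_Icc]; norm_num⟩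

/-- Inverse distribution function: a finite law is the law of a function of a uniform variable. -/
lemma exists_sampler {α : Type} [Fintype α] [MeasurableSpace α] [MeasurableSingletonClass α]
    [Nonempty α] (q : α → ℝ) (hq : ∀ a, 0 ≤ q a) (h1 : ∑ a, q a = 1) :
    ∃ Φ : ℝ → α, Measurable Φ ∧ ∀ a, unitLaw.real (Φ ⁻¹' {a}) = q a := by
  classical
  suffices H : ∀ t : Finset α, ∃ Φ : ℝ → α, Measurable Φ ∧
      (∀ u ∈ Set.Ico (0 : ℝ) (∑ a ∈ t, q a), Φ u ∈ t) ∧
      ∀ a ∈ t, volume.real (Φ ⁻¹' {a} ∩ Set.Ico (0 : ℝ) (∑ a ∈ t, q a)) = q a by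
    obtain ⟨Φ, hm, -, hv⟩ := H univ
    refine ⟨Φ, hm, fun a => ?_⟩
    rw [← hv a (mem_univ a), h1, unitLaw, ← Measure.restrict_congr_set Ico_ae_eq_Icc,
      measureReal_restrict_apply (hm (measurableSet_singleton a))]
  intro t
  induction t using Finset.induction_on with
  | empty => exact ⟨fun _ => Classical.arbitrary α, measurable_const, by simp, by simp⟩
  | @insert a t ha ih =>
    obtain ⟨Φ, hm, hin, hv⟩ := ih
    set σ := ∑ b ∈ t, q b with hσdef
    have hσ : 0 ≤ σ := sum_nonneg fun b _ => hq b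
    refine ⟨fun u => if u < σ then Φ u else a,
      Measurable.ite measurableSet_Iio hm measurable_const, ?_, ?_⟩
    · intro u hu
      dsimp only
      split_ifs with h
      · exact mem_insert_of_mem (hin u ⟨hu.1, h⟩)
      · exact mem_insert_self _ _
    · rw [sum_insert ha]
      intro b hb
      rcases mem_insert.1 hb with rfl | hb
      · have : (fun u => if u < σ then Φ u else b) ⁻¹' {b} ∩ Set.Ico 0 (q b + σ) =
            Set.Ico σ (q b + σ) := by
          ext u
          simp only [Set.mem_inter_iff, Set.mem_preimage, Set.mem_singleton_iff, Set.mem_Ico]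
          constructor
          · rintro ⟨h, h0, h2⟩
            refine ⟨le_of_not_gt fun hlt => ?_, h2⟩
            rw [if_pos hlt] at h
            exact ha (h ▸ hin u ⟨h0, hlt⟩)
          · rintro ⟨h, h2⟩
            exact ⟨if_neg h.not_gt, hσ.trans h, h2⟩
        rw [this, Real.volume_real_Ico_of_le (by linarith [hq b])]
        ring
      · have : (fun u => if u < σ then Φ u else a) ⁻¹' {b} ∩ Set.Ico 0 (q a + σ) =
            Φ ⁻¹' {b} ∩ Set.Ico 0 σ := by
          ext u
          simp only [Set.mem_inter_iff, Set.mem_preimage, Set.mem_singleton_iff, Set.mem_Ico]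
          constructor
          · rintro ⟨h, h0, -⟩
            by_cases hlt : u < σ
            · rw [if_pos hlt] at h
              exact ⟨h, h0, hlt⟩
            · rw [if_neg hlt] at h
              exact absurd (h ▸ hb) ha
          · rintro ⟨h, h0, h2⟩
            exact ⟨by rw [if_pos h2]; exact h, h0, by linarith [hq a]⟩
        rw [this]
        exact hv b hb

/-- Independent samplers push the uniform law to the product law. -/
lemma integral_samplers {α ι : Type} [Fintype α] [MeasurableSpace α] [MeasurableSingletonClass α]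
    [Fintype ι] [DecidableEq ι] (Φ : ι → ℝ → α) (q : ι → α → ℝ) (hm : ∀ s, Measurable (Φ s))
    (hq : ∀ s a, unitLaw.real (Φ s ⁻¹' {a}) = q s a) (g : (ι → α) → ℝ) :
    ∫ u, g (fun s => Φ s (u s)) ∂unifLaw ι = ∑ σ : ι → α, g σ * ∏ s, q s (σ s) := by
  classical
  have e : ∀ u : ι → ℝ, g (fun s => Φ s (u s)) =
      ∑ σ : ι → α, g σ * ∏ s, (Φ s ⁻¹' {σ s}).indicator (1 : ℝ → ℝ) (u s) := by
    intro u
    rw [Finset.sum_eq_single fun s => Φ s (u s)]
    · simp
    · intro σ _ hσ
      obtain ⟨s, hs⟩ := Function.ne_iff.1 hσ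
      rw [Finset.prod_eq_zero (i := s) (mem_univ s), mul_zero]
      refine Set.indicator_of_notMem ?_ _
      exact fun h => hs (Set.mem_singleton_iff.1 h).symm
    · exact fun h => absurd (mem_univ _) h
  have hi : ∀ s a, Integrable ((Φ s ⁻¹' {a}).indicator (1 : ℝ → ℝ)) unitLaw := fun s a =>
    (integrable_const (μ := unitLaw) (1 : ℝ)).indicator (hm s (measurableSet_singleton a))
  simp only [e, show unifLaw ι = Measure.pi fun _ => unitLaw from rfl]
  rw [integral_finsetSum _ fun σ _ =>
    (Integrable.fintype_prod (f := fun s => (Φ s ⁻¹' {σ s}).indicator (1 : ℝ → ℝ))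
      fun s => hi s (σ s)).const_mul _]
  refine sum_congr rfl fun σ _ => ?_
  rw [integral_const_mul,
    integral_fintype_prod_eq_prod (f := fun s => (Φ s ⁻¹' {σ s}).indicator (1 : ℝ → ℝ))]
  refine congrArg _ (prod_congr rfl fun s _ => ?_)
  rw [integral_indicator_one (hm s (measurableSet_singleton _)), hq]

variable {Ω : Type}

/-- The coordinates `1..R` of a path. -/
def cut (R : ℕ) (v : ℕ → Ω) : Fin R → Ω := fun k => v (k + 1)

/-- The path with given coordinates `1..R`, elsewhere the path `ω`. -/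
def paste (R : ℕ) (ω : ℕ → Ω) (σ : Fin R → Ω) (l : ℕ) : Ω :=
  if h : 1 ≤ l ∧ l ≤ R then σ ⟨l - 1, by omega⟩ else ω l

lemma eq_paste_cut {β : Type} {f : (ℕ → Ω) → β} {R : ℕ} (hf : DependsTo f R) (ω v : ℕ → Ω) :
    f v = f (paste R ω (cut R v)) := by
  refine hf _ _ fun i h1 h2 => ?_
  rw [paste, dif_pos ⟨h1, h2⟩, cut]
  exact congrArg v (by show i = i - 1 + 1; omega)

variable [MeasurableSpace Ω]

lemma measurable_cut (R : ℕ) : Measurable (cut R : (ℕ → Ω) → Fin R → Ω) :=
  measurable_pi_lambda _ fun _ => measurable_pi_apply _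

lemma bdd_comp_finite {Ω' α : Type} [MeasurableSpace Ω'] [Fintype α] [MeasurableSpace α]
    [MeasurableSingletonClass α] {φ : (ℕ → Ω') → α} (hφ : Measurable φ) (g : α → ℝ) :
    Bdd fun v => g (φ v) :=
  ⟨(measurable_of_finite g).comp hφ, ∑ a, |g a|,
    fun _ => Finset.single_le_sum (f := fun a => |g a|) (fun _ _ => abs_nonneg _) (mem_univ _)⟩

lemma Sys.A_exp_pos_reg {S : Sys Ω} (hr : S.Reg) {f : (ℕ → Ω) → ℝ} (hf : Bdd f) (l : ℕ)
    (ω : ℕ → Ω) : 0 < S.A l (fun v => Real.exp (f v)) ω := by
  obtain ⟨C, hC⟩ := hf.2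
  refine (Real.exp_pos (-C)).trans_le ?_
  rw [← Sys.A_const' hr l (Real.exp (-C)) ω]
  exact Sys.A_mono' hr (bdd_const _) hf.exp
    (fun v => Real.exp_le_exp.2 (abs_le.1 (hC v)).1) l ω

/-- Over a segment with a constant exponent the nested evaluation is one average. -/
lemma Sys.exp_val_segment {S : Sys Ω} (hS : S.Good) {ξ : ℕ → ℝ} {F : (ℕ → Ω) → ℝ} (hF : Bdd F)
    {e : ℝ} (he : e ≠ 0) : ∀ a d l, (∀ i, l < i → i ≤ l + a → ξ i = e) →
      (fun v => Real.exp (e * S.val ξ F (d + a) l v)) =
        S.down a l fun v => Real.exp (e * S.val ξ F d (l + a) v)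
  | 0, _, _, _ => rfl
  | a + 1, d, l, h => by
    have ih := Sys.exp_val_segment hS hF he a d (l + 1) fun i h1 h2 => h i (by omega) (by omega)
    funext v
    rw [show d + (a + 1) = (d + a) + 1 from rfl]
    simp only [Sys.val, Sys.down, show l + (a + 1) = l + 1 + a by omega, ← ih,
      h (l + 1) (by omega) (by omega)]
    rw [mul_inv_cancel_left₀ he,
      Real.exp_log (Sys.A_exp_pos_reg hS.reg ((Sys.val_bdd hS hF _ _).const_mul e) l v)]

lemma Sys.down_dep {S : Sys Ω} (hS : S.Good) {f : (ℕ → Ω) → ℝ} (hf : DependsTo f S.R) :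
    ∀ d l, l + d ≤ S.R → DependsTo (S.down d l f) S.R
  | 0, _, _ => hf
  | d + 1, l, hl => by
    have ih := Sys.down_dep hS hf d (l + 1) (by omega)
    intro ω ω' h
    have hu : ∀ e : Ω, ∀ i, 1 ≤ i → i ≤ S.R →
        update ω (l + 1) e i = update ω' (l + 1) e i := by
      intro e i h1 h2
      simp only [update_apply, h i h1 h2]
    have hU : ∀ e, S.u (l + 1) (update ω (l + 1) e) = S.u (l + 1) (update ω' (l + 1) e) := fun e =>
      Sys.u_dep hS (show l + 1 ≤ S.R by omega) _ _ fun i h1 h2 => hu e i h1 (by omega)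
    have hD : ∀ e, S.down d (l + 1) f (update ω (l + 1) e) =
        S.down d (l + 1) f (update ω' (l + 1) e) := fun e => ih _ _ (hu e)
    simp only [Sys.down, Sys.A_eq, hU, hD]

variable [Fintype Ω] [MeasurableSingletonClass Ω]

omit [Fintype Ω] [MeasurableSingletonClass Ω] in
/-- Averages of copies of functions of finitely many coordinates. -/
lemma Sys.copies_cond_finite {S : Sys Ω} (hS : S.Good) {α : Type} [Fintype α] [DecidableEq α]
    [MeasurableSpace α] [MeasurableSingletonClass α] {ι : Type} [Fintype ι] [DecidableEq ι]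
    (φ : ι → (ℕ → Ω) → α) (hφ : ∀ s, Measurable (φ s)) (g : (ι → α) → ℝ) {l m : ℕ} (hl : l ≤ m)
    (hm : m ≤ S.R) (V : ℕ → ι → Ω) :
    (S.copies ι).cond l m (fun W => g fun s => φ s fun i => W i s) V =
      ∑ σ : ι → α, g σ *
        ∏ s, S.cond l m (fun v => if φ s v = σ s then 1 else 0) fun i => V i s := by
  have hT := Sys.copies_good hS ι
  have hI : ∀ (s : ι) (a : α), Bdd fun v => if φ s v = a then (1 : ℝ) else 0 := fun s a =>
    bdd_comp_finite (hφ s) fun x => if x = a then 1 else 0
  have hP : ∀ σ : ι → α, Bdd fun W : ℕ → ι → Ω =>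
      ∏ s, if (φ s fun i => W i s) = σ s then (1 : ℝ) else 0 := by
    intro σ
    refine Bdd.prod univ fun s => ⟨(hI s (σ s)).1.comp (measurable_pi_lambda _ fun i =>
      (measurable_pi_apply s).comp (measurable_pi_apply i)), 1, fun W => ?_⟩
    dsimp only
    split_ifs <;> simp
  have e : (fun W : ℕ → ι → Ω => g fun s => φ s fun i => W i s) = fun W =>
      ∑ σ : ι → α, g σ * ∏ s, if (φ s fun i => W i s) = σ s then (1 : ℝ) else 0 := by
    funext W
    rw [Finset.sum_eq_single fun s => φ s fun i => W i s]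
    · simp
    · intro σ _ hσ
      obtain ⟨s, hs⟩ := Function.ne_iff.1 hσ
      rw [Finset.prod_eq_zero (mem_univ s), mul_zero]
      exact if_neg fun h => hs h.symm
    · exact fun h => absurd (mem_univ _) h
  rw [e, Sys.cond_sum hT.reg univ (fun σ => (hP σ).const_mul (g σ)) l m]
  refine sum_congr rfl fun σ _ => ?_
  rw [Sys.cond_const_mul]
  exact congrArg _ (Sys.copies_cond hS ι (fun s => hI s (σ s)) hl hm V)

/-- The law of the coordinates `1..R` after the steps `l..m` from a given state. -/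
noncomputable def Sys.trans [DecidableEq Ω] (S : Sys Ω) (ω : ℕ → Ω) (l m : ℕ)
    (σ σ' : Fin S.R → Ω) : ℝ :=
  S.cond l m (fun v => if cut S.R v = σ' then 1 else 0) (paste S.R ω σ)

lemma Sys.trans_law [DecidableEq Ω] {S : Sys Ω} (hS : S.Good) (ω : ℕ → Ω) {l m : ℕ}
    (σ : Fin S.R → Ω) :
    (∀ σ', 0 ≤ S.trans ω l m σ σ') ∧ ∑ σ', S.trans ω l m σ σ' = 1 := by
  have hI : ∀ a : Fin S.R → Ω, Bdd fun v => if cut S.R v = a then (1 : ℝ) else 0 := fun a =>
    bdd_comp_finite (measurable_cut S.R) fun x => if x = a then 1 else 0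
  refine ⟨fun σ' => ?_, ?_⟩
  · have h := Sys.cond_mono hS.reg (bdd_const 0) (hI σ')
      (fun v => by split_ifs <;> simp) l m (paste S.R ω σ)
    rwa [Sys.cond_const hS.reg] at h
  · simp only [Sys.trans]
    have h := congrFun (Sys.cond_sum hS.reg univ hI l m) (paste S.R ω σ)
    rw [← h]
    simp only [Finset.sum_ite_eq, mem_univ, if_true, Sys.cond_const hS.reg]

omit [Fintype Ω] [MeasurableSingletonClass Ω] in
lemma Sys.cond_cut_eq_trans [DecidableEq Ω] {S : Sys Ω} (hS : S.Good) (ω v : ℕ → Ω) {l m : ℕ}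
    (hl : l ≤ m) (hm : m ≤ S.R) (σ' : Fin S.R → Ω) :
    S.cond l m (fun v => if cut S.R v = σ' then 1 else 0) v = S.trans ω l m (cut S.R v) σ' :=
  eq_paste_cut (Sys.down_dep hS (fun a b h => by
    rw [show cut S.R a = cut S.R b from funext fun k => h _ (by omega) (by omega)])
    (m - l) l (by omega)) ω v

/-- The state after `r` segments from segment `j`. -/
def walk {α : Type} (Φ : ℕ → α → ℝ → α) : (r : ℕ) → ℕ → α → (Fin r → ℝ) → α
  | 0, _, a, _ => a
  | r + 1, j, a, w => walk Φ r (j + 1) (Φ j a (w 0)) fun p => w p.succ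

lemma measurable_walk {α : Type} [Fintype α] [MeasurableSpace α] [MeasurableSingletonClass α]
    {Φ : ℕ → α → ℝ → α} (hΦ : ∀ j a, Measurable (Φ j a)) :
    ∀ r j a, Measurable (walk Φ r j a)
  | 0, _, _ => measurable_const
  | r + 1, j, a => by
    have h : Measurable fun q : α × (Fin r → ℝ) => walk Φ r (j + 1) q.1 q.2 :=
      measurable_from_prod_countable_right fun a => measurable_walk hΦ r (j + 1) a
    exact h.comp (((hΦ j a).comp (measurable_pi_apply 0)).prodMk
      (measurable_pi_lambda _ fun p => measurable_pi_apply p.succ))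

lemma Grid.Ok.p_succ {G : Grid} {R : ℕ} (h : G.Ok R) {k : ℕ} (h1 : G.lo ≤ k) (h2 : k < G.B) :
    1 ≤ G.p k ∧ G.p k < G.p (k + 1) := by
  obtain ⟨a, b, c, d⟩ := h.2.2 k h1 h2
  exact ⟨a, by omega⟩

lemma Grid.Ok.p_mono {G : Grid} {R : ℕ} (h : G.Ok R) {i : ℕ} (hi : G.lo ≤ i) :
    ∀ j, i ≤ j → j ≤ G.B → G.p i ≤ G.p j := by
  intro j hij
  induction j, hij using Nat.le_induction with
  | base => exact fun _ => le_rfl
  | succ j hij ih =>
    intro hj
    exact (ih (by omega)).trans (h.p_succ (show G.lo ≤ j by omega) (by omega)).2.le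

lemma Grid.Ok.next_eq {G : Grid} {R : ℕ} (h : G.Ok R) {k l : ℕ} (h1 : G.lo ≤ k) (h2 : k < G.B)
    (hl : G.p k < l) (hl' : l ≤ G.p (k + 1)) : G.next R l = G.p (k + 1) := by
  refine le_antisymm (min'_le _ _ ?_) (le_min' _ _ _ fun q hq => ?_)
  · exact mem_insert_of_mem (mem_filter.2
      ⟨mem_image.2 ⟨k + 1, mem_Icc.2 ⟨by omega, h2⟩, rfl⟩, hl'⟩)
  · rcases mem_insert.1 hq with rfl | hq
    · exact h.2.1 ▸ h.p_mono (by omega) G.B h2 le_rfl
    · obtain ⟨hq, hlq⟩ := mem_filter.1 hq
      obtain ⟨j, hj, rfl⟩ := mem_image.1 hq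
      obtain ⟨hj1, hj2⟩ := mem_Icc.1 hj
      by_cases hjk : j ≤ k
      · have := h.p_mono hj1 k hjk (by omega)
        omega
      · exact h.p_mono (by omega) j (by omega) hj2

/-- Independent copies below a node, averaged over sites, are the collapse of one trial. -/
theorem exists_trial {Ω : Type} [Fintype Ω] [MeasurableSpace Ω] [MeasurableSingletonClass Ω]
    {S : Sys Ω} (hS : S.Good) (hx : S.x = gridExp S.R) {G : Grid} (hG : G.Ok S.R) {N : ℕ}
    (hN : 0 < N) (b : Fin N → (ℕ → Ω) → Bool) (hb : ∀ i, DependsTo (b i) S.R) (ω : ℕ → Ω) :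
    ∃ t : Trial, t.r + 1 = G.B - G.lo ∧ ∀ (ι : Type) [Fintype ι] [DecidableEq ι]
      (F : (ι → Bool) → ℝ),
      avg (fun i : ι → Fin N =>
          (S.copies ι).val (G.expo S.R) (fun p => F fun s => b (i s) fun l => p l s)
            (S.R - G.p G.lo) (G.p G.lo) fun l _ => ω l) =
        ∫ ω0, Real.log (collapse t.r t.m fun w =>
            ∑ τ : ι → Bool, Real.exp (F τ) * ∏ s, (1 + t.message ω0 w s * spin (τ s)) / 2)
          ∂unifLaw ι := by
  classical
  have : Nonempty Ω := ⟨ω 0⟩
  have : Nonempty (Fin N) := ⟨⟨0, hN⟩⟩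
  obtain ⟨n, hn⟩ : ∃ n, G.B = G.lo + n + 1 := ⟨G.B - G.lo - 1, by have := hG.1; omega⟩
  have hR0 : (0 : ℝ) < S.R := by exact_mod_cast hS.R_pos
  -- branching levels and segment exponents
  let P : ℕ → ℕ := fun j => G.p (G.lo + j)
  let E : ℕ → ℝ := fun j => gridExp S.R (P (j + 1))
  have hP : ∀ j, j ≤ n → 1 ≤ P j ∧ P j < P (j + 1) := fun j hj => hG.p_succ (by omega) (by omega)
  have hPR : ∀ j, j ≤ n + 1 → P j ≤ S.R := fun j hj =>
    hG.2.1 ▸ hG.p_mono (by omega) G.B (by omega) le_rfl
  have hPn : P (n + 1) = S.R := by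
    show G.p (G.lo + (n + 1)) = S.R
    rw [← add_assoc, ← hn, hG.2.1]
  have hE : ∀ j, j ≤ n → 0 < E j := fun j hj =>
    div_pos (by exact_mod_cast Nat.lt_of_le_of_lt (Nat.zero_le _) (hP j hj).2) hR0
  have hEn : E n = 1 := by
    show ((P (n + 1) : ℕ) : ℝ) / (S.R : ℝ) = 1
    rw [hPn, div_self hR0.ne']
  have hξ : ∀ j, j ≤ n → ∀ i, P j < i → i ≤ P (j + 1) → G.expo S.R i = E j := by
    intro j hj i h1 h2
    show gridExp S.R (G.next S.R i) = gridExp S.R (G.p (G.lo + (j + 1)))
    rw [hG.next_eq (k := G.lo + j) (by omega) (by omega) h1 h2, add_assoc]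
  -- samplers
  let ρ : (ℕ → Ω) → Fin S.R → Ω := cut S.R
  have hSamp : ∀ j (σ : Fin S.R → Ω), ∃ Φ : ℝ → Fin S.R → Ω, Measurable Φ ∧
      ∀ σ', unitLaw.real (Φ ⁻¹' {σ'}) = S.trans ω (P j) (P (j + 1)) σ σ' :=
    fun j σ => exists_sampler _ (Sys.trans_law hS ω σ).1 (Sys.trans_law hS ω σ).2
  choose Φ hΦm hΦ using hSamp
  obtain ⟨site, hsm, hsite⟩ := exists_sampler (fun _ : Fin N => ((N : ℝ))⁻¹)
    (fun _ => by positivity) (by simp [hN.ne'])
  -- magnetisation of a site given the last branching node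
  let mag : Fin N → (Fin S.R → Ω) → ℝ := fun i σ =>
    S.cond (P n) S.R (fun v => spin (b i v)) (paste S.R ω σ)
  have hbm : ∀ i, Measurable (b i) := by
    intro i
    rw [show b i = fun v => b i (paste S.R ω (cut S.R v)) from
      funext fun v => eq_paste_cut (hb i) ω v]
    exact (measurable_of_finite fun σ => b i (paste S.R ω σ)).comp (measurable_cut S.R)
  have hspin : ∀ i, Bdd fun v => spin (b i v) := fun i => bdd_comp_finite (hbm i) spin
  have hmag : ∀ i σ, mag i σ ∈ Set.Icc (-1 : ℝ) 1 := by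
    intro i σ
    have h1 := Sys.cond_mono hS.reg (bdd_const (-1)) (hspin i)
      (fun v => by unfold spin; split_ifs <;> norm_num) (P n) S.R (paste S.R ω σ)
    have h2 := Sys.cond_mono hS.reg (hspin i) (bdd_const 1)
      (fun v => by unfold spin; split_ifs <;> norm_num) (P n) S.R (paste S.R ω σ)
    rw [Sys.cond_const hS.reg] at h1 h2
    exact ⟨h1, h2⟩
  refine ⟨{ r := n
            m := fun j => E j
            x := fun w => mag (site (w 0)) (walk Φ n 0 (ρ ω) fun p => w p.succ)
            m_mono := ?_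
            m_mem := ?_
            x_meas := ?_
            x_mem := fun w => hmag _ _ }, by show n + 1 = G.B - G.lo; omega, ?_⟩
  · intro i j hij
    have hij' : (i : ℕ) < (j : ℕ) := hij
    have := j.2
    show gridExp S.R (P ((i : ℕ) + 1)) < gridExp S.R (P ((j : ℕ) + 1))
    refine div_lt_div_of_pos_right (Nat.cast_lt.2 ?_) hR0
    exact (hP _ (by omega)).2.trans_le (hG.p_mono (by omega) _ (by omega) (by omega))
  · intro j
    have := j.2
    refine ⟨hE _ (by omega), ?_⟩
    show ((P ((j : ℕ) + 1) : ℕ) : ℝ) / (S.R : ℝ) < 1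
    rw [div_lt_one hR0]
    exact Nat.cast_lt.2 ((hP _ (by omega)).2.trans_le (hPR _ (by omega)))
  · have h : Measurable fun q : Fin N × (Fin S.R → Ω) => mag q.1 q.2 := measurable_of_finite _
    exact h.comp ((hsm.comp (measurable_pi_apply 0)).prodMk
      ((measurable_walk hΦm n 0 (ρ ω)).comp (measurable_pi_lambda _ fun p =>
        measurable_pi_apply p.succ)))
  intro ι _ _ F
  let T : Sys (ι → Ω) := S.copies ι
  have hT : T.Good := Sys.copies_good hS ι
  -- the claim for fixed sites
  let Y : (ι → Fin N) → (ι → Fin S.R → Ω) → ℝ := fun i σ =>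
    ∑ τ : ι → Bool, Real.exp (F τ) * ∏ s, (1 + mag (i s) (σ s) * spin (τ s)) / 2
  let C : (ι → Fin N) → ℕ → ℕ → (ι → Fin S.R → Ω) → ℝ := fun i r j σ =>
    collapse r (fun p => E (j + p)) fun w => Y i fun s => walk Φ r j (σ s) fun p => w p s
  have claim : ∀ (i : ι → Fin N) (r j : ℕ), j + r = n → ∀ V : ℕ → ι → Ω,
      0 < C i r j (fun s => ρ fun l => V l s) ∧
        T.val (G.expo S.R) (fun p => F fun s => b (i s) fun l => p l s) (S.R - P j) (P j) V =
          Real.log (C i r j fun s => ρ fun l => V l s) := by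
    intro i
    have hF : Bdd fun p : ℕ → ι → Ω => F fun s => b (i s) fun l => p l s :=
      bdd_comp_finite (measurable_pi_lambda _ fun s => (hbm (i s)).comp
        (measurable_pi_lambda _ fun l => (measurable_pi_apply s).comp (measurable_pi_apply l))) F
    have seg : ∀ j, j ≤ n → (fun V => Real.exp (E j *
          T.val (G.expo S.R) (fun p => F fun s => b (i s) fun l => p l s) (S.R - P j) (P j) V)) =
        T.cond (P j) (P (j + 1)) fun V => Real.exp (E j * T.val (G.expo S.R)
          (fun p => F fun s => b (i s) fun l => p l s) (S.R - P (j + 1)) (P (j + 1)) V) := by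
      intro j hj
      have h1 := (hP j hj).2
      have h2 := hPR (j + 1) (by omega)
      have h := Sys.exp_val_segment hT hF (hE j hj).ne' (P (j + 1) - P j) (S.R - P (j + 1)) (P j)
        fun a a1 a2 => hξ j hj a a1 (by omega)
      rw [show S.R - P (j + 1) + (P (j + 1) - P j) = S.R - P j by omega,
        show P j + (P (j + 1) - P j) = P (j + 1) by omega] at h
      exact h
    intro r
    induction r with
    | zero =>
      intro j hj V
      obtain rfl : j = n := by omega
      have h := congrFun (seg j le_rfl) V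
      simp only [hEn, hPn, one_mul, Nat.sub_self, Sys.val] at h
      have hval : T.cond (P j) S.R
          (fun V => Real.exp (F fun s => b (i s) fun l => V l s)) V =
            C i 0 j fun s => ρ fun l => V l s := by
        rw [Sys.copies_cond_finite hS (fun s => b (i s)) (fun s => hbm (i s))
          (fun τ => Real.exp (F τ)) (hPR j (by omega)) le_rfl V]
        refine sum_congr rfl fun τ _ => congrArg _ (prod_congr rfl fun s _ => ?_)
        have e1 : (fun v => if b (i s) v = τ s then (1 : ℝ) else 0) =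
            fun v => 1 / 2 + spin (τ s) / 2 * spin (b (i s) v) := by
          funext v
          cases τ s <;> cases b (i s) v <;> simp [spin] <;> norm_num
        rw [e1, Sys.cond_add hS.reg (bdd_const _) ((hspin _).const_mul _) (P j) S.R]
        simp only [Sys.cond_const hS.reg, Sys.cond_const_mul]
        have e2 : S.cond (P j) S.R (fun v => spin (b (i s) v)) (fun l => V l s) =
            mag (i s) (ρ fun l => V l s) :=
          eq_paste_cut (Sys.down_dep hS (fun a a' h => congrArg spin (hb (i s) a a' h))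
            _ _ (by have := hPR j (by omega); omega)) ω _
        rw [e2]
        show _ = (1 + mag (i s) (ρ fun l => V l s) * spin (τ s)) / 2
        ring
      rw [hval] at h
      refine ⟨h ▸ Real.exp_pos _, ?_⟩
      rw [← h, Real.log_exp]
    | succ r ih =>
      intro j hj V
      have hj' : j ≤ n := by omega
      have h := congrFun (seg j hj') V
      have hin : (fun W => Real.exp (E j * T.val (G.expo S.R)
            (fun p => F fun s => b (i s) fun l => p l s) (S.R - P (j + 1)) (P (j + 1)) W)) =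
          fun W => C i r (j + 1) (fun s => ρ fun l => W l s) ^ E j := by
        funext W
        obtain ⟨hpos, heq⟩ := ih (j + 1) (by omega) W
        rw [heq, Real.rpow_def_of_pos hpos, mul_comm]
      rw [hin] at h
      have hint : T.cond (P j) (P (j + 1))
          (fun W => C i r (j + 1) (fun s => ρ fun l => W l s) ^ E j) V =
          ∫ u, C i r (j + 1) (fun s => Φ j (ρ fun l => V l s) (u s)) ^ E j ∂unifLaw ι := by
        rw [Sys.copies_cond_finite hS (fun _ => ρ) (fun _ => measurable_cut S.R)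
          (fun σ => C i r (j + 1) σ ^ E j) (hP j hj').2.le (hPR _ (by omega)) V,
          integral_samplers (fun s => Φ j (ρ fun l => V l s))
            (fun s => S.trans ω (P j) (P (j + 1)) (ρ fun l => V l s))
            (fun s => hΦm _ _) (fun s => hΦ _ _) fun σ => C i r (j + 1) σ ^ E j]
        refine sum_congr rfl fun σ _ => congrArg _ (prod_congr rfl fun s _ => ?_)
        exact Sys.cond_cut_eq_trans hS ω _ (hP j hj').2.le (hPR _ (by omega)) _
      rw [hint] at h
      have hstep : C i (r + 1) j (fun s => ρ fun l => V l s) =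
          (∫ u, C i r (j + 1) (fun s => Φ j (ρ fun l => V l s) (u s)) ^ E j ∂unifLaw ι) ^
            (1 / E j) := by
        show collapse (r + 1) _ _ = _
        simp only [C, collapse, walk, Fin.cons_zero, Fin.cons_succ, Fin.val_zero, Fin.val_succ,
          add_zero, add_assoc, add_comm 1]
      rw [hstep, ← h]
      refine ⟨Real.rpow_pos_of_pos (Real.exp_pos _) _, ?_⟩
      rw [Real.log_rpow (Real.exp_pos _), Real.log_exp, one_div,
        inv_mul_cancel_left₀ (hE j hj').ne']
  -- average over the sites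
  have havg : ∀ g : (ι → Fin N) → ℝ, avg g = ∫ u, g (fun s => site (u s)) ∂unifLaw ι := by
    intro g
    rw [integral_samplers (fun _ => site) (fun _ _ => (N : ℝ)⁻¹) (fun _ => hsm)
      (fun _ => hsite) g, avg, sum_div]
    simp [div_eq_mul_inv, Fintype.card_pi]
  rw [havg]
  refine integral_congr_ae (Filter.Eventually.of_forall fun u => ?_)
  refine ((claim _ n 0 (zero_add n) _).2).trans ?_
  simp only [C, Y, Nat.zero_add]
  rfl

end Vale.Agent.P168
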