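import Vale.Agent.P168.Factor
import Vale.Agent.P168.Val

/-!
Module F2, second half: a potential of finitely many sites evaluated in the system and in
independent copies, from the factorisation of the tree moments.
-/

set_option linter.unusedSectionVars false

namespace Vale.Agent.P168

open MeasureTheory Finset Function

namespace VF

variable {Ω : Type} [MeasurableSpace Ω] {S : Sys Ω} {ι : Type} [Fintype ι] [DecidableEq ι]

lemma bdd_abs {f : (ℕ → Ω) → ℝ} (hf : Bdd f) : Bdd fun v => |f v| :=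
  ⟨_root_.continuous_abs.measurable.comp hf.1, hf.2.imp fun C hC v => by rw [abs_abs]; exact hC v⟩

/-! ### Functions of finitely many spins -/

/-- The coefficient of the product of the spins in `A`. -/
noncomputable def fcoef (G : (ι → Bool) → ℝ) (A : Finset ι) : ℝ :=
  avg fun σ => G σ * ∏ s ∈ A, spin (σ s)

lemma spin_expand (G : (ι → Bool) → ℝ) (τ : ι → Bool) :
    G τ = ∑ A : Finset ι, fcoef G A * ∏ s ∈ A, spin (τ s) := by
  have key : ∀ σ, ∑ A : Finset ι, (∏ s ∈ A, spin (σ s)) * ∏ s ∈ A, spin (τ s) =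
      if σ = τ then (2 : ℝ) ^ Fintype.card ι else 0 := by
    intro σ
    simp only [← prod_mul_distrib]
    rw [← powerset_univ, ← prod_one_add]
    split_ifs with h
    · subst h
      rw [← card_univ, ← prod_const]
      refine prod_congr rfl fun s _ => ?_
      cases σ s <;> norm_num [spin]
    · obtain ⟨s, hs⟩ : ∃ s, σ s ≠ τ s := by
        by_contra hc
        push Not at hc
        exact h (funext hc)
      refine prod_eq_zero (mem_univ s) ?_
      revert hs
      cases σ s <;> cases τ s <;> simp [spin]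
  simp only [fcoef, avg, sum_div, sum_mul]
  rw [sum_comm]
  have e : ∀ σ : ι → Bool, ∑ A : Finset ι,
      (G σ * ∏ s ∈ A, spin (σ s)) / Fintype.card (ι → Bool) * ∏ s ∈ A, spin (τ s) =
      G σ / Fintype.card (ι → Bool) * if σ = τ then (2 : ℝ) ^ Fintype.card ι else 0 := by
    intro σ
    rw [← key σ, mul_sum]
    exact sum_congr rfl fun A _ => by ring
  simp only [e, mul_ite, mul_zero]
  rw [sum_ite_eq' univ τ, if_pos (mem_univ τ), Fintype.card_fun, Fintype.card_bool]
  push_cast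
  rw [div_mul_cancel₀ _ (by positivity)]

lemma fcoef_abs_le {G : (ι → Bool) → ℝ} {C : ℝ} (hG : ∀ σ, |G σ| ≤ C) (A : Finset ι) :
    |fcoef G A| ≤ C := by
  have hpos : (0 : ℝ) < Fintype.card (ι → Bool) := by exact_mod_cast Fintype.card_pos
  rw [fcoef, avg, abs_div, abs_of_pos hpos, div_le_iff₀ hpos]
  refine (abs_sum_le_sum_abs _ _).trans ((sum_le_card_nsmul _ _ C fun σ _ => ?_).trans
    (le_of_eq ?_))
  · rw [abs_mul, abs_prod, prod_eq_one fun s _ => abs_spin _, mul_one]
    exact hG σ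
  · rw [card_univ, nsmul_eq_mul, mul_comm]

lemma bdd_spinFun {b : ι → (ℕ → Ω) → Bool} (hb : ∀ s, Bdd fun v => spin (b s v))
    (G : (ι → Bool) → ℝ) : Bdd fun v => G fun s => b s v := by
  have e : (fun v => G fun s => b s v) =
      fun v => ∑ A : Finset ι, fcoef G A * ∏ s ∈ A, spin (b s v) :=
    funext fun v => spin_expand G _
  rw [e]
  exact Bdd.sum _ fun A => (Bdd.prod A hb).const_mul _

/-! ### Moments -/

lemma mom_sum (hS : S.Good) {β : Type} [Fintype β] (c : β → ℝ) {g : β → (ℕ → Ω) → ℝ}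
    (hg : ∀ x, Bdd (g x)) {d l : ℕ} (T : Tree d) (ω : ℕ → Ω) :
    S.mom d l T (fun _ p => ∑ x, c x * g x p) ω =
      ∑ f : Leaves d T → β, (∏ u, c (f u)) * S.mom d l T (fun u => g (f u)) ω := by
  induction d generalizing l ω with
  | zero =>
    simp only [Sys.mom]
    refine (Fintype.sum_equiv (Equiv.funUnique Unit β) (fun f : Unit → β => c (f ()) * g (f ()) ω)
      (fun x => c x * g x ω) fun f => rfl).symm.trans ?_
    exact sum_congr rfl fun f _ =>
      congrArg (· * g (f ()) ω) (Fintype.prod_unique (fun u : Unit => c (f u))).symm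
  | succ d ih =>
    simp only [Sys.mom]
    have e : ∀ k : Fin (T.1 + 1),
        S.A l (S.mom d (l + 1) (T.2 k) fun _ p => ∑ x, c x * g x p) ω =
          ∑ f : Leaves d (T.2 k) → β,
            (∏ u, c (f u)) * S.A l (S.mom d (l + 1) (T.2 k) fun u => g (f u)) ω := by
      intro k
      rw [show (S.mom d (l + 1) (T.2 k) fun _ p => ∑ x, c x * g x p) = _ from
        funext fun v => ih (T.2 k) v]
      have h := congrFun (Sys.cond_sum hS.reg univ (f := fun (f : Leaves d (T.2 k) → β) v =>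
        (∏ u, c (f u)) * S.mom d (l + 1) (T.2 k) (fun u => g (f u)) v)
        (fun f => (Sys.mom_bdd hS _ fun u => hg (f u)).const_mul _) l (l + 1)) ω
      simp only [Sys.cond, Nat.add_sub_cancel_left, Sys.down, Sys.A_const_mul hS] at h
      exact h
    rw [prod_congr rfl fun k _ => e k, Fintype.prod_sum]
    refine (Fintype.sum_equiv (Equiv.piCurry fun _ _ => β) _ _ fun f => ?_).symm
    rw [prod_mul_distrib]
    exact congrArg₂ (· * ·) (Fintype.prod_sigma fun u => c (f u)) rfl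

/-! ### Trees with few leaves -/

lemma one_le_size : ∀ {d : ℕ} (T : Tree d), 1 ≤ T.size
  | 0, T => (Tree.size_zero T).ge
  | d + 1, T => by
    rw [Tree.size_succ]
    exact (one_le_size (T.2 0)).trans
      (single_le_sum (fun c _ => Nat.zero_le (T.2 c).size) (mem_univ (0 : Fin (T.1 + 1))))

lemma finite_small (n : ℕ) : ∀ d, {T : Tree d | T.size ≤ n}.Finite
  | 0 => @Set.toFinite _ _ (@Finite.of_fintype _ (@Fintype.ofFinite _
      (@Subtype.finite Unit _ _)))
  | d + 1 => by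
    have : Finite {T : Tree d | T.size ≤ n} := (finite_small n d).to_subtype
    refine (Set.finite_range fun p : Σ k : Fin (n + 1), Fin (k.val + 1) → {T : Tree d | T.size ≤ n} =>
      (⟨p.1.val, fun c => (p.2 c).1⟩ : Tree (d + 1))).subset fun T hT => ?_
    have hT' : ∑ c, (T.2 c).size ≤ n := (Tree.size_succ T).symm.trans_le hT
    have hk : T.1 + 1 ≤ n := by
      refine le_trans ?_ hT'
      calc T.1 + 1 = ∑ _c : Fin (T.1 + 1), 1 := by simp
        _ ≤ _ := sum_le_sum fun c _ => one_le_size _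
    exact ⟨⟨⟨T.1, by omega⟩, fun c => ⟨T.2 c, le_trans
      (single_le_sum (fun c _ => Nat.zero_le (T.2 c).size) (mem_univ c)) hT'⟩⟩, rfl⟩

/-- The trees of depth `d` with at most `n` leaves. -/
noncomputable def small (n d : ℕ) : Finset (Tree d) := (finite_small n d).toFinset

lemma mem_small {n d : ℕ} {T : Tree d} : T ∈ small n d ↔ T.size ≤ n := by simp [small]

lemma sum_small_weight_le {R : ℕ} {ξ : ℕ → ℝ} (hξ : Expo R ξ) {a d : ℕ} (h1 : 1 ≤ a)
    (hd : a + d = R) (n : ℕ) : ∑ T ∈ small n d, Tree.weight ξ d a T ≤ 2 ^ n := by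
  have hw := hξ.hasSum_weight_pow h1 hd (ρ := 1 / 2) (by norm_num) (by norm_num)
  calc ∑ T ∈ small n d, Tree.weight ξ d a T
      ≤ ∑ T ∈ small n d, 2 ^ n * (Tree.weight ξ d a T * (1 / 2) ^ T.size) := by
        refine sum_le_sum fun T hT => ?_
        have h2 : (1 : ℝ) ≤ 2 ^ n * (1 / 2) ^ T.size := by
          rw [one_div, inv_pow, ← div_eq_mul_inv, one_le_div (by positivity)]
          exact pow_le_pow_right₀ (by norm_num) (mem_small.1 hT)
        calc Tree.weight ξ d a T ≤ Tree.weight ξ d a T * (2 ^ n * (1 / 2) ^ T.size) :=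
              le_mul_of_one_le_right (hξ.weight_nonneg h1 hd T) h2
          _ = _ := by ring
    _ ≤ 2 ^ n * (1 - (1 - 1 / 2) ^ ξ a) := by
        rw [← mul_sum]
        refine mul_le_mul_of_nonneg_left (sum_le_hasSum _ (fun T _ => ?_) hw) (by positivity)
        exact mul_nonneg (hξ.weight_nonneg h1 hd T) (by positivity)
    _ ≤ 2 ^ n := by
        refine mul_le_of_le_one_right (by positivity) ?_
        linarith [Real.rpow_nonneg (by norm_num : (0 : ℝ) ≤ 1 - 1 / 2) (ξ a)]

/-- The tree mean up to the trees with more than `n` leaves. -/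
lemma treeMean_trunc (hS : S.Good) {ξ : ℕ → ℝ} (hξ : Expo S.R ξ) {a d : ℕ} (h1 : 1 ≤ a)
    (hd : a + d = S.R) {z : (ℕ → Ω) → ℝ} (hz : Bdd z) {ρ : ℝ} (h0 : 0 ≤ ρ) (hρ : ρ < 1)
    (h : ∀ ω, |z ω| ≤ ρ) (n : ℕ) (ω : ℕ → Ω) :
    |S.treeMeanW ξ z d a ω -
        ∑ T ∈ small n d, Tree.weight ξ d a T * S.mom d a T (fun _ => z) ω| ≤
      ξ a * ρ ^ (n + 1) / (1 - ρ) := by
  classical
  set f := fun T : Tree d => Tree.weight ξ d a T * S.mom d a T (fun _ => z) ω
  have hs : HasSum f (S.treeMeanW ξ z d a ω) := Sys.hasSum_treeMeanW hS hξ h1 hd hz h0 hρ h ω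
  have hsm : HasSum (fun T => if T ∈ small n d then f T else 0) (∑ T ∈ small n d, f T) := by
    rw [← sum_congr rfl fun T (hT : T ∈ small n d) =>
      (if_pos hT : (if T ∈ small n d then f T else 0) = f T)]
    exact hasSum_sum_of_ne_finset_zero fun T hT => if_neg hT
  have hrest := hs.sub hsm
  have hbnd : Summable fun T : Tree d =>
      if n < T.size then Tree.weight ξ d a T * ρ ^ T.size else 0 :=
    Summable.of_nonneg_of_le
      (fun T => by
        split_ifs
        exacts [mul_nonneg (hξ.weight_nonneg h1 hd T) (pow_nonneg h0 _), le_rfl])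
      (fun T => by
        split_ifs
        exacts [le_rfl, mul_nonneg (hξ.weight_nonneg h1 hd T) (pow_nonneg h0 _)])
      (hξ.hasSum_weight_pow h1 hd h0 hρ).summable
  have hb := tsum_of_norm_bounded (f := fun T => f T - if T ∈ small n d then f T else 0)
    hbnd.hasSum fun T => by
      by_cases hT : T.size ≤ n
      · rw [if_pos (mem_small.2 hT), sub_self, norm_zero, if_neg (not_lt.2 hT)]
      · rw [if_neg (fun hm => hT (mem_small.1 hm)), sub_zero, if_pos (not_le.1 hT),
          Real.norm_eq_abs]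
        exact Sys.abs_treeTerm_le hS hξ h1 hd hz h T ω
  rw [hrest.tsum_eq, Real.norm_eq_abs] at hb
  exact hb.trans (hξ.weight_size_tail h1 hd h0 hρ n)

/-! ### Comparing the two evaluations -/

lemma abs_log_sub_le {p q m : ℝ} (hm : 0 < m) (hp : m ≤ p) (hq : m ≤ q) :
    |Real.log p - Real.log q| ≤ |p - q| / m := by
  have key : ∀ x y : ℝ, m ≤ x → m ≤ y → Real.log x - Real.log y ≤ |x - y| / m := by
    intro x y hx hy
    have hy0 : 0 < y := hm.trans_le hy
    have h := Real.log_le_sub_one_of_pos (div_pos (hm.trans_le hx) hy0)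
    rw [Real.log_div (hm.trans_le hx).ne' hy0.ne', div_sub_one hy0.ne'] at h
    exact h.trans ((div_le_div_of_nonneg_right (le_abs_self _) hy0.le).trans
      (div_le_div_of_nonneg_left (abs_nonneg _) hm hy))
  rw [abs_le]
  have h1 := key p q hp hq
  have h2 := key q p hq hp
  rw [abs_sub_comm] at h2
  constructor <;> linarith

lemma centre {L : ℝ} (hL : 0 ≤ L) {F : ℝ} (hF : |F| ≤ L) :
    |Real.exp F / Real.cosh L - 1| ≤ Real.tanh L ∧
      Real.log (1 + (Real.exp F / Real.cosh L - 1)) + Real.log (Real.cosh L) = F ∧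
      0 ≤ Real.log (Real.cosh L) ∧ Real.log (Real.cosh L) ≤ L := by
  have hc := Real.cosh_pos L
  obtain ⟨h1, h2⟩ := abs_le.1 hF
  have e1 := Real.exp_le_exp.2 h1
  have e2 := Real.exp_le_exp.2 h2
  have e3 := Real.exp_le_exp.2 (show -L ≤ L by linarith)
  refine ⟨?_, ?_, Real.log_nonneg (Real.one_le_cosh L), ?_⟩
  · rw [Real.tanh_eq_sinh_div_cosh, div_sub_one hc.ne', abs_div, abs_of_pos hc]
    refine div_le_div_of_nonneg_right ?_ hc.le
    rw [Real.cosh_eq, Real.sinh_eq, abs_le]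
    constructor <;> linarith
  · rw [add_sub_cancel, Real.log_div (Real.exp_pos F).ne' hc.ne', Real.log_exp, sub_add_cancel]
  · rw [Real.log_le_iff_le_exp hc, Real.cosh_eq]
    linarith

/-- The difference of the tree moments in the system and in the copies. -/
noncomputable def momDiff (S : Sys Ω) (b : ι → (ℕ → Ω) → Bool) {d : ℕ} (l : ℕ) (T : Tree d)
    (Sl : Leaves d T → Finset ι) (v : ℕ → Ω) : ℝ :=
  |S.mom d l T (fun u p => ∏ s ∈ Sl u, spin (b s p)) v -
    ∏ s, S.mom d l T (fun u p => if s ∈ Sl u then spin (b s p) else 1) v|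

lemma bdd_momDiff (hS : S.Good) {b : ι → (ℕ → Ω) → Bool} (hb : ∀ s, Bdd fun v => spin (b s v))
    {d l : ℕ} (T : Tree d) (Sl : Leaves d T → Finset ι) : Bdd (momDiff S b l T Sl) :=
  bdd_abs ((Sys.mom_bdd hS T fun u => Bdd.prod (Sl u) hb).sub
    (Bdd.prod univ fun s => Sys.mom_bdd hS T fun u => by
      by_cases h : s ∈ Sl u
      · simpa only [if_pos h] using hb s
      · simpa only [if_neg h] using bdd_const (Ω := Ω) 1))

/-- The two evaluations differ by a tail and the differences of the moments. -/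
lemma val_diff_le (hS : S.Good) {ξ : ℕ → ℝ} (hξ : Expo S.R ξ) {b : ι → (ℕ → Ω) → Bool}
    (hb : ∀ s, Bdd fun v => spin (b s v)) {L : ℝ} (hL : 0 ≤ L) {F : (ι → Bool) → ℝ}
    (hF : ∀ τ, |F τ| ≤ L) {a d : ℕ} (h1 : 1 ≤ a) (hd : a + d = S.R) (n : ℕ) (v : ℕ → Ω) :
    |S.val ξ (fun p => F fun s => b s p) d a v -
        (S.copies ι).val ξ (fun p => F fun s => b s fun l => p l s) d a (fun l _ => v l)| ≤
      2 * Real.exp (2 * L) * Real.tanh L ^ (n + 1) / (1 - Real.tanh L) +
        Real.exp (2 * L) / ξ a *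
          ∑ T ∈ small n d, Tree.weight ξ d a T * ∑ Sl, momDiff S b a T Sl v := by
  set ρ := Real.tanh L with hρdef
  have hρ1 : ρ < 1 := Real.tanh_lt_one L
  have hρ0 : 0 ≤ ρ := (abs_nonneg _).trans (centre hL (F := 0) (by simpa using hL)).1
  set z₀ : (ι → Bool) → ℝ := fun τ => Real.exp (F τ) / Real.cosh L - 1 with hz₀
  have hz₀b : ∀ τ, |z₀ τ| ≤ ρ := fun τ => (centre hL (hF τ)).1
  have hC := Sys.copies_good hS ι
  have hb' : ∀ s, Bdd fun p : ℕ → ι → Ω => spin (b s fun l => p l s) := fun s =>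
    (hb s).comp (measurable_pi_lambda _ fun l =>
      (measurable_pi_apply s).comp (measurable_pi_apply l))
  set z : (ℕ → Ω) → ℝ := fun p => z₀ fun s => b s p with hzdef
  set z' : (ℕ → ι → Ω) → ℝ := fun p => z₀ fun s => b s fun l => p l s with hzdef'
  have hz : Bdd z := bdd_spinFun hb z₀
  have hz' : Bdd z' := bdd_spinFun hb' z₀
  set lc := Real.log (Real.cosh L) with hlc
  obtain ⟨-, -, hlc0, hlcL⟩ := centre hL (F := 0) (by simpa using hL)
  have hξp : ∀ i, a < i → i ≤ a + d → 0 < ξ i := fun i h h' => hξ.pos i (by omega) (by omega)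
  have hξa : 0 < ξ a := hξ.pos a h1 (by omega)
  have hξ1 : ξ a ≤ 1 := hξ.le_one h1 hd
  set X := S.val ξ (fun p => Real.log (1 + z p)) d a v with hX
  set X' := (S.copies ι).val ξ (fun p => Real.log (1 + z' p)) d a (fun l _ => v l) with hX'
  have eF : (fun p => F fun s => b s p) = fun p => Real.log (1 + z p) + lc :=
    funext fun p => (centre hL (hF _)).2.1.symm
  have eF' : (fun p : ℕ → ι → Ω => F fun s => b s fun l => p l s) =
      fun p => Real.log (1 + z' p) + lc := funext fun p => (centre hL (hF _)).2.1.symm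
  have hXe : S.val ξ (fun p => F fun s => b s p) d a v = X + lc := by
    rw [eF, Sys.val_add_const hS (bdd_log_one_add hz hρ1 fun p => hz₀b _) lc hξp]
  have hXe' : (S.copies ι).val ξ (fun p => F fun s => b s fun l => p l s) d a (fun l _ => v l) =
      X' + lc := by
    rw [eF', Sys.val_add_const hC (bdd_log_one_add hz' hρ1 fun p => hz₀b _) lc hξp]
  have hlo : ∀ x : ℝ, |x + lc| ≤ L → Real.exp (-(2 * L)) ≤ Real.exp (ξ a * x) := fun x hx => by
    have h := (abs_le.1 hx).1
    refine Real.exp_le_exp.2 ?_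
    rcases le_total 0 x with h' | h' <;> nlinarith
  have hX1 := hlo X (hXe ▸ Sys.val_abs_le hS (bdd_spinFun hb F) (fun p => hF _) hξp v)
  have hX2 := hlo X' (hXe' ▸ Sys.val_abs_le hC (bdd_spinFun hb' F) (fun p => hF _) hξp _)
  have eX : Real.exp (ξ a * X) = 1 - S.treeMeanW ξ (fun p => -z p) d a v :=
    Sys.exp_val hS hξ hz hρ1 (fun p => hz₀b _) h1 hd v
  have eX' : Real.exp (ξ a * X') =
      1 - (S.copies ι).treeMeanW ξ (fun p => -z' p) d a (fun l _ => v l) :=
    Sys.exp_val hC hξ hz' hρ1 (fun p => hz₀b _) h1 hd _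
  rw [hXe, hXe', add_sub_add_right_eq_sub]
  have hd1 : ξ a * |X - X'| ≤ Real.exp (2 * L) * |S.treeMeanW ξ (fun p => -z p) d a v -
      (S.copies ι).treeMeanW ξ (fun p => -z' p) d a (fun l _ => v l)| := by
    have h := abs_log_sub_le (Real.exp_pos _) hX1 hX2
    rw [Real.log_exp, Real.log_exp, ← mul_sub, abs_mul, abs_of_pos hξa, eX, eX',
      sub_sub_sub_cancel_left, abs_sub_comm _ (S.treeMeanW ξ _ d a v),
      Real.exp_neg, div_inv_eq_mul, mul_comm (|_|)] at h
    exact h
  have t1 := treeMean_trunc hS hξ h1 hd hz.neg hρ0 hρ1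
    (fun p => (abs_neg (z p)).trans_le (hz₀b _)) n v
  have t2 := treeMean_trunc hC (show Expo (S.copies ι).R ξ from hξ) h1 hd hz'.neg hρ0 hρ1
    (fun p => (abs_neg (z' p)).trans_le (hz₀b _)) n (fun l _ => v l)
  have t3 : |(∑ T ∈ small n d, Tree.weight ξ d a T * S.mom d a T (fun _ p => -z p) v) -
      ∑ T ∈ small n d, Tree.weight ξ d a T *
        (S.copies ι).mom d a T (fun _ p => -z' p) (fun l _ => v l)| ≤
      ∑ T ∈ small n d, Tree.weight ξ d a T * ∑ Sl, momDiff S b a T Sl v := by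
    rw [← sum_sub_distrib]
    refine (abs_sum_le_sum_abs _ _).trans (sum_le_sum fun T _ => ?_)
    rw [← mul_sub, abs_mul, abs_of_nonneg (hξ.weight_nonneg h1 hd T)]
    refine mul_le_mul_of_nonneg_left ?_ (hξ.weight_nonneg h1 hd T)
    set co := fun A : Finset ι => fcoef (fun τ => -z₀ τ) A with hco
    have e1 : (fun p => -z p) = fun p => ∑ A : Finset ι, co A * ∏ s ∈ A, spin (b s p) :=
      funext fun p => spin_expand (fun τ => -z₀ τ) _
    have e2 : (fun p => -z' p) = fun p : ℕ → ι → Ω =>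
        ∑ A : Finset ι, co A * ∏ s, if s ∈ A then spin (b s fun l => p l s) else 1 := by
      funext p
      refine (spin_expand (fun τ => -z₀ τ) _).trans (sum_congr rfl fun A _ => ?_)
      rw [prod_ite_mem, univ_inter]
    rw [e1, e2, mom_sum hS co (fun A => Bdd.prod A hb) T v,
      mom_sum hC co (fun A => Bdd.prod univ fun s => by
        by_cases h : s ∈ A
        · simpa only [if_pos h] using hb' s
        · simpa only [if_neg h] using bdd_const (Ω := ι → Ω) 1) T, ← sum_sub_distrib]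
    refine (abs_sum_le_sum_abs _ _).trans (sum_le_sum fun Sl _ => ?_)
    have h := Sys.mom_copies hS ι hd T (g := fun u s p => if s ∈ Sl u then spin (b s p) else 1)
      (fun u s => by
        by_cases h : s ∈ Sl u
        · simpa only [if_pos h] using hb s
        · simpa only [if_neg h] using bdd_const (Ω := Ω) 1) (fun l _ => v l)
    rw [h, ← mul_sub, abs_mul]
    refine mul_le_of_le_one_left (abs_nonneg _) ?_
    rw [abs_prod]
    refine prod_le_one (fun u _ => abs_nonneg _) fun u _ => (fcoef_abs_le (fun τ => ?_) _).trans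
      hρ1.le
    rw [abs_neg]
    exact hz₀b τ
  have hy : |S.treeMeanW ξ (fun p => -z p) d a v -
      (S.copies ι).treeMeanW ξ (fun p => -z' p) d a (fun l _ => v l)| ≤
      2 * (ξ a * ρ ^ (n + 1) / (1 - ρ)) +
        ∑ T ∈ small n d, Tree.weight ξ d a T * ∑ Sl, momDiff S b a T Sl v := by
    rw [abs_le] at t1 t2 t3 ⊢
    constructor <;> linarith
  have hd2 := hd1.trans (mul_le_mul_of_nonneg_left hy (Real.exp_pos _).le)
  rw [← le_div_iff₀' hξa] at hd2
  refine hd2.trans_eq ?_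
  field_simp

/-- An average of bounds. -/
lemma avg_le_of {α β : Type} [Fintype α] {f : α → ℝ} {c : ℝ} (hc : 0 ≤ c) (t : Finset β)
    (w : β → ℝ) (hw : ∀ j ∈ t, 0 ≤ w j) (g : β → α → ℝ) (h : ∀ i, f i ≤ c + ∑ j ∈ t, w j * g j i)
    {D : β → ℝ} (hD : ∀ j ∈ t, w j * avg (g j) ≤ w j * D j) (hD0 : ∀ j ∈ t, 0 ≤ D j) :
    avg f ≤ c + ∑ j ∈ t, w j * D j := by
  rcases Nat.eq_zero_or_pos (Fintype.card α) with h0 | hpos
  · rw [avg, h0, Nat.cast_zero, div_zero]
    exact add_nonneg hc (sum_nonneg fun j hj => mul_nonneg (hw j hj) (hD0 j hj))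
  have hp : (0 : ℝ) < Fintype.card α := by exact_mod_cast hpos
  calc avg f ≤ (∑ i, (c + ∑ j ∈ t, w j * g j i)) / Fintype.card α :=
        div_le_div_of_nonneg_right (sum_le_sum fun i _ => h i) hp.le
    _ = c + ∑ j ∈ t, w j * avg (g j) := by
        rw [sum_add_distrib, sum_comm, add_div, sum_const, card_univ, nsmul_eq_mul,
          mul_div_cancel_left₀ _ hp.ne', sum_div]
        simp only [avg, ← mul_sum, mul_div_assoc]
    _ ≤ _ := add_le_add le_rfl (sum_le_sum hD)

lemma next_le_self {G : Grid} {R k : ℕ} (hk : k ∈ Icc G.lo G.B) (hkR : G.p k ≤ R) :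
    G.next R (G.p k) = G.p k := by
  refine le_antisymm (min'_le _ _ (mem_insert_of_mem (mem_filter.2
    ⟨mem_image_of_mem _ hk, le_rfl⟩))) (le_min' _ _ _ fun x hx => ?_)
  rcases mem_insert.1 hx with rfl | hx
  · exact hkR
  · exact (mem_filter.1 hx).2

end VF

/-- A potential of finitely many sites evaluated in the system and in independent copies. -/
theorem val_factor (L : ℝ) (hL : 0 ≤ L) : ∃ K₁ : ℝ, 0 ≤ K₁ ∧ ∀ n₀ k₀ B : ℕ,
    ∃ K₂ : ℝ, 0 ≤ K₂ ∧
    ∀ (Ω : Type) [MeasurableSpace Ω] (S : Sys Ω), S.Good → S.x = gridExp S.R →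
    ∀ G : Grid, G.Ok S.R → G.B = B → ∀ (N : ℕ) (b : Fin N → (ℕ → Ω) → Bool),
    (∀ i, Obs S fun v => spin (b i v)) → ∀ (ω₀ : ℕ → Ω) (ε : ℝ), 0 ≤ ε →
    (∀ (ι : Type) [DecidableEq ι] (A : Finset ι), A.Nonempty → A.card ≤ n₀ →
      ∀ (j k : ℕ) (κ : ι → ι → ℕ), G.lo ≤ j → j < k → k ≤ B → IsPat B k κ A →
      S.cond 0 (G.p j) (S.avgCov (G.p j) (G.p k) fun i =>
        S.snap G κ (fun v => spin (b i v)) k A) ω₀ ≤ ε) →
    ∀ (ι : Type) [Fintype ι] [DecidableEq ι], Fintype.card ι ≤ k₀ →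
    ∀ F : (ι → Bool) → ℝ, (∀ τ, |F τ| ≤ L) →
      avg (fun i : ι → Fin N => S.cond 0 (G.p G.lo) (fun v =>
        |S.val (G.expo S.R) (fun p => F fun s => b (i s) p) (S.R - G.p G.lo) (G.p G.lo) v -
          (S.copies ι).val (G.expo S.R) (fun p => F fun s => b (i s) fun l => p l s)
            (S.R - G.p G.lo) (G.p G.lo) (fun l _ => v l)|) ω₀) ≤
        K₁ * Real.tanh L ^ n₀ + (S.R : ℝ) / G.p G.lo * K₂ * Real.sqrt ε := by
  classical
  set ρ := Real.tanh L with hρdef
  have hρ1 : ρ < 1 := Real.tanh_lt_one L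
  have hρ0 : 0 ≤ ρ := (abs_nonneg _).trans (VF.centre hL (F := 0) (by simpa using hL)).1
  refine ⟨2 * Real.exp (2 * L) * ρ / (1 - ρ),
    div_nonneg (by positivity) (by linarith), fun n₀ k₀ B => ?_⟩
  refine ⟨Real.exp (2 * L) * (2 ^ n₀ * (((2:ℝ) ^ k₀) ^ n₀ * (B * n₀ * (k₀ + 1)))),
    by positivity, ?_⟩
  intro Ω _ S hS _ G hG hB N b hb ω₀ ε hε hyp ι _ _ hι F hF
  have ha1 : 1 ≤ G.p G.lo := Factor.Grid.p_lo_pos hG
  have haR : G.p G.lo ≤ S.R := Factor.Grid.p_le_R hG le_rfl hG.1.le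
  have hd : G.p G.lo + (S.R - G.p G.lo) = S.R := by omega
  have hξ : Expo S.R (G.expo S.R) := Factor.Grid.expo_expo G hS.R_pos
  have hξa : G.expo S.R (G.p G.lo) = (G.p G.lo : ℝ) / S.R := by
    rw [Grid.expo, VF.next_le_self (mem_Icc.2 ⟨le_rfl, hG.1.le⟩) haR, gridExp]
  set d := S.R - G.p G.lo with hddef
  set a := G.p G.lo with hadef
  set ξ := G.expo S.R with hξdef
  have hw : ∀ T ∈ VF.small n₀ d, 0 ≤ Real.exp (2 * L) / ξ a * Tree.weight ξ d a T := fun T _ =>
    mul_nonneg (div_nonneg (Real.exp_pos _).le (hξ.pos a ha1 haR).le) (hξ.weight_nonneg ha1 hd T)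
  have hc0 : (0 : ℝ) ≤ 2 * Real.exp (2 * L) * ρ ^ (n₀ + 1) / (1 - ρ) :=
    div_nonneg (by positivity) (by linarith)
  set D₀ : ℝ := (B : ℝ) * n₀ * (k₀ + 1) * Real.sqrt ε with hD₀
  set Dst : ℝ := ((2:ℝ) ^ k₀) ^ n₀ * D₀ with hDst
  have hmom : ∀ (T : Tree d), T ∈ VF.small n₀ d → Tree.weight ξ d a T ≠ 0 →
      avg (fun i : ι → Fin N => ∑ Sl,
        S.cond 0 a (VF.momDiff S (fun s => b (i s)) a T Sl) ω₀) ≤ Dst := by
    intro T hT hT0
    have hcomm : avg (fun i : ι → Fin N => ∑ Sl,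
          S.cond 0 a (VF.momDiff S (fun s => b (i s)) a T Sl) ω₀) =
        ∑ Sl, avg (fun i : ι → Fin N =>
          S.cond 0 a (VF.momDiff S (fun s => b (i s)) a T Sl) ω₀) := by
      simp only [avg, ← sum_div]
      rw [sum_comm]
    rw [hcomm]
    refine (sum_le_sum fun Sl _ => (mom_factor hS hG hb ω₀ hε (n₀ := n₀) ?_ T hT0
      (VF.mem_small.1 hT) Sl)).trans ?_
    · rw [hB]; exact hyp
    rw [sum_const, card_univ, nsmul_eq_mul]
    refine mul_le_mul ?_ ?_ (by positivity) (by positivity)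
    · rw [Fintype.card_fun, Fintype.card_finset, Nat.cast_pow, Nat.cast_pow, Nat.cast_ofNat]
      exact (pow_le_pow_left₀ (by positivity) (pow_le_pow_right₀ (by norm_num) hι) _).trans
        (pow_le_pow_right₀ (one_le_pow₀ (by norm_num)) (VF.mem_small.1 hT))
    · rw [hD₀, hB]
      gcongr
  refine (VF.avg_le_of hc0 (VF.small n₀ d)
    (fun T => Real.exp (2 * L) / ξ a * Tree.weight ξ d a T) hw
    (fun T i => ∑ Sl, S.cond 0 a (VF.momDiff S (fun s => b (i s)) a T Sl) ω₀) ?_
    (D := fun _ => Dst) ?_ fun _ _ => by positivity).trans ?_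
  · intro i
    have hbi : ∀ s, Bdd fun p => spin (b (i s) p) := fun s => (hb (i s)).1
    have hlamb : Measurable fun (v : ℕ → Ω) (l : ℕ) (_ : ι) => v l :=
      measurable_pi_lambda _ fun l => measurable_pi_lambda _ fun _ => measurable_pi_apply l
    have hb1 : Bdd fun v => |S.val ξ (fun p => F fun s => b (i s) p) d a v -
        (S.copies ι).val ξ (fun p => F fun s => b (i s) fun l => p l s) d a (fun l _ => v l)| :=
      VF.bdd_abs ((Sys.val_bdd hS (VF.bdd_spinFun hbi F) d a).sub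
        ((Sys.val_bdd (Sys.copies_good hS ι) (VF.bdd_spinFun (fun s => (hbi s).comp
          (measurable_pi_lambda _ fun l =>
            (measurable_pi_apply s).comp (measurable_pi_apply l))) F) d a).comp hlamb))
    have hs1 : ∀ T : Tree d, Bdd fun v => ∑ Sl, VF.momDiff S (fun s => b (i s)) a T Sl v :=
      fun T => Bdd.sum univ fun Sl => VF.bdd_momDiff hS hbi T Sl
    have hs2 : Bdd fun v => ∑ T ∈ VF.small n₀ d,
        Real.exp (2 * L) / ξ a * Tree.weight ξ d a T *
          ∑ Sl, VF.momDiff S (fun s => b (i s)) a T Sl v :=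
      Bdd.sum _ fun T => (hs1 T).const_mul _
    refine (Sys.cond_mono hS.reg hb1
      ((bdd_const (2 * Real.exp (2 * L) * ρ ^ (n₀ + 1) / (1 - ρ))).add hs2) (fun v =>
      (VF.val_diff_le hS hξ hbi hL hF ha1 hd n₀ v).trans_eq ?_) 0 a ω₀).trans_eq ?_
    · rw [mul_sum]
      simp only [mul_assoc]
      exact rfl
    · rw [Sys.cond_add hS.reg (bdd_const _) hs2, Sys.cond_const hS.reg,
        Sys.cond_sum hS.reg _ fun T => (hs1 T).const_mul _]
      simp only [Sys.cond_const_mul,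
        Sys.cond_sum hS.reg univ fun Sl => VF.bdd_momDiff hS hbi _ Sl]
  · intro T hT
    by_cases hT0 : Tree.weight ξ d a T = 0
    · simp [hT0]
    · exact mul_le_mul_of_nonneg_left (hmom T hT hT0) (hw T hT)
  · rw [← sum_mul, ← mul_sum, hξa]
    refine add_le_add (le_of_eq ?_) ?_
    · rw [pow_succ']; ring
    · have hp : (0 : ℝ) < a := by exact_mod_cast ha1
      have h2 := VF.sum_small_weight_le hξ ha1 hd n₀
      calc Real.exp (2 * L) / ((a : ℝ) / S.R) * (∑ T ∈ VF.small n₀ d, Tree.weight ξ d a T) * Dst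
          ≤ Real.exp (2 * L) / ((a : ℝ) / S.R) * 2 ^ n₀ * Dst := by gcongr
        _ = _ := by rw [hDst, hD₀, div_div_eq_mul_div]; ring

end Vale.Agent.P168
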