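import Vale.Agent.P168.LowerNodes
import Vale.Agent.P168.ValFactor
import Vale.Agent.P168.TrialRep
import Vale.Agent.P168.Avg

/-!
One system: the site increments against the trials of the nodes at the first branching level.
-/

namespace Vale.Agent.P168

open MeasureTheory Finset Function

variable {N n₀ R : ℕ} {c : ℝ}

/-- The increments of one system as functionals of the potential. -/
noncomputable def siteFunc (K : ℕ) {N : ℕ} (n₀ R : ℕ) (c : ℝ) (H : (Fin N → Bool) → ℝ) : Func K :=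
  fun _ F => siteInc n₀ R c H F

/-- The integrand of a trial as a functional of the potential. -/
noncomputable def trialFunc (K : ℕ) (t : Trial) : Func K := fun k F =>
  ∫ ω0, Real.log (collapse t.r t.m fun w =>
      ∑ τ : Fin k × Fin K → Bool, Real.exp (F τ) * ∏ s, (1 + t.message ω0 w s * spin (τ s)) / 2)
    ∂unifLaw (Fin k × Fin K)

lemma trialU_eq_avU (M : Model) (t : Trial) : trialU M t = avU M (trialFunc M.K t) := by
  simp only [trialU, avU, trialFunc, sum_exp_potU]

lemma trialV_eq_avV (M : Model) (t : Trial) : trialV M t = avV M (trialFunc M.K t) := by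
  simp only [trialV, avV, trialFunc, sum_exp_potV]

lemma incU_eq_avU (M : Model) (H : (Fin N → Bool) → ℝ) :
    incU M n₀ R c H = avU M (siteFunc M.K n₀ R c H) := rfl

lemma incV_eq_avV (M : Model) (H : (Fin N → Bool) → ℝ) :
    incV M n₀ R c H = avV M (siteFunc M.K n₀ R c H) := rfl

lemma siteBit_dep (hR : 0 < R) (i : Fin N) : DependsTo (siteBit (n₀ := n₀) (R := R) i) R :=
  fun v v' h => by rw [siteBit, siteBit, h R hR le_rfl]

lemma bdd_bits (hR : 0 < R) {ι : Type} (i : ι → Fin N) (F : (ι → Bool) → ℝ) :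
    Bdd fun p : ℕ → PSpace N n₀ R => F fun s => siteBit (i s) p :=
  bdd_of_dependsTo (l := R) fun v v' h => congrArg F (funext fun s => siteBit_dep hR (i s) v v' h)

lemma copies_bits_dep (hR : 0 < R) {ι : Type} (i : ι → Fin N) (F : (ι → Bool) → ℝ) :
    DependsTo (fun p : ℕ → ι → PSpace N n₀ R => F fun s => siteBit (i s) fun l => p l s) R :=
  fun v v' h => congrArg F (funext fun s =>
    siteBit_dep hR (i s) _ _ fun l h1 h2 => by rw [h l h1 h2])

lemma bdd_copies_bits (hR : 0 < R) {ι : Type} [Fintype ι] [DecidableEq ι] (i : ι → Fin N)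
    (F : (ι → Bool) → ℝ) :
    Bdd fun p : ℕ → ι → PSpace N n₀ R => F fun s => siteBit (i s) fun l => p l s :=
  bdd_of_dependsTo (copies_bits_dep hR i F)

lemma Grid.Ok.lo_mem {G : Grid} (hG : G.Ok R) : 1 ≤ G.p G.lo ∧ G.p G.lo + 2 ≤ R := by
  obtain ⟨hlt, hB, hk⟩ := hG
  have mono : ∀ d k, G.lo ≤ k → k + d = G.B → G.p k ≤ R := by
    intro d
    induction d with
    | zero => intro k _ h; rw [← hB]; rw [Nat.add_zero] at h; rw [h]
    | succ d ih =>
      intro k h1 h2
      obtain ⟨-, a2, a3, a4⟩ := hk k h1 (by omega)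
      have := ih (k + 1) (by omega) (by omega)
      omega
  obtain ⟨a1, a2, a3, a4⟩ := hk G.lo le_rfl hlt
  have := mono (G.B - (G.lo + 1)) (G.lo + 1) (by omega) (by omega)
  omega

lemma Grid.Ok.next_mem {G : Grid} (hG : G.Ok R) {l : ℕ} (hl : l ≤ R) :
    l ≤ G.next R l ∧ 1 ≤ G.next R l := by
  have hm := min'_mem (insert R (((Icc G.lo G.B).image G.p).filter fun q => l ≤ q))
    (insert_nonempty _ _)
  rw [mem_insert, mem_filter, mem_image] at hm
  obtain ⟨hlo, -⟩ := hG.lo_mem
  rcases hm with h | ⟨⟨k, hk, h⟩, h'⟩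
  · have h' : G.next R l = R := h
    exact ⟨hl.trans h'.ge, by rw [h']; obtain ⟨_, _⟩ := hG.lo_mem; omega⟩
  · refine ⟨h', ?_⟩
    rw [show G.next R l = G.p k from h.symm]
    rw [mem_Icc] at hk
    rcases eq_or_lt_of_le hk.2 with hB | hB
    · rw [hB, hG.2.1]; obtain ⟨_, _⟩ := hG.lo_mem; omega
    · exact (hG.2.2 k hk.1 hB).1

/-- The exponents constant between branching levels are within `θ` of the grid. -/
lemma Grid.Ok.expo_ratio {G : Grid} (hG : G.Ok R) {θ : ℝ}
    (hθ : ∀ k, G.lo ≤ k → k < G.B → (G.p (k + 1) : ℝ) ≤ θ * G.p k)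
    {l : ℕ} (h1 : G.p G.lo < l) (h2 : l ≤ R) :
    gridExp R l ≤ G.expo R l ∧ G.expo R l ≤ θ * gridExp R l := by
  obtain ⟨hn, hn1⟩ := hG.next_mem h2
  refine ⟨div_le_div_of_nonneg_right (by exact_mod_cast hn) (Nat.cast_nonneg R), ?_⟩
  rw [Grid.expo, gridExp, gridExp, ← mul_div_assoc]
  refine div_le_div_of_nonneg_right ?_ (Nat.cast_nonneg R)
  have hne : ((Icc G.lo G.B).filter fun k => G.p k < l).Nonempty :=
    ⟨G.lo, by rw [mem_filter, mem_Icc]; exact ⟨⟨le_rfl, hG.1.le⟩, h1⟩⟩
  set k := ((Icc G.lo G.B).filter fun k => G.p k < l).max' hne with hk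
  have hkm := max'_mem _ hne
  rw [← hk, mem_filter, mem_Icc] at hkm
  obtain ⟨⟨hk1, hk2⟩, hk3⟩ := hkm
  have hkB : k < G.B := by
    rcases eq_or_lt_of_le hk2 with h | h
    · rw [h, hG.2.1] at hk3; omega
    · exact h
  have hnext : G.next R l ≤ G.p (k + 1) := by
    refine min'_le _ _ (mem_insert_of_mem (mem_filter.2 ⟨mem_image.2 ⟨k + 1, ?_, rfl⟩, ?_⟩))
    · rw [mem_Icc]; omega
    · by_contra hcon
      have := le_max' ((Icc G.lo G.B).filter fun k => G.p k < l) (k + 1)
        (by rw [mem_filter, mem_Icc]; omega)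
      omega
  have hk3' : (G.p k : ℝ) ≤ l := by exact_mod_cast hk3.le
  have hθ0 : 0 ≤ θ := by
    have h := hθ k hk1 hkB
    have hp : (0 : ℝ) < G.p k := by exact_mod_cast (hG.2.2 k hk1 hkB).1
    nlinarith [(Nat.cast_nonneg (G.p (k + 1)) : (0 : ℝ) ≤ (G.p (k + 1) : ℝ))]
  calc (G.next R l : ℝ) ≤ G.p (k + 1) := by exact_mod_cast hnext
    _ ≤ θ * G.p k := hθ k hk1 hkB
    _ ≤ θ * l := mul_le_mul_of_nonneg_left hk3' hθ0

/-- The nested evaluation in the copies at a node. -/
noncomputable def copiesVal (G : Grid) (S : Sys (PSpace N n₀ R)) {ι : Type} [Fintype ι]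
    [DecidableEq ι] (F : (ι → Bool) → ℝ) (i : ι → Fin N) (v : ℕ → PSpace N n₀ R) : ℝ :=
  (S.copies ι).val (G.expo R) (fun p => F fun s => siteBit (i s) fun l => p l s)
    (R - G.p G.lo) (G.p G.lo) fun l _ => v l

lemma expo_pos (hR : 0 < R) {G : Grid} (hG : G.Ok R) {l : ℕ} (hl : l ≤ R) :
    0 < G.expo R l :=
  gridExp_pos hR (hG.next_mem hl).2

lemma copiesVal_dep (hR : 0 < R) {G : Grid} (hG : G.Ok R) (H : (Fin N → Bool) → ℝ) {ι : Type}
    [Fintype ι] [DecidableEq ι] (F : (ι → Bool) → ℝ) (i : ι → Fin N) :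
    DependsTo (copiesVal G (pertSys n₀ R c H) F i) (G.p G.lo) := by
  obtain ⟨-, hle⟩ := hG.lo_mem
  intro v v' h
  exact Sys.val_dep (Sys.copies_good (pertSys_good hR H) ι) (copies_bits_dep hR i F)
    (by show G.p G.lo + (R - G.p G.lo) = R; omega) _ _ fun l h1 h2 => by simp only [h l h1 h2]

lemma nonexp_trial (hR : 0 < R) {G : Grid} (hG : G.Ok R) (H : (Fin N → Bool) → ℝ)
    {t : Trial} {K : ℕ} (v : ℕ → PSpace N n₀ R)
    (ht : ∀ (k : ℕ) (F : (Fin k × Fin K → Bool) → ℝ),
      avg (fun i => copiesVal G (pertSys n₀ R c H) F i v) = trialFunc K t k F) (k : ℕ) :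
    Nonexp (trialFunc K t k) := by
  obtain ⟨-, hle⟩ := hG.lo_mem
  have h : trialFunc K t k = fun F => avg fun i => copiesVal G (pertSys n₀ R c H) F i v :=
    funext fun F => (ht k F).symm
  rw [h]
  refine Nonexp.avg fun i => ?_
  exact nonexp_val (Sys.copies_good (pertSys_good hR H) _)
    (fun l _ h2 => expo_pos hR hG (by omega))
    (fun (p : ℕ → Fin k × Fin K → PSpace N n₀ R) s => siteBit (i s) fun l => p l s)
    (fun F => bdd_copies_bits hR i F) _

lemma nonexp_site (hR : 0 < R) (H : (Fin N → Bool) → ℝ) (K k : ℕ) :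
    Nonexp (siteFunc K n₀ R c H k) :=
  Nonexp.avg fun i : Fin k × Fin K → Fin N =>
    nonexp_val (pertSys_good hR H) (fun l hl _ => gridExp_pos hR hl)
      (fun v s => siteBit (i s) v) (fun F => bdd_bits hR i F) _

/-- The error of replacing the system by the trials of its nodes. -/
theorem siteInc_close (hR : 0 < R) {G : Grid} (hG : G.Ok R) (H : (Fin N → Bool) → ℝ) {θ : ℝ}
    (hθ1 : 1 ≤ θ) (hθ : ∀ k, G.lo ≤ k → k < G.B → (G.p (k + 1) : ℝ) ≤ θ * G.p k) {ι : Type}
    [Fintype ι] [DecidableEq ι] {F : (ι → Bool) → ℝ} {L D : ℝ} (hL : 0 ≤ L)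
    (hF : ∀ τ, |F τ| ≤ L)
    (hD : avg (fun i : ι → Fin N => (pertSys n₀ R c H).mean (G.p G.lo) fun v =>
        |(pertSys n₀ R c H).val (G.expo R) (fun p => F fun s => siteBit (i s) p)
            (R - G.p G.lo) (G.p G.lo) v - copiesVal G (pertSys n₀ R c H) F i v|) ≤ D) :
    |siteInc n₀ R c H F -
        ∑ u, nodeWt (pertSys n₀ R c H) (G.p G.lo) u *
          avg (fun i : ι → Fin N => copiesVal G (pertSys n₀ R c H) F i (extPath (G.p G.lo) u))| ≤
      2 * gridExp R (G.p G.lo) * L ^ 2 + 2 * (θ - 1) * L + D := by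
  obtain ⟨hlo, hle⟩ := hG.lo_mem
  set S := pertSys n₀ R c H with hSdef
  have hS : S.Good := pertSys_good hR H
  set a := G.p G.lo with ha
  have hd : a + (R - a) = S.R := by show a + (R - a) = R; omega
  let V : (ι → Fin N) → (ℕ → PSpace N n₀ R) → ℝ := fun i v =>
    S.val (G.expo R) (fun p => F fun s => siteBit (i s) p) (R - a) a v
  let C : (ι → Fin N) → (ℕ → PSpace N n₀ R) → ℝ := fun i v => copiesVal G S F i v
  have hsum : ∑ u, nodeWt S a u * avg (fun i : ι → Fin N => C i (extPath a u)) =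
      avg fun i : ι → Fin N => S.mean a (C i) := by
    simp only [avg, mul_div_assoc', ← Finset.sum_div, Finset.mul_sum]
    rw [Finset.sum_comm]
    congr 1
    exact Finset.sum_congr rfl fun i _ => (mean_eq_sum hS (copiesVal_dep hR hG H F i)).symm
  have hi : ∀ i : ι → Fin N,
      |S.val (gridExp R) (fun p => F fun s => siteBit (i s) p) R 0 (origin N n₀ R) -
          S.mean a (C i)| ≤
        2 * gridExp R a * L ^ 2 + 2 * (θ - 1) * L + S.mean a fun v => |V i v - C i v| := by
    intro i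
    have hb : Bdd fun p : ℕ → PSpace N n₀ R => F fun s => siteBit (i s) p := bdd_bits hR i F
    have hVb : Bdd (V i) := Sys.val_bdd hS hb _ _
    have hCb : Bdd (C i) := bdd_of_dependsTo (copiesVal_dep hR hG H F i)
    have hXb : Bdd (S.val S.x (fun p => F fun s => siteBit (i s) p) (R - a) a) :=
      Sys.val_bdd hS hb _ _
    have htop := Sys.val_top hS hb (fun _ => hF _) hlo hd (origin N n₀ R)
    have hsw : ∀ v, |S.val S.x (fun p => F fun s => siteBit (i s) p) (R - a) a v - V i v| ≤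
        2 * (θ - 1) * L := fun v => by
      rw [abs_sub_comm]
      exact Sys.val_sandwich hS hb (fun _ => hF _) hθ1
        (fun l h1 _ => gridExp_pos hR (by omega))
        (fun l h1 h2 => hG.expo_ratio hθ h1 (by omega)) v
    have h1 : |S.mean a (S.val S.x (fun p => F fun s => siteBit (i s) p) (R - a) a) -
        S.mean a (V i)| ≤ 2 * (θ - 1) * L := by
      refine (abs_mean_sub_le hS hXb hVb).trans ?_
      have := Sys.cond_mono hS.reg (bdd_of_dependsTo (l := a) (f := fun v =>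
        |S.val S.x (fun p => F fun s => siteBit (i s) p) (R - a) a v - V i v|) ?_)
        (bdd_const (2 * (θ - 1) * L)) hsw 0 a (origin N n₀ R)
      · rwa [Sys.cond_const hS.reg] at this
      · have hdep : DependsTo (fun p : ℕ → PSpace N n₀ R => F fun s => siteBit (i s) p) S.R :=
          fun v v' h => congrArg F (funext fun s => siteBit_dep hR (i s) v v' h)
        intro v v' h
        show |_ - S.val (G.expo R) _ _ _ v| = |_ - S.val (G.expo R) _ _ _ v'|
        rw [Sys.val_dep hS hdep hd v v' h, Sys.val_dep hS hdep hd v v' h]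
    have h2 := abs_mean_sub_le (a := a) hS hVb hCb
    have hx : S.x a = gridExp R a := rfl
    have hR0 : S.val (gridExp R) (fun p => F fun s => siteBit (i s) p) R 0 (origin N n₀ R) =
        S.val S.x (fun p => F fun s => siteBit (i s) p) S.R 0 (origin N n₀ R) := rfl
    rw [hR0]
    obtain ⟨hlow, hup⟩ := htop
    simp only [Sys.mean] at h1 h2 ⊢
    rw [hx] at hup
    rw [abs_le] at h1 h2 ⊢
    have hsq : 0 ≤ 2 * gridExp R a * L ^ 2 :=
      mul_nonneg (mul_nonneg zero_le_two (gridExp_pos hR hlo).le) (sq_nonneg _)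
    constructor <;> linarith
  rw [hsum]
  simp only [siteInc, avg, ← sub_div, ← Finset.sum_sub_distrib]
  rcases Nat.eq_zero_or_pos (Fintype.card (ι → Fin N)) with h0 | hpos
  · simp only [avg, h0, Nat.cast_zero, div_zero] at hD ⊢
    rw [abs_zero]
    nlinarith [mul_nonneg (gridExp_pos hR hlo).le (sq_nonneg L), mul_nonneg (sub_nonneg.2 hθ1) hL]
  have hpos' : (0 : ℝ) < (Fintype.card (ι → Fin N) : ℝ) := by exact_mod_cast hpos
  rw [abs_div, abs_of_pos hpos', div_le_iff₀ hpos']
  refine (Finset.abs_sum_le_sum_abs _ _).trans ((Finset.sum_le_sum fun i _ => hi i).trans ?_)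
  rw [Finset.sum_add_distrib, Finset.sum_const, Finset.card_univ, nsmul_eq_mul]
  simp only [avg, div_le_iff₀ hpos'] at hD
  linarith

end Vale.Agent.P168
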