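import Vale.Agent.P168.LowerCore
import Vale.Agent.P168.GadgetBeta

/-!
Finitely many summary quantities of one system: covariances of window responses and window
increments of snapped moments.
-/

namespace Vale.Agent.P168

open MeasureTheory Finset Function

section Basic

variable {Ω : Type} [MeasurableSpace Ω] {S : Sys Ω}

lemma Bdd.abs {f : (ℕ → Ω) → ℝ} (hf : Bdd f) : Bdd fun v => |f v| := by
  obtain ⟨hm, C, hC⟩ := hf
  exact ⟨measurable_abs.comp hm, C, fun v => by rw [abs_abs]; exact hC v⟩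

lemma Bdd.avg {β : Type} [Fintype β] {f : β → (ℕ → Ω) → ℝ} (hf : ∀ b, Bdd (f b)) :
    Bdd fun v => avg fun b => f b v := by
  have h := (Bdd.sum univ hf).const_mul (Fintype.card β : ℝ)⁻¹
  simpa [Vale.Agent.P168.avg, div_eq_inv_mul] using h

lemma abs_cond_le (hS : S.Good) {f : (ℕ → Ω) → ℝ} (hf : Bdd f) {B : ℝ} (hB : ∀ v, |f v| ≤ B)
    (l m : ℕ) (ω : ℕ → Ω) : |S.cond l m f ω| ≤ B := by
  have h1 := Sys.cond_mono hS.reg hf (bdd_const B) (fun v => (abs_le.1 (hB v)).2) l m ω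
  have h2 := Sys.cond_mono hS.reg (bdd_const (-B)) hf (fun v => (abs_le.1 (hB v)).1) l m ω
  rw [Sys.cond_const hS.reg] at h1 h2
  exact abs_le.2 ⟨h2, h1⟩

lemma avg_nonneg {β : Type} [Fintype β] {f : β → ℝ} (h : ∀ b, 0 ≤ f b) : 0 ≤ avg f :=
  div_nonneg (sum_nonneg fun b _ => h b) (Nat.cast_nonneg _)

lemma Sys.cov_bdd (hS : S.Good) {f g : (ℕ → Ω) → ℝ} (hf : Bdd f) (hg : Bdd g) (l m : ℕ) :
    Bdd (S.cov l m f g) :=
  (Sys.cond_bdd hS.reg (hf.mul hg) l m).sub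
    ((Sys.cond_bdd hS.reg hf l m).mul (Sys.cond_bdd hS.reg hg l m))

lemma Sys.avgCov_bdd (hS : S.Good) {N : ℕ} {f : Fin N → (ℕ → Ω) → ℝ} (hf : ∀ i, Bdd (f i))
    (q p : ℕ) : Bdd (S.avgCov q p f) :=
  Bdd.avg fun ij : Fin N × Fin N => (Sys.cov_bdd hS (hf ij.1) (hf ij.2) q p).abs

lemma Sys.avgCov_le (hS : S.Good) {N : ℕ} {f : Fin N → (ℕ → Ω) → ℝ} (hf : ∀ i, Bdd (f i)) {B : ℝ}
    (hB0 : 0 ≤ B) (hB : ∀ i v, |f i v| ≤ B) (q p : ℕ) (ω : ℕ → Ω) :
    |S.avgCov q p f ω| ≤ 2 * B ^ 2 := by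
  refine abs_avg_le (by positivity) fun ij => ?_
  rw [abs_abs]
  have hb : ∀ v, |f ij.1 v * f ij.2 v| ≤ B ^ 2 := fun v => by
    rw [abs_mul, sq]; exact mul_le_mul (hB _ v) (hB _ v) (abs_nonneg _) hB0
  have h1 := abs_cond_le hS ((hf ij.1).mul (hf ij.2)) hb q p ω
  have h2 := abs_cond_le hS (hf ij.1) (hB _) q p ω
  have h3 := abs_cond_le hS (hf ij.2) (hB _) q p ω
  have h4 : |S.cond q p (f ij.1) ω * S.cond q p (f ij.2) ω| ≤ B ^ 2 := by
    rw [abs_mul, sq]; exact mul_le_mul h2 h3 (abs_nonneg _) hB0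
  exact (abs_sub _ _).trans (by linarith)

lemma Sys.snapAux_bdd (hS : S.Good) (G : Grid) {ι : Type} [DecidableEq ι] (κ : ι → ι → ℕ)
    {a : (ℕ → Ω) → ℝ} (ha : Bdd a) (hB : ∀ v, |a v| ≤ 1) :
    ∀ (d : ℕ) (A : Finset ι), Bdd (S.snapAux G κ a d A) ∧ ∀ v, |S.snapAux G κ a d A v| ≤ 1 := by
  intro d
  induction d with
  | zero =>
    intro A
    refine ⟨Bdd.prod A fun _ => ha, fun v => ?_⟩
    show |∏ _u ∈ A, a v| ≤ 1
    rw [prod_const, abs_pow]
    exact pow_le_one₀ (abs_nonneg _) (hB v)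
  | succ d ih =>
    intro A
    refine ⟨Bdd.prod _ fun Q => Sys.cond_bdd hS.reg (ih Q).1 _ _, fun v => ?_⟩
    show |∏ Q ∈ _, _| ≤ 1
    rw [Finset.abs_prod]
    exact prod_le_one (fun _ _ => abs_nonneg _) fun Q _ => abs_cond_le hS (ih Q).1 (ih Q).2 _ _ _

lemma Sys.snap_bdd (hS : S.Good) (G : Grid) {ι : Type} [DecidableEq ι] (κ : ι → ι → ℕ)
    {a : (ℕ → Ω) → ℝ} (ha : Bdd a) (hB : ∀ v, |a v| ≤ 1) (k : ℕ) (A : Finset ι) :
    Bdd (S.snap G κ a k A) ∧ ∀ v, |S.snap G κ a k A v| ≤ 1 :=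
  Sys.snapAux_bdd hS G κ ha hB _ A

end Basic

variable {N n₀ R : ℕ} {c : ℝ}

lemma measurable_pert_snapAux (hR : 0 < R) (G : Grid) {ι : Type} [DecidableEq ι] (κ : ι → ι → ℕ)
    (a : (ℕ → PSpace N n₀ R) → ℝ) : ∀ (d : ℕ) (A : Finset ι) (v : ℕ → PSpace N n₀ R),
    Measurable fun H => (pertSys n₀ R c H).snapAux G κ a d A v := by
  intro d
  induction d with
  | zero => intro A v; exact measurable_const
  | succ d ih =>
    intro A v
    exact Finset.measurable_prod _ fun Q _ =>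
      measurable_pert_cond hR measurable_id (fun ω => ih Q ω) _ _ v

lemma measurable_pert_avgCov (hR : 0 < R)
    {f : ((Fin N → Bool) → ℝ) → Fin N → (ℕ → PSpace N n₀ R) → ℝ}
    (hf : ∀ i v, Measurable fun H => f H i v) (q p : ℕ) (v : ℕ → PSpace N n₀ R) :
    Measurable fun H => (pertSys n₀ R c H).avgCov q p (f H) v := by
  refine (Finset.measurable_sum _ fun ij _ => measurable_abs.comp ?_).div_const _
  exact (measurable_pert_cond hR measurable_id (fun w => (hf _ w).mul (hf _ w)) q p v).sub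
    ((measurable_pert_cond hR measurable_id (fun w => hf _ w) q p v).mul
      (measurable_pert_cond hR measurable_id (fun w => hf _ w) q p v))

/-- The covariance of one window constraint between two branching levels. -/
noncomputable def covItem (G : Grid) (n₀ R : ℕ) (c : ℝ) {N : ℕ} (n : ℕ)
    (g : Fin n → Fin n → Fin G.B × Bool) (j k : ℕ) (H : (Fin N → Bool) → ℝ) : ℝ :=
  (pertSys n₀ R c H).mean (G.p j) ((pertSys n₀ R c H).avgCov (G.p j) (G.p k) fun i =>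
    (pertSys n₀ R c H).resp (G.cons n fun v w => ((g v w).1, (g v w).2)) (siteObs i) (G.p k))

/-- The window increment of one snapped moment. -/
noncomputable def incItem (G : Grid) (n₀ R : ℕ) (c : ℝ) {N : ℕ} (n : ℕ)
    (κ : Fin n → Fin n → Fin (G.B + 1)) (k : ℕ) (H : (Fin N → Bool) → ℝ) : ℝ :=
  avg fun i : Fin N => (pertSys n₀ R c H).mean (G.h k) fun v =>
    |(pertSys n₀ R c H).cond (G.h k) (G.p (k + 1))
        ((pertSys n₀ R c H).snap G (fun a b => (κ a b : ℕ)) (siteObs i) (k + 1) univ) v -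
      (pertSys n₀ R c H).cond (G.p k) (G.p (k + 1))
        ((pertSys n₀ R c H).snap G (fun a b => (κ a b : ℕ)) (siteObs i) (k + 1) univ) v|

/-- The indices of the window covariances. -/
abbrev CovIdx (n₀ B : ℕ) :=
  Σ n : Fin (n₀ + 1), Fin (B + 1) × Fin (B + 1) × (Fin n → Fin n → Fin B × Bool)

/-- The indices of the window increments. -/
abbrev IncIdx (n₀ B : ℕ) := Σ n : Fin (n₀ + 1), Fin (B + 1) × (Fin n → Fin n → Fin (B + 1))

open Classical in
/-- The sum of the covariances of all window constraints. -/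
noncomputable def covSum (G : Grid) (n₀ R : ℕ) (c : ℝ) {N : ℕ} (H : (Fin N → Bool) → ℝ) : ℝ :=
  ∑ x : CovIdx n₀ G.B,
    if 1 ≤ (x.1 : ℕ) ∧ G.lo ≤ (x.2.1 : ℕ) ∧ (x.2.1 : ℕ) < x.2.2.1 ∧
        ∀ v w, v < w → (x.2.2.1 : ℕ) ≤ (x.2.2.2 v w).1
    then covItem G n₀ R c x.1 x.2.2.2 x.2.1 x.2.2.1 H else 0

open Classical in
/-- The sum of the window increments of all snapped moments. -/
noncomputable def incSum (G : Grid) (n₀ R : ℕ) (c : ℝ) {N : ℕ} (H : (Fin N → Bool) → ℝ) : ℝ :=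
  ∑ x : IncIdx n₀ G.B,
    if 1 ≤ (x.1 : ℕ) ∧ G.lo ≤ (x.2.1 : ℕ) ∧ (x.2.1 : ℕ) < G.B ∧
        IsPat G.B ((x.2.1 : ℕ) + 1) (fun a b => (x.2.2 a b : ℕ)) univ
    then incItem G n₀ R c x.1 x.2.2 x.2.1 H else 0

lemma Grid.Ok.cons_ok {G : Grid} (hG : G.Ok R) {n : ℕ} (hn : 1 ≤ n)
    (f : Fin n → Fin n → ℕ × Bool)
    (hf : ∀ v w, v < w → G.lo ≤ (f v w).1 ∧ (f v w).1 < G.B) : (G.cons n f).Ok R := by
  refine ⟨hn, fun v w h => ?_⟩
  obtain ⟨h1, h2⟩ := hf v w h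
  have key : ∀ d k, G.lo ≤ k → k + d = G.B → G.p k ≤ R := by
    intro d
    induction d with
    | zero => intro k _ he; rw [Nat.add_zero] at he; rw [he, hG.2.1]
    | succ d ih =>
      intro k h1 h2
      obtain ⟨-, a2, a3, a4⟩ := hG.2.2 k h1 (by omega)
      have := ih (k + 1) (by omega) (by omega)
      omega
  obtain ⟨a1, a2, a3, a4⟩ := hG.2.2 _ h1 h2
  have := key (G.B - ((f v w).1 + 1)) ((f v w).1 + 1) (by omega) (by omega)
  simp only [Grid.cons]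
  split_ifs <;> omega

lemma covItem_bounds (hR : 0 < R) {G : Grid} (hG : G.Ok R) {n : ℕ} (hn : 1 ≤ n)
    {g : Fin n → Fin n → Fin G.B × Bool} {j k : ℕ} (hlo : G.lo ≤ j) (hjk : j < k) (hk : k ≤ G.B)
    (hg : ∀ v w, v < w → k ≤ ((g v w).1 : ℕ)) (H : (Fin N → Bool) → ℝ) :
    0 ≤ covItem G n₀ R c n g j k H ∧
      covItem G n₀ R c n g j k H ≤ 2 * (Nat.factorial n : ℝ) ^ 2 := by
  have hS : (pertSys n₀ R c H).Good := pertSys_good hR H
  have hC : (G.cons n fun v w => (((g v w).1 : ℕ), (g v w).2)).Ok R :=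
    hG.cons_ok hn _ fun v w h => ⟨le_trans (by omega) (hg v w h), (g v w).1.2⟩
  have hp : 1 ≤ G.p k ∧ G.p k ≤ R := by
    obtain ⟨h1, h2⟩ := hG.lo_mem
    rcases eq_or_lt_of_le hk with h | h
    · rw [h, hG.2.1]; omega
    · obtain ⟨a1, a2, a3, a4⟩ := hG.2.2 k (by omega) h
      have := (hG.next_mem (l := R) le_rfl).2
      refine ⟨a1, ?_⟩
      by_contra hcon
      have hm : ∀ d i, G.lo ≤ i → i + d = G.B → G.p i ≤ R := by
        intro d
        induction d with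
        | zero => intro i _ he; rw [Nat.add_zero] at he; rw [he, hG.2.1]
        | succ d ih =>
          intro i q1 q2
          obtain ⟨-, b2, b3, b4⟩ := hG.2.2 i q1 (by omega)
          have := ih (i + 1) (by omega) (by omega)
          omega
      exact hcon (hm (G.B - k) k (by omega) (by omega))
  have hb := fun i : Fin N => (Sys.resp_bdd hS hC (obs_siteObs hR H i) hp.1 hp.2).1
  have hle := fun (i : Fin N) v => Sys.resp_abs_le hS hC (obs_siteObs hR H i) hp.1 hp.2 v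
  have hA := Sys.avgCov_bdd hS hb (G.p j) (G.p k)
  refine ⟨?_, (le_abs_self _).trans
    (abs_cond_le hS hA (Sys.avgCov_le hS hb (Nat.cast_nonneg _) hle _ _) _ _ _)⟩
  have := Sys.cond_mono hS.reg (bdd_const 0) hA (fun v => avg_nonneg fun _ => abs_nonneg _) 0
    (G.p j) (origin N n₀ R)
  rwa [Sys.cond_const hS.reg] at this

lemma incItem_bounds (hR : 0 < R) (G : Grid) {n : ℕ} (κ : Fin n → Fin n → Fin (G.B + 1)) (k : ℕ)
    (H : (Fin N → Bool) → ℝ) :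
    0 ≤ incItem G n₀ R c n κ k H ∧ incItem G n₀ R c n κ k H ≤ 2 := by
  have hS : (pertSys n₀ R c H).Good := pertSys_good hR H
  have hs : ∀ i : Fin N, _ := fun i =>
    Sys.snap_bdd hS G (fun a b => (κ a b : ℕ)) (obs_siteObs (c := c) hR H i).1
      (obs_siteObs (c := c) hR H i).2.2 (k + 1) univ
  have hd : ∀ i : Fin N, Bdd fun v : ℕ → PSpace N n₀ R =>
      |(pertSys n₀ R c H).cond (G.h k) (G.p (k + 1))
          ((pertSys n₀ R c H).snap G (fun a b => (κ a b : ℕ)) (siteObs i) (k + 1) univ) v -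
        (pertSys n₀ R c H).cond (G.p k) (G.p (k + 1))
          ((pertSys n₀ R c H).snap G (fun a b => (κ a b : ℕ)) (siteObs i) (k + 1) univ) v| :=
    fun i => ((Sys.cond_bdd hS.reg (hs i).1 _ _).sub (Sys.cond_bdd hS.reg (hs i).1 _ _)).abs
  refine ⟨avg_nonneg fun i => ?_, (le_abs_self _).trans (abs_avg_le zero_le_two fun i => ?_)⟩
  · have := Sys.cond_mono hS.reg (bdd_const 0) (hd i) (fun v => abs_nonneg _) 0 (G.h k)
      (origin N n₀ R)
    rwa [Sys.cond_const hS.reg] at this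
  · refine abs_cond_le hS (hd i) (fun v => ?_) _ _ _
    rw [abs_abs]
    have h1 := abs_cond_le hS (hs i).1 (hs i).2 (G.h k) (G.p (k + 1)) v
    have h2 := abs_cond_le hS (hs i).1 (hs i).2 (G.p k) (G.p (k + 1)) v
    exact (abs_sub _ _).trans (by linarith)

/-- A measurable function bounded by a constant is integrable for a probability measure. -/
lemma integrable_of_bounds {α : Type} [MeasurableSpace α] {P : Measure α} [IsProbabilityMeasure P]
    {f : α → ℝ} (hm : Measurable f) {C : ℝ} (h : ∀ a, |f a| ≤ C) : Integrable f P :=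
  Integrable.of_bound hm.aestronglyMeasurable C
    (Filter.Eventually.of_forall fun a => by rw [Real.norm_eq_abs]; exact h a)

lemma integrable_covItem (hR : 0 < R) {G : Grid} (hG : G.Ok R) {n : ℕ} (hn : 1 ≤ n)
    {g : Fin n → Fin n → Fin G.B × Bool} {j k : ℕ} (hlo : G.lo ≤ j) (hjk : j < k) (hk : k ≤ G.B)
    (hg : ∀ v w, v < w → k ≤ ((g v w).1 : ℕ)) (P : Measure ((Fin N → Bool) → ℝ))
    [IsProbabilityMeasure P] : Integrable (covItem G n₀ R c n g j k) P := by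
  refine integrable_of_bounds ?_ (C := 2 * (Nat.factorial n : ℝ) ^ 2) fun H => ?_
  · exact measurable_pert_cond hR measurable_id
      (fun w => measurable_pert_avgCov hR
        (fun i v => measurable_pert_resp hR measurable_id _ _ _ v) _ _ w) 0 _ _
  · obtain ⟨h0, h1⟩ := covItem_bounds (c := c) (n₀ := n₀) hR hG hn hlo hjk hk hg H
    rw [abs_of_nonneg h0]; exact h1

lemma integrable_incItem (hR : 0 < R) (G : Grid) {n : ℕ} (κ : Fin n → Fin n → Fin (G.B + 1))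
    (k : ℕ) (P : Measure ((Fin N → Bool) → ℝ)) [IsProbabilityMeasure P] :
    Integrable (incItem G n₀ R c n κ k) P := by
  refine integrable_of_bounds ?_ (C := 2) fun H => ?_
  · refine (Finset.measurable_sum _ fun i _ => ?_).div_const _
    refine measurable_pert_cond hR measurable_id (fun w => measurable_abs.comp ?_) 0 _ _
    exact (measurable_pert_cond hR measurable_id
        (fun u => measurable_pert_snapAux hR G _ _ _ _ u) _ _ w).sub
      (measurable_pert_cond hR measurable_id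
        (fun u => measurable_pert_snapAux hR G _ _ _ _ u) _ _ w)
  · obtain ⟨h0, h1⟩ := incItem_bounds (c := c) (n₀ := n₀) hR G κ k H
    rw [abs_of_nonneg h0]; exact h1

lemma covSum_nonneg (hR : 0 < R) {G : Grid} (hG : G.Ok R) (H : (Fin N → Bool) → ℝ) :
    0 ≤ covSum G n₀ R c H := by
  classical
  refine sum_nonneg fun x _ => ?_
  split
  · next h =>
    exact (covItem_bounds hR hG h.1 h.2.1 h.2.2.1 (Nat.le_of_lt_succ x.2.2.1.2) h.2.2.2 H).1
  · exact le_rfl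

lemma incSum_nonneg (hR : 0 < R) (G : Grid) (H : (Fin N → Bool) → ℝ) :
    0 ≤ incSum G n₀ R c H := by
  classical
  refine sum_nonneg fun x _ => ?_
  split
  · exact (incItem_bounds hR G _ _ H).1
  · exact le_rfl

lemma integrable_covSum (hR : 0 < R) {G : Grid} (hG : G.Ok R) (P : Measure ((Fin N → Bool) → ℝ))
    [IsProbabilityMeasure P] : Integrable (covSum G n₀ R c) P := by
  classical
  refine integrable_finsetSum _ fun x _ => ?_
  by_cases h : 1 ≤ (x.1 : ℕ) ∧ G.lo ≤ (x.2.1 : ℕ) ∧ (x.2.1 : ℕ) < x.2.2.1 ∧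
      ∀ v w, v < w → (x.2.2.1 : ℕ) ≤ (x.2.2.2 v w).1
  · simp only [if_pos h]
    exact integrable_covItem hR hG h.1 h.2.1 h.2.2.1 (Nat.le_of_lt_succ x.2.2.1.2) h.2.2.2 P
  · simp only [if_neg h]; exact integrable_const 0

lemma integrable_incSum (hR : 0 < R) (G : Grid) (P : Measure ((Fin N → Bool) → ℝ))
    [IsProbabilityMeasure P] : Integrable (incSum G n₀ R c) P := by
  classical
  refine integrable_finsetSum _ fun x _ => ?_
  by_cases h : 1 ≤ (x.1 : ℕ) ∧ G.lo ≤ (x.2.1 : ℕ) ∧ (x.2.1 : ℕ) < G.B ∧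
      IsPat G.B ((x.2.1 : ℕ) + 1) (fun a b => (x.2.2 a b : ℕ)) univ
  · simp only [if_pos h]; exact integrable_incItem hR G _ _ P
  · simp only [if_neg h]; exact integrable_const 0

open Classical in
lemma covItem_le_covSum (hR : 0 < R) {G : Grid} (hG : G.Ok R) {n : ℕ} (hn1 : 1 ≤ n) (hn : n ≤ n₀)
    {g : Fin n → Fin n → Fin G.B × Bool} {j k : ℕ} (hlo : G.lo ≤ j) (hjk : j < k) (hk : k ≤ G.B)
    (hg : ∀ v w, v < w → k ≤ ((g v w).1 : ℕ)) (H : (Fin N → Bool) → ℝ) :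
    covItem G n₀ R c n g j k H ≤ covSum G n₀ R c H := by
  have hmem := single_le_sum (s := univ) (f := fun x : CovIdx n₀ G.B =>
    if 1 ≤ (x.1 : ℕ) ∧ G.lo ≤ (x.2.1 : ℕ) ∧ (x.2.1 : ℕ) < x.2.2.1 ∧
        ∀ v w, v < w → (x.2.2.1 : ℕ) ≤ (x.2.2.2 v w).1
    then covItem G n₀ R c x.1 x.2.2.2 x.2.1 x.2.2.1 H else 0) (fun x _ => ?_)
    (mem_univ (⟨⟨n, by omega⟩, ⟨j, by omega⟩, ⟨k, by omega⟩, g⟩ : CovIdx n₀ G.B))
  · dsimp only at hmem
    rwa [if_pos ⟨hn1, hlo, hjk, hg⟩] at hmem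
  · split
    · next h =>
      exact (covItem_bounds hR hG h.1 h.2.1 h.2.2.1 (Nat.le_of_lt_succ x.2.2.1.2) h.2.2.2 H).1
    · exact le_rfl

open Classical in
lemma incItem_le_incSum (hR : 0 < R) (G : Grid) {n : ℕ} (hn1 : 1 ≤ n) (hn : n ≤ n₀)
    {κ : Fin n → Fin n → Fin (G.B + 1)} {k : ℕ} (hlo : G.lo ≤ k) (hk : k < G.B)
    (hκ : IsPat G.B (k + 1) (fun a b => (κ a b : ℕ)) univ) (H : (Fin N → Bool) → ℝ) :
    incItem G n₀ R c n κ k H ≤ incSum G n₀ R c H := by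
  have hmem := single_le_sum (s := univ) (f := fun x : IncIdx n₀ G.B =>
    if 1 ≤ (x.1 : ℕ) ∧ G.lo ≤ (x.2.1 : ℕ) ∧ (x.2.1 : ℕ) < G.B ∧
        IsPat G.B ((x.2.1 : ℕ) + 1) (fun a b => (x.2.2 a b : ℕ)) univ
    then incItem G n₀ R c x.1 x.2.2 x.2.1 H else 0) (fun x _ => ?_)
    (mem_univ (⟨⟨n, by omega⟩, ⟨k, by omega⟩, κ⟩ : IncIdx n₀ G.B))
  · dsimp only at hmem
    rwa [if_pos ⟨hn1, hlo, hk, hκ⟩] at hmem
  · split
    · exact (incItem_bounds hR G _ _ H).1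
    · exact le_rfl

open Classical in
lemma integral_covSum_le (hR : 0 < R) {G : Grid} (hG : G.Ok R) (P : Measure ((Fin N → Bool) → ℝ))
    [IsProbabilityMeasure P] {ε : ℝ} (hε : 0 ≤ ε)
    (h : ∀ n, 1 ≤ n → n ≤ n₀ → ∀ j k, G.lo ≤ j → j < k → k ≤ G.B →
      ∀ g : Fin n → Fin n → Fin G.B × Bool, (∀ v w, v < w → k ≤ ((g v w).1 : ℕ)) →
      ∫ H, covItem G n₀ R c n g j k H ∂P ≤ ε) :
    ∫ H, covSum G n₀ R c H ∂P ≤ Fintype.card (CovIdx n₀ G.B) * ε := by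
  unfold covSum
  rw [integral_finsetSum]
  · rw [← nsmul_eq_mul, ← Finset.card_univ, ← Finset.sum_const]
    refine sum_le_sum fun x _ => ?_
    by_cases hx : 1 ≤ (x.1 : ℕ) ∧ G.lo ≤ (x.2.1 : ℕ) ∧ (x.2.1 : ℕ) < x.2.2.1 ∧
        ∀ v w, v < w → (x.2.2.1 : ℕ) ≤ (x.2.2.2 v w).1
    · simp only [if_pos hx]
      exact h _ hx.1 (Nat.le_of_lt_succ x.1.2) _ _ hx.2.1 hx.2.2.1
        (Nat.le_of_lt_succ x.2.2.1.2) _ hx.2.2.2
    · simp only [if_neg hx]; simpa using hε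
  · intro x _
    by_cases hx : 1 ≤ (x.1 : ℕ) ∧ G.lo ≤ (x.2.1 : ℕ) ∧ (x.2.1 : ℕ) < x.2.2.1 ∧
        ∀ v w, v < w → (x.2.2.1 : ℕ) ≤ (x.2.2.2 v w).1
    · simp only [if_pos hx]
      exact integrable_covItem hR hG hx.1 hx.2.1 hx.2.2.1 (Nat.le_of_lt_succ x.2.2.1.2) hx.2.2.2 P
    · simp only [if_neg hx]; exact integrable_const 0

open Classical in
lemma integral_incSum_le (hR : 0 < R) (G : Grid) (P : Measure ((Fin N → Bool) → ℝ))
    [IsProbabilityMeasure P] {ε : ℝ} (hε : 0 ≤ ε)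
    (h : ∀ n, 1 ≤ n → n ≤ n₀ → ∀ k, G.lo ≤ k → k < G.B →
      ∀ κ : Fin n → Fin n → Fin (G.B + 1), IsPat G.B (k + 1) (fun a b => (κ a b : ℕ)) univ →
      ∫ H, incItem G n₀ R c n κ k H ∂P ≤ ε) :
    ∫ H, incSum G n₀ R c H ∂P ≤ Fintype.card (IncIdx n₀ G.B) * ε := by
  unfold incSum
  rw [integral_finsetSum]
  · rw [← nsmul_eq_mul, ← Finset.card_univ, ← Finset.sum_const]
    refine sum_le_sum fun x _ => ?_
    by_cases hx : 1 ≤ (x.1 : ℕ) ∧ G.lo ≤ (x.2.1 : ℕ) ∧ (x.2.1 : ℕ) < G.B ∧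
        IsPat G.B ((x.2.1 : ℕ) + 1) (fun a b => (x.2.2 a b : ℕ)) univ
    · simp only [if_pos hx]
      exact h _ hx.1 (Nat.le_of_lt_succ x.1.2) _ hx.2.1 hx.2.2.1 _ hx.2.2.2
    · simp only [if_neg hx]; simpa using hε
  · intro x _
    by_cases hx : 1 ≤ (x.1 : ℕ) ∧ G.lo ≤ (x.2.1 : ℕ) ∧ (x.2.1 : ℕ) < G.B ∧
        IsPat G.B ((x.2.1 : ℕ) + 1) (fun a b => (x.2.2 a b : ℕ)) univ
    · simp only [if_pos hx]; exact integrable_incItem hR G _ _ P
    · simp only [if_neg hx]; exact integrable_const 0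

end Vale.Agent.P168
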