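import Vale.Agent.P168.Val
import Vale.Agent.P168.Trees
import Vale.Agent.P168.AvgDefs

/-!
Nodes of the perturbed system, copies as nonexpansive functionals, snapped moments.
-/

namespace Vale.Agent.P168

open MeasureTheory Finset Function

variable {N n₀ R : ℕ} {c : ℝ}

/-- The path with given node at level `a`. -/
def extPath (a : ℕ) (u : Fin a → PSpace N n₀ R) : ℕ → PSpace N n₀ R :=
  fun i => if h : 1 ≤ i ∧ i ≤ a then u ⟨i - 1, by omega⟩ else origin N n₀ R i

/-- The node of a path at level `a`. -/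
def nodeOf (a : ℕ) (v : ℕ → PSpace N n₀ R) : Fin a → PSpace N n₀ R := fun j => v ((j : ℕ) + 1)

lemma extPath_nodeOf (a : ℕ) (v : ℕ → PSpace N n₀ R) {i : ℕ} (h1 : 1 ≤ i) (h2 : i ≤ a) :
    extPath a (nodeOf a v) i = v i := by
  rw [extPath, dif_pos ⟨h1, h2⟩]
  show v (i - 1 + 1) = v i
  rw [Nat.sub_add_cancel h1]

open Classical in
/-- The indicator of a node. -/
noncomputable def nodeInd (a : ℕ) (u : Fin a → PSpace N n₀ R) (v : ℕ → PSpace N n₀ R) : ℝ :=
  if nodeOf a v = u then 1 else 0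

lemma nodeInd_dep (a : ℕ) (u : Fin a → PSpace N n₀ R) : DependsTo (nodeInd a u) a := by
  intro v v' h
  have : nodeOf a v = nodeOf a v' := funext fun j => h _ (by omega) (by omega)
  unfold nodeInd
  rw [this]

lemma nodeInd_bdd (a : ℕ) (u : Fin a → PSpace N n₀ R) : Bdd (nodeInd a u) :=
  bdd_of_dependsTo (nodeInd_dep a u)

/-- The law of the node at level `a`. -/
noncomputable def nodeWt (S : Sys (PSpace N n₀ R)) (a : ℕ) (u : Fin a → PSpace N n₀ R) : ℝ :=
  S.mean a (nodeInd a u)

lemma mean_eq_sum {S : Sys (PSpace N n₀ R)} (hS : S.Good) {a : ℕ} {f : (ℕ → PSpace N n₀ R) → ℝ}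
    (hf : DependsTo f a) :
    S.mean a f = ∑ u, nodeWt S a u * f (extPath a u) := by
  classical
  have h : f = fun v => ∑ u, f (extPath a u) * nodeInd a u v := by
    funext v
    have hv : f v = f (extPath a (nodeOf a v)) :=
      hf _ _ fun i h1 h2 => (extPath_nodeOf a v h1 h2).symm
    rw [hv, Finset.sum_eq_single (nodeOf a v)]
    · simp [nodeInd]
    · intro u _ hu
      simp [nodeInd, Ne.symm hu]
    · simp
  conv_lhs => rw [h]
  rw [Sys.mean, Sys.cond_sum hS.reg _ fun u => (nodeInd_bdd a u).const_mul _]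
  refine Finset.sum_congr rfl fun u _ => ?_
  rw [Sys.cond_const_mul]
  exact mul_comm _ _

lemma nodeWt_nonneg {S : Sys (PSpace N n₀ R)} (hS : S.Good) (a : ℕ) (u : Fin a → PSpace N n₀ R) :
    0 ≤ nodeWt S a u := by
  have h := Sys.cond_mono hS.reg (bdd_const 0) (nodeInd_bdd a u)
    (fun v => by unfold nodeInd; split <;> norm_num) 0 a (origin N n₀ R)
  rwa [Sys.cond_const hS.reg] at h

lemma sum_nodeWt {S : Sys (PSpace N n₀ R)} (hS : S.Good) (a : ℕ) :
    ∑ u, nodeWt S a u = 1 := by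
  have h := mean_eq_sum hS (a := a) (f := fun _ => (1 : ℝ)) fun _ _ _ => rfl
  rw [Sys.mean, Sys.cond_const hS.reg] at h
  simpa using h.symm

lemma abs_mean_sub_le {S : Sys (PSpace N n₀ R)} (hS : S.Good) {a : ℕ}
    {f g : (ℕ → PSpace N n₀ R) → ℝ} (hf : Bdd f) (hg : Bdd g) :
    |S.mean a f - S.mean a g| ≤ S.mean a (fun v => |f v - g v|) := by
  have hd : Bdd fun v => |f v - g v| := by
    obtain ⟨hm, C, hC⟩ := hf.sub hg
    exact ⟨measurable_abs.comp hm, C, fun v => by rw [abs_abs]; exact hC v⟩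
  rw [Sys.mean, Sys.mean, Sys.mean, abs_le]
  have h1 := Sys.cond_mono hS.reg hf (hg.add hd) (fun v => by linarith [le_abs_self (f v - g v)])
    0 a (origin N n₀ R)
  have h2 := Sys.cond_mono hS.reg hg (hf.add hd) (fun v => by linarith [neg_le_abs (f v - g v)])
    0 a (origin N n₀ R)
  simp only [Sys.cond_add hS.reg hg hd] at h1
  simp only [Sys.cond_add hS.reg hf hd] at h2
  constructor <;> linarith

lemma gridExp_pos (hR : 0 < R) {l : ℕ} (hl : 1 ≤ l) : 0 < gridExp R l :=
  div_pos (by exact_mod_cast hl) (by exact_mod_cast hR)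

/-- A nested evaluation as a functional of a potential on finitely many values is nonexpansive. -/
lemma nonexp_val {Ω : Type} [MeasurableSpace Ω] {S : Sys Ω} (hS : S.Good) {ξ : ℕ → ℝ} {d l : ℕ}
    (hξ : ∀ i, l < i → i ≤ l + d → 0 < ξ i) {α : Type} (Y : (ℕ → Ω) → α)
    (hY : ∀ F : α → ℝ, Bdd fun v => F (Y v)) (ω : ℕ → Ω) :
    Nonexp fun F : α → ℝ => S.val ξ (fun v => F (Y v)) d l ω := by
  constructor
  · have h := Sys.val_abs_le hS (bdd_const (0 : ℝ)) (L := 0) (fun _ => by simp) hξ ω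
    exact abs_nonpos_iff.1 h
  · intro F F' L hL
    have h1 := Sys.val_mono hS (hY F) ((hY F').add (bdd_const L))
      (fun v => by linarith [(abs_le.1 (hL (Y v))).2]) hξ ω
    have h2 := Sys.val_mono hS (hY F') ((hY F).add (bdd_const L))
      (fun v => by linarith [(abs_le.1 (hL (Y v))).1]) hξ ω
    rw [Sys.val_add_const hS (hY F') L hξ] at h1
    rw [Sys.val_add_const hS (hY F) L hξ] at h2
    rw [abs_le]
    constructor <;> linarith

lemma Nonexp.avg {α β : Type} [Nonempty α] [Fintype β] {Φ : β → (α → ℝ) → ℝ} (h : ∀ b, Nonexp (Φ b)) :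
    Nonexp fun F => avg fun b => Φ b F := by
  constructor
  · simp [Vale.Agent.P168.avg, fun b => (h b).1]
  · intro F F' L hL
    rcases (Nat.eq_zero_or_pos (Fintype.card β)) with h0 | hpos
    · have : IsEmpty β := Fintype.card_eq_zero_iff.1 h0
      simp only [Vale.Agent.P168.avg, h0, Nat.cast_zero, div_zero, sub_zero, abs_zero]
      exact (abs_nonneg _).trans (hL (Classical.arbitrary α))
    · simp only [Vale.Agent.P168.avg, ← sub_div, ← Finset.sum_sub_distrib]
      rw [abs_div, abs_of_pos (by exact_mod_cast hpos : (0 : ℝ) < (Fintype.card β : ℝ)),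
        div_le_iff₀ (by exact_mod_cast hpos)]
      refine (Finset.abs_sum_le_sum_abs _ _).trans ?_
      refine (Finset.sum_le_sum fun b _ => (h b).2 F F' L hL).trans ?_
      simp [mul_comm]

end Vale.Agent.P168
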