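import Vale.Agent.P168.SnapBasics

/-!
Module F1: trees meeting in the windows of a grid against snapped moments, and the resulting
bound on the covariances of snapped moments by those of responses.
-/

namespace Vale.Agent.P168

open MeasureTheory Finset Function

variable {Ω : Type} [MeasurableSpace Ω] {S : Sys Ω} {n : ℕ}

/-- The meeting level of a pair lies in the window of its band. -/
def Grid.win (G : Grid) (κ : Fin n → Fin n → ℕ) (v w : Fin n) (m : ℕ) : Prop :=
  G.t (κ v w) ≤ m ∧ m < G.h (κ v w)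

/-- The labelled sum of moments from level `l`. -/
noncomputable def Sys.lsum (S : Sys Ω) (P : Fin n → Fin n → ℕ → Prop) (a : (ℕ → Ω) → ℝ) (l : ℕ)
    (A : Finset (Fin n)) (ω : ℕ → Ω) : ℝ :=
  labSum P S.x (S.R - l) l A fun T => S.mom (S.R - l) l T (fun _ => a) ω

/-- The labelled mass from level `l`. -/
noncomputable def Sys.lmass (S : Sys Ω) (P : Fin n → Fin n → ℕ → Prop) (l : ℕ)
    (A : Finset (Fin n)) : ℝ :=
  labSum P S.x (S.R - l) l A fun _ => 1

/-- The mean over sites and nodes of level `l`. -/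
noncomputable def Sys.siteMean (S : Sys Ω) {N : ℕ} (ω₀ : ℕ → Ω) (l : ℕ)
    (f : Fin N → (ℕ → Ω) → ℝ) : ℝ :=
  avg fun i => S.cond 0 l (f i) ω₀

/-- The error of a target for the labelled sum. -/
noncomputable def Sys.snapErr (S : Sys Ω) {N : ℕ} (P : Fin n → Fin n → ℕ → Prop)
    (a : Fin N → (ℕ → Ω) → ℝ) (ω₀ : ℕ → Ω) (l : ℕ) (A : Finset (Fin n))
    (g : Fin N → (ℕ → Ω) → ℝ) : ℝ :=
  S.siteMean ω₀ l fun i v => |S.lsum P (a i) l A v - S.lmass P l A * g i v|

section mean

variable {N : ℕ} {ω₀ : ℕ → Ω} {l : ℕ}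

lemma Sys.siteMean_mono (hS : S.Good) {f g : Fin N → (ℕ → Ω) → ℝ} (hf : ∀ i, Bdd (f i))
    (hg : ∀ i, Bdd (g i)) (h : ∀ i v, f i v ≤ g i v) :
    S.siteMean ω₀ l f ≤ S.siteMean ω₀ l g :=
  div_le_div_of_nonneg_right
    (sum_le_sum fun i _ => Sys.cond_mono hS.reg (hf i) (hg i) (h i) 0 l ω₀) (Nat.cast_nonneg _)

lemma Sys.siteMean_sum (hS : S.Good) {ι : Type} (t : Finset ι) {f : ι → Fin N → (ℕ → Ω) → ℝ}
    (hf : ∀ c i, Bdd (f c i)) :
    S.siteMean ω₀ l (fun i v => ∑ c ∈ t, f c i v) = ∑ c ∈ t, S.siteMean ω₀ l (f c) := by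
  simp only [Sys.siteMean, avg, Sys.cond_sum hS.reg t (fun c => hf c _), ← sum_div]
  rw [sum_comm]

lemma Sys.siteMean_const_mul (f : Fin N → (ℕ → Ω) → ℝ) (c : ℝ) :
    S.siteMean ω₀ l (fun i v => c * f i v) = c * S.siteMean ω₀ l f := by
  simp only [Sys.siteMean, avg, Sys.cond_const_mul, ← mul_sum, mul_div_assoc]

lemma Sys.siteMean_zero (hS : S.Good) : S.siteMean ω₀ l (fun (_ : Fin N) _ => (0 : ℝ)) = 0 := by
  simp [Sys.siteMean, avg, Sys.cond_const hS.reg]

lemma Sys.siteMean_cond (hS : S.Good) (f : Fin N → (ℕ → Ω) → ℝ) {m : ℕ} (h : l ≤ m) :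
    S.siteMean ω₀ l (fun i => S.cond l m (f i)) = S.siteMean ω₀ m f := by
  simp only [Sys.siteMean, ← Sys.cond_tower hS _ (Nat.zero_le l) h]

lemma Sys.siteMean_A (hS : S.Good) (f : Fin N → (ℕ → Ω) → ℝ) :
    S.siteMean ω₀ l (fun i => S.A l (f i)) = S.siteMean ω₀ (l + 1) f := by
  simp only [← Sys.cond_succ_snap, Sys.siteMean_cond hS f (Nat.le_succ l)]

end mean

section lsum

variable {P : Fin n → Fin n → ℕ → Prop}

open Classical in
lemma Sys.lsum_succ (hS : S.Good) {a : (ℕ → Ω) → ℝ} (ha : Bdd a) {l : ℕ} (hl : l < S.R)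
    (A : Finset (Fin n)) (ω : ℕ → Ω) :
    S.lsum P a l A ω = ∑ k ∈ range n, coef (S.x l / S.x (l + 1)) (k + 1) *
      ∑ π : ↥A → Fin (k + 1),
        if splitOk P l π then ∏ c, S.A l (S.lsum P a (l + 1) (fib π c)) ω else 0 := by
  have e : ∀ F : Finset (Fin n), S.A l (S.lsum P a (l + 1) F) ω =
      labSum P S.x (S.R - (l + 1)) (l + 1) F
        fun T => S.A l (S.mom (S.R - (l + 1)) (l + 1) T fun _ => a) ω := by
    intro F
    rw [show S.lsum P a (l + 1) F = fun v => ∑ T ∈ trees (S.R - (l + 1)) n,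
      Tree.weight S.x (S.R - (l + 1)) (l + 1) T * labCount P (S.R - (l + 1)) (l + 1) F T *
        S.mom (S.R - (l + 1)) (l + 1) T (fun _ => a) v from rfl]
    simp only [labSum]
    rw [Sys.A_sum_snap hS _ (fun T => (Sys.mom_bdd hS T fun _ => ha).const_mul _)]
    exact sum_congr rfl fun T _ => Sys.A_const_mul hS _ _ l ω
  simp only [e, Sys.lsum]
  rw [show S.R - l = S.R - (l + 1) + 1 by omega]
  exact labSum_succ P S.x (S.R - (l + 1)) l A
    (fun T => S.A l (S.mom (S.R - (l + 1)) (l + 1) T fun _ => a) ω)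

open Classical in
lemma Sys.lmass_succ {l : ℕ} (hl : l < S.R) (A : Finset (Fin n)) :
    S.lmass P l A = ∑ k ∈ range n, coef (S.x l / S.x (l + 1)) (k + 1) *
      ∑ π : ↥A → Fin (k + 1),
        if splitOk P l π then ∏ c, S.lmass P (l + 1) (fib π c) else 0 := by
  simp only [Sys.lmass]
  rw [show S.R - l = S.R - (l + 1) + 1 by omega]
  have h := labSum_succ P S.x (S.R - (l + 1)) l A (fun _ => 1)
  simp only [prod_const_one] at h
  exact h

lemma Sys.lsum_bdd (hS : S.Good) {a : (ℕ → Ω) → ℝ} (ha : Bdd a) (l : ℕ) (A : Finset (Fin n)) :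
    Bdd (S.lsum P a l A) :=
  Bdd.sum _ fun T => (Sys.mom_bdd hS T fun _ => ha).const_mul _

lemma Sys.lmass_nonneg (hS : S.Good) {l : ℕ} (h1 : 1 ≤ l) (hl : l ≤ S.R) (A : Finset (Fin n)) :
    0 ≤ S.lmass P l A :=
  sum_nonneg fun T _ => mul_nonneg (mul_nonneg (Sys.weight_nonneg hS h1 (by omega) T)
    (labCount_nonneg _ _ _ _)) zero_le_one

lemma Sys.lsum_abs_le (hS : S.Good) {a : (ℕ → Ω) → ℝ} (ha : Obs S a) {l : ℕ} (h1 : 1 ≤ l)
    (hl : l ≤ S.R) (A : Finset (Fin n)) (ω : ℕ → Ω) : |S.lsum P a l A ω| ≤ S.lmass P l A := by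
  refine (abs_sum_le_sum_abs _ _).trans (sum_le_sum fun T _ => ?_)
  rw [abs_mul, abs_of_nonneg (mul_nonneg (Sys.weight_nonneg hS h1 (by omega) T)
    (labCount_nonneg _ _ _ _))]
  refine mul_le_mul_of_nonneg_left ?_ (mul_nonneg (Sys.weight_nonneg hS h1 (by omega) T)
    (labCount_nonneg _ _ _ _))
  exact (Sys.mom_abs_le hS T (fun _ => ha.1) (fun _ => ha.2.2) ω).trans_eq prod_const_one

lemma Sys.ratio_mem_snap (hS : S.Good) {l : ℕ} (h1 : 1 ≤ l) (hl : l < S.R) :
    0 ≤ S.x l / S.x (l + 1) ∧ S.x l / S.x (l + 1) ≤ 1 :=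
  ⟨(hS.expo.ratio_mem h1 hl).1.le, (hS.expo.ratio_mem h1 hl).2⟩

lemma Sys.lmass_top {A : Finset (Fin n)} (hA : A.card = 1) : S.lmass P S.R A = 1 := by
  unfold Sys.lmass
  rw [Nat.sub_self, labSum_zero, if_pos hA]

lemma Sys.lsum_top (_hS : S.Good) (a : (ℕ → Ω) → ℝ) {A : Finset (Fin n)} (hA : A.card = 1)
    (ω : ℕ → Ω) : S.lsum P a S.R A ω = a ω ∧ S.lmass P S.R A = 1 := by
  unfold Sys.lsum Sys.lmass
  rw [Nat.sub_self, labSum_zero, labSum_zero, if_pos hA, if_pos hA]
  exact ⟨rfl, rfl⟩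

end lsum

lemma abs_prod_sub_prod_le_weighted {α : Type} [DecidableEq α] (t : Finset α) {x y z : α → ℝ}
    (hx : ∀ c ∈ t, |x c| ≤ z c) (hy : ∀ c ∈ t, |y c| ≤ z c) :
    |∏ c ∈ t, x c - ∏ c ∈ t, y c| ≤ ∑ c ∈ t, (∏ b ∈ t.erase c, z b) * |x c - y c| := by
  induction t using Finset.induction_on with
  | empty => simp
  | @insert j t hj ih =>
    simp only [mem_insert, forall_eq_or_imp] at hx hy
    have ih' := ih hx.2 hy.2
    have hpx : |∏ c ∈ t, x c| ≤ ∏ c ∈ t, z c := by
      rw [abs_prod]; exact prod_le_prod (fun c _ => abs_nonneg _) hx.2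
    have hz : 0 ≤ z j := (abs_nonneg _).trans hy.1
    rw [prod_insert hj, prod_insert hj, sum_insert hj, erase_insert hj]
    calc |x j * ∏ c ∈ t, x c - y j * ∏ c ∈ t, y c|
        = |(x j - y j) * ∏ c ∈ t, x c + y j * (∏ c ∈ t, x c - ∏ c ∈ t, y c)| := by ring_nf
      _ ≤ |x j - y j| * |∏ c ∈ t, x c| + |y j| * |∏ c ∈ t, x c - ∏ c ∈ t, y c| := by
          rw [← abs_mul, ← abs_mul]; exact abs_add_le _ _
      _ ≤ |x j - y j| * ∏ c ∈ t, z c +
          z j * ∑ c ∈ t, (∏ b ∈ t.erase c, z b) * |x c - y c| :=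
          add_le_add (mul_le_mul_of_nonneg_left hpx (abs_nonneg _))
            (mul_le_mul hy.1 ih' (abs_nonneg _) hz)
      _ = _ := by
          rw [mul_comm, mul_sum]
          congr 1
          refine sum_congr rfl fun c hc => ?_
          have hne : j ≠ c := fun h => hj (h ▸ hc)
          rw [erase_insert_of_ne hne, prod_insert (fun h => hj (mem_of_mem_erase h)), mul_assoc]

section step

variable {P : Fin n → Fin n → ℕ → Prop} {N : ℕ} {a : Fin N → (ℕ → Ω) → ℝ} {ω₀ : ℕ → Ω}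

open Classical in
/-- One step of the error recursion. -/
lemma Sys.snapErr_step (hS : S.Good) (ha : ∀ i, Obs S (a i)) {l : ℕ} (h1 : 1 ≤ l) (hl : l < S.R)
    (A : Finset (Fin n)) {g : Fin N → (ℕ → Ω) → ℝ} (hg : ∀ i, Bdd (g i)) (ε : ℝ)
    (hyp : ∀ q (π : ↥A → Fin (q + 1)), splitOk P l π → (∀ c, (fib π c).Nonempty) →
      ∃ (g' : Fin (q + 1) → Fin N → (ℕ → Ω) → ℝ) (ε' : Fin (q + 1) → ℝ),
        (∀ c i, Bdd (g' c i) ∧ ∀ v, |g' c i v| ≤ 1) ∧
        (∀ i v, g i v = ∏ c, S.A l (g' c i) v) ∧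
        (∀ c, S.snapErr P a ω₀ (l + 1) (fib π c) (g' c) ≤ S.lmass P (l + 1) (fib π c) * ε' c) ∧
        ∑ c, ε' c ≤ ε) :
    S.snapErr P a ω₀ l A g ≤ S.lmass P l A * ε := by
  have hc : ∀ k, 0 ≤ coef (S.x l / S.x (l + 1)) k :=
    coef_nonneg (Sys.ratio_mem_snap hS h1 hl).1 (Sys.ratio_mem_snap hS h1 hl).2
  let Y : ∀ k, (↥A → Fin (k + 1)) → Fin N → (ℕ → Ω) → ℝ := fun k π i v =>
    if splitOk P l π then
      |∏ c, S.A l (S.lsum P (a i) (l + 1) (fib π c)) v -
        (∏ c, S.lmass P (l + 1) (fib π c)) * g i v|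
    else 0
  have hYb : ∀ k π i, Bdd (Y k π i) := fun k π i => by
    simp only [Y]
    by_cases h : splitOk P l π
    · simp only [if_pos h]
      exact ((Bdd.prod univ fun c => Sys.A_bdd hS (Sys.lsum_bdd hS (ha i).1 _ _) l).sub
        ((hg i).const_mul _)).abs_snap
    · simp only [if_neg h]; exact bdd_const 0
  have hY : ∀ k π, S.siteMean ω₀ l (Y k π) ≤
      (if splitOk P l π then ∏ c, S.lmass P (l + 1) (fib π c) else 0) * ε := by
    intro k π
    by_cases hs : splitOk P l π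
    swap
    · simp only [Y, if_neg hs, zero_mul]
      exact (Sys.siteMean_zero hS).le
    rw [if_pos hs]
    by_cases hne : ∀ c, (fib π c).Nonempty
    swap
    · obtain ⟨c, hc⟩ := not_forall.1 hne
      rw [not_nonempty_iff_eq_empty] at hc
      have hZ : ∏ b, S.lmass P (l + 1) (fib π b) = 0 :=
        prod_eq_zero (mem_univ c) (by rw [hc, Sys.lmass, labSum_empty])
      have hX : ∀ i v, ∏ b, S.A l (S.lsum P (a i) (l + 1) (fib π b)) v = 0 := fun i v =>
        prod_eq_zero (mem_univ c) (by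
          rw [hc, show S.lsum P (a i) (l + 1) ∅ = fun _ => (0 : ℝ) from
            funext fun w => labSum_empty _ _ _ _ _, Sys.A_const hS])
      simp only [Y, if_pos hs, hZ, hX, zero_mul, sub_zero, abs_zero]
      exact (Sys.siteMean_zero hS).le
    obtain ⟨g', ε', hg', hgp, herr, hsum⟩ := hyp k π hs hne
    set Z : Fin (k + 1) → ℝ := fun c => S.lmass P (l + 1) (fib π c) with hZ
    have hZ0 : ∀ c, 0 ≤ Z c := fun c => Sys.lmass_nonneg hS (by omega) hl _
    have hdb : ∀ c i, Bdd fun v => |S.lsum P (a i) (l + 1) (fib π c) v - Z c * g' c i v| :=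
      fun c i => ((Sys.lsum_bdd hS (ha i).1 _ _).sub ((hg' c i).1.const_mul _)).abs_snap
    have hle : ∀ i v, Y k π i v ≤ ∑ c, (∏ b ∈ univ.erase c, Z b) *
        S.A l (fun w => |S.lsum P (a i) (l + 1) (fib π c) w - Z c * g' c i w|) v := by
      intro i v
      simp only [Y, if_pos hs]
      rw [show (∏ c, S.lmass P (l + 1) (fib π c)) * g i v = ∏ c, Z c * S.A l (g' c i) v by
        rw [prod_mul_distrib, hgp]]
      refine (abs_prod_sub_prod_le_weighted univ (z := Z) (fun c _ => ?_) (fun c _ => ?_)).trans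
        (sum_le_sum fun c _ => mul_le_mul_of_nonneg_left ?_ (prod_nonneg fun b _ => hZ0 b))
      · exact Sys.A_abs_le hS.reg (Sys.lsum_bdd hS (ha i).1 _ _)
          (fun w => Sys.lsum_abs_le hS (ha i) (by omega) hl _ w) l v
      · rw [abs_mul, abs_of_nonneg (hZ0 c)]
        exact mul_le_of_le_one_right (hZ0 c) (Sys.A_abs_le hS.reg (hg' c i).1 (hg' c i).2 l v)
      · have e := congrFun (Sys.cond_sub hS.reg (Sys.lsum_bdd (P := P) hS (ha i).1 (l + 1) (fib π c))
          ((hg' c i).1.const_mul (Z c)) l (l + 1)) v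
        simp only [Sys.cond_succ_snap, Sys.A_const_mul hS] at e
        rw [← e, ← Sys.cond_succ_snap, ← Sys.cond_succ_snap]
        exact Sys.cond_abs_le_snap hS
          ((Sys.lsum_bdd hS (ha i).1 (l + 1) _).sub ((hg' c i).1.const_mul _)) l (l + 1) v
    calc S.siteMean ω₀ l (Y k π)
        ≤ S.siteMean ω₀ l (fun i v => ∑ c, (∏ b ∈ univ.erase c, Z b) *
            S.A l (fun w => |S.lsum P (a i) (l + 1) (fib π c) w - Z c * g' c i w|) v) :=
          Sys.siteMean_mono hS (hYb k π)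
            (fun i => Bdd.sum univ fun c => (Sys.A_bdd hS (hdb c i) l).const_mul _) hle
      _ = ∑ c, (∏ b ∈ univ.erase c, Z b) *
            S.snapErr P a ω₀ (l + 1) (fib π c) (g' c) := by
          rw [Sys.siteMean_sum hS univ fun c i => (Sys.A_bdd hS (hdb c i) l).const_mul _]
          refine sum_congr rfl fun c _ => ?_
          rw [Sys.siteMean_const_mul, Sys.siteMean_A hS]
          rfl
      _ ≤ ∑ c, (∏ b ∈ univ.erase c, Z b) * (Z c * ε' c) :=
          sum_le_sum fun c _ => mul_le_mul_of_nonneg_left (herr c) (prod_nonneg fun b _ => hZ0 b)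
      _ = (∏ c, Z c) * ∑ c, ε' c := by
          rw [mul_sum]
          refine sum_congr rfl fun c _ => ?_
          rw [← mul_assoc, prod_erase_mul _ _ (mem_univ c)]
      _ ≤ (∏ c, Z c) * ε := mul_le_mul_of_nonneg_left hsum (prod_nonneg fun c _ => hZ0 c)
  have hpt : ∀ i v, |S.lsum P (a i) l A v - S.lmass P l A * g i v| ≤
      ∑ k ∈ range n, coef (S.x l / S.x (l + 1)) (k + 1) * ∑ π, Y k π i v := by
    intro i v
    rw [Sys.lsum_succ hS (ha i).1 hl, Sys.lmass_succ hl, sum_mul, ← sum_sub_distrib]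
    refine (abs_sum_le_sum_abs _ _).trans (sum_le_sum fun k _ => ?_)
    rw [mul_assoc, sum_mul, ← mul_sub, ← sum_sub_distrib, abs_mul, abs_of_nonneg (hc _)]
    refine mul_le_mul_of_nonneg_left ((abs_sum_le_sum_abs _ _).trans (sum_le_sum fun π _ => ?_))
      (hc _)
    simp only [Y]
    split_ifs <;> simp
  calc S.snapErr P a ω₀ l A g
      ≤ S.siteMean ω₀ l (fun i v => ∑ k ∈ range n, coef (S.x l / S.x (l + 1)) (k + 1) *
          ∑ π, Y k π i v) :=
        Sys.siteMean_mono hS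
          (fun i => ((Sys.lsum_bdd hS (ha i).1 _ _).sub ((hg i).const_mul _)).abs_snap)
          (fun i => Bdd.sum _ fun k => (Bdd.sum univ fun π => hYb k π i).const_mul _) hpt
    _ = ∑ k ∈ range n, coef (S.x l / S.x (l + 1)) (k + 1) * ∑ π, S.siteMean ω₀ l (Y k π) := by
        rw [Sys.siteMean_sum hS _ fun k i => (Bdd.sum univ fun π => hYb k π i).const_mul _]
        refine sum_congr rfl fun k _ => ?_
        rw [Sys.siteMean_const_mul, Sys.siteMean_sum hS univ fun π i => hYb k π i]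
    _ ≤ ∑ k ∈ range n, coef (S.x l / S.x (l + 1)) (k + 1) * ∑ π : ↥A → Fin (k + 1),
          (if splitOk P l π then ∏ c, S.lmass P (l + 1) (fib π c) else 0) * ε :=
        sum_le_sum fun k _ => mul_le_mul_of_nonneg_left (sum_le_sum fun π _ => hY k π) (hc _)
    _ = S.lmass P l A * ε := by
        rw [Sys.lmass_succ hl, sum_mul]
        simp only [← sum_mul, mul_assoc]

end step

section window

variable {G : Grid} {κ : Fin n → Fin n → ℕ} {N : ℕ} {a : Fin N → (ℕ → Ω) → ℝ} {ω₀ : ℕ → Ω}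

/-- Pairs split below the exit of band `k` have band `k`. -/
lemma kappa_of_split (hG : G.Ok S.R) {k l : ℕ} (hlo : G.lo ≤ k) (_hkB : k < G.B)
    (hl : l ≤ G.p (k + 1)) {A : Finset (Fin n)} (hA : IsPat G.B k κ A) {q : ℕ}
    {π : ↥A → Fin q} (hπ : splitOk (G.win κ) l π) {v w : ↥A} (hne : π v ≠ π w) :
    κ v w = k ∧ l < G.h k := by
  rcases lt_trichotomy (v : Fin n) w with h | h | h
  · have hp := hA.2.2.1 v v.2 w w.2 h.ne
    have hw := hπ v w h hne
    by_cases hk : κ v w = k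
    · exact ⟨hk, hk ▸ hw.2⟩
    · have h1 := hG.h_lt_t_snap hlo (lt_of_le_of_ne hp.1 (Ne.symm hk)) hp.2
      exact absurd hw.1 (by omega)
  · exact absurd (congrArg π (Subtype.ext h)) hne
  · have hp := hA.2.2.1 w w.2 v v.2 h.ne
    have hw := hπ w v h hne.symm
    rw [hA.2.1 v v.2 w w.2]
    by_cases hk : κ w v = k
    · exact ⟨hk, hk ▸ hw.2⟩
    · have h1 := hG.h_lt_t_snap hlo (lt_of_le_of_ne hp.1 (Ne.symm hk)) hp.2
      exact absurd hw.1 (by omega)

/-- Past the exit of band `k` only one class is left. -/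
lemma lsum_split_zero {k l : ℕ} (hl : G.h k ≤ l) {A : Finset (Fin n)} (hA : IsPat G.B k κ A)
    (hkB : k < G.B) {v w : Fin n} (hv : v ∈ A) (hw : w ∈ A) (hvw : κ v w ≤ k) (T : Tree (S.R - l))
    (lab : ↥A ≃ Leaves (S.R - l) T) : ¬ labOk (G.win κ) l T lab := by
  intro h
  have hne : v ≠ w := by
    rintro rfl
    rw [hA.1 v hv] at hvw
    omega
  rcases lt_or_gt_of_ne hne with h' | h'
  · have h1 := (hA.2.2.1 v hv w hw hne).1
    have h2 := (h ⟨v, hv⟩ ⟨w, hw⟩ h').2
    simp only [show κ v w = k by omega] at h2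
    have := Tree.le_meet_snap _ l T (lab ⟨v, hv⟩) (lab ⟨w, hw⟩)
    omega
  · have h1 := (hA.2.2.1 v hv w hw hne).1
    have h2 := (h ⟨w, hw⟩ ⟨v, hv⟩ h').2
    simp only [← hA.2.1 v hv w hw, show κ v w = k by omega] at h2
    have := Tree.le_meet_snap _ l T (lab ⟨w, hw⟩) (lab ⟨v, hv⟩)
    omega

lemma fib_one {A : Finset (Fin n)} (π : ↥A → Fin 1) (c : Fin 1) : fib π c = A := by
  ext v
  simp only [mem_fib]
  exact ⟨fun ⟨h, _⟩ => h, fun h => ⟨h, Subsingleton.elim _ _⟩⟩

lemma sum_fib_card {A : Finset (Fin n)} {q : ℕ} (π : ↥A → Fin q) :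
    ∑ c, (fib π c).card = A.card := by
  rw [← card_biUnion]
  · congr 1
    ext v
    simp only [mem_biUnion, mem_univ, true_and]
    exact ⟨fun ⟨c, hc⟩ => fib_subset π c hc, fun h => ⟨_, mem_fib_self π ⟨v, h⟩⟩⟩
  · intro c _ c' _ hne
    refine disjoint_left.2 fun v h h' => hne ?_
    obtain ⟨h₁, rfl⟩ := mem_fib.1 h
    obtain ⟨h₂, rfl⟩ := mem_fib.1 h'
    rfl

/-- The labelled sums are the mass times the snapped moment, up to the window increments. -/
lemma snap_err (hS : S.Good) (hG : G.Ok S.R) (ha : ∀ i, Obs S (a i)) {e : ℝ} (he0 : 0 ≤ e)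
    (he : ∀ k, G.lo ≤ k → k < G.B → ∀ A : Finset (Fin n), A.Nonempty →
      IsPat G.B (k + 1) κ A →
      S.siteMean ω₀ (G.h k) (fun i v =>
        |S.cond (G.h k) (G.p (k + 1)) (S.snap G κ (a i) (k + 1) A) v -
          S.cond (G.p k) (G.p (k + 1)) (S.snap G κ (a i) (k + 1) A) v|) ≤ e) :
    ∀ {k : ℕ}, G.lo ≤ k → k ≤ G.B → ∀ A : Finset (Fin n), A.Nonempty → IsPat G.B k κ A →
      S.snapErr (G.win κ) a ω₀ (G.p k) A (fun i => S.snap G κ (a i) k A) ≤
        S.lmass (G.win κ) (G.p k) A * ((A.card : ℝ) * ((G.B : ℝ) - k) * e) := by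
  intro k h1 h2
  induction h2 using Nat.decreasingInduction with
  | self =>
    intro A hA hp
    have hc : A.card = 1 := by
      refine le_antisymm (card_le_one.2 fun v hv w hw => ?_) hA.card_pos
      by_contra hne
      have := hp.2.2.1 v hv w hw hne
      omega
    have e1 : ∀ (i : Fin N) (v : ℕ → Ω),
        |S.lsum (G.win κ) (a i) S.R A v - S.lmass (G.win κ) S.R A * S.snap G κ (a i) G.B A v|
          = 0 := by
      intro i v
      have h := Sys.lsum_top (P := G.win κ) hS (a i) hc v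
      rw [h.1, h.2, Sys.snap_top]
      simp [prod_const, hc]
    simp only [Sys.snapErr, hG.2.1, e1, sub_self, mul_zero, zero_mul]
    exact (Sys.siteMean_zero hS).le
  | of_succ k hk ih =>
    have ih' := ih (by omega)
    obtain ⟨hp1, hpt, hth, hhp⟩ := hG.2.2 k h1 hk
    have hpR : G.p (k + 1) ≤ S.R := hG.p_le_snap (by omega) (by omega)
    have hfacts : ∀ i j, G.lo ≤ j → j ≤ G.B → ∀ F : Finset (Fin n),
        Bdd (S.snap G κ (a i) j F) ∧ DependsTo (S.snap G κ (a i) j F) (G.p j) ∧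
          ∀ v, |S.snap G κ (a i) j F v| ≤ 1 := fun i j hj hj' F =>
      Sys.snap_facts G (a i) hS hG κ (ha i) hj hj' F
    set P := G.win κ with hP
    -- a single lineage between the exit and the next branching level
    have chain : ∀ m l, G.h k ≤ l → l + m = G.p (k + 1) → ∀ A : Finset (Fin n), A.Nonempty →
        IsPat G.B (k + 1) κ A →
        S.snapErr P a ω₀ l A (fun i => S.cond l (G.p (k + 1)) (S.snap G κ (a i) (k + 1) A)) ≤
          S.lmass P l A * ((A.card : ℝ) * ((G.B : ℝ) - (k + 1 : ℕ)) * e) := by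
      intro m
      induction m with
      | zero =>
        intro l _ hl A hA hp
        obtain rfl : l = G.p (k + 1) := by omega
        simp only [Sys.cond_self_snap]
        exact ih' A hA hp
      | succ m ihm =>
        intro l hlh hl A hA hp
        refine Sys.snapErr_step hS ha (by omega) (by omega) A
          (fun i => Sys.cond_bdd hS.reg (hfacts i _ (by omega) (by omega) A).1 _ _) _
          fun q π hπ hne => ?_
        have hconst : ∀ v w : ↥A, π v = π w := fun v w => by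
          by_contra h
          have := (kappa_of_split hG h1 hk (by omega) (hp.mono_snap (Nat.le_succ k)) hπ h).2
          omega
        have hq : q = 0 := by
          by_contra hq
          obtain ⟨x, hx⟩ := hne 0
          obtain ⟨y, hy⟩ := hne ⟨1, by omega⟩
          obtain ⟨hxA, hx'⟩ := mem_fib.1 hx
          obtain ⟨hyA, hy'⟩ := mem_fib.1 hy
          have := hconst ⟨x, hxA⟩ ⟨y, hyA⟩
          rw [hx', hy'] at this
          simp [Fin.ext_iff] at this
        subst hq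
        refine ⟨fun _ i => S.cond (l + 1) (G.p (k + 1)) (S.snap G κ (a i) (k + 1) A),
          fun _ => (A.card : ℝ) * ((G.B : ℝ) - (k + 1 : ℕ)) * e, fun c i =>
            ⟨Sys.cond_bdd hS.reg (hfacts i _ (by omega) (by omega) A).1 _ _,
              fun v => Sys.cond_abs_le_one_snap hS (hfacts i _ (by omega) (by omega) A).1
                (hfacts i _ (by omega) (by omega) A).2.2 _ _ v⟩,
          fun i v => ?_, fun c => ?_, by simp⟩
        · rw [Fin.prod_univ_one, Sys.A_cond_snap hS _ (by omega)]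
        · rw [fib_one]
          exact ihm (l + 1) (by omega) (by omega) A hA hp
    -- the window of band `k`
    have window : ∀ m l, G.p k ≤ l → l + m = G.h k → ∀ A : Finset (Fin n), A.Nonempty →
        IsPat G.B k κ A →
        S.snapErr P a ω₀ l A (fun i => S.snap G κ (a i) k A) ≤
          S.lmass P l A * ((A.card : ℝ) * ((G.B : ℝ) - k) * e) := by
      intro m
      induction m with
      | zero =>
        intro l _ hl A hA hp
        obtain rfl : l = G.h k := by omega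
        by_cases hs : ∀ v ∈ A, ∀ w ∈ A, k + 1 ≤ κ v w
        · have hp' := hp.succ_of_snap hs
          have hsn : ∀ i, S.snap G κ (a i) k A =
              S.cond (G.p k) (G.p (k + 1)) (S.snap G κ (a i) (k + 1) A) :=
            fun i => funext (Sys.snap_single G (a i) hp' hA hk)
          have hZ := Sys.lmass_nonneg (P := P) hS (show 1 ≤ G.h k by omega) (by omega) A
          have hb : ∀ i l', Bdd (S.cond l' (G.p (k + 1)) (S.snap G κ (a i) (k + 1) A)) :=
            fun i l' => Sys.cond_bdd hS.reg (hfacts i _ (by omega) (by omega) A).1 _ _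
          have key : S.snapErr P a ω₀ (G.h k) A (fun i => S.snap G κ (a i) k A) ≤
              S.snapErr P a ω₀ (G.h k) A
                (fun i => S.cond (G.h k) (G.p (k + 1)) (S.snap G κ (a i) (k + 1) A)) +
              S.lmass P (G.h k) A * S.siteMean ω₀ (G.h k) (fun i v =>
                |S.cond (G.h k) (G.p (k + 1)) (S.snap G κ (a i) (k + 1) A) v -
                  S.cond (G.p k) (G.p (k + 1)) (S.snap G κ (a i) (k + 1) A) v|) := by
            simp only [Sys.snapErr, hsn]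
            rw [← Sys.siteMean_const_mul]
            have hadd : ∀ f g : Fin N → (ℕ → Ω) → ℝ, (∀ i, Bdd (f i)) → (∀ i, Bdd (g i)) →
                S.siteMean ω₀ (G.h k) (fun i v => f i v + g i v) =
                  S.siteMean ω₀ (G.h k) f + S.siteMean ω₀ (G.h k) g := fun f g hf hg => by
              simp only [Sys.siteMean, avg, Sys.cond_add hS.reg (hf _) (hg _), sum_add_distrib,
                add_div]
            rw [← hadd _ _ (fun i => ((Sys.lsum_bdd hS (ha i).1 _ _).sub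
                ((hb i _).const_mul _)).abs_snap) (fun i => ((hb i _).sub (hb i _)).abs_snap.const_mul _)]
            refine Sys.siteMean_mono hS
              (fun i => ((Sys.lsum_bdd hS (ha i).1 _ _).sub ((hb i _).const_mul _)).abs_snap)
              (fun i => ((Sys.lsum_bdd hS (ha i).1 _ _).sub ((hb i _).const_mul _)).abs_snap.add
                (((hb i _).sub (hb i _)).abs_snap.const_mul _)) fun i v => ?_
            set Z := S.lmass P (G.h k) A
            set u := S.lsum P (a i) (G.h k) A v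
            set g₁ := S.cond (G.h k) (G.p (k + 1)) (S.snap G κ (a i) (k + 1) A) v
            set g₂ := S.cond (G.p k) (G.p (k + 1)) (S.snap G κ (a i) (k + 1) A) v
            calc |u - Z * g₂| = |(u - Z * g₁) + Z * (g₁ - g₂)| := by ring_nf
              _ ≤ |u - Z * g₁| + |Z * (g₁ - g₂)| := abs_add_le _ _
              _ = _ := by rw [abs_mul, abs_of_nonneg hZ]
          have h3 := chain (G.p (k + 1) - G.h k) (G.h k) le_rfl (by omega) A hA hp'
          have h4 := mul_le_mul_of_nonneg_left (he k h1 hk A hA hp') hZ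
          refine key.trans ((add_le_add h3 h4).trans ?_)
          rw [← mul_add]
          refine mul_le_mul_of_nonneg_left ?_ hZ
          have hcard : (1 : ℝ) ≤ A.card := by exact_mod_cast hA.card_pos
          push_cast
          nlinarith
        · simp only [not_forall, not_le, Nat.lt_succ_iff] at hs
          obtain ⟨v, hv, w, hw, hvw⟩ := hs
          have hz : ∀ g : Tree (S.R - G.h k) → ℝ,
              labSum P S.x (S.R - G.h k) (G.h k) A g = 0 := fun g =>
            labSum_eq_zero _ _ g fun T lab => lsum_split_zero le_rfl hp hk hv hw hvw T lab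
          simp only [Sys.snapErr, Sys.lsum, Sys.lmass, hz, zero_mul, sub_self, abs_zero]
          exact (Sys.siteMean_zero hS).le
      | succ m ihm =>
        intro l hlp hl A hA hp
        refine Sys.snapErr_step hS ha (by omega) (by omega) A
          (fun i => (hfacts i _ h1 hk.le A).1) _ fun q π hπ hne => ?_
        refine ⟨fun c i => S.snap G κ (a i) k (fib π c),
          fun c => ((fib π c).card : ℝ) * ((G.B : ℝ) - k) * e,
          fun c i => ⟨(hfacts i _ h1 hk.le _).1, (hfacts i _ h1 hk.le _).2.2⟩, fun i v => ?_,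
          fun c => ihm (l + 1) (by omega) (by omega) _ (hne c) (hp.subset_snap (fib_subset π c)), ?_⟩
        · have hA' : ∀ c, S.A l (S.snap G κ (a i) k (fib π c)) v =
              S.snap G κ (a i) k (fib π c) v := fun c =>
            Sys.A_self_snap hS ((hfacts i _ h1 hk.le _).2.1.mono_snap hlp) v
          simp only [hA']
          refine Sys.snap_split G (a i) hp hk (fun c => fib_subset π c)
            (fun x hx => ⟨_, mem_fib_self π ⟨x, hx⟩⟩) (fun c c' x hx hx' => ?_)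
            (fun c x hx y hy hxy => ?_) v
          · obtain ⟨_, rfl⟩ := mem_fib.1 hx
            obtain ⟨_, rfl⟩ := mem_fib.1 hx'
            rfl
          · obtain ⟨hxA, rfl⟩ := mem_fib.1 hx
            refine mem_fib.2 ⟨hy, ?_⟩
            by_contra hne'
            have := (kappa_of_split hG h1 hk (by omega) hp hπ
              (v := ⟨y, hy⟩) (w := ⟨x, hxA⟩) hne').1
            simp only at this
            rw [hp.2.1 x hxA y hy] at hxy
            omega
        · rw [← sum_mul, ← sum_mul, ← Nat.cast_sum, sum_fib_card]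
    exact window (G.h k - G.p k) (G.p k) le_rfl (by omega)

end window

/-! ### A lower bound for the mass -/

/-- The lower bound for the mass of a pattern `m` bands below the top. -/
noncomputable def cLow (n₀ : ℕ) (δ η : ℝ) : ℕ → ℝ
  | 0 => 1
  | m + 1 => δ * η / (2 * ((n₀ : ℝ) + 1) ^ 2) * (δ * cLow n₀ δ η m) ^ (n₀ + 1)

section clow

variable {n₀ : ℕ} {δ η : ℝ}

lemma cLow_mem (hδ : 0 < δ) (hδ1 : δ ≤ 1) (hη : 0 < η) (hη1 : η ≤ 1) :
    ∀ m, 0 < cLow n₀ δ η m ∧ cLow n₀ δ η m ≤ 1 ∧ cLow n₀ δ η (m + 1) ≤ δ * cLow n₀ δ η m := by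
  have step : ∀ m, 0 < cLow n₀ δ η m → cLow n₀ δ η m ≤ 1 →
      cLow n₀ δ η (m + 1) ≤ δ * cLow n₀ δ η m := fun m h0 h1 => by
    have hn : (0 : ℝ) ≤ n₀ := Nat.cast_nonneg _
    have hd : (1 : ℝ) ≤ 2 * ((n₀ : ℝ) + 1) ^ 2 := by nlinarith
    have hc : δ * η / (2 * ((n₀ : ℝ) + 1) ^ 2) ≤ 1 := by
      rw [div_le_one (by positivity)]; nlinarith
    calc cLow n₀ δ η (m + 1)
        = δ * η / (2 * ((n₀ : ℝ) + 1) ^ 2) * (δ * cLow n₀ δ η m) ^ (n₀ + 1) := rfl
      _ ≤ 1 * (δ * cLow n₀ δ η m) ^ (n₀ + 1) := mul_le_mul_of_nonneg_right hc (by positivity)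
      _ ≤ δ * cLow n₀ δ η m := by
          rw [one_mul]; exact pow_le_of_le_one (by positivity) (by nlinarith) (Nat.succ_ne_zero _)
  intro m
  induction m with
  | zero => exact ⟨one_pos, le_rfl, step 0 one_pos le_rfl⟩
  | succ m ih =>
    have h0 : 0 < cLow n₀ δ η (m + 1) := by
      have := ih.1
      show 0 < δ * η / (2 * ((n₀ : ℝ) + 1) ^ 2) * (δ * cLow n₀ δ η m) ^ (n₀ + 1)
      positivity
    have h1 : cLow n₀ δ η (m + 1) ≤ 1 := ih.2.2.trans (mul_le_one₀ hδ1 ih.1.le ih.2.1)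
    exact ⟨h0, h1, step _ h0 h1⟩

lemma cLow_anti (hδ : 0 < δ) (hδ1 : δ ≤ 1) (hη : 0 < η) (hη1 : η ≤ 1) :
    Antitone (cLow n₀ δ η) :=
  antitone_nat_of_succ_le fun m =>
    (cLow_mem hδ hδ1 hη hη1 m).2.2.trans (mul_le_of_le_one_left (cLow_mem hδ hδ1 hη hη1 m).1.le hδ1)

end clow

lemma coef_lower {a : ℝ} (ha : 1 / 2 ≤ a) (ha1 : a ≤ 1) {b : ℝ} (hb : b ≤ 1 - a) (hb0 : 0 ≤ b)
    (m : ℕ) : b / (2 * ((m : ℝ) + 2) ^ 2) ≤ coef a (m + 2) := by
  have hprod : (m.factorial : ℝ) * b ≤ ∏ i ∈ range (m + 1), ((i : ℝ) + 1 - a) := by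
    rw [prod_range_succ']
    refine mul_le_mul ?_ (by push_cast; linarith) hb0 (prod_nonneg fun i _ => ?_)
    · rw [← prod_range_add_one_eq_factorial, Nat.cast_prod]
      refine prod_le_prod (fun i _ => Nat.cast_nonneg _) fun i _ => ?_
      push_cast
      linarith
    · push_cast
      linarith [(Nat.cast_nonneg i : (0 : ℝ) ≤ i)]
  have hm : 0 ≤ (m.factorial : ℝ) * b := by positivity
  show b / (2 * ((m : ℝ) + 2) ^ 2) ≤
    a * (∏ i ∈ range (m + 1), ((i : ℝ) + 1 - a)) / ((m + 1 + 1).factorial : ℝ)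
  have hfp : (0 : ℝ) < m.factorial := by positivity
  calc b / (2 * ((m : ℝ) + 2) ^ 2)
      ≤ b / (2 * (((m : ℝ) + 2) * ((m : ℝ) + 1))) := by
        refine div_le_div_of_nonneg_left hb0 (by positivity) ?_
        nlinarith
    _ = (1 / 2) * ((m.factorial : ℝ) * b) / ((m + 1 + 1).factorial : ℝ) := by
        rw [Nat.factorial_succ, Nat.factorial_succ]
        push_cast
        field_simp
        ring
    _ ≤ _ := div_le_div_of_nonneg_right
        (mul_le_mul ha hprod hm (by linarith)) (Nat.cast_nonneg _)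

section mass

variable {P : Fin n → Fin n → ℕ → Prop}

lemma Sys.lmass_lineage (hS : S.Good) {l : ℕ} (h1 : 1 ≤ l) (hl : l < S.R) {A : Finset (Fin n)}
    (hA : A.Nonempty) : S.x l / S.x (l + 1) * S.lmass P (l + 1) A ≤ S.lmass P l A := by
  classical
  have hn : 0 < n := by obtain ⟨v, -⟩ := hA; exact v.pos
  have hc : ∀ k, 0 ≤ coef (S.x l / S.x (l + 1)) k :=
    coef_nonneg (Sys.ratio_mem_snap hS h1 hl).1 (Sys.ratio_mem_snap hS h1 hl).2
  have hnn : ∀ (k : ℕ) (π : ↥A → Fin (k + 1)),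
      0 ≤ if splitOk P l π then ∏ c, S.lmass P (l + 1) (fib π c) else 0 := fun k π => by
    split_ifs
    · exact prod_nonneg fun c _ => Sys.lmass_nonneg hS (by omega) hl _
    · exact le_rfl
  rw [Sys.lmass_succ hl]
  refine le_trans (le_of_eq ?_) (single_le_sum
    (fun k _ => mul_nonneg (hc _) (sum_nonneg fun π _ => hnn k π)) (mem_range.2 hn))
  have h0 : splitOk P l (fun _ : ↥A => (0 : Fin 1)) := fun v w _ h => absurd rfl h
  rw [Fintype.sum_subsingleton _ (fun _ => (0 : Fin 1)), if_pos h0, Fin.prod_univ_one, fib_one]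
  simp [coef_one]

lemma Sys.lmass_ratio (hS : S.Good) {l m : ℕ} (h1 : 1 ≤ l) (hlm : l ≤ m) (hm : m ≤ S.R)
    {A : Finset (Fin n)} (hA : A.Nonempty) :
    S.lmass P m A / S.x m ≤ S.lmass P l A / S.x l := by
  induction m, hlm using Nat.le_induction with
  | base => exact le_rfl
  | succ m hlm ih =>
    refine le_trans ?_ (ih (by omega))
    have h := Sys.lmass_lineage (P := P) hS (show 1 ≤ m by omega) (show m < S.R by omega) hA
    have hx := hS.x_pos m (by omega) (by omega)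
    have hx' := hS.x_pos (m + 1) (by omega) hm
    rw [div_le_div_iff₀ hx' hx]
    rw [div_mul_eq_mul_div, div_le_iff₀ hx'] at h
    linarith

lemma Sys.lmass_branch (hS : S.Good) {l : ℕ} (h1 : 1 ≤ l) (hl : l < S.R) {A : Finset (Fin n)}
    (_hA : A.Nonempty) {q : ℕ} (hq : 1 ≤ q) (hqn : q < n) {π : ↥A → Fin (q + 1)}
    (hπ : splitOk P l π) :
    S.x l / S.x (l + 1) * S.lmass P (l + 1) A +
        coef (S.x l / S.x (l + 1)) (q + 1) * ∏ c, S.lmass P (l + 1) (fib π c) ≤
      S.lmass P l A := by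
  classical
  have hn : 0 < n := by omega
  have hc : ∀ k, 0 ≤ coef (S.x l / S.x (l + 1)) k :=
    coef_nonneg (Sys.ratio_mem_snap hS h1 hl).1 (Sys.ratio_mem_snap hS h1 hl).2
  have hnn : ∀ (k : ℕ) (π : ↥A → Fin (k + 1)),
      0 ≤ if splitOk P l π then ∏ c, S.lmass P (l + 1) (fib π c) else 0 := fun k π => by
    split_ifs
    · exact prod_nonneg fun c _ => Sys.lmass_nonneg hS (by omega) hl _
    · exact le_rfl
  rw [Sys.lmass_succ hl]
  refine le_trans ?_ (sum_le_sum_of_subset_of_nonneg (s := {0, q})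
    (fun k hk => mem_range.2 (by rcases mem_insert.1 hk with h | h
                                 · omega
                                 · rw [mem_singleton.1 h]; exact hqn))
    (fun k _ _ => mul_nonneg (hc _) (sum_nonneg fun π _ => hnn k π)))
  rw [sum_pair (show (0 : ℕ) ≠ q by omega)]
  refine add_le_add (le_of_eq ?_) (mul_le_mul_of_nonneg_left ?_ (hc _))
  · have h0 : splitOk P l (fun _ : ↥A => (0 : Fin 1)) := fun v w _ h => absurd rfl h
    rw [Fintype.sum_subsingleton _ (fun _ => (0 : Fin 1)), if_pos h0, Fin.prod_univ_one, fib_one]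
    simp [coef_one]
  · refine le_trans (le_of_eq ?_) (single_le_sum (fun π _ => hnn q π) (mem_univ π))
    rw [if_pos hπ]

end mass

lemma gridExp_div {R l : ℕ} (hR : 0 < R) : gridExp R l / gridExp R (l + 1) = (l : ℝ) / (l + 1) := by
  simp only [gridExp]
  push_cast
  field_simp

lemma Sys.lmass_ge (hS : S.Good) (hx : S.x = gridExp S.R) {G : Grid} (hG : G.Ok S.R)
    {κ : Fin n → Fin n → ℕ} {n₀ : ℕ} (hn : n ≤ n₀) {δ η : ℝ} (hδ : 0 < δ) (hδ1 : δ ≤ 1)
    (hη : 0 < η) (hη1 : η ≤ 1) (hpδ : δ * S.R ≤ G.p G.lo)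
    (hpη : ∀ k, G.lo ≤ k → k < G.B → η * S.R ≤ (G.h k : ℝ) - G.t k) :
    ∀ {k : ℕ}, G.lo ≤ k → k ≤ G.B → ∀ A : Finset (Fin n), A.Nonempty → IsPat G.B k κ A →
      cLow n₀ δ η (G.B - k) ≤ S.lmass (G.win κ) (G.p k) A := by
  intro k h1 h2
  induction h2 using Nat.decreasingInduction with
  | self =>
    intro A hA hp
    have hc : A.card = 1 := by
      refine le_antisymm (card_le_one.2 fun v hv w hw => ?_) hA.card_pos
      by_contra hne
      have := hp.2.2.1 v hv w hw hne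
      omega
    rw [Nat.sub_self, hG.2.1, Sys.lmass_top (P := G.win κ) hc]
    exact le_rfl
  | of_succ k hk ih =>
    intro A hA hp
    obtain ⟨hp1, hpt, hth, hhp⟩ := hG.2.2 k h1 hk
    have hpR : G.p (k + 1) ≤ S.R := hG.p_le_snap (by omega) (by omega)
    set P := G.win κ with hP
    have hR : (0 : ℝ) < S.R := by exact_mod_cast hS.R_pos
    have hxl : ∀ l, S.x l = (l : ℝ) / S.R := fun l => by rw [hx]; rfl
    have hlow : ∀ l, G.p k ≤ l → δ ≤ S.x l := fun l hl => by
      rw [hxl, le_div_iff₀ hR]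
      exact hpδ.trans (by exact_mod_cast (hG.p_mono_snap le_rfl h1 hk.le).trans hl)
    have hle1 : ∀ l, l ≤ S.R → S.x l ≤ 1 := fun l hl => by
      rw [hxl, div_le_one hR]; exact_mod_cast hl
    have hm : G.B - k = G.B - (k + 1) + 1 := by omega
    obtain ⟨hc0, hc1, hcs⟩ := cLow_mem (n₀ := n₀) hδ hδ1 hη hη1 (G.B - (k + 1))
    -- one class from a level of the band
    have one : ∀ l, G.p k ≤ l → l ≤ G.p (k + 1) → ∀ Q : Finset (Fin n), Q.Nonempty →
        IsPat G.B (k + 1) κ Q → δ * cLow n₀ δ η (G.B - (k + 1)) ≤ S.lmass P l Q := by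
      intro l hl hl' Q hQ hpQ
      have h := Sys.lmass_ratio (P := P) hS (show 1 ≤ l by omega) hl' hpR hQ
      rw [le_div_iff₀ (hS.x_pos l (by omega) (by omega))] at h
      refine le_trans ?_ h
      rw [div_mul_eq_mul_div, le_div_iff₀ (hS.x_pos _ (by omega) hpR)]
      calc δ * cLow n₀ δ η (G.B - (k + 1)) * S.x (G.p (k + 1))
          ≤ δ * S.lmass P (G.p (k + 1)) Q * 1 := by
            refine mul_le_mul ?_ (hle1 _ hpR) (hS.x_pos _ (by omega) hpR).le
              (mul_nonneg hδ.le (Sys.lmass_nonneg hS (by omega) hpR _))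
            exact mul_le_mul_of_nonneg_left (ih (by omega) Q hQ hpQ) hδ.le
        _ ≤ S.lmass P (G.p (k + 1)) Q * S.x l := by
            rw [mul_one, mul_comm δ]
            exact mul_le_mul_of_nonneg_left (hlow l hl) (Sys.lmass_nonneg hS (by omega) hpR _)
    rw [hm]
    by_cases hs : ∀ v ∈ A, ∀ w ∈ A, k + 1 ≤ κ v w
    · exact hcs.trans (one _ le_rfl (by omega) A hA (hp.succ_of_snap hs))
    -- several classes
    set Cl := classes κ (k + 1) A with hCl
    obtain ⟨q, hq⟩ : ∃ q, Cl.card = q + 1 := by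
      obtain ⟨v, hv⟩ := hA
      exact ⟨Cl.card - 1, (Nat.succ_pred_eq_of_pos (card_pos.2 ⟨_, mem_image_of_mem _ hv⟩)).symm⟩
    have hqn : q < n := by
      have h3 : Cl.card ≤ A.card := card_image_le
      have h4 := card_le_univ A
      simp only [Fintype.card_fin] at h4
      omega
    have hq1 : 1 ≤ q := by
      by_contra hq0
      refine hs fun v hv w hw => ?_
      have hQ : ∀ u ∈ A, (A.filter fun z => k + 1 ≤ κ u z) ∈ Cl := fun u hu =>
        mem_image_of_mem _ hu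
      have he := card_le_one.1 (show Cl.card ≤ 1 by omega) _ (hQ v hv) _ (hQ w hw)
      have : w ∈ A.filter fun z => k + 1 ≤ κ v z := he ▸ hp.mem_class_snap hk hw
      exact (mem_filter.1 this).2
    let E : ↥Cl ≃ Fin (q + 1) := Cl.equivFinOfCardEq hq
    let π : ↥A → Fin (q + 1) := fun v =>
      E ⟨A.filter fun z => k + 1 ≤ κ v z, mem_image_of_mem _ v.2⟩
    have hfib : ∀ c, ∃ v ∈ A, fib π c = A.filter fun z => k + 1 ≤ κ v z := by
      intro c
      obtain ⟨v, hv, he⟩ := mem_image.1 (E.symm c).2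
      refine ⟨v, hv, ?_⟩
      ext u
      rw [mem_fib]
      constructor
      · rintro ⟨hu, hπu⟩
        have h3 : (A.filter fun z => k + 1 ≤ κ u z) = (E.symm c).1 := by
          rw [← hπu, Equiv.symm_apply_apply]
        rw [he, ← h3]
        exact hp.mem_class_snap hk hu
      · intro hu
        refine ⟨mem_of_mem_filter _ hu, ?_⟩
        simp only [π]
        rw [← E.eq_symm_apply]
        refine Subtype.ext ?_
        simp only
        rw [← he]
        exact (hp.class_eq_snap hv (mem_of_mem_filter _ hu) (mem_filter.1 hu).2).symm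
    have hπ : ∀ l, G.t k ≤ l → l < G.h k → splitOk P l π := by
      intro l hl hl' v w hvw hne
      have hband : κ v w = k := by
        refine le_antisymm ?_ (hp.2.2.1 v v.2 w w.2 hvw.ne).1
        by_contra hgt
        refine hne ?_
        simp only [π, hp.class_eq_snap (K := k + 1) v.2 w.2 (by omega)]
      simp only [hP, Grid.win, hband]
      exact ⟨hl, hl'⟩
    set M := (δ * cLow n₀ δ η (G.B - (k + 1))) ^ (n₀ + 1) with hM
    have hM0 : 0 ≤ M := by positivity
    set b : ℝ := 1 / (2 * ((n₀ : ℝ) + 1) ^ 2) / S.R * M with hb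
    have step : ∀ l, G.t k ≤ l → l < G.h k →
        S.lmass P (l + 1) A / S.x (l + 1) + b ≤ S.lmass P l A / S.x l := by
      intro l hl hl'
      have hl1 : 1 ≤ l := by omega
      have hlR : l < S.R := by omega
      have h := Sys.lmass_branch (P := P) hS hl1 hlR hA hq1 hqn (hπ l hl hl')
      have hxp := hS.x_pos l hl1 hlR.le
      have hxp' := hS.x_pos (l + 1) (by omega) hlR
      have hprod : M ≤ ∏ c, S.lmass P (l + 1) (fib π c) := by
        have h5 : ∀ c, δ * cLow n₀ δ η (G.B - (k + 1)) ≤ S.lmass P (l + 1) (fib π c) := fun c => by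
          obtain ⟨v, hv, hc⟩ := hfib c
          rw [hc]
          exact one (l + 1) (by omega) (by omega) _ ⟨v, hp.mem_class_snap hk hv⟩ (hp.class_pat_snap hv)
        refine le_trans ?_ (prod_le_prod (fun c _ => by positivity) fun c _ => h5 c)
        rw [prod_const, card_univ, Fintype.card_fin]
        exact pow_le_pow_of_le_one (by positivity) (mul_le_one₀ hδ1 hc0.le hc1) (by omega)
      have hcoef : 1 / (2 * ((n₀ : ℝ) + 1) ^ 2) / S.R ≤
          coef (S.x l / S.x (l + 1)) (q + 1) := by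
        obtain ⟨m, rfl⟩ := Nat.exists_eq_add_of_le hq1
        rw [show 1 + m + 1 = m + 2 by omega, hx, gridExp_div hS.R_pos]
        have hl0 : (1 : ℝ) ≤ l := by exact_mod_cast hl1
        have hlR' : (l : ℝ) + 1 ≤ S.R := by exact_mod_cast hlR
        refine le_trans ?_ (coef_lower (b := 1 / S.R)
          (by rw [le_div_iff₀ (by positivity)]; linarith)
          (by rw [div_le_one (by positivity)]; linarith) ?_ (by positivity) m)
        · rw [div_right_comm]
          refine div_le_div_of_nonneg_left (by positivity) (by positivity) ?_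
          have : ((m : ℝ) + 2) ≤ (n₀ : ℝ) + 1 := by
            exact_mod_cast show m + 2 ≤ n₀ + 1 by omega
          nlinarith [(Nat.cast_nonneg m : (0 : ℝ) ≤ m)]
        · rw [one_sub_div (by positivity), add_sub_cancel_left]
          exact one_div_le_one_div_of_le (by positivity) hlR'
      rw [le_div_iff₀ hxp, add_mul]
      calc S.lmass P (l + 1) A / S.x (l + 1) * S.x l + b * S.x l
          ≤ S.x l / S.x (l + 1) * S.lmass P (l + 1) A +
              coef (S.x l / S.x (l + 1)) (q + 1) * ∏ c, S.lmass P (l + 1) (fib π c) := by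
            refine add_le_add (le_of_eq (by ring)) ?_
            calc b * S.x l ≤ b * 1 := mul_le_mul_of_nonneg_left (hle1 l hlR.le) (by positivity)
              _ = 1 / (2 * ((n₀ : ℝ) + 1) ^ 2) / S.R * M := by rw [hb, mul_one]
              _ ≤ _ := mul_le_mul hcoef hprod hM0 ((by positivity : (0 : ℝ) ≤ _).trans hcoef)
        _ ≤ _ := h
    have tele : ∀ j, G.t k + j ≤ G.h k →
        (j : ℝ) * b ≤ S.lmass P (G.t k) A / S.x (G.t k) -
          S.lmass P (G.t k + j) A / S.x (G.t k + j) := by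
      intro j
      induction j with
      | zero => intro _; simp
      | succ j ihj =>
        intro hj
        have h3 := ihj (by omega)
        have h4 := step (G.t k + j) (by omega) (by omega)
        rw [show G.t k + (j + 1) = G.t k + j + 1 by omega]
        push_cast
        linarith
    have h6 := tele (G.h k - G.t k) (by omega)
    rw [show G.t k + (G.h k - G.t k) = G.h k by omega, Nat.cast_sub hth.le] at h6
    have h7 := Sys.lmass_ratio (P := P) hS hp1 (show G.p k ≤ G.t k by omega) (by omega) hA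
    have h8 : 0 ≤ S.lmass P (G.h k) A / S.x (G.h k) :=
      div_nonneg (Sys.lmass_nonneg hS (by omega) (by omega) _)
        (hS.x_pos _ (by omega) (by omega)).le
    have h9 : η * S.R * b ≤ S.lmass P (G.p k) A / S.x (G.p k) := by
      have h10 := mul_le_mul_of_nonneg_right (hpη k h1 hk) (show 0 ≤ b by positivity)
      linarith
    rw [le_div_iff₀ (hS.x_pos _ hp1 (by omega))] at h9
    refine le_trans ?_ h9
    calc cLow n₀ δ η (G.B - (k + 1) + 1) = δ * η / (2 * ((n₀ : ℝ) + 1) ^ 2) * M := rfl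
      _ = η * S.R * b * δ := by rw [hb]; field_simp
      _ ≤ η * S.R * b * S.x (G.p k) :=
          mul_le_mul_of_nonneg_left (hlow _ le_rfl) (by positivity)

/-! ### Responses -/

lemma Sys.resp_eq_lsum (S : Sys Ω) (lev : Fin n → Fin n → ℕ) (a : (ℕ → Ω) → ℝ) (l : ℕ)
    (ω : ℕ → Ω) :
    S.resp ⟨n, lev⟩ a l ω =
      (S.x l)⁻¹ * S.lsum (fun v w m => lev v w ≤ m) a l univ ω := by
  classical
  have hcount : ∀ T : Tree (S.R - l), (Cons.count ⟨n, lev⟩ (S.R - l) l T : ℝ) =
      labCount (fun v w m => lev v w ≤ m) (S.R - l) l univ T := by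
    intro T
    simp only [Cons.count, labCount, sum_boole, Nat.cast_inj, ← Fintype.card_subtype]
    refine Fintype.card_congr (Equiv.subtypeEquiv
      (Equiv.equivCongr (Equiv.subtypeUnivEquiv fun v => mem_univ v).symm (Equiv.refl _))
      fun lab => ⟨fun h v w hvw => ?_, fun h v w hvw => ?_⟩)
    · exact h v w hvw
    · exact h ⟨v, mem_univ v⟩ ⟨w, mem_univ w⟩ hvw
  simp only [Sys.resp, Sys.lsum, labSum]
  congr 1
  rw [tsum_eq_sum (s := trees (S.R - l) n) fun T hT => ?_]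
  · exact sum_congr rfl fun T _ => by rw [hcount]
  · rw [hcount, labCount_eq_zero l, mul_zero, zero_mul]
    intro h
    exact hT (mem_trees.2 (by simp [h]))

/-- The pairs of labels. -/
def pairs (n : ℕ) : Finset (Fin n × Fin n) := univ.filter fun e => e.1 < e.2

/-- The window levels chosen by a set of pairs. -/
def winChoice (κ : Fin n → Fin n → ℕ) (s : Finset (Fin n × Fin n)) (v w : Fin n) : ℕ × Bool :=
  (κ v w, decide ((v, w) ∈ s))

lemma Sys.lsum_win (S : Sys Ω) {G : Grid} {κ : Fin n → Fin n → ℕ}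
    (hth : ∀ v w, v < w → G.t (κ v w) < G.h (κ v w)) (a : (ℕ → Ω) → ℝ) {l : ℕ}
    (hx : S.x l ≠ 0) (ω : ℕ → Ω) :
    S.lsum (G.win κ) a l univ ω = S.x l * ∑ s ∈ (pairs n).powerset,
      (-1 : ℝ) ^ s.card * S.resp (G.cons n (winChoice κ s)) a l ω := by
  classical
  have hlev : ∀ s, G.cons n (winChoice κ s) =
      ⟨n, fun v w => if (v, w) ∈ s then G.h (κ v w) else G.t (κ v w)⟩ := fun s => by
    simp only [Grid.cons, winChoice, decide_eq_true_eq]
  have hind : ∀ (T : Tree (S.R - l)), labCount (G.win κ) (S.R - l) l univ T =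
      ∑ s ∈ (pairs n).powerset, (-1 : ℝ) ^ s.card * labCount
        (fun v w m => (if (v, w) ∈ s then G.h (κ v w) else G.t (κ v w)) ≤ m)
        (S.R - l) l univ T := by
    intro T
    simp only [labCount, mul_sum]
    rw [sum_comm]
    refine sum_congr rfl fun lab _ => ?_
    set m : Fin n × Fin n → ℕ := fun e =>
      Tree.meet (S.R - l) l T (lab ⟨e.1, mem_univ _⟩) (lab ⟨e.2, mem_univ _⟩)
    have hf : ∀ e ∈ pairs n, (if G.t (κ e.1 e.2) ≤ m e then (1 : ℝ) else 0) -
        (if G.h (κ e.1 e.2) ≤ m e then 1 else 0) = if G.win κ e.1 e.2 (m e) then 1 else 0 := by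
      intro e he
      have := hth e.1 e.2 (mem_filter.1 he).2
      simp only [Grid.win]
      split_ifs <;> simp_all <;> omega
    have h := prod_congr rfl hf
    rw [prod_sub, prod_boole] at h
    have e1 : (∀ e ∈ pairs n, G.win κ e.1 e.2 (m e)) ↔ labOk (G.win κ) l T lab := by
      refine ⟨fun hh v w hvw => hh (v.1, w.1) (mem_filter.2 ⟨mem_univ _, hvw⟩),
        fun hh e he => hh ⟨e.1, mem_univ _⟩ ⟨e.2, mem_univ _⟩ (mem_filter.1 he).2⟩
    simp only [e1] at h
    rw [← h]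
    refine sum_congr rfl fun s hs => ?_
    rw [mul_assoc, prod_boole, prod_boole]
    congr 1
    have key : ((∀ e ∈ pairs n \ s, G.t (κ e.1 e.2) ≤ m e) ∧ ∀ e ∈ s, G.h (κ e.1 e.2) ≤ m e) ↔
        labOk (fun v w m => (if (v, w) ∈ s then G.h (κ v w) else G.t (κ v w)) ≤ m) l T lab := by
      constructor
      · rintro ⟨ht, hh⟩ v w hvw
        by_cases hmem : ((v : Fin n), (w : Fin n)) ∈ s
        · rw [if_pos hmem]; exact hh _ hmem
        · rw [if_neg hmem]; exact ht _ (mem_sdiff.2 ⟨mem_filter.2 ⟨mem_univ _, hvw⟩, hmem⟩)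
      · intro hh
        constructor <;> intro e he
        · rw [mem_sdiff] at he
          have := hh ⟨e.1, mem_univ _⟩ ⟨e.2, mem_univ _⟩ (mem_filter.1 he.1).2
          simpa [he.2] using this
        · have hep := mem_powerset.1 hs he
          have := hh ⟨e.1, mem_univ _⟩ ⟨e.2, mem_univ _⟩ (mem_filter.1 hep).2
          simpa [he] using this
    by_cases hlab : labOk (fun v w m => (if (v, w) ∈ s then G.h (κ v w) else G.t (κ v w)) ≤ m)
        l T lab
    · rw [if_pos hlab, if_pos (key.2 hlab).1, if_pos (key.2 hlab).2, one_mul]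
    · rw [if_neg hlab]
      by_cases ht : ∀ e ∈ pairs n \ s, G.t (κ e.1 e.2) ≤ m e
      · rw [if_neg fun hh => hlab (key.1 ⟨ht, hh⟩), mul_zero]
      · rw [if_neg ht, zero_mul]
  simp only [hlev, Sys.resp_eq_lsum, Sys.lsum, labSum, hind, mul_sum, sum_mul]
  rw [sum_comm]
  refine sum_congr rfl fun s _ => sum_congr rfl fun T _ => ?_
  field_simp

lemma Sys.cov_combo_snap (hS : S.Good) {ι : Type} (t : Finset ι) {f : ι → (ℕ → Ω) → ℝ}
    (hf : ∀ i, Bdd (f i)) {g : (ℕ → Ω) → ℝ} (hg : Bdd g) (r : ι → ℝ) (l m : ℕ) (ω : ℕ → Ω) :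
    S.cov l m (fun v => ∑ i ∈ t, r i * f i v) g ω = ∑ i ∈ t, r i * S.cov l m (f i) g ω := by
  simp only [Sys.cov, sum_mul, mul_assoc]
  rw [Sys.cond_sum hS.reg t (fun i => ((hf i).mul hg).const_mul _),
    Sys.cond_sum hS.reg t (fun i => (hf i).const_mul _)]
  simp only [Sys.cond_const_mul, sum_mul, mul_sub, sum_sub_distrib, mul_assoc]

lemma Sys.cov_add_left_snap (hS : S.Good) {f g h : (ℕ → Ω) → ℝ} (hf : Bdd f) (hg : Bdd g) (hh : Bdd h)
    (c : ℝ) (l m : ℕ) (ω : ℕ → Ω) :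
    S.cov l m (fun v => f v + c * g v) h ω = S.cov l m f h ω + c * S.cov l m g h ω := by
  simp only [Sys.cov, add_mul, mul_assoc]
  rw [Sys.cond_add hS.reg (hf.mul hh) ((hg.mul hh).const_mul _),
    Sys.cond_add hS.reg hf (hg.const_mul _)]
  simp only [Sys.cond_const_mul]
  ring

lemma card_pairs_le (n : ℕ) : (pairs n).card ≤ n * n :=
  (card_le_univ _).trans_eq (by simp)

lemma Sys.avgCov_bdd_snap (hS : S.Good) {N : ℕ} {f : Fin N → (ℕ → Ω) → ℝ} (hf : ∀ i, Bdd (f i))
    (l m : ℕ) : Bdd (S.avgCov l m f) := by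
  have e : S.avgCov l m f = fun v => ((Fintype.card (Fin N × Fin N) : ℝ))⁻¹ *
      ∑ ij : Fin N × Fin N, |S.cov l m (f ij.1) (f ij.2) v| :=
    funext fun v => by rw [Sys.avgCov, avg, div_eq_inv_mul]
  rw [e]
  have h : ∀ ij : Fin N × Fin N, Bdd fun v => |S.cov l m (f ij.1) (f ij.2) v| := fun ij =>
    Bdd.abs_snap (f := S.cov l m (f ij.1) (f ij.2)) (Sys.cov_bdd_snap hS (hf ij.1) (hf ij.2) l m)
  exact Bdd.const_mul (Bdd.sum (f := fun (ij : Fin N × Fin N) v =>
    |S.cov l m (f ij.1) (f ij.2) v|) univ h) _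

lemma Sys.avgCov_nonneg_snap (S : Sys Ω) {N : ℕ} (f : Fin N → (ℕ → Ω) → ℝ) (l m : ℕ) (v : ℕ → Ω) :
    0 ≤ S.avgCov l m f v :=
  div_nonneg (sum_nonneg fun _ _ => abs_nonneg _) (Nat.cast_nonneg _)

/-- Averaged covariances of families near a combination of families with small ones. -/
lemma Sys.avgCov_decomp (hS : S.Good) {N : ℕ} {ι : Type} (t : Finset ι)
    {f : ι → Fin N → (ℕ → Ω) → ℝ} (hf : ∀ s i, Bdd (f s i)) {E g : Fin N → (ℕ → Ω) → ℝ}
    (hE : ∀ i, Bdd (E i)) (hg : ∀ i, Bdd (g i)) (hg1 : ∀ i v, |g i v| ≤ 1) (r : ι → ℝ)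
    (hr : ∀ s, |r s| ≤ 1) {Z : ℝ} (hZ : 0 ≤ Z)
    (hd : ∀ i v, Z * g i v = (∑ s ∈ t, r s * f s i v) + (-1) * E i v) (l m : ℕ) (v : ℕ → Ω) :
    Z * S.avgCov l m g v ≤ (∑ s ∈ t, Real.sqrt (S.avgCov l m (f s) v)) +
      2 * avg (fun i => S.cond l m (fun w => |E i w|) v) := by
  have hcov : ∀ ij : Fin N × Fin N, Z * |S.cov l m (g ij.1) (g ij.2) v| ≤
      (∑ s ∈ t, |S.cov l m (f s ij.1) (g ij.2) v|) + 2 * S.cond l m (fun w => |E ij.1 w|) v := by
    intro ij
    have h2 : S.cov l m (fun w => Z * g ij.1 w) (g ij.2) v =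
        Z * S.cov l m (g ij.1) (g ij.2) v := by
      simp only [Sys.cov, mul_assoc, Sys.cond_const_mul, mul_sub]
    have e : (fun w => Z * g ij.1 w) = fun w => (∑ s ∈ t, r s * f s ij.1 w) + (-1) * E ij.1 w :=
      funext fun w => hd ij.1 w
    rw [e, Sys.cov_add_left_snap hS (Bdd.sum t fun s => (hf s ij.1).const_mul _) (hE ij.1) (hg ij.2),
      Sys.cov_combo_snap hS t (fun s => hf s ij.1) (hg ij.2)] at h2
    calc Z * |S.cov l m (g ij.1) (g ij.2) v|
        = |(∑ s ∈ t, r s * S.cov l m (f s ij.1) (g ij.2) v) +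
            (-1) * S.cov l m (E ij.1) (g ij.2) v| := by rw [h2, abs_mul, abs_of_nonneg hZ]
      _ ≤ _ := (abs_add_le _ _).trans (add_le_add
          ((abs_sum_le_sum_abs _ _).trans (sum_le_sum fun s _ => by
            rw [abs_mul]; exact mul_le_of_le_one_left (abs_nonneg _) (hr s)))
          (by rw [neg_one_mul, abs_neg]; exact Sys.cov_abs_le_snap hS (hE _) (hg _) (hg1 _) l m v))
  rcases Nat.eq_zero_or_pos N with rfl | hN
  · simp [Sys.avgCov, avg]
  have hN' : (N : ℝ) ≠ 0 := by exact_mod_cast hN.ne'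
  calc Z * S.avgCov l m g v
      = avg (fun ij : Fin N × Fin N => Z * |S.cov l m (g ij.1) (g ij.2) v|) := by
        simp only [Sys.avgCov, avg, ← mul_sum, mul_div_assoc]
    _ ≤ avg (fun ij : Fin N × Fin N => (∑ s ∈ t, |S.cov l m (f s ij.1) (g ij.2) v|) +
          2 * S.cond l m (fun w => |E ij.1 w|) v) :=
        div_le_div_of_nonneg_right (sum_le_sum fun ij _ => hcov ij) (Nat.cast_nonneg _)
    _ = (∑ s ∈ t, avg (fun ij : Fin N × Fin N => |S.cov l m (f s ij.1) (g ij.2) v|)) +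
          2 * avg (fun i => S.cond l m (fun w => |E i w|) v) := by
        simp only [avg, sum_add_distrib, add_div, ← sum_div]
        congr 1
        · rw [sum_comm]
        · simp only [Fintype.card_prod, Fintype.card_fin, Nat.cast_mul, Fintype.sum_prod_type,
            sum_const, card_univ, nsmul_eq_mul, ← mul_sum]
          field_simp
    _ ≤ _ := add_le_add (sum_le_sum fun s _ => Sys.avg_cov_le_snap hS (hf s) hg hg1 l m v) le_rfl

/-- The same after averaging over the nodes at level `l`. -/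
lemma Sys.cond_avgCov_decomp (hS : S.Good) {N : ℕ} {ι : Type} (t : Finset ι)
    {f : ι → Fin N → (ℕ → Ω) → ℝ} (hf : ∀ s i, Bdd (f s i)) {E g : Fin N → (ℕ → Ω) → ℝ}
    (hE : ∀ i, Bdd (E i)) (hg : ∀ i, Bdd (g i)) (hg1 : ∀ i v, |g i v| ≤ 1) (r : ι → ℝ)
    (hr : ∀ s, |r s| ≤ 1) {Z : ℝ} (hZ : 0 ≤ Z)
    (hd : ∀ i v, Z * g i v = (∑ s ∈ t, r s * f s i v) + (-1) * E i v) {l m : ℕ} (hlm : l ≤ m)
    (ω₀ : ℕ → Ω) {γ : ℝ} (hγ : ∀ s ∈ t, S.cond 0 l (S.avgCov l m (f s)) ω₀ ≤ γ) :
    Z * S.cond 0 l (S.avgCov l m g) ω₀ ≤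
      (t.card : ℝ) * Real.sqrt γ + 2 * S.siteMean ω₀ m (fun i w => |E i w|) := by
  have hsq : ∀ s, Bdd fun v => Real.sqrt (S.avgCov l m (f s) v) := fun s => by
    obtain ⟨hm, C, hC⟩ := Sys.avgCov_bdd_snap hS (hf s) l m
    refine ⟨hm.sqrt, Real.sqrt C, fun v => ?_⟩
    rw [abs_of_nonneg (Real.sqrt_nonneg _)]
    exact Real.sqrt_le_sqrt ((le_abs_self _).trans (hC v))
  have hDb : Bdd fun v => (N : ℝ)⁻¹ * ∑ i : Fin N, S.cond l m (fun w => |E i w|) v :=
    (Bdd.sum univ fun i => Sys.cond_bdd hS.reg (hE i).abs_snap _ _).const_mul _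
  have h3 := Sys.cond_mono hS.reg ((Sys.avgCov_bdd_snap hS hg l m).const_mul Z)
    ((Bdd.sum t fun s => hsq s).add (hDb.const_mul 2))
    (fun v => (Sys.avgCov_decomp hS t hf hE hg hg1 r hr hZ hd l m v).trans_eq (by
      simp only [avg, Fintype.card_fin, div_eq_inv_mul])) 0 l ω₀
  rw [Sys.cond_add hS.reg (Bdd.sum t fun s => hsq s) (hDb.const_mul 2),
    Sys.cond_sum hS.reg t hsq] at h3
  simp only [Sys.cond_const_mul,
    Sys.cond_sum hS.reg univ (fun i => Sys.cond_bdd hS.reg (hE i).abs_snap l m),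
    ← Sys.cond_tower hS _ (Nat.zero_le l) hlm] at h3
  refine h3.trans (add_le_add ?_ (le_of_eq ?_))
  · refine (sum_le_card_nsmul _ _ (Real.sqrt γ) fun s hs => ?_).trans_eq (nsmul_eq_mul _ _)
    refine Real.le_sqrt_of_sq_le ((Sys.cond_sq hS.reg (hsq s) 0 l ω₀).trans ?_)
    rw [funext fun v => Real.sq_sqrt (S.avgCov_nonneg_snap (f s) l m v)]
    exact hγ s hs
  · simp only [Sys.siteMean, avg, Fintype.card_fin, div_eq_inv_mul]

/-- The bound for patterns on `Fin n`. -/
lemma snap_avgCov_core (hS : S.Good) (hx : S.x = gridExp S.R) {G : Grid} (hG : G.Ok S.R)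
    {n₀ : ℕ} (hn : 1 ≤ n) (hn₀ : n ≤ n₀) {δ η : ℝ} (hδ : 0 < δ) (hδ1 : δ ≤ 1) (hη : 0 < η)
    (hη1 : η ≤ 1) (hpδ : δ * S.R ≤ G.p G.lo)
    (hpη : ∀ k, G.lo ≤ k → k < G.B → η * S.R ≤ (G.h k : ℝ) - G.t k) {N : ℕ}
    {a : Fin N → (ℕ → Ω) → ℝ} (ha : ∀ i, Obs S (a i)) (ω₀ : ℕ → Ω) {γ e : ℝ}
    (he0 : 0 ≤ e)
    (hγ : ∀ j k, G.lo ≤ j → j < k → k ≤ G.B → ∀ f : Fin n → Fin n → ℕ × Bool,
      (∀ v w, v < w → k ≤ (f v w).1 ∧ (f v w).1 < G.B) →
      S.cond 0 (G.p j)
        (S.avgCov (G.p j) (G.p k) fun i => S.resp (G.cons n f) (a i) (G.p k)) ω₀ ≤ γ)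
    {κ : Fin n → Fin n → ℕ}
    (he : ∀ k, G.lo ≤ k → k < G.B → ∀ A : Finset (Fin n), A.Nonempty →
      IsPat G.B (k + 1) κ A →
      S.siteMean ω₀ (G.h k) (fun i v =>
        |S.cond (G.h k) (G.p (k + 1)) (S.snap G κ (a i) (k + 1) A) v -
          S.cond (G.p k) (G.p (k + 1)) (S.snap G κ (a i) (k + 1) A) v|) ≤ e)
    {j k : ℕ} (hj : G.lo ≤ j) (hjk : j < k) (hk : k ≤ G.B) (hp : IsPat G.B k κ univ) :
    S.cond 0 (G.p j) (S.avgCov (G.p j) (G.p k) fun i => S.snap G κ (a i) k univ) ω₀ ≤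
      2 ^ (n₀ * n₀) / cLow n₀ δ η G.B * Real.sqrt γ + 2 * n₀ * G.B * e := by
  have hne : (univ : Finset (Fin n)).Nonempty := ⟨⟨0, hn⟩, mem_univ _⟩
  have hlok : G.lo ≤ k := by omega
  have hp1 := hG.one_le_p_snap hlok hk
  have hpR := hG.p_le_snap hlok hk
  have hgf := fun i => Sys.snap_facts G (a i) hS hG κ (ha i) hlok hk univ
  set Z := S.lmass (G.win κ) (G.p k) univ with hZdef
  have hZ : cLow n₀ δ η G.B ≤ Z :=
    (cLow_anti hδ hδ1 hη hη1 (Nat.sub_le _ _)).trans
      (Sys.lmass_ge hS hx hG hn₀ hδ hδ1 hη hη1 hpδ hpη hlok hk univ hne hp)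
  have hc0 := (cLow_mem (n₀ := n₀) hδ hδ1 hη hη1 G.B).1
  have hZ0 : 0 < Z := hc0.trans_le hZ
  have hxk := hS.x_pos _ hp1 hpR
  have hxk1 : S.x (G.p k) ≤ 1 := hS.expo.le_one hp1 (Nat.add_sub_cancel' hpR)
  have hfb : ∀ s i, Bdd (S.resp (G.cons n (winChoice κ s)) (a i) (G.p k)) := fun s i => by
    have e : S.resp (G.cons n (winChoice κ s)) (a i) (G.p k) = fun ω => _ :=
      funext fun ω => Sys.resp_eq_lsum S _ (a i) (G.p k) ω
    rw [e]
    exact (Sys.lsum_bdd hS (ha i).1 _ _).const_mul _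
  have hth : ∀ v w : Fin n, v < w → G.t (κ v w) < G.h (κ v w) := fun v w hvw => by
    have h := hp.2.2.1 v (mem_univ v) w (mem_univ w) hvw.ne
    exact (hG.2.2 _ (by omega) h.2).2.2.1
  have hr : ∀ s : Finset (Fin n × Fin n), |S.x (G.p k) * (-1 : ℝ) ^ s.card| ≤ 1 := fun s => by
    rw [abs_mul, abs_pow, abs_neg, abs_one, one_pow, mul_one, abs_of_pos hxk]
    exact hxk1
  have h := Sys.cond_avgCov_decomp hS (pairs n).powerset hfb
    (E := fun i v => S.lsum (G.win κ) (a i) (G.p k) univ v - Z * S.snap G κ (a i) k univ v)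
    (fun i => (Sys.lsum_bdd hS (ha i).1 _ _).sub ((hgf i).1.const_mul _))
    (fun i => (hgf i).1) (fun i => (hgf i).2.2) _ hr hZ0.le (fun i v => by
      have h := Sys.lsum_win S hth (a i) hxk.ne' v
      simp only [mul_sum, ← mul_assoc] at h
      rw [h]
      ring)
    (hG.p_mono_snap hj hjk.le hk) ω₀
    (fun s _ => hγ j k hj hjk hk _ fun v w hvw => hp.2.2.1 v (mem_univ v) w (mem_univ w) hvw.ne)
  set X := S.cond 0 (G.p j) (S.avgCov (G.p j) (G.p k) fun i => S.snap G κ (a i) k univ) ω₀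
  have h1 : ((pairs n).powerset.card : ℝ) * Real.sqrt γ ≤ 2 ^ (n₀ * n₀) * Real.sqrt γ := by
    refine mul_le_mul_of_nonneg_right ?_ (Real.sqrt_nonneg _)
    rw [card_powerset]
    push_cast
    exact pow_le_pow_right₀ (by norm_num)
      ((card_pairs_le n).trans (Nat.mul_le_mul hn₀ hn₀))
  have h2 : S.siteMean ω₀ (G.p k)
      (fun i v => |S.lsum (G.win κ) (a i) (G.p k) univ v - Z * S.snap G κ (a i) k univ v|) ≤
      Z * ((n₀ : ℝ) * G.B * e) := by
    refine (snap_err hS hG ha he0 he hlok hk univ hne hp).trans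
      (mul_le_mul_of_nonneg_left ?_ hZ0.le)
    rw [card_univ, Fintype.card_fin]
    refine mul_le_mul_of_nonneg_right (mul_le_mul (by exact_mod_cast hn₀) ?_ ?_ (Nat.cast_nonneg _))
      he0
    · linarith [(Nat.cast_nonneg k : (0 : ℝ) ≤ k)]
    · exact sub_nonneg.2 (by exact_mod_cast hk)
  have h7 : X ≤ 2 ^ (n₀ * n₀) * Real.sqrt γ / Z + 2 * n₀ * G.B * e := by
    rw [div_add' _ _ _ hZ0.ne', le_div_iff₀ hZ0]
    linarith
  refine h7.trans (add_le_add ?_ le_rfl)
  rw [div_mul_eq_mul_div]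
  exact div_le_div_of_nonneg_left (by positivity) hc0 hZ

/-- Snapped moments have small covariances given a lower branching level, provided the responses of
window constraints have and the windows carry small increments. -/
theorem snap_avgCov_le (n₀ B : ℕ) : ∃ Ke : ℝ, 0 ≤ Ke ∧ ∀ δ η : ℝ, 0 < δ → 0 < η → ∃ Kγ : ℝ,
    0 ≤ Kγ ∧ ∀ (Ω : Type) [MeasurableSpace Ω] (S : Sys Ω), S.Good → S.x = gridExp S.R →
    ∀ G : Grid, G.Ok S.R → G.B = B → δ * S.R ≤ G.p G.lo →
    (∀ k, G.lo ≤ k → k < B → η * S.R ≤ (G.h k : ℝ) - G.t k) →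
    ∀ (N : ℕ) (a : Fin N → (ℕ → Ω) → ℝ), (∀ i, Obs S (a i)) → ∀ (ω₀ : ℕ → Ω) (γ e : ℝ),
    0 ≤ γ → 0 ≤ e →
    (∀ n, 1 ≤ n → n ≤ n₀ → ∀ j k, G.lo ≤ j → j < k → k ≤ B →
      ∀ f : Fin n → Fin n → ℕ × Bool, (∀ v w, v < w → k ≤ (f v w).1 ∧ (f v w).1 < B) →
      S.cond 0 (G.p j)
        (S.avgCov (G.p j) (G.p k) fun i => S.resp (G.cons n f) (a i) (G.p k)) ω₀ ≤ γ) →
    (∀ n, 1 ≤ n → n ≤ n₀ → ∀ k, G.lo ≤ k → k < B →
      ∀ κ : Fin n → Fin n → ℕ, IsPat B (k + 1) κ univ →
      avg (fun i : Fin N => S.cond 0 (G.h k) (fun v =>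
        |S.cond (G.h k) (G.p (k + 1)) (S.snap G κ (a i) (k + 1) univ) v -
          S.cond (G.p k) (G.p (k + 1)) (S.snap G κ (a i) (k + 1) univ) v|) ω₀) ≤ e) →
    ∀ (ι : Type) [DecidableEq ι] (A : Finset ι), A.Nonempty → A.card ≤ n₀ →
    ∀ (j k : ℕ) (κ : ι → ι → ℕ), G.lo ≤ j → j < k → k ≤ B → IsPat B k κ A →
      S.cond 0 (G.p j) (S.avgCov (G.p j) (G.p k) fun i => S.snap G κ (a i) k A) ω₀ ≤
        Kγ * Real.sqrt γ + Ke * e := by
  refine ⟨2 * n₀ * B, by positivity, fun δ η hδ hη => ?_⟩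
  set δ' := min δ 1
  set η' := min η 1
  have hδ' : 0 < δ' := lt_min hδ one_pos
  have hη' : 0 < η' := lt_min hη one_pos
  have hc := (cLow_mem (n₀ := n₀) hδ' (min_le_right _ _) hη' (min_le_right _ _) B).1
  refine ⟨2 ^ (n₀ * n₀) / cLow n₀ δ' η' B, by positivity, ?_⟩
  intro Ω _ S hS hx G hG hB hpδ hpη N a ha ω₀ γ e hγ0 he0 hγ he ι _ A hA hcard j k κ hj hjk hk hp
  subst hB
  let em : Fin A.card ↪ ι := A.equivFin.symm.toEmbedding.trans (Embedding.subtype _)
  have hmap : univ.map em = A := by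
    refine eq_of_subset_of_card_le (fun v hv => ?_) (by simp)
    obtain ⟨c, -, rfl⟩ := mem_map.1 hv
    exact (A.equivFin.symm c).2
  have hpat := hp.pullback_snap em (F := univ) hmap.le
  have he' : ∀ k', G.lo ≤ k' → k' < G.B → ∀ F : Finset (Fin A.card), F.Nonempty →
      IsPat G.B (k' + 1) (fun v w => κ (em v) (em w)) F →
      S.siteMean ω₀ (G.h k') (fun i v =>
        |S.cond (G.h k') (G.p (k' + 1))
            (S.snap G (fun v w => κ (em v) (em w)) (a i) (k' + 1) F) v -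
          S.cond (G.p k') (G.p (k' + 1))
            (S.snap G (fun v w => κ (em v) (em w)) (a i) (k' + 1) F) v|) ≤ e := by
    intro k' h1 h2 F hF hpF
    let eF : Fin F.card ↪ Fin A.card := F.equivFin.symm.toEmbedding.trans (Embedding.subtype _)
    have hmapF : univ.map eF = F := by
      refine eq_of_subset_of_card_le (fun v hv => ?_) (by simp)
      obtain ⟨c, -, rfl⟩ := mem_map.1 hv
      exact (F.equivFin.symm c).2
    have hFn : F.card ≤ n₀ := (card_le_univ F).trans (by simpa using hcard)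
    have h := he F.card hF.card_pos hFn k' h1 h2 _ (hpF.pullback_snap eF (F := univ) hmapF.le)
    have e1 : ∀ i, S.snap G (fun v w => κ (em v) (em w)) (a i) (k' + 1) F =
        S.snap G (fun v w => κ (em (eF v)) (em (eF w))) (a i) (k' + 1) univ := fun i =>
      funext fun v => by
        have h' := Sys.snap_map S G eF (fun v w => κ (em v) (em w)) (a i) (k' + 1) univ v
        rw [hmapF] at h'
        exact h'.symm
    simp only [Sys.siteMean, e1]
    exact h
  have h := snap_avgCov_core hS hx hG hA.card_pos hcard hδ' (min_le_right _ _) hη'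
    (min_le_right _ _) ((mul_le_mul_of_nonneg_right (min_le_left _ _) (Nat.cast_nonneg _)).trans hpδ)
    (fun k' h1 h2 => (mul_le_mul_of_nonneg_right (min_le_left _ _) (Nat.cast_nonneg _)).trans
      (hpη k' h1 h2)) ha ω₀ he0 (hγ A.card hA.card_pos hcard) he' hj hjk hk hpat
  have e2 : ∀ i, S.snap G κ (a i) k A =
      S.snap G (fun v w => κ (em v) (em w)) (a i) k univ := fun i => funext fun v => by
    rw [Sys.snap_map S G em κ (a i) k univ v, hmap]
  simp only [e2]
  exact h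

end Vale.Agent.P168
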