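import Vale.Agent.P168.LowerItems
import Vale.Agent.P168.Snap

/-!
One system: the cavity increment is at least every common lower bound of the trial functional, up to
the summary quantities.
-/

namespace Vale.Agent.P168

open MeasureTheory Finset Function

variable {N n₀ R : ℕ} {c : ℝ}

/-- The zero functional. -/
def zeroFunc (K : ℕ) : Func K := fun _ _ => 0

lemma nonexp_zero (K k : ℕ) : Nonexp (zeroFunc K k) :=
  ⟨rfl, fun F F' L hL => by
    show |(0 : ℝ) - 0| ≤ L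
    rw [sub_zero, abs_zero]
    exact (abs_nonneg _).trans (hL fun _ => true)⟩

lemma siteInc_lipschitz (hR : 0 < R) {H H' : (Fin N → Bool) → ℝ} {d : ℝ} (hd : 0 ≤ d)
    (hH : ∀ σ, |H σ - H' σ| ≤ d) {ι : Type} [Fintype ι] [DecidableEq ι] (F : (ι → Bool) → ℝ) :
    |siteInc n₀ R c H F - siteInc n₀ R c H' F| ≤ 2 * d := by
  simp only [siteInc, avg, ← sub_div, ← Finset.sum_sub_distrib]
  rw [abs_div, Nat.abs_cast]
  rcases Nat.eq_zero_or_pos (Fintype.card (ι → Fin N)) with h0 | hpos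
  · rw [h0, Nat.cast_zero, div_zero]; positivity
  rw [div_le_iff₀ (by exact_mod_cast hpos)]
  refine (Finset.abs_sum_le_sum_abs _ _).trans ?_
  refine (Finset.sum_le_sum (g := fun _ => 2 * d) fun i _ => ?_).trans (le_of_eq ?_)
  · let W : (Fin N → Bool) → ℝ := fun σ => F fun s => σ (i s)
    have hb : ∀ (G G' : (Fin N → Bool) → ℝ) (e : ℝ), (∀ σ, |G σ - G' σ| ≤ e) →
        |pertLogZ n₀ R c G - pertLogZ n₀ R c G'| ≤ e := by
      intro G G' e he
      have h := pertLogZ_add (n₀ := n₀) (c := c) hR G' fun σ => G σ - G' σ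
      rw [show (fun σ => G' σ + (G σ - G' σ)) = G from funext fun σ => by ring] at h
      rw [h]
      exact Sys.val_abs_le (pertSys_good hR G') (bdd_of_dependsTo (l := R)
        fun v v' hv => by simp only [hv R hR le_rfl]) (fun v => he _)
        (fun l hl _ => gridExp_pos hR (by omega)) _
    have e1 := pertLogZ_add (n₀ := n₀) (c := c) hR H W
    have e2 := pertLogZ_add (n₀ := n₀) (c := c) hR H' W
    have b1 := hb (fun σ => H σ + W σ) (fun σ => H' σ + W σ) d fun σ => by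
      rw [add_sub_add_right_eq_sub]; exact hH σ
    have b2 := hb H H' d hH
    show |(pertSys n₀ R c H).val (gridExp R) (fun ω => W (ω R).2) R 0 _ -
      (pertSys n₀ R c H').val (gridExp R) (fun ω => W (ω R).2) R 0 _| ≤ 2 * d
    rw [← e1, ← e2]
    rw [abs_le] at b1 b2 ⊢
    constructor <;> linarith
  · simp [mul_comm]

/-- A family of averages that moves by at most twice the distance is continuous. -/
lemma continuous_of_lipschitz {Ψ : ((Fin N → Bool) → ℝ) → ℝ}
    (h : ∀ H H' : (Fin N → Bool) → ℝ, |Ψ H - Ψ H'| ≤ 2 * ‖H - H'‖) : Continuous Ψ :=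
  (LipschitzWith.of_dist_le_mul (K := 2) fun H H' => by
    rw [Real.dist_eq, dist_eq_norm]; exact h H H').continuous

lemma integrable_incU {M : Model} (hM : M.Valid) (hR : 0 < R)
    (P : Measure ((Fin N → Bool) → ℝ)) [IsProbabilityMeasure P] :
    Integrable (fun H => incU M n₀ R c H) P := by
  have hlip : ∀ H H' : (Fin N → Bool) → ℝ, |incU M n₀ R c H - incU M n₀ R c H'| ≤
      2 * ‖H - H'‖ := by
    intro H H'
    refine le_of_forall_pos_le_add fun e he => ?_
    obtain ⟨L₀, k₀, -, h⟩ := avU_close hM he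
    exact h (siteFunc M.K n₀ R c H) (siteFunc M.K n₀ R c H') _ (by positivity)
      (fun k => nonexp_site hR H M.K k) (fun k => nonexp_site hR H' M.K k) fun k _ F _ =>
      siteInc_lipschitz hR (norm_nonneg _) (fun σ => norm_le_pi_norm (H - H') σ) F
  obtain ⟨L₀, k₀, hL₀, h⟩ := avU_close hM one_pos
  refine integrable_of_bounds (continuous_of_lipschitz hlip).measurable (C := L₀ + 1) fun H => ?_
  have h0 : avU M (zeroFunc M.K) = 0 := by simp [avU, zeroFunc, avg]
  have := h (siteFunc M.K n₀ R c H) (zeroFunc M.K) L₀ hL₀ (fun k => nonexp_site hR H M.K k)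
    (fun k => nonexp_zero _ k) fun k _ F hF => by
      have h1 := (nonexp_site (c := c) (n₀ := n₀) hR H M.K k).2 F (fun _ => 0) L₀
        (fun τ => by rw [sub_zero]; exact hF τ)
      rw [(nonexp_site (c := c) (n₀ := n₀) hR H M.K k).1] at h1
      simpa [zeroFunc] using h1
  rwa [h0, sub_zero] at this

lemma integrable_incV {M : Model} (hM : M.Valid) (hR : 0 < R)
    (P : Measure ((Fin N → Bool) → ℝ)) [IsProbabilityMeasure P] :
    Integrable (fun H => incV M n₀ R c H) P := by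
  have hlip : ∀ H H' : (Fin N → Bool) → ℝ, |incV M n₀ R c H - incV M n₀ R c H'| ≤
      2 * ‖H - H'‖ := by
    intro H H'
    refine le_of_forall_pos_le_add fun e he => ?_
    obtain ⟨L₀, k₀, -, h⟩ := avV_close hM he
    exact h (siteFunc M.K n₀ R c H) (siteFunc M.K n₀ R c H') _ (by positivity)
      (fun k => nonexp_site hR H M.K k) (fun k => nonexp_site hR H' M.K k) fun k _ F _ =>
      siteInc_lipschitz hR (norm_nonneg _) (fun σ => norm_le_pi_norm (H - H') σ) F
  obtain ⟨L₀, k₀, hL₀, h⟩ := avV_close hM one_pos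
  refine integrable_of_bounds (continuous_of_lipschitz hlip).measurable (C := L₀ + 1) fun H => ?_
  have h0 : avV M (zeroFunc M.K) = 0 := by simp [avV, zeroFunc]
  have := h (siteFunc M.K n₀ R c H) (zeroFunc M.K) L₀ hL₀ (fun k => nonexp_site hR H M.K k)
    (fun k => nonexp_zero _ k) fun k _ F hF => by
      have h1 := (nonexp_site (c := c) (n₀ := n₀) hR H M.K k).2 F (fun _ => 0) L₀
        (fun τ => by rw [sub_zero]; exact hF τ)
      rw [(nonexp_site (c := c) (n₀ := n₀) hR H M.K k).1] at h1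
      simpa [zeroFunc] using h1
  rwa [h0, sub_zero] at this

lemma Nonexp.convex {α ι : Type} [Nonempty α] [Fintype ι] {w : ι → ℝ} (hw : ∀ u, 0 ≤ w u)
    (h1 : ∑ u, w u = 1) {Φ : ι → (α → ℝ) → ℝ} (h : ∀ u, Nonexp (Φ u)) :
    Nonexp fun F => ∑ u, w u * Φ u F := by
  refine ⟨by simp [fun u => (h u).1], fun F F' L hL => ?_⟩
  rw [← Finset.sum_sub_distrib]
  refine (Finset.abs_sum_le_sum_abs _ _).trans ((Finset.sum_le_sum fun u _ => ?_).trans
    (le_of_eq (by rw [← Finset.sum_mul, h1, one_mul])))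
  rw [← mul_sub, abs_mul, abs_of_nonneg (hw u)]
  exact mul_le_mul_of_nonneg_left ((h u).2 F F' L hL) (hw u)

/-- The covariance and increment sums control the snapped covariances. -/
lemma snap_cov_le {Ke Kγ : ℝ} {B : ℕ} {G : Grid} (hR : 0 < R) (hG : G.Ok R) (hGB : G.B = B)
    {δ η : ℝ} (hδ : δ * R ≤ G.p G.lo)
    (hη : ∀ k, G.lo ≤ k → k < B → η * R ≤ (G.h k : ℝ) - G.t k)
    (hKγ : ∀ (Ω : Type) [MeasurableSpace Ω] (S : Sys Ω), S.Good → S.x = gridExp S.R →
      ∀ G : Grid, G.Ok S.R → G.B = B → δ * S.R ≤ G.p G.lo →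
      (∀ k, G.lo ≤ k → k < B → η * S.R ≤ (G.h k : ℝ) - G.t k) →
      ∀ (N : ℕ) (a : Fin N → (ℕ → Ω) → ℝ), (∀ i, Obs S (a i)) → ∀ (ω₀ : ℕ → Ω) (γ e : ℝ),
      0 ≤ γ → 0 ≤ e →
      (∀ n, 1 ≤ n → n ≤ n₀ → ∀ j k, G.lo ≤ j → j < k → k ≤ B →
        ∀ f : Fin n → Fin n → ℕ × Bool, (∀ v w, v < w → k ≤ (f v w).1 ∧ (f v w).1 < B) →
        S.cond 0 (G.p j)
          (S.avgCov (G.p j) (G.p k) fun i => S.resp (G.cons n f) (a i) (G.p k)) ω₀ ≤ γ) →
      (∀ n, 1 ≤ n → n ≤ n₀ → ∀ k, G.lo ≤ k → k < B →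
        ∀ κ : Fin n → Fin n → ℕ, IsPat B (k + 1) κ univ →
        avg (fun i : Fin N => S.cond 0 (G.h k) (fun v =>
          |S.cond (G.h k) (G.p (k + 1)) (S.snap G κ (a i) (k + 1) univ) v -
            S.cond (G.p k) (G.p (k + 1)) (S.snap G κ (a i) (k + 1) univ) v|) ω₀) ≤ e) →
      ∀ (ι : Type) [DecidableEq ι] (A : Finset ι), A.Nonempty → A.card ≤ n₀ →
      ∀ (j k : ℕ) (κ : ι → ι → ℕ), G.lo ≤ j → j < k → k ≤ B → IsPat B k κ A →
        S.cond 0 (G.p j) (S.avgCov (G.p j) (G.p k) fun i => S.snap G κ (a i) k A) ω₀ ≤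
          Kγ * Real.sqrt γ + Ke * e)
    (H : (Fin N → Bool) → ℝ) :
    ∀ (ι : Type) [DecidableEq ι] (A : Finset ι), A.Nonempty → A.card ≤ n₀ →
      ∀ (j k : ℕ) (κ : ι → ι → ℕ), G.lo ≤ j → j < k → k ≤ B → IsPat B k κ A →
      (pertSys n₀ R c H).cond 0 (G.p j) ((pertSys n₀ R c H).avgCov (G.p j) (G.p k) fun i =>
        (pertSys n₀ R c H).snap G κ (siteObs i) k A) (origin N n₀ R) ≤
        Kγ * Real.sqrt (covSum G n₀ R c H) + Ke * incSum G n₀ R c H := by
  subst hGB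
  refine hKγ (PSpace N n₀ R) (pertSys n₀ R c H) (pertSys_good hR H) rfl G hG rfl hδ hη N siteObs
    (obs_siteObs hR H) (origin N n₀ R) _ _ (covSum_nonneg hR hG H) (incSum_nonneg hR G H) ?_ ?_
  · intro n hn1 hn j k hlo hjk hk f hf
    let g : Fin n → Fin n → Fin G.B × Bool := fun v w =>
      if h : v < w then (⟨(f v w).1, (hf v w h).2⟩, (f v w).2) else (⟨0, by omega⟩, false)
    have hg : ∀ v w, v < w → k ≤ ((g v w).1 : ℕ) := fun v w h => by
      simp only [g, dif_pos h]; exact (hf v w h).1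
    refine le_trans (le_of_eq ?_) (covItem_le_covSum hR hG hn1 hn hlo hjk hk hg H)
    have hresp : (fun i : Fin N => (pertSys n₀ R c H).resp (G.cons n f) (siteObs i) (G.p k)) =
        fun i => (pertSys n₀ R c H).resp
          (G.cons n fun v w => ((g v w).1, (g v w).2)) (siteObs i) (G.p k) := by
      funext i ω
      exact Sys.resp_congr (G.cons n fun v w => ((g v w).1, (g v w).2)) (G.cons n f).lev
        (fun v w h => by
          have h' : g v w = (⟨(f v w).1, (hf v w h).2⟩, (f v w).2) := dif_pos h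
          simp only [Grid.cons, h']) (siteObs i) (G.p k) ω
    rw [covItem, ← hresp]
    rfl
  · intro n hn1 hn k hlo hk κ hκ
    have hb : ∀ v w, κ v w < G.B + 1 := fun v w => by
      by_cases h : v = w
      · subst h; rw [hκ.1 v (mem_univ v)]; omega
      · have := (hκ.2.2.1 v (mem_univ v) w (mem_univ w) h).2; omega
    exact incItem_le_incSum (κ := fun v w => ⟨κ v w, hb v w⟩) hR G hn1 hn hlo hk hκ H

/-- The increment of one system against the trials of its nodes. -/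
theorem inc_ge {M : Model} (hR : 0 < R) (hM : M.Valid) {a : ℝ}
    (ha : ∀ t : Trial, a ≤ trialU M t - trialV M t) {G : Grid} (hG : G.Ok R) (hN : 0 < N)
    (H : (Fin N → Bool) → ℝ) {L : ℝ} {k₀U k₀V : ℕ} {E tU tV L₀U L₀V : ℝ} (hE : 0 ≤ E)
    (hU : ∀ (Φ Ψ : Func M.K) (E : ℝ), 0 ≤ E → (∀ k, Nonexp (Φ k)) → (∀ k, Nonexp (Ψ k)) →
      (∀ k ≤ k₀U, ∀ F, (∀ τ, |F τ| ≤ L₀U) → |Φ k F - Ψ k F| ≤ E) →
      |avU M Φ - avU M Ψ| ≤ E + tU)
    (hV : ∀ (Φ Ψ : Func M.K) (E : ℝ), 0 ≤ E → (∀ k, Nonexp (Φ k)) → (∀ k, Nonexp (Ψ k)) →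
      (∀ k ≤ k₀V, ∀ F, (∀ τ, |F τ| ≤ L₀V) → |Φ k F - Ψ k F| ≤ E) →
      |avV M Φ - avV M Ψ| ≤ E + tV)
    (hLU : L₀U ≤ L) (hLV : L₀V ≤ L)
    (hclose : ∀ k ≤ max k₀U k₀V, ∀ F : (Fin k × Fin M.K → Bool) → ℝ, (∀ τ, |F τ| ≤ L) →
      |siteInc n₀ R c H F - ∑ u, nodeWt (pertSys n₀ R c H) (G.p G.lo) u *
          avg (fun i : Fin k × Fin M.K → Fin N =>
            copiesVal G (pertSys n₀ R c H) F i (extPath (G.p G.lo) u))| ≤ E) :
    a - (2 * E + tU + tV) ≤ incU M n₀ R c H - incV M n₀ R c H := by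
  classical
  set S := pertSys n₀ R c H with hSdef
  have hS : S.Good := pertSys_good hR H
  have hex : ∀ u : Fin (G.p G.lo) → PSpace N n₀ R, ∃ t : Trial,
      ∀ (k : ℕ) (F : (Fin k × Fin M.K → Bool) → ℝ),
        avg (fun i : Fin k × Fin M.K → Fin N => copiesVal G S F i (extPath (G.p G.lo) u)) =
          trialFunc M.K t k F := by
    intro u
    obtain ⟨t, -, ht⟩ := exists_trial hS (hx := rfl) hG hN siteBit (fun i => siteBit_dep hR i)
      (extPath (G.p G.lo) u)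
    exact ⟨t, fun k F => ht (Fin k × Fin M.K) F⟩
  choose t ht using hex
  have hne : ∀ u k, Nonexp (trialFunc M.K (t u) k) := fun u k =>
    nonexp_trial hR hG H (extPath (G.p G.lo) u) (ht u) k
  let Ψ : Func M.K := fun k F => ∑ u, nodeWt S (G.p G.lo) u * trialFunc M.K (t u) k F
  have hΨ : ∀ k, Nonexp (Ψ k) := fun k =>
    Nonexp.convex (fun u => nodeWt_nonneg hS _ u) (sum_nodeWt hS _) fun u => hne u k
  have hc : ∀ k ≤ max k₀U k₀V, ∀ F : (Fin k × Fin M.K → Bool) → ℝ, (∀ τ, |F τ| ≤ L) →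
      |siteFunc M.K n₀ R c H k F - Ψ k F| ≤ E := fun k hk F hF => by
    have h := hclose k hk F hF
    simp only [ht] at h
    exact h
  have h1 := hU (siteFunc M.K n₀ R c H) Ψ E hE (fun k => nonexp_site hR H M.K k) hΨ
    fun k hk F hF => hc k (hk.trans (le_max_left _ _)) F fun τ => (hF τ).trans hLU
  have h2 := hV (siteFunc M.K n₀ R c H) Ψ E hE (fun k => nonexp_site hR H M.K k) hΨ
    fun k hk F hF => hc k (hk.trans (le_max_right _ _)) F fun τ => (hF τ).trans hLV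
  rw [show avU M Ψ = ∑ u, nodeWt S (G.p G.lo) u * avU M (trialFunc M.K (t u)) from
    avU_sum hM _ (fun u => trialFunc M.K (t u)) hne] at h1
  rw [show avV M Ψ = ∑ u, nodeWt S (G.p G.lo) u * avV M (trialFunc M.K (t u)) from
    avV_sum hM _ (fun u => trialFunc M.K (t u)) hne] at h2
  simp only [← trialU_eq_avU, ← trialV_eq_avV, ← incU_eq_avU, ← incV_eq_avV] at h1 h2
  have h3 : a ≤ ∑ u, nodeWt S (G.p G.lo) u * trialU M (t u) -
      ∑ u, nodeWt S (G.p G.lo) u * trialV M (t u) := by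
    rw [← Finset.sum_sub_distrib]
    calc a = ∑ u, nodeWt S (G.p G.lo) u * a := by
          rw [← Finset.sum_mul, sum_nodeWt hS, one_mul]
      _ ≤ _ := Finset.sum_le_sum fun u _ => by
          rw [← mul_sub]
          exact mul_le_mul_of_nonneg_left (ha (t u)) (nodeWt_nonneg hS _ u)
  rw [abs_le] at h1 h2
  linarith

end Vale.Agent.P168
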