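import Mathlib

/-!
Finite depth nested tilted systems on paths `ℕ → Ω`; the node at level `l` is the restriction of a
path to the coordinates `1..l`.
-/

namespace Vale.Agent.P168

open MeasureTheory Finset Function

variable {Ω : Type} [MeasurableSpace Ω]

/-- A nested system: depth, exponent of each step, potential, prior of one step. -/
structure Sys (Ω : Type) [MeasurableSpace Ω] where
  R : ℕ
  x : ℕ → ℝ
  H : (ℕ → Ω) → ℝ
  μ : Measure Ω

/-- `f` depends on the coordinates `1..l` only. -/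
def DependsTo {α : Type} (f : (ℕ → Ω) → α) (l : ℕ) : Prop :=
  ∀ ω ω', (∀ i, 1 ≤ i → i ≤ l → ω i = ω' i) → f ω = f ω'

/-- A bounded measurable observable. -/
def Bdd (f : (ℕ → Ω) → ℝ) : Prop := Measurable f ∧ ∃ C, ∀ ω, |f ω| ≤ C

/-- Regularity of a system. -/
structure Sys.Good (S : Sys Ω) : Prop where
  prob : IsProbabilityMeasure S.μ
  x_pos : ∀ l, 1 ≤ l → l ≤ S.R → 0 < S.x l
  x_mono : ∀ l, 1 ≤ l → l < S.R → S.x l ≤ S.x (l + 1)
  x_last : S.x S.R = 1
  R_pos : 0 < S.R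
  H_bdd : Bdd S.H
  H_dep : DependsTo S.H S.R

/-- `uUp d` is the recursion at level `R - d`. -/
noncomputable def Sys.uUp (S : Sys Ω) : ℕ → (ℕ → Ω) → ℝ
  | 0 => S.H
  | d + 1 => fun ω => (S.x (S.R - d))⁻¹ *
      Real.log (∫ e, Real.exp (S.x (S.R - d) * S.uUp d (update ω (S.R - d) e)) ∂S.μ)

/-- The recursion at level `l`. -/
noncomputable def Sys.u (S : Sys Ω) (l : ℕ) : (ℕ → Ω) → ℝ := S.uUp (S.R - l)

/-- One tilted step from level `l` to level `l + 1`. -/
noncomputable def Sys.A (S : Sys Ω) (l : ℕ) (f : (ℕ → Ω) → ℝ) (ω : ℕ → Ω) : ℝ :=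
  (∫ e, Real.exp (S.x (l + 1) * S.u (l + 1) (update ω (l + 1) e)) * f (update ω (l + 1) e) ∂S.μ) /
    ∫ e, Real.exp (S.x (l + 1) * S.u (l + 1) (update ω (l + 1) e)) ∂S.μ

/-- `down d l f`: the average of a function of level `l + d` given the node at level `l`. -/
noncomputable def Sys.down (S : Sys Ω) : ℕ → ℕ → ((ℕ → Ω) → ℝ) → (ℕ → Ω) → ℝ
  | 0, _, f => f
  | d + 1, l, f => S.A l (S.down d (l + 1) f)

/-- The average of a function of level `m` given the node at level `l ≤ m`. -/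
noncomputable def Sys.cond (S : Sys Ω) (l m : ℕ) (f : (ℕ → Ω) → ℝ) : (ℕ → Ω) → ℝ :=
  S.down (m - l) l f

/-- The covariance given the node at level `l` of two functions of level `m`. -/
noncomputable def Sys.cov (S : Sys Ω) (l m : ℕ) (f g : (ℕ → Ω) → ℝ) (ω : ℕ → Ω) : ℝ :=
  S.cond l m (fun v => f v * g v) ω - S.cond l m f ω * S.cond l m g ω

/-- The system with the potential raised by `V`. -/
def Sys.add (S : Sys Ω) (V : (ℕ → Ω) → ℝ) : Sys Ω := { S with H := fun ω => S.H ω + V ω }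

/-- The nested evaluation of `F` through the steps of `S` with the exponents `ξ`, from level `l + d`
down to level `l`. -/
noncomputable def Sys.val (S : Sys Ω) (ξ : ℕ → ℝ) (F : (ℕ → Ω) → ℝ) : ℕ → ℕ → (ℕ → Ω) → ℝ
  | 0, _ => F
  | d + 1, l => fun ω =>
      (ξ (l + 1))⁻¹ * Real.log (S.A l (fun v => Real.exp (ξ (l + 1) * S.val ξ F d (l + 1) v)) ω)

/-- Admissible exponents for `R` steps. -/
structure Expo (R : ℕ) (ξ : ℕ → ℝ) : Prop where
  pos : ∀ l, 1 ≤ l → l ≤ R → 0 < ξ l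
  mono : ∀ l, 1 ≤ l → l < R → ξ l ≤ ξ (l + 1)
  last : ξ R = 1

/-- The increment at level `l` from the factor `1 + z`. -/
noncomputable def Sys.incr (S : Sys Ω) (z : (ℕ → Ω) → ℝ) (l : ℕ) (ω : ℕ → Ω) : ℝ :=
  (S.add fun v => Real.log (1 + z v)).u l ω - S.u l ω

/-- The product of two systems with the same exponents. -/
noncomputable def Sys.prod {Ω' : Type} [MeasurableSpace Ω'] (S : Sys Ω) (S' : Sys Ω') :
    Sys (Ω × Ω') where
  R := S.R
  x := S.x
  H ω := S.H (fun i => (ω i).1) + S'.H (fun i => (ω i).2)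
  μ := S.μ.prod S'.μ

/-- Independent copies of a system, one for each index. -/
noncomputable def Sys.copies (S : Sys Ω) (ι : Type) [Fintype ι] : Sys (ι → Ω) where
  R := S.R
  x := S.x
  H ω := ∑ s, S.H fun i => ω i s
  μ := Measure.pi fun _ => S.μ

end Vale.Agent.P168
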