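import Mathlib

/-!
Scalar core of the probe lemma: parity parts of functions of two signs, under exponentials and
logarithms.
-/

namespace Vale.Agent.P168.ProbeCore

/-- The value of a sign. -/
def sg (s : Bool) : ℝ := if s then 1 else -1

/-- The even part in both signs. -/
noncomputable def o00 (f : Bool → Bool → ℝ) : ℝ :=
  (f true true + f true false + f false true + f false false) / 4

/-- The part odd in the first sign only. -/
noncomputable def o10 (f : Bool → Bool → ℝ) : ℝ :=
  (f true true + f true false - f false true - f false false) / 4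

/-- The part odd in the second sign only. -/
noncomputable def o01 (f : Bool → Bool → ℝ) : ℝ :=
  (f true true - f true false + f false true - f false false) / 4

/-- The part odd in both signs. -/
noncomputable def o11 (f : Bool → Bool → ℝ) : ℝ :=
  (f true true - f true false - f false true + f false false) / 4

lemma expand (f : Bool → Bool → ℝ) (a b : Bool) :
    f a b = o00 f + sg a * o10 f + sg b * o01 f + sg a * sg b * o11 f := by
  cases a <;> cases b <;> simp [sg, o00, o10, o01, o11] <;> ring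

lemma abs_exp_sub_one {y B : ℝ} (hy : |y| ≤ B) : |Real.exp y - 1| ≤ Real.exp B * |y| := by
  have h1 := Real.add_one_le_exp y
  have h2 := Real.add_one_le_exp (-y)
  have hp := Real.exp_pos y
  have hB : Real.exp y ≤ Real.exp B := Real.exp_le_exp.2 ((le_abs_self y).trans hy)
  have hB1 : 1 ≤ Real.exp B := Real.one_le_exp ((abs_nonneg y).trans hy)
  have h3 := mul_le_mul_of_nonneg_left h2 hp.le
  rw [← Real.exp_add, add_neg_cancel, Real.exp_zero] at h3
  have a0 := abs_nonneg y
  have e1 := mul_le_mul_of_nonneg_right hB a0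
  have e2 : Real.exp y * y ≤ Real.exp y * |y| := mul_le_mul_of_nonneg_left (le_abs_self y) hp.le
  have e3 : |y| ≤ Real.exp B * |y| := le_mul_of_one_le_left a0 hB1
  rw [abs_le]
  constructor <;> nlinarith [neg_abs_le y]

lemma abs_exp_sub_id {y B : ℝ} (hy : |y| ≤ B) :
    |Real.exp y - 1 - y| ≤ Real.exp B * y ^ 2 := by
  have h1 := Real.add_one_le_exp y
  have h2 := Real.add_one_le_exp (-y)
  have hp := Real.exp_pos y
  have hB : Real.exp y ≤ Real.exp B := Real.exp_le_exp.2 ((le_abs_self y).trans hy)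
  have h3 := mul_le_mul_of_nonneg_left h2 hp.le
  rw [← Real.exp_add, add_neg_cancel, Real.exp_zero] at h3
  have hB1 : 1 ≤ Real.exp B := Real.one_le_exp ((abs_nonneg y).trans hy)
  rw [abs_of_nonneg (by linarith)]
  rcases le_or_gt 0 y with h | h
  · have := mul_le_mul_of_nonneg_left (show Real.exp y - 1 ≤ Real.exp y * y by linarith) h
    nlinarith
  · have h4 : Real.exp y * (1 - y) ≤ 1 := by linarith
    have h5 : Real.exp y - 1 - y ≤ y ^ 2 := by
      by_contra hc
      push Not at hc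
      nlinarith [mul_lt_mul_of_pos_right hc (show 0 < 1 - y by linarith)]
    nlinarith [sq_nonneg y]

lemma cosh_near {y B : ℝ} (hy : |y| ≤ B) :
    |Real.cosh y - 1| ≤ Real.exp B * y ^ 2 ∧ |Real.sinh y - y| ≤ Real.exp B * y ^ 2 := by
  have h1 := abs_le.1 (abs_exp_sub_id hy)
  have h2 := abs_le.1 (abs_exp_sub_id (show |(-y)| ≤ B by rwa [abs_neg]))
  simp only [neg_sq] at h2
  rw [Real.cosh_eq, Real.sinh_eq, abs_le, abs_le]
  refine ⟨⟨?_, ?_⟩, ⟨?_, ?_⟩⟩ <;> linarith

lemma exp_sg (a : Bool) (y : ℝ) : Real.exp (sg a * y) = Real.cosh y + sg a * Real.sinh y := by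
  cases a <;> simp [sg, Real.cosh_eq, Real.sinh_eq] <;> ring

/-- The parity parts of `exp (x f)`. -/
lemma exp_parts (x : ℝ) (f : Bool → Bool → ℝ) :
    let E := fun a b => Real.exp (x * f a b)
    let u := Real.exp (x * o00 f)
    let α := x * o10 f
    let β := x * o01 f
    let γ := x * o11 f
    o00 E = u * (Real.cosh α * Real.cosh β * Real.cosh γ +
        Real.sinh α * Real.sinh β * Real.sinh γ) ∧
      o10 E = u * (Real.sinh α * Real.cosh β * Real.cosh γ +
        Real.cosh α * Real.sinh β * Real.sinh γ) ∧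
      o01 E = u * (Real.cosh α * Real.sinh β * Real.cosh γ +
        Real.sinh α * Real.cosh β * Real.sinh γ) ∧
      o11 E = u * (Real.cosh α * Real.cosh β * Real.sinh γ +
        Real.sinh α * Real.sinh β * Real.cosh γ) := by
  intro E u α β γ
  have h : ∀ a b, E a b = u * (Real.cosh α + sg a * Real.sinh α) *
      (Real.cosh β + sg b * Real.sinh β) * (Real.cosh γ + sg a * sg b * Real.sinh γ) := by
    intro a b
    have hab : Real.cosh γ + sg a * sg b * Real.sinh γ = Real.exp (sg a * sg b * γ) := by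
      cases a <;> cases b <;> simp [sg, Real.cosh_eq, Real.sinh_eq] <;> ring
    rw [← exp_sg, ← exp_sg, hab, ← Real.exp_add, ← Real.exp_add, ← Real.exp_add]
    simp only [E, α, β, γ]
    rw [expand f a b]
    congr 1
    ring
  refine ⟨?_, ?_, ?_, ?_⟩ <;>
    · simp only [o00, o10, o01, o11, h, sg, if_true, Bool.false_eq_true, if_false]
      ring

lemma abs_mul_le {a b A B : ℝ} (ha : |a| ≤ A) (hb : |b| ≤ B) : |a * b| ≤ A * B := by
  rw [abs_mul]
  exact mul_le_mul ha hb (abs_nonneg _) ((abs_nonneg _).trans ha)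

/-- `a` is `a'` up to a relative order `c`, at scale `r`. -/
def Nr (c K r a a' : ℝ) : Prop := |a - a'| ≤ K * r * c ∧ |a'| ≤ K * r

lemma Nr.mul {c K L r s a a' b b' : ℝ} (hc : 0 ≤ c) (hc1 : c ≤ 1) (ha : Nr c K r a a')
    (hb : Nr c L s b b') : Nr c (3 * K * L) (r * s) (a * b) (a' * b') := by
  have k1 := (abs_nonneg _).trans ha.2
  have k2 := (abs_nonneg _).trans hb.2
  have k0 : 0 ≤ K * r * (L * s) := mul_nonneg k1 k2
  refine ⟨?_, ?_⟩
  · have q1 := abs_mul_le ha.1 hb.1
    have q2 := abs_mul_le ha.1 hb.2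
    have q3 := abs_mul_le ha.2 hb.1
    have e : a * b - a' * b' = (a - a') * (b - b') + (a - a') * b' + a' * (b - b') := by ring
    have q4 : K * r * c * (L * s * c) ≤ K * r * (L * s) * c :=
      calc K * r * c * (L * s * c) = K * r * (L * s) * c * c := by ring
        _ ≤ K * r * (L * s) * c * 1 := mul_le_mul_of_nonneg_left hc1 (mul_nonneg k0 hc)
        _ = _ := mul_one _
    rw [e]
    refine (abs_add_three _ _ _).trans ?_
    linarith
  · refine (abs_mul_le ha.2 hb.2).trans ?_
    nlinarith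

lemma Nr.add {c K L r a a' b b' : ℝ} (ha : Nr c K r a a') (hb : Nr c L r b b') :
    Nr c (K + L) r (a + b) (a' + b') := by
  have := abs_le.1 ha.1; have := abs_le.1 ha.2
  have := abs_le.1 hb.1; have := abs_le.1 hb.2
  refine ⟨abs_le.2 ⟨?_, ?_⟩, abs_le.2 ⟨?_, ?_⟩⟩ <;> linarith

/-- A term of higher order is negligible. -/
lemma Nr.small {c K r r' a a' : ℝ} (_hc : 0 ≤ c) (hc1 : c ≤ 1) (hK : 0 ≤ K) (hr : 0 ≤ r')
    (ha : Nr c K r a a') (h : r ≤ r' * c) : Nr c (2 * K) r' a 0 := by
  have k1 := (abs_nonneg _).trans ha.2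
  refine ⟨?_, by rw [abs_zero]; positivity⟩
  have := abs_le.1 ha.1
  have := abs_le.1 ha.2
  have q1 : K * r * c ≤ K * r := mul_le_of_le_one_right k1 hc1
  have q2 := mul_le_mul_of_nonneg_left h hK
  rw [sub_zero, abs_le]
  constructor <;> linarith

lemma Nr.mono {c K L r a a' : ℝ} (hc : 0 ≤ c) (hr : 0 ≤ r) (ha : Nr c K r a a') (h : K ≤ L) :
    Nr c L r a a' :=
  ⟨ha.1.trans (mul_le_mul_of_nonneg_right (mul_le_mul_of_nonneg_right h hr) hc),
    ha.2.trans (mul_le_mul_of_nonneg_right h hr)⟩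

/-- The constant of `exp_near`. -/
noncomputable def nearConst (B : ℝ) : ℝ := 81 * (Real.exp B * (1 + B) ^ 2) ^ 4

lemma nearConst_nonneg (B : ℝ) : 0 ≤ nearConst B := by unfold nearConst; positivity

/-- The parts of `exp (x f)` to leading order in `c`. -/
theorem exp_near {B c x : ℝ} {n : ℕ} (hn : 1 ≤ n) (hB : 0 ≤ B) (hx : |x| ≤ 1) (hc : 0 ≤ c)
    (hc1 : c ≤ 1) {f : Bool → Bool → ℝ} (h0 : |o00 f| ≤ B * c) (h1 : |o10 f| ≤ B * c ^ n)
    (h2 : |o01 f| ≤ B * c ^ n) (h3 : |o11 f| ≤ B * c ^ (2 * n)) :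
    |o00 (fun a b => Real.exp (x * f a b)) - 1| ≤ nearConst B * c ∧
      |o10 (fun a b => Real.exp (x * f a b)) - x * o10 f| ≤ nearConst B * c ^ (n + 1) ∧
      |o01 (fun a b => Real.exp (x * f a b)) - x * o01 f| ≤ nearConst B * c ^ (n + 1) ∧
      |o11 (fun a b => Real.exp (x * f a b)) - (x * o11 f + x ^ 2 * (o10 f * o01 f))| ≤
        nearConst B * c ^ (2 * n + 1) := by
  obtain ⟨e0, e1, e2, e3⟩ := exp_parts x f
  change o00 (fun a b => Real.exp (x * f a b)) = _ at e0
  change o10 (fun a b => Real.exp (x * f a b)) = _ at e1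
  change o01 (fun a b => Real.exp (x * f a b)) = _ at e2
  change o11 (fun a b => Real.exp (x * f a b)) = _ at e3
  rw [e0, e1, e2, e3]
  have xb : ∀ {y r : ℝ}, |y| ≤ B * r → |x * y| ≤ B * r := fun {y r} hy => by
    simpa using abs_mul_le hx hy
  have hu := xb h0
  have ha := xb h1
  have hb := xb h2
  have hg := xb h3
  have pn := pow_nonneg hc n
  have p2n := pow_nonneg hc (2 * n)
  have hcn : c ^ n ≤ c := by simpa using pow_le_pow_of_le_one hc hc1 hn
  have hc2n : c ^ (2 * n) ≤ c := by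
    simpa using pow_le_pow_of_le_one hc hc1 (show 1 ≤ 2 * n by omega)
  set M := Real.exp B with hM
  have hM0 : 0 ≤ M := (Real.exp_pos B).le
  have hM1 : 1 ≤ M := Real.one_le_exp hB
  set K := M * (1 + B) ^ 2 with hK
  have hK1 : 1 ≤ K := one_le_mul_of_one_le_of_one_le hM1 (one_le_pow₀ (by linarith))
  have hK0 : 0 ≤ K := by linarith
  have hBK : B ≤ K := by
    have q : B ≤ (1 + B) ^ 2 := by nlinarith
    exact q.trans (le_mul_of_one_le_left (sq_nonneg _) hM1)
  have hB2K : M * B ^ 2 ≤ K := mul_le_mul_of_nonneg_left (by nlinarith) hM0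
  have atoms : ∀ {y r : ℝ}, |y| ≤ B * r → 0 ≤ r → r ≤ c →
      Nr c K 1 (Real.cosh y) 1 ∧ Nr c K r (Real.sinh y) y := by
    intro y r hy hr hrc
    have hy1 : |y| ≤ B := hy.trans (mul_le_of_le_one_right hB (hrc.trans hc1))
    have hy2 : y ^ 2 ≤ B ^ 2 * (r * r) := by
      rw [← sq_abs]
      exact (pow_le_pow_left₀ (abs_nonneg _) hy 2).trans_eq (by ring)
    obtain ⟨q1, q2⟩ := cosh_near hy1
    have q3 : M * y ^ 2 ≤ K * r * c :=
      calc M * y ^ 2 ≤ M * (B ^ 2 * (r * r)) := mul_le_mul_of_nonneg_left hy2 hM0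
        _ = M * B ^ 2 * (r * r) := by ring
        _ ≤ K * (r * c) := mul_le_mul hB2K (mul_le_mul_of_nonneg_left hrc hr) (by positivity) hK0
        _ = _ := by ring
    exact ⟨⟨(q1.trans q3).trans (mul_le_mul_of_nonneg_right
      (mul_le_mul_of_nonneg_left (hrc.trans hc1) hK0) hc), by simpa using hK1⟩,
      ⟨q2.trans q3, hy.trans (mul_le_mul_of_nonneg_right hBK hr)⟩⟩
  obtain ⟨ca, sa⟩ := atoms ha pn hcn
  obtain ⟨cb, sb⟩ := atoms hb pn hcn
  obtain ⟨cg, sc⟩ := atoms hg p2n hc2n
  have au : Nr c K 1 (Real.exp (x * o00 f)) 1 := by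
    refine ⟨(abs_exp_sub_one (B := B) (hu.trans (mul_le_of_le_one_right hB hc1))).trans ?_,
      by simpa using hK1⟩
    rw [mul_one]
    calc M * |x * o00 f| ≤ M * (B * c) := mul_le_mul_of_nonneg_left hu hM0
      _ ≤ M * ((1 + B) ^ 2 * c) :=
          mul_le_mul_of_nonneg_left (mul_le_mul_of_nonneg_right (by nlinarith) hc) hM0
      _ = _ := by ring
  have t3 : ∀ {r s w a a' b b' d d' : ℝ}, Nr c K r a a' → Nr c K s b b' → Nr c K w d d' →
      Nr c (9 * K ^ 3) (r * s * w) (a * b * d) (a' * b' * d') := by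
    intro r s w a a' b b' d d' qa qb qd
    have := (qa.mul hc hc1 qb).mul hc hc1 qd
    rwa [show 3 * (3 * K * K) * K = 9 * K ^ 3 by ring] at this
  have h9 : (0 : ℝ) ≤ 9 * K ^ 3 := by positivity
  have fin : ∀ {r p q p' q' : ℝ}, 0 ≤ r → Nr c (9 * K ^ 3) r p p' →
      Nr c (18 * K ^ 3) r q q' →
      |Real.exp (x * o00 f) * (p + q) - (p' + q')| ≤ nearConst B * (r * c) := by
    intro r p q p' q' hr hp hq
    have := (au.mul hc hc1 (hp.add hq)).1
    rw [one_mul, one_mul] at this
    refine this.trans_eq ?_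
    rw [nearConst, ← hM, ← hK]
    ring
  have hpp : c ^ n * c ^ n = c ^ (2 * n) := by rw [two_mul, pow_add]
  refine ⟨?_, ?_, ?_, ?_⟩
  · have r := ((t3 sa sb sc).small hc hc1 h9 zero_le_one (by
      rw [one_mul]
      calc c ^ n * c ^ n * c ^ (2 * n) ≤ 1 * c ^ (2 * n) :=
            mul_le_mul_of_nonneg_right (mul_le_one₀ (hcn.trans hc1) pn (hcn.trans hc1)) p2n
        _ ≤ c := by rw [one_mul]; exact hc2n))
    have m := t3 ca cb cg
    rw [mul_one, mul_one] at m
    rw [show 2 * (9 * K ^ 3) = 18 * K ^ 3 by ring] at r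
    simpa using fin zero_le_one m r
  · have r := ((t3 ca sb sc).small hc hc1 h9 pn (by
      rw [one_mul]; exact mul_le_mul_of_nonneg_left hc2n pn))
    have m := t3 sa cb cg
    simp only [mul_one] at m
    rw [show 2 * (9 * K ^ 3) = 18 * K ^ 3 by ring] at r
    simpa [pow_succ] using fin pn m r
  · have r := ((t3 sa cb sc).small hc hc1 h9 pn (by
      rw [mul_one]; exact mul_le_mul_of_nonneg_left hc2n pn))
    have m := t3 ca sb cg
    simp only [mul_one, one_mul] at m
    rw [show 2 * (9 * K ^ 3) = 18 * K ^ 3 by ring] at r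
    simpa [pow_succ] using fin pn m r
  · have m := t3 ca cb sc
    have r := t3 sa sb cg
    simp only [mul_one, one_mul] at m r
    rw [hpp] at r
    have r' := r.mono hc p2n (show 9 * K ^ 3 ≤ 18 * K ^ 3 by linarith)
    have := fin p2n m r'
    rw [← pow_succ] at this
    rw [show x * o11 f + x ^ 2 * (o10 f * o01 f) = x * o11 f + x * o10 f * (x * o01 f) by ring]
    exact this

/-- The mixed part of a logarithm. -/
theorem log_mixed {z1 z2 z12 t : ℝ} (h1 : |z1| ≤ t) (h2 : |z2| ≤ t) (h12 : |z12| ≤ t)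
    (ht : t ≤ 1 / 8) :
    |o11 (fun a b => Real.log (1 + sg a * z1 + sg b * z2 + sg a * sg b * z12)) -
      (z12 - z1 * z2)| ≤ 8 * t * |z12 - z1 * z2| := by
  have ht0 : 0 ≤ t := (abs_nonneg _).trans h1
  obtain ⟨a1, a2⟩ := abs_le.1 h1
  obtain ⟨b1, b2⟩ := abs_le.1 h2
  obtain ⟨d1, d2⟩ := abs_le.1 h12
  set a := (1 + z1 + z2 + z12) * (1 - z1 - z2 + z12) with ha
  set b := (1 + z1 - z2 - z12) * (1 - z1 + z2 - z12) with hb
  have hav : |a - 1| ≤ 3 * t := by rw [ha, abs_le]; constructor <;> nlinarith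
  have hbv : |b - 1| ≤ 3 * t := by rw [hb, abs_le]; constructor <;> nlinarith
  have pa : 5 / 8 ≤ a := by linarith [(abs_le.1 hav).1]
  have pb : 5 / 8 ≤ b := by linarith [(abs_le.1 hbv).1]
  have hL : o11 (fun a b => Real.log (1 + sg a * z1 + sg b * z2 + sg a * sg b * z12)) =
      (Real.log a - Real.log b) / 4 := by
    have p : ∀ s u : Bool, 0 < 1 + sg s * z1 + sg u * z2 + sg s * sg u * z12 := by
      intro s u; cases s <;> cases u <;> simp [sg] <;> linarith
    have r1 := p true true; have r2 := p true false; have r3 := p false true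
    have r4 := p false false
    simp only [sg, if_true, Bool.false_eq_true, if_false] at r1 r2 r3 r4
    rw [ha, hb, Real.log_mul (by linarith) (by linarith), Real.log_mul (by linarith) (by linarith)]
    simp only [o11, sg, if_true, Bool.false_eq_true, if_false]
    ring_nf
  set D := z12 - z1 * z2 with hD
  have hab : a - b = 4 * D := by rw [ha, hb, hD]; ring
  have u1 := Real.log_le_sub_one_of_pos (show 0 < a / b by positivity)
  have l1 := Real.one_sub_inv_le_log_of_pos (show 0 < a / b by positivity)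
  rw [Real.log_div (by linarith) (by linarith)] at u1 l1
  have eu : a / b - 1 = 4 * D / b := by rw [← hab]; field_simp
  have el : 1 - (a / b)⁻¹ = 4 * D / a := by rw [← hab]; field_simp
  rw [eu] at u1
  rw [el] at l1
  have k : ∀ w : ℝ, 5 / 8 ≤ w → |w - 1| ≤ 3 * t → |D / w - D| ≤ 8 * t * |D| := by
    intro w hw hw1
    rw [show D / w - D = D * (1 - w) / w by field_simp, abs_div, abs_mul,
      abs_of_pos (show 0 < w by linarith), abs_sub_comm (1 : ℝ) w, div_le_iff₀ (by linarith)]
    nlinarith [mul_le_mul_of_nonneg_left hw1 (abs_nonneg D), mul_nonneg ht0 (abs_nonneg D)]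
  have k1 := abs_le.1 (k a pa hav)
  have k2 := abs_le.1 (k b pb hbv)
  rw [hL, abs_le]
  constructor <;> linarith [mul_div_assoc 4 D a, mul_div_assoc 4 D b]

end Vale.Agent.P168.ProbeCore
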