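import Vale.Agent.P168.ProbeVal
import Vale.Agent.P168.GadgetJay

/-!
Probe lemma, part 2: the recursion of the mixed part, and covariances over one step of probe signs.
-/

namespace Vale.Agent.P168.Probe

open MeasureTheory Finset Function ProbeCore

variable {Ω : Type} [MeasurableSpace Ω] {S : Sys Ω}

/-! ### The parts of one and two probes -/

/-- The sign of the response to a constraint of size `n`. -/
def sgn (n : ℕ) : ℝ := (-1) ^ (n + 1)

lemma sgn_sq (n : ℕ) : sgn n * sgn n = 1 := by rw [sgn, ← mul_pow]; norm_num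

lemma abs_sgn (n : ℕ) : |sgn n| = 1 := by simp [sgn]

/-- The bounds on the parts of the probes at the nodes of level `l`. -/
def Parts (B : ℝ) (S : Sys Ω) (C : Cons) (c : ℝ) (a b : (ℕ → Ω) → ℝ) (l : ℕ) (ω : ℕ → Ω) : Prop :=
  |S.resp C a l ω| ≤ B ∧ |S.resp C b l ω| ≤ B ∧ |S.jay C c a b l ω| ≤ B ∧
    |o00 (fun u v => S.probe2 C c a b u v l ω)| ≤ B * c ∧
    |o10 (fun u v => S.probe2 C c a b u v l ω) - c ^ C.n * (sgn C.n * S.resp C a l ω)| ≤
      B * c ^ C.n * c ∧
    |o01 (fun u v => S.probe2 C c a b u v l ω) - c ^ C.n * (sgn C.n * S.resp C b l ω)| ≤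
      B * c ^ C.n * c ∧
    o11 (fun u v => S.probe2 C c a b u v l ω) = c ^ (2 * C.n) * S.jay C c a b l ω ∧
    |o00 (fun u _ => S.probe1 C c a u l ω)| ≤ B * c ∧
    |o10 (fun u _ => S.probe1 C c a u l ω) - c ^ C.n * (sgn C.n * S.resp C a l ω)| ≤
      B * c ^ C.n * c

theorem parts (n R : ℕ) : ∃ B c₀ : ℝ, 0 ≤ B ∧ 0 < c₀ ∧ c₀ ≤ 1 ∧ (n : ℝ) * c₀ ≤ 1 / 2 ∧
    ∀ (Ω : Type) [MeasurableSpace Ω] (S : Sys Ω), S.Good → S.R = R → S.x = gridExp R →
    ∀ C : Cons, C.n = n → C.Ok R → ∀ c, 0 < c → c ≤ c₀ → ∀ a b, Obs S a → Obs S b →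
    ∀ l, 1 ≤ l → l ≤ R → l < C.first R → ∀ ω, Parts B S C c a b l ω := by
  obtain ⟨K1, c1, hc1, h1⟩ := beta_resp n R
  obtain ⟨K2, c2, hc2, h2⟩ := jay_bound n R
  set c₀ := min (min c1 c2) (1 / (2 * ((n : ℝ) + 1))) with hc0
  set E : ℝ := Nat.factorial n * R * n * (Real.exp 2 * (4 * n))
  have hE : 0 ≤ E := by positivity
  set B : ℝ := |K1| + |K2| + E + Nat.factorial n + 4 * n with hB
  have hk : 1 / (2 * ((n : ℝ) + 1)) ≤ 1 :=
    (div_le_one (by positivity)).2 (by linarith [Nat.cast_nonneg (α := ℝ) n])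
  have hnk : (n : ℝ) * (1 / (2 * ((n : ℝ) + 1))) ≤ 1 / 2 := by
    rw [mul_one_div, div_le_iff₀ (by positivity)]; linarith
  refine ⟨B, c₀, by positivity, lt_min (lt_min hc1 hc2) (by positivity),
    (min_le_right _ _).trans hk,
    (mul_le_mul_of_nonneg_left (min_le_right _ _) (Nat.cast_nonneg n)).trans hnk, ?_⟩
  intro Ω _ S hS hR hx C hn hok c hc hcc a b ha hb l l1 lR lf ω
  have hcn : (n : ℝ) * c ≤ 1 / 2 := (mul_le_mul_of_nonneg_left (hcc.trans (min_le_right _ _))
    (Nat.cast_nonneg n)).trans hnk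
  have hfit : Fit S C c := ⟨hS, hR ▸ hok, hc.le, hn ▸ hcn⟩
  subst hR
  subst hn
  have hE1 : E = Nat.factorial C.n * S.R * C.n * (Real.exp 2 * (4 * C.n)) := rfl
  have hc1' : c ≤ c1 := hcc.trans ((min_le_left _ _).trans (min_le_left _ _))
  have hc2' : c ≤ c2 := hcc.trans ((min_le_left _ _).trans (min_le_right _ _))
  set r := c ^ C.n with hr
  have hr0 : 0 < r := pow_pos hc _
  -- the increment of a probe next to another one
  have key : ∀ a b, Obs S a → Obs S b → ∀ e : Bool,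
      |(S.probe2 C c b a e true l ω - S.probe2 C c b a e false l ω) / 2 -
        r * (sgn C.n * S.resp C a l ω)| ≤ (|K1| + E) * r * c := by
    intro a b ha hb e
    set P := S.prod (signSys S.R S.x (Slot C.n))
    have hP : P.Good := sysY_good hS
    have hV := g1_bdd hfit hb e
    have hdV := g1_dep hfit hb e
    set a' : (ℕ → Ω × Slot C.n) → ℝ := fun v => a fun i => (v i).1
    have ha' : Obs P a' := ⟨bdd_fst ha.1,
      fun p p' h => ha.2.1 _ _ fun i i1 i2 => congrArg Prod.fst (h i i1 i2), fun p => ha.2.2 _⟩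
    set w : ℕ → Ω × Slot C.n := fun i => (ω i, fun _ => false)
    have q1 := h1 _ (P.add (g1 C c b e)) (Sys.add_good hP hV hdV) rfl hx C rfl hok c hc hc1' a' ha'
      l l1 lR lf w
    have hε : ∀ v : ℕ → Ω × Slot C.n, |g1 C c b e v| ≤ 2 * C.n * c := fun v =>
      (abs_gl C hc.le hfit.small e (hb.2.2 _) _)
    have q2 := resp_add_le hP C hV hdV ha' hε l1 (show l ≤ P.R from lR) w
    rw [resp_fst hS C ha.1 l w] at q2
    have hexp : Real.exp (2 * (2 * C.n * c)) - 1 ≤ Real.exp 2 * (4 * C.n) * c := by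
      have h2n : |2 * (2 * C.n * c)| ≤ (2 : ℝ) := by
        rw [abs_of_nonneg (by positivity)]; linarith
      refine (le_abs_self _).trans ((abs_exp_sub_one h2n).trans_eq ?_)
      rw [abs_of_nonneg (by positivity)]; ring
    have q3 : |(P.add (g1 C c b e)).resp C a' l w - S.resp C a l ω| ≤ E * c := by
      refine q2.trans ?_
      rw [hE1]
      exact (mul_le_mul_of_nonneg_left hexp (by positivity)).trans_eq (by rw [show P.R = S.R from rfl]; ring)
    have eβ : (P.add (g1 C c b e)).beta C c a' l w * r =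
        (S.probe2 C c b a e true l ω - S.probe2 C c b a e false l ω) / 2 := by
      unfold Sys.beta
      rw [probe1_g1 hfit ha hb lf lR, probe1_g1 hfit ha hb lf lR]
      simp only [w, r]
      field_simp
      ring
    have q4 : |sgn C.n * (P.add (g1 C c b e)).resp C a' l w - sgn C.n * S.resp C a l ω| ≤ E * c := by
      rw [← mul_sub, abs_mul, abs_sgn, one_mul]; exact q3
    have q5 := (abs_sub_le _ _ _).trans
      (add_le_add (q1.trans (mul_le_mul_of_nonneg_right (le_abs_self K1) hc.le)) q4)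
    rw [← eβ, mul_comm _ r, ← mul_sub, abs_mul, abs_of_pos hr0]
    calc r * |_| ≤ r * (|K1| * c + E * c) := mul_le_mul_of_nonneg_left q5 hr0.le
      _ = _ := by ring
  have hKB : |K1| + E ≤ B := by
    rw [hB]
    linarith [abs_nonneg K2, Nat.cast_nonneg (α := ℝ) C.n,
      Nat.cast_nonneg (α := ℝ) (Nat.factorial C.n)]
  have hfB : (Nat.factorial C.n : ℝ) ≤ B := by
    rw [hB]; linarith [abs_nonneg K1, abs_nonneg K2, Nat.cast_nonneg (α := ℝ) C.n]
  have h4B : 4 * (C.n : ℝ) ≤ B := by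
    rw [hB]; linarith [abs_nonneg K1, abs_nonneg K2, Nat.cast_nonneg (α := ℝ) (Nat.factorial C.n)]
  have hrc : 0 ≤ r * c := (mul_pos hr0 hc).le
  refine ⟨(Sys.resp_abs_le hS hok ha l1 lR ω).trans hfB,
    (Sys.resp_abs_le hS hok hb l1 lR ω).trans hfB, ?_, ?_, ?_, ?_, ?_, ?_, ?_⟩
  · refine ((h2 Ω S hS rfl hx C rfl hok c hc hc2' a b ha hb l l1 lR lf ω).1).trans ?_
    rw [hB]
    linarith [abs_nonneg K1, le_abs_self K2, Nat.cast_nonneg (α := ℝ) C.n,
      Nat.cast_nonneg (α := ℝ) (Nat.factorial C.n)]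
  · have q : ∀ u v, |S.probe2 C c a b u v l ω| ≤ B * c := fun u v =>
      (probe2_abs hfit ha hb lR u v ω).trans (by
        exact mul_le_mul_of_nonneg_right h4B hc.le)
    have a1 := abs_le.1 (q true true); have a2 := abs_le.1 (q true false)
    have a3 := abs_le.1 (q false true); have a4 := abs_le.1 (q false false)
    simp only [o00]
    rw [abs_le]; constructor <;> linarith
  · have sw := probe2_swap hfit ha hb lf lR
    have p := abs_le.1 (key a b ha hb true); have q := abs_le.1 (key a b ha hb false)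
    simp only [o10, sw]
    have := mul_le_mul_of_nonneg_right hKB hrc
    rw [abs_le]; constructor <;> linarith
  · have sw := probe2_swap hfit hb ha lf lR
    have p := abs_le.1 (key b a hb ha true); have q := abs_le.1 (key b a hb ha false)
    simp only [o01]
    have := mul_le_mul_of_nonneg_right hKB hrc
    rw [abs_le]; constructor <;> linarith
  · simp only [o11, Sys.jay]
    field_simp
  · have q : ∀ u, |S.probe1 C c a u l ω| ≤ B * c := fun u =>
      (probe1_abs hfit ha u ω).trans (by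
        exact mul_le_mul_of_nonneg_right (by linarith) hc.le)
    have a1 := abs_le.1 (q true); have a2 := abs_le.1 (q false)
    simp only [o00]
    rw [abs_le]; constructor <;> linarith
  · have q1 := (h1 Ω S hS rfl hx C rfl hok c hc hc1' a ha l l1 lR lf ω).trans
      (mul_le_mul_of_nonneg_right (le_abs_self K1) hc.le)
    have e : o10 (fun u _ => S.probe1 C c a u l ω) = S.beta C c a l ω * r := by
      simp only [o10, Sys.beta, r]; field_simp; ring
    rw [e, mul_comm _ r, ← mul_sub, abs_mul, abs_of_pos hr0]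
    calc r * |_| ≤ r * (|K1| * c) := mul_le_mul_of_nonneg_left q1 hr0.le
      _ ≤ r * (B * c) := mul_le_mul_of_nonneg_left
          (mul_le_mul_of_nonneg_right (by linarith) hc.le) hr0.le
      _ = _ := by ring

/-! ### One step -/

lemma nr_neg {c K r a a' : ℝ} (h : Nr c K r a a') : Nr c K r (-a) (-a') :=
  ⟨by rw [show -a - -a' = -(a - a') by ring, abs_neg]; exact h.1, by rw [abs_neg]; exact h.2⟩

lemma nr_sub {c K L r a a' b b' : ℝ} (ha : Nr c K r a a') (hb : Nr c L r b b') :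
    Nr c (K + L) r (a - b) (a' - b') := by
  simpa [sub_eq_add_neg] using ha.add (nr_neg hb)

lemma nr_inv {c K z : ℝ} (hc : 0 ≤ c) (hKc : K * c ≤ 1 / 2) (h : Nr c K 1 z 1) :
    Nr c (2 * K) 1 z⁻¹ 1 := by
  obtain ⟨h1, h2⟩ := h
  rw [mul_one] at h1
  simp only [abs_one, mul_one] at h2
  have hz : 1 / 2 ≤ z := by linarith [(abs_le.1 h1).1]
  refine ⟨?_, by rw [abs_one]; linarith⟩
  rw [show z⁻¹ - 1 = (1 - z) / z by field_simp, abs_div, abs_sub_comm,
    abs_of_pos (show 0 < z by linarith), div_le_iff₀ (by linarith), mul_one]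
  have := mul_le_mul_of_nonneg_left hz (show 0 ≤ K * c by positivity)
  linarith

lemma A_sub (hS : S.Good) {f g : (ℕ → Ω) → ℝ} (hf : Bdd f) (hg : Bdd g) (l : ℕ) (ω : ℕ → Ω) :
    S.A l (fun v => f v - g v) ω = S.A l f ω - S.A l g ω := by
  have h := Sys.A_add hS hf (hg.const_mul (-1)) l ω
  rw [Sys.A_const_mul hS] at h
  simpa [sub_eq_add_neg] using h

lemma nr_A (hS : S.Good) {c K r : ℝ} {f g : (ℕ → Ω) → ℝ} (hf : Bdd f) (hg : Bdd g)
    (h : ∀ v, Nr c K r (f v) (g v)) (l : ℕ) (ω : ℕ → Ω) : Nr c K r (S.A l f ω) (S.A l g ω) := by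
  refine ⟨?_, Sys.A_abs_le hS.reg hg (fun v => (h v).2) l ω⟩
  rw [← A_sub hS hf hg]
  exact Sys.A_abs_le hS.reg (hf.sub hg) (fun v => (h v).1) l ω

lemma A_half (hS : S.Good) {f g : (ℕ → Ω) → ℝ} (hf : Bdd f) (hg : Bdd g) (l : ℕ) (ω : ℕ → Ω) :
    S.A l (fun v => (f v + g v) / 2) ω = (S.A l f ω + S.A l g ω) / 2 := by
  rw [show (fun v => (f v + g v) / 2) = fun v => 1 / 2 * (f v + g v) from funext fun v => by ring,
    Sys.A_const_mul hS, Sys.A_add hS hf hg]
  ring

/-- A signed average of four functions commutes with a step. -/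
lemma A_comb (hS : S.Good) {F : Bool → Bool → (ℕ → Ω) → ℝ} (hF : ∀ u v, Bdd (F u v))
    (k₁ k₂ k₃ k₄ : ℝ) (l : ℕ) (ω : ℕ → Ω) :
    S.A l (fun w => k₁ * F true true w + k₂ * F true false w + k₃ * F false true w +
        k₄ * F false false w) ω =
      k₁ * S.A l (F true true) ω + k₂ * S.A l (F true false) ω + k₃ * S.A l (F false true) ω +
        k₄ * S.A l (F false false) ω := by
  rw [Sys.A_add hS ((((hF _ _).const_mul k₁).add ((hF _ _).const_mul k₂)).add
      ((hF _ _).const_mul k₃)) ((hF _ _).const_mul k₄),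
    Sys.A_add hS (((hF _ _).const_mul k₁).add ((hF _ _).const_mul k₂)) ((hF _ _).const_mul k₃),
    Sys.A_add hS ((hF _ _).const_mul k₁) ((hF _ _).const_mul k₂)]
  simp only [Sys.A_const_mul hS]

/-- The parts commute with a step. -/
lemma A_parts (hS : S.Good) {F : Bool → Bool → (ℕ → Ω) → ℝ} (hF : ∀ u v, Bdd (F u v))
    (l : ℕ) (ω : ℕ → Ω) :
    o00 (fun u v => S.A l (F u v) ω) = S.A l (fun w => o00 fun u v => F u v w) ω ∧
      o10 (fun u v => S.A l (F u v) ω) = S.A l (fun w => o10 fun u v => F u v w) ω ∧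
      o01 (fun u v => S.A l (F u v) ω) = S.A l (fun w => o01 fun u v => F u v w) ω ∧
      o11 (fun u v => S.A l (F u v) ω) = S.A l (fun w => o11 fun u v => F u v w) ω := by
  refine ⟨?_, ?_, ?_, ?_⟩
  · rw [show (fun w => o00 fun u v => F u v w) = fun w => 1 / 4 * F true true w +
        1 / 4 * F true false w + 1 / 4 * F false true w + 1 / 4 * F false false w from
        funext fun w => by simp only [o00]; ring, A_comb hS hF]
    simp only [o00]; ring
  · rw [show (fun w => o10 fun u v => F u v w) = fun w => 1 / 4 * F true true w +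
        1 / 4 * F true false w + -1 / 4 * F false true w + -1 / 4 * F false false w from
        funext fun w => by simp only [o10]; ring, A_comb hS hF]
    simp only [o10]; ring
  · rw [show (fun w => o01 fun u v => F u v w) = fun w => 1 / 4 * F true true w +
        -1 / 4 * F true false w + 1 / 4 * F false true w + -1 / 4 * F false false w from
        funext fun w => by simp only [o01]; ring, A_comb hS hF]
    simp only [o01]; ring
  · rw [show (fun w => o11 fun u v => F u v w) = fun w => 1 / 4 * F true true w +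
        -1 / 4 * F true false w + -1 / 4 * F false true w + 1 / 4 * F false false w from
        funext fun w => by simp only [o11]; ring, A_comb hS hF]
    simp only [o11]; ring

lemma bdd_parts {F : Bool → Bool → (ℕ → Ω) → ℝ} (hF : ∀ u v, Bdd (F u v)) :
    Bdd (fun w => o00 fun u v => F u v w) ∧ Bdd (fun w => o10 fun u v => F u v w) ∧
      Bdd (fun w => o01 fun u v => F u v w) ∧ Bdd (fun w => o11 fun u v => F u v w) := by
  have h : ∀ k₁ k₂ k₃ k₄ : ℝ, Bdd fun w => k₁ * F true true w + k₂ * F true false w +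
      k₃ * F false true w + k₄ * F false false w := fun k₁ k₂ k₃ k₄ =>
    ((((hF _ _).const_mul k₁).add ((hF _ _).const_mul k₂)).add ((hF _ _).const_mul k₃)).add
      ((hF _ _).const_mul k₄)
  refine ⟨?_, ?_, ?_, ?_⟩
  · convert h (1/4) (1/4) (1/4) (1/4) using 1
    funext w; simp only [o00]; ring
  · convert h (1/4) (1/4) (-1/4) (-1/4) using 1
    funext w; simp only [o10]; ring
  · convert h (1/4) (-1/4) (1/4) (-1/4) using 1
    funext w; simp only [o01]; ring
  · convert h (1/4) (-1/4) (-1/4) (1/4) using 1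
    funext w; simp only [o11]; ring

variable {C : Cons} {c : ℝ} {a b : (ℕ → Ω) → ℝ}

lemma bdd_pad {Y : Type} [MeasurableSpace Y] (y : Y) {f : (ℕ → Ω × Y) → ℝ} (hf : Bdd f) :
    Bdd fun ω : ℕ → Ω => f fun i => (ω i, y) :=
  hf.comp (T := fun ω : ℕ → Ω => fun i => (ω i, y))
    (measurable_pi_lambda _ fun i => (measurable_pi_apply i).prodMk measurable_const)

lemma probe1_bdd (hf : Fit S C c) (ha : Obs S a) (η : Bool) (l : ℕ) :
    Bdd (S.probe1 C c a η l) :=
  bdd_pad (fun _ => false) (Sys.val_bdd (sysY_good hf.good) (g1_bdd hf ha η) _ _)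

lemma probe2_bdd (hf : Fit S C c) (ha : Obs S a) (hb : Obs S b) (η η' : Bool) (l : ℕ) :
    Bdd (S.probe2 C c a b η η' l) :=
  bdd_pad ((fun _ => false), fun _ => false)
    (Sys.val_bdd (sysY_good hf.good) (g2_bdd hf ha hb η η') _ _)

lemma jay_bdd (hf : Fit S C c) (ha : Obs S a) (hb : Obs S b) (l : ℕ) :
    Bdd (S.jay C c a b l) := by
  have h := fun u v => probe2_bdd hf ha hb u v l
  convert (((h true true).sub (h true false)).sub (h false true)).add (h false false)
    |>.const_mul (1 / (4 * c ^ (2 * C.n))) using 1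
  funext w; simp only [Sys.jay]; ring

/-- Two probes at a node, from the next step. -/
lemma probe2_step (hf : Fit S C c) (ha : Obs S a) (hb : Obs S b) {m : ℕ} (hm : m < S.R)
    (hm' : m + 1 < C.first S.R) (u v : Bool) (ω : ℕ → Ω) :
    S.probe2 C c a b u v m ω = (S.x (m + 1))⁻¹ *
      Real.log (S.A m (fun w => Real.exp (S.x (m + 1) * S.probe2 C c a b u v (m + 1) w)) ω) := by
  have e := sysY_A_fst (Y := Slot C.n × Slot C.n) hf.good
    ((probe2_bdd hf ha hb u v (m + 1)).const_mul (S.x (m + 1))).exp m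
    (fun i => (ω i, ((fun _ => false), fun _ => false)))
  rw [← e]
  show (S.prod _).val S.x _ (S.R - m) m _ = _
  rw [show S.R - m = S.R - (m + 1) + 1 by omega]
  simp only [Sys.val]
  refine congrArg (fun f => (S.x (m + 1))⁻¹ * Real.log f) (congrArg (fun f => Sys.A _ m f _) ?_)
  funext w
  exact congrArg (fun t => Real.exp (S.x (m + 1) * t))
    (probe2_node (a := a) (b := b) hf hm' (by omega) u v w)

/-- A step of a raised system. -/
lemma A_tilt (hS : S.Good) {V : (ℕ → Ω) → ℝ} (hV : Bdd V) {l : ℕ} (hl : l < S.R)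
    (f : (ℕ → Ω) → ℝ) (ω : ℕ → Ω) :
    (S.add V).A l f ω =
      S.A l (fun v => Real.exp (S.x (l + 1) * S.val S.x V (S.R - (l + 1)) (l + 1) v) * f v) ω /
        S.A l (fun v => Real.exp (S.x (l + 1) * S.val S.x V (S.R - (l + 1)) (l + 1) v)) ω := by
  have hx := hS.x_pos (l + 1) (by omega) (by omega)
  have e : ∀ v, (S.add V).u (l + 1) v - S.u (l + 1) v = S.val S.x V (S.R - (l + 1)) (l + 1) v :=
    fun v => Sys.val_add_pot hS hV (by omega) v
  have h1 := Sys.A_add_pot hS.reg hV hl hx f ω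
  have h2 := Sys.A_add_pot hS.reg hV hl hx (fun _ => 1) ω
  rw [Sys.A_const' (hS.reg.add hV)] at h2
  simp only [e, mul_one] at h1 h2
  rw [h1]
  have hne : S.A l (fun v => Real.exp (S.x (l + 1) * S.val S.x V (S.R - (l + 1)) (l + 1) v)) ω ≠ 0 := by
    intro h0; rw [h0, mul_zero] at h2; exact one_ne_zero h2
  rw [eq_div_iff hne, mul_right_comm, ← h2, one_mul]

/-- The two sides of the recursion of the mixed part. -/
def Core (K : ℝ) (S : Sys Ω) (C : Cons) (c : ℝ) (a b : (ℕ → Ω) → ℝ) (m : ℕ) (ω : ℕ → Ω) : Prop :=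
  let E := fun (u v : Bool) (w : ℕ → Ω) =>
    Real.exp (S.x (m + 1) * S.probe2 C c a b u v (m + 1) w)
  let Z := fun u v => S.A m (E u v) ω
  let D := o11 Z * (o00 Z)⁻¹ - o10 Z * (o00 Z)⁻¹ * (o01 Z * (o00 Z)⁻¹)
  |D - c ^ (2 * C.n) * S.x (m + 1) * (S.A m (S.jay C c a b (m + 1)) ω +
      S.x (m + 1) * S.cov m (m + 1) (S.resp C a (m + 1)) (S.resp C b (m + 1)) ω)| ≤
      K * c ^ (2 * C.n) * c ∧
    |D - S.x (m + 1) * c ^ (2 * C.n) * S.jay C c a b m ω| ≤ K * c ^ (2 * C.n) * c

lemma cov_step (S : Sys Ω) (m : ℕ) (f g : (ℕ → Ω) → ℝ) (ω : ℕ → Ω) :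
    S.cov m (m + 1) f g ω = S.A m (fun v => f v * g v) ω - S.A m f ω * S.A m g ω := by
  simp [Sys.cov, Sys.cond, Sys.down]

lemma resp_Bdd (hf : Fit S C c) (ha : Obs S a) {l : ℕ} (h1 : 1 ≤ l) (hl : l ≤ S.R) :
    Bdd (S.resp C a l) := (Sys.resp_bdd hf.good hf.ok ha h1 hl).1

lemma gridExp_mem {R l : ℕ} (h1 : 1 ≤ l) (hl : l ≤ R) :
    0 < gridExp R l ∧ gridExp R l ≤ 1 ∧ 1 / (R : ℝ) ≤ gridExp R l := by
  have hR : (0 : ℝ) < R := Nat.cast_pos.2 (by omega)
  exact ⟨div_pos (Nat.cast_pos.2 h1) hR, (div_le_one hR).2 (Nat.cast_le.2 hl),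
    div_le_div_of_nonneg_right (by exact_mod_cast h1) hR.le⟩

/-- The constant of the parts of the exponential. -/
noncomputable def stepQ (B : ℝ) : ℝ := nearConst (2 * B) + 30 * (B + 1) ^ 2 + 1

lemma stepQ_facts {B : ℝ} (hB : 0 ≤ B) :
    1 ≤ stepQ B ∧ nearConst (2 * B) ≤ stepQ B ∧ nearConst (2 * B) + 3 * B ≤ stepQ B ∧
      nearConst (2 * B) + (3 * B + 3 * 3 * (3 * B * B)) ≤ stepQ B := by
  have h0 := nearConst_nonneg (2 * B)
  have h2 : (B + 1) ^ 2 = B * B + 2 * B + 1 := by ring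
  have h3 : 0 ≤ B * B := mul_nonneg hB hB
  unfold stepQ
  rw [h2]
  exact ⟨by linarith, by linarith, by linarith, by linarith⟩

lemma nr_trans {c K L w y y' z : ℝ} (_hc : 0 ≤ c) (hw : 0 ≤ w) (hK : 0 ≤ K)
    (h1 : |y - y'| ≤ K * (w * c)) (h2 : Nr c L w y' z) : Nr c (K + L) w y z := by
  refine ⟨?_, h2.2.trans (mul_le_mul_of_nonneg_right (by linarith) hw)⟩
  exact ((abs_sub_le y y' z).trans (add_le_add h1 h2.1)).trans_eq (by ring)

/-- The parts of the exponential of two probes. -/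
lemma step_point {B x s r G H j : ℝ} {n : ℕ} (hn : 1 ≤ n) (hB : 0 ≤ B) (hc0 : 0 ≤ c) (hc1 : c ≤ 1)
    (x0 : 0 ≤ x) (x1 : x ≤ 1) (hs : s * s = 1) (hs1 : |s| = 1) (hr : r = c ^ n)
    {f : Bool → Bool → ℝ} (hG : |G| ≤ B) (hH : |H| ≤ B) (hj : |j| ≤ B) (h0 : |o00 f| ≤ B * c)
    (h1 : |o10 f - r * (s * G)| ≤ B * r * c) (h2 : |o01 f - r * (s * H)| ≤ B * r * c)
    (h3 : o11 f = r * r * j) :
    Nr c (stepQ B) 1 (o00 fun u v => Real.exp (x * f u v)) 1 ∧
      Nr c (stepQ B) r (o10 fun u v => Real.exp (x * f u v)) (x * r * s * G) ∧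
      Nr c (stepQ B) r (o01 fun u v => Real.exp (x * f u v)) (x * r * s * H) ∧
      Nr c (stepQ B) (r * r) (o11 fun u v => Real.exp (x * f u v))
        (r * r * x * j + r * r * x ^ 2 * (G * H)) := by
  obtain ⟨q1, q2, q3, q4⟩ := stepQ_facts hB
  have hr0 : 0 ≤ r := hr ▸ pow_nonneg hc0 n
  have hrr : r * r = c ^ (2 * n) := by rw [hr, two_mul, pow_add]
  have hrr0 : 0 ≤ r * r := mul_nonneg hr0 hr0
  have n10 : Nr c B r (o10 f) (r * (s * G)) := ⟨h1, by
    rw [abs_mul, abs_mul, hs1, one_mul, abs_of_nonneg hr0, mul_comm B]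
    exact mul_le_mul_of_nonneg_left hG hr0⟩
  have n01 : Nr c B r (o01 f) (r * (s * H)) := ⟨h2, by
    rw [abs_mul, abs_mul, hs1, one_mul, abs_of_nonneg hr0, mul_comm B]
    exact mul_le_mul_of_nonneg_left hH hr0⟩
  have big : ∀ {y y' : ℝ}, Nr c B r y y' → |y| ≤ 2 * B * r := fun {y y'} h => by
    have := abs_le.1 h.1; have := abs_le.1 h.2
    have := mul_le_of_le_one_right (mul_nonneg hB hr0) hc1
    rw [abs_le]; constructor <;> linarith
  have n11 : Nr c B (r * r) (o11 f) (r * r * j) := by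
    rw [h3]
    refine ⟨by rw [sub_self, abs_zero]; positivity, ?_⟩
    rw [abs_mul, abs_of_nonneg hrr0, mul_comm B]
    exact mul_le_mul_of_nonneg_left hj hrr0
  have d2 : |o11 f| ≤ 2 * B * c ^ (2 * n) := by
    rw [h3, abs_mul, abs_of_nonneg hrr0, hrr, mul_comm]
    exact mul_le_mul_of_nonneg_right (by linarith) (pow_nonneg hc0 _)
  obtain ⟨e0, e1, e2, e3⟩ := exp_near (x := x) hn (by linarith) (by rwa [abs_of_nonneg x0]) hc0 hc1
    (h0.trans (mul_le_mul_of_nonneg_right (by linarith) hc0)) (hr ▸ big n10) (hr ▸ big n01) d2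
  rw [pow_succ c, ← hr] at e1 e2
  rw [pow_succ c, ← hrr, pow_two x] at e3
  have nx : Nr c 1 1 x x := ⟨by simp [hc0], by simpa [abs_of_nonneg x0] using x1⟩
  have nxx : Nr c 3 1 (x * x) (x * x) := by simpa using nx.mul hc0 hc1 nx
  have m10 : Nr c (3 * B) r (x * o10 f) (x * (r * (s * G))) := by simpa using nx.mul hc0 hc1 n10
  have m01 : Nr c (3 * B) r (x * o01 f) (x * (r * (s * H))) := by simpa using nx.mul hc0 hc1 n01
  have m1 : Nr c (3 * B) (r * r) (x * o11 f) (x * (r * r * j)) := by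
    simpa using nx.mul hc0 hc1 n11
  have m2 : Nr c (3 * 3 * (3 * B * B)) (r * r) (x * x * (o10 f * o01 f))
      (x * x * (r * (s * G) * (r * (s * H)))) := by
    simpa using nxx.mul hc0 hc1 (n10.mul hc0 hc1 n01)
  have hk := nearConst_nonneg (2 * B)
  have eG : x * r * s * G = x * (r * (s * G)) := by ring
  have eH : x * r * s * H = x * (r * (s * H)) := by ring
  have eJ : r * r * x * j + r * r * x ^ 2 * (G * H) =
      x * (r * r * j) + x * x * (r * (s * G) * (r * (s * H))) := by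
    linear_combination (-(x * x * r * r * G * H)) * hs
  rw [eG, eH, eJ]
  refine ⟨⟨?_, by rwa [abs_one, mul_one]⟩, (nr_trans hc0 hr0 hk e1 m10).mono hc0 hr0 q3,
    (nr_trans hc0 hr0 hk e2 m01).mono hc0 hr0 q3,
    (nr_trans hc0 hrr0 hk e3 (m1.add m2)).mono hc0 hrr0 q4⟩
  rw [mul_one]
  exact e0.trans (mul_le_mul_of_nonneg_right q2 hc0)

theorem core (n R : ℕ) : ∃ K c₀ : ℝ, 0 ≤ K ∧ 0 < c₀ ∧ (n : ℝ) * c₀ ≤ 1 / 2 ∧
    ∀ (Ω : Type) [MeasurableSpace Ω] (S : Sys Ω), S.Good → S.R = R → S.x = gridExp R →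
    ∀ C : Cons, C.n = n → C.Ok R → ∀ c, 0 < c → c ≤ c₀ → ∀ a b, Obs S a → Obs S b →
    ∀ m, 1 ≤ m → m < R → m + 1 < C.first R → ∀ ω, Core K S C c a b m ω := by
  obtain ⟨B, c1, hB, hc1, hc11, hn1, hp⟩ := parts n R
  -- the constant of the parts of the exponential
  set Q : ℝ := stepQ B with hQ
  have hQ1 : 1 ≤ Q := (stepQ_facts hB).1
  have hQ0 : 0 ≤ Q := by linarith
  set T : ℝ := 3 * Q * (2 * Q) with hT
  set G : ℝ := T + 3 * T * T with hG
  refine ⟨G + 64 * T * G, min c1 (1 / (16 * T)), by positivity,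
    lt_min hc1 (div_pos one_pos (by positivity)),
    (mul_le_mul_of_nonneg_left (min_le_left _ _) (Nat.cast_nonneg n)).trans hn1, ?_⟩
  intro Ω _ S hS hR hx C hn hok c hc hcc a b ha hb m m1 mR mf ω
  have hc1' : c ≤ c1 := hcc.trans (min_le_left _ _)
  have hc' : c ≤ 1 := hc1'.trans hc11
  have hfit : Fit S C c := ⟨hS, hR ▸ hok, hc.le, by
    rw [hn]; exact (mul_le_mul_of_nonneg_left hc1' (Nat.cast_nonneg n)).trans hn1⟩
  have hP := fun v => hp Ω S hS hR hx C hn hok c hc hc1' a b ha hb (m + 1) (by omega) (by omega)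
    mf v
  subst hR
  obtain ⟨x0, x1, -⟩ := gridExp_mem (R := S.R) (l := m + 1) (by omega) (by omega)
  set x := S.x (m + 1) with hxdef
  rw [← hx, ← hxdef] at x0 x1
  set r := c ^ C.n with hr
  set s := sgn C.n
  have hr0 : 0 ≤ r := (pow_pos hc _).le
  have hn0 : 1 ≤ C.n := hok.1
  have hrc : r ≤ c := by simpa using pow_le_pow_of_le_one hc.le hc' hn0
  have hrr : r * r = c ^ (2 * C.n) := by rw [hr, two_mul, pow_add]
  set E := fun (u v : Bool) (w : ℕ → Ω) => Real.exp (x * S.probe2 C c a b u v (m + 1) w) with hE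
  have hEb : ∀ u v, Bdd (E u v) := fun u v =>
    ((probe2_bdd hfit ha hb u v (m + 1)).const_mul x).exp
  obtain ⟨b0, b1, b2, b3⟩ := bdd_parts hEb
  set Ga := S.resp C a (m + 1) with hGa
  set Gb := S.resp C b (m + 1) with hGb
  set j := S.jay C c a b (m + 1) with hj
  have bGa : Bdd Ga := resp_Bdd hfit ha (by omega) (by omega)
  have bGb : Bdd Gb := resp_Bdd hfit hb (by omega) (by omega)
  have bj : Bdd j := jay_bdd hfit ha hb _
  -- pointwise
  have pt : ∀ w, Nr c Q 1 (o00 fun u v => E u v w) 1 ∧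
      Nr c Q r (o10 fun u v => E u v w) (x * r * s * Ga w) ∧
      Nr c Q r (o01 fun u v => E u v w) (x * r * s * Gb w) ∧
      Nr c Q (r * r) (o11 fun u v => E u v w)
        (r * r * x * j w + r * r * x ^ 2 * (Ga w * Gb w)) := by
    intro w
    obtain ⟨p1, p2, p3, p4, p5, p6, p7, -, -⟩ := hP w
    rw [← hr] at p5 p6
    rw [← hrr] at p7
    exact step_point (n := C.n) hn0 hB hc.le hc' x0.le x1 (sgn_sq _) (abs_sgn _) hr p1 p2 p3 p4 p5 p6 p7
  -- one step
  set Z := fun u v => S.A m (E u v) ω with hZ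
  obtain ⟨z0, z1, z2, z3⟩ := A_parts hS hEb m ω
  have n0 := nr_A hS b0 (bdd_const 1) (fun w => (pt w).1) m ω
  have n1 := nr_A hS b1 (bGa.const_mul (x * r * s)) (fun w => (pt w).2.1) m ω
  have n2 := nr_A hS b2 (bGb.const_mul (x * r * s)) (fun w => (pt w).2.2.1) m ω
  have n3 := nr_A hS b3 ((bj.const_mul (r * r * x)).add ((bGa.mul bGb).const_mul (r * r * x ^ 2)))
    (fun w => (pt w).2.2.2) m ω
  rw [Sys.A_const hS] at n0
  rw [Sys.A_const_mul hS] at n1 n2
  rw [Sys.A_add hS (bj.const_mul _) ((bGa.mul bGb).const_mul _), Sys.A_const_mul hS,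
    Sys.A_const_mul hS] at n3
  rw [← z0] at n0
  rw [← z1] at n1
  rw [← z2] at n2
  rw [← z3] at n3
  have hT1 : 1 ≤ T := by rw [hT]; nlinarith
  have hTc : T * c ≤ 1 / 16 := by
    have := mul_le_mul_of_nonneg_left (hcc.trans (min_le_right _ _)) (show 0 ≤ T by linarith)
    rwa [mul_one_div, mul_comm 16 T, ← div_div, div_self (by linarith : T ≠ 0)] at this
  have hQT : Q ≤ T := by rw [hT]; nlinarith
  have ni := nr_inv hc.le (by
    have := mul_le_mul_of_nonneg_right hQT hc.le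
    linarith) n0
  have w1 := n1.mul hc.le hc' ni
  have w2 := n2.mul hc.le hc' ni
  have w3 := n3.mul hc.le hc' ni
  simp only [mul_one] at w1 w2 w3
  rw [← hT] at w1 w2 w3
  have nD := nr_sub w3 (w1.mul hc.le hc' w2)
  rw [← hG] at nD
  set D := o11 Z * (o00 Z)⁻¹ - o10 Z * (o00 Z)⁻¹ * (o01 Z * (o00 Z)⁻¹) with hD
  have eL : r * r * x * S.A m j ω + r * r * x ^ 2 * S.A m (fun v => Ga v * Gb v) ω -
      x * r * s * S.A m Ga ω * (x * r * s * S.A m Gb ω) =
      c ^ (2 * C.n) * x * (S.A m j ω + x * S.cov m (m + 1) Ga Gb ω) := by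
    rw [cov_step, ← hrr]
    linear_combination (-(x * x * r * r * S.A m Ga ω * S.A m Gb ω)) * sgn_sq C.n
  have d1 : |D - c ^ (2 * C.n) * x * (S.A m j ω + x * S.cov m (m + 1) Ga Gb ω)| ≤
      G * c ^ (2 * C.n) * c := by
    rw [← eL, ← hrr]; exact nD.1
  refine ⟨d1.trans (mul_le_mul_of_nonneg_right (mul_le_mul_of_nonneg_right ?_
    (pow_nonneg hc.le _)) hc.le), ?_⟩
  · have : 0 ≤ 64 * T * G := by positivity
    linarith
  -- the logarithm
  have hbig : ∀ {y y' w : ℝ}, Nr c T w y y' → 0 ≤ w → w ≤ c → |y| ≤ 2 * T * c := by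
    intro y y' w h hw hwc
    have := abs_le.1 h.1; have := abs_le.1 h.2
    have := mul_le_of_le_one_right (mul_nonneg (show 0 ≤ T by linarith) hw) hc'
    have := mul_le_mul_of_nonneg_left hwc (show 0 ≤ T by linarith)
    rw [abs_le]; constructor <;> linarith
  have hDa : |D| ≤ 2 * G * c ^ (2 * C.n) := by
    have q1 := abs_le.1 nD.1; have q2 := abs_le.1 nD.2
    have q3 := mul_le_of_le_one_right (show 0 ≤ G * (r * r) by positivity) hc'
    rw [← hrr, abs_le]; constructor <;> linarith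
  have lm := log_mixed (t := 2 * T * c) (hbig w1 hr0 hrc) (hbig w2 hr0 hrc)
    (hbig w3 (mul_nonneg hr0 hr0) ((mul_le_of_le_one_right hr0 (hrc.trans hc')).trans hrc))
    (by linarith)
  rw [← hD] at lm
  have zpos : ∀ u v, 0 < Z u v := fun u v =>
    Sys.A_exp_pos hS ((probe2_bdd hfit ha hb u v (m + 1)).const_mul x) m ω
  have z00 : 0 < o00 Z := by
    have := zpos true true; have := zpos true false
    have := zpos false true; have := zpos false false
    simp only [o00]; linarith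
  set L := fun u v => Real.log (1 + sg u * (o10 Z * (o00 Z)⁻¹) + sg v * (o01 Z * (o00 Z)⁻¹) +
    sg u * sg v * (o11 Z * (o00 Z)⁻¹)) with hL
  have sp : ∀ u v, S.probe2 C c a b u v m ω = x⁻¹ * (Real.log (o00 Z) + L u v) := by
    intro u v
    have e : 1 + sg u * (o10 Z * (o00 Z)⁻¹) + sg v * (o01 Z * (o00 Z)⁻¹) +
        sg u * sg v * (o11 Z * (o00 Z)⁻¹) = Z u v * (o00 Z)⁻¹ := by
      conv_rhs => rw [expand Z u v]
      field_simp
    rw [probe2_step hfit ha hb mR mf, hL]
    simp only [e]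
    rw [Real.log_mul (zpos u v).ne' (inv_ne_zero z00.ne'), Real.log_inv]
    simp only [Z, E]
    ring
  have hjm : x * c ^ (2 * C.n) * S.jay C c a b m ω = o11 L := by
    simp only [Sys.jay, sp, o11]
    field_simp
    ring
  rw [hjm, abs_sub_comm]
  refine lm.trans ?_
  calc 8 * (2 * T * c) * |D| ≤ 8 * (2 * T * c) * (2 * G * c ^ (2 * C.n)) :=
        mul_le_mul_of_nonneg_left hDa (by positivity)
    _ = 32 * T * G * c ^ (2 * C.n) * c := by ring
    _ ≤ _ := by
        refine mul_le_mul_of_nonneg_right (mul_le_mul_of_nonneg_right ?_ (pow_nonneg hc.le _)) hc.le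
        have : 0 ≤ 32 * T * G := by positivity
        have : 0 ≤ G := by positivity
        linarith

end Vale.Agent.P168.Probe

namespace Vale.Agent.P168

open MeasureTheory Finset Function

/-- The recursion of the mixed part. -/
theorem jay_step (n R : ℕ) : ∃ K c₀ : ℝ, 0 < c₀ ∧ ∀ (Ω : Type) [MeasurableSpace Ω] (S : Sys Ω),
    S.Good → S.R = R → S.x = gridExp R → ∀ C : Cons, C.n = n → C.Ok R → ∀ c, 0 < c → c ≤ c₀ →
    ∀ a b, Obs S a → Obs S b → ∀ l, 1 ≤ l → l < R → l + 1 < C.first R → ∀ ω,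
      |S.jay C c a b l ω - S.A l (S.jay C c a b (l + 1)) ω -
          S.x (l + 1) * S.cov l (l + 1) (S.resp C a (l + 1)) (S.resp C b (l + 1)) ω| ≤ K * c := by
  obtain ⟨K, c₀, hK, hc₀, -, h⟩ := Probe.core n R
  refine ⟨2 * K * R, c₀, hc₀, fun Ω _ S hS hR hx C hn hok c hc hcc a b ha hb l l1 lR lf ω => ?_⟩
  obtain ⟨h1, h2⟩ := h Ω S hS hR hx C hn hok c hc hcc a b ha hb l l1 lR lf ω
  subst hR
  obtain ⟨x0, -, x2⟩ := Probe.gridExp_mem (R := S.R) (l := l + 1) (by omega) (by omega)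
  rw [← hx] at x0 x2
  have h3 := (abs_sub_le _ _ _).trans (add_le_add ((abs_sub_comm _ _).trans_le h2) h1)
  set x := S.x (l + 1)
  set p := c ^ (2 * C.n)
  have hp : 0 < p := pow_pos hc _
  set Δ := S.jay C c a b l ω - S.A l (S.jay C c a b (l + 1)) ω -
    x * S.cov l (l + 1) (S.resp C a (l + 1)) (S.resp C b (l + 1)) ω with hΔ
  have h4 : x * |Δ| * p ≤ 2 * K * c * p := by
    rw [show x * |Δ| * p = |x * Δ * p| by rw [abs_mul, abs_mul, abs_of_pos x0, abs_of_pos hp]]
    refine le_of_eq_of_le (congrArg abs ?_) (h3.trans_eq (by ring))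
    rw [hΔ]; ring
  have h5 := le_of_mul_le_mul_right h4 hp
  have hR : (0 : ℝ) < S.R := Nat.cast_pos.2 (by omega)
  rw [div_le_iff₀ hR] at x2
  calc |Δ| = 1 * |Δ| := (one_mul _).symm
    _ ≤ x * S.R * |Δ| := mul_le_mul_of_nonneg_right x2 (abs_nonneg _)
    _ = x * |Δ| * S.R := by ring
    _ ≤ 2 * K * c * S.R := mul_le_mul_of_nonneg_right h5 hR.le
    _ = _ := by ring

end Vale.Agent.P168

namespace Vale.Agent.P168.Probe

open MeasureTheory Finset Function ProbeCore

variable {Ω : Type} [MeasurableSpace Ω] {S : Sys Ω} {C : Cons} {c : ℝ} {a b : (ℕ → Ω) → ℝ}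

/-- The sign read from step `L`, as an observable. -/
def bit (n L : ℕ) (p : ℕ → Ω × Slot n) : ℝ := spin ((p L).2 none)

/-- Two probe signs read from step `L`. -/
noncomputable def gr2 (C : Cons) (c : ℝ) (a b : (ℕ → Ω) → ℝ) (L : ℕ)
    (p : ℕ → Ω × (Slot C.n × Slot C.n)) : ℝ :=
  gl C c ((p L).2.1 none) (a fun i => (p i).1) (fun i => (p i).2.1) +
    gl C c ((p L).2.2 none) (b fun i => (p i).1) fun i => (p i).2.2

/-- The first of two signs. -/
def bitL (n L : ℕ) (p : ℕ → Ω × (Slot n × Slot n)) : ℝ := spin ((p L).2.1 none)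

/-- The second of two signs. -/
def bitR (n L : ℕ) (p : ℕ → Ω × (Slot n × Slot n)) : ℝ := spin ((p L).2.2 none)

/-! ### Signs read at a node -/

lemma avg_slot (n : ℕ) (g : Bool → ℝ) :
    avg (fun s : Slot n => g (s none)) = (g true + g false) / 2 := by
  rw [← avg_equiv (Equiv.piOptionEquivProd (β := fun _ : Option (Fin n × Fin n) => Bool)).symm
    (fun s : Slot n => g (s none)), avg_prod]
  simp [avg, Equiv.piOptionEquivProd]

lemma avg_slot2 (n : ℕ) (g : Bool → Bool → ℝ) :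
    avg (fun y : Slot n × Slot n => g (y.1 none) (y.2 none)) = o00 g := by
  rw [avg_prod]
  rw [show (fun a : Slot n => avg fun b : Slot n => g (a none) (b none)) =
      fun a : Slot n => (g (a none) true + g (a none) false) / 2 from
    funext fun a => avg_slot n (g (a none))]
  rw [avg_slot n fun u => (g u true + g u false) / 2]
  simp only [o00]
  ring

lemma gr2_bdd (hf : Fit S C c) (ha : Obs S a) (hb : Obs S b) (L : ℕ) : Bdd (gr2 C c a b L) := by
  have h1 : Bdd fun p : ℕ → Ω × (Slot C.n × Slot C.n) =>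
      gl C c ((p L).2.1 none) (a fun i => (p i).1) fun i => (p i).2.1 :=
    bdd_gl (Z := Ω × (Slot C.n × Slot C.n)) C hf.nonneg hf.small (η := fun p => (p L).2.1 none)
      ((measurable_of_finite fun s : Slot C.n => s none).comp (measurable_pi_apply L).snd.fst)
      (σ := fun p => a fun i => (p i).1) (bdd_fst ha.1).1 (fun _ => ha.2.2 _)
      (π := fun z => z.2.1) measurable_snd.fst
  have h2 : Bdd fun p : ℕ → Ω × (Slot C.n × Slot C.n) =>
      gl C c ((p L).2.2 none) (b fun i => (p i).1) fun i => (p i).2.2 :=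
    bdd_gl (Z := Ω × (Slot C.n × Slot C.n)) C hf.nonneg hf.small (η := fun p => (p L).2.2 none)
      ((measurable_of_finite fun s : Slot C.n => s none).comp (measurable_pi_apply L).snd.snd)
      (σ := fun p => b fun i => (p i).1) (bdd_fst hb.1).1 (fun _ => hb.2.2 _)
      (π := fun z => z.2.2) measurable_snd.snd
  exact h1.add h2

/-- A node at the step of the two signs reads them. -/
lemma gr2_node (hf : Fit S C c) {L d : ℕ} (hL : L < C.first S.R) (hd : L + d = S.R)
    (p : ℕ → Ω × (Slot C.n × Slot C.n)) :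
    (S.prod (signSys S.R S.x (Slot C.n × Slot C.n))).val S.x (gr2 C c a b L) d L p =
      S.probe2 C c a b ((p L).2.1 none) ((p L).2.2 none) L (fun i => (p i).1) := by
  rw [← probe2_node hf hL hd]
  refine node_congr hf.good S.x hL hd (fun i => rfl) fun q q' h1 h2 h3 => ?_
  show gl C c _ _ _ + gl C c _ _ _ = gl C c _ _ _ + gl C c _ _ _
  rw [funext h1, (h3 L le_rfl).1]
  exact congrArg₂ (· + ·)
    (gl_congr C c _ _ fun v w hv => congrArg Prod.fst
      (h2 _ (lev_mem hf.ok hv).1 (lev_mem hf.ok hv).2.2))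
    (gl_congr C c _ _ fun v w hv => congrArg Prod.snd
      (h2 _ (lev_mem hf.ok hv).1 (lev_mem hf.ok hv).2.2))

/-- A step of the system tilted by two probes whose signs sit on that step. -/
lemma tilt2 (hf : Fit S C c) (ha : Obs S a) (hb : Obs S b) {m : ℕ} (hm : m < S.R)
    (hm' : m + 1 < C.first S.R) (φ : Bool → Bool → ℝ) (p : ℕ → Ω × (Slot C.n × Slot C.n)) :
    let Z := fun u v => S.A m (fun w => Real.exp (S.x (m + 1) * S.probe2 C c a b u v (m + 1) w))
      (fun i => (p i).1)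
    ((S.prod (signSys S.R S.x (Slot C.n × Slot C.n))).add (gr2 C c a b (m + 1))).A m
        (fun v => φ ((v (m + 1)).2.1 none) ((v (m + 1)).2.2 none)) p =
      o00 (fun u v => φ u v * Z u v) / o00 Z := by
  intro Z
  set P := S.prod (signSys S.R S.x (Slot C.n × Slot C.n)) with hP
  have hbd : ∀ u v, Bdd fun w => Real.exp (S.x (m + 1) * S.probe2 C c a b u v (m + 1) w) :=
    fun u v => ((probe2_bdd hf ha hb u v (m + 1)).const_mul _).exp
  have hw : ∀ v : ℕ → Ω × (Slot C.n × Slot C.n),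
      Real.exp (P.x (m + 1) * P.val P.x (gr2 C c a b (m + 1)) (P.R - (m + 1)) (m + 1) v) =
      Real.exp (S.x (m + 1) * S.probe2 C c a b ((v (m + 1)).2.1 none) ((v (m + 1)).2.2 none)
        (m + 1) (fun i => (v i).1)) := fun v =>
    congrArg (fun t => Real.exp (S.x (m + 1) * t))
      (gr2_node (a := a) (b := b) hf hm' (show m + 1 + (S.R - (m + 1)) = S.R by omega) v)
  have hr : ∀ k : Bool → Bool → ℝ,
      P.A m (fun v => Real.exp (S.x (m + 1) * S.probe2 C c a b ((v (m + 1)).2.1 none)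
        ((v (m + 1)).2.2 none) (m + 1) (fun i => (v i).1)) *
          k ((v (m + 1)).2.1 none) ((v (m + 1)).2.2 none)) p =
      o00 (fun u v => k u v * Z u v) := by
    intro k
    have e := sysY_A_read (Y := Slot C.n × Slot C.n) hf.good
      (F := fun y w => k (y.1 none) (y.2 none) *
        Real.exp (S.x (m + 1) * S.probe2 C c a b (y.1 none) (y.2 none) (m + 1) w))
      (fun y => (hbd _ _).const_mul _) m p
    simp only [Sys.A_const_mul hf.good] at e
    rw [avg_slot2 C.n fun u v => k u v * Z u v] at e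
    rw [← e]
    exact congrArg (fun f => P.A m f p) (funext fun v => mul_comm _ _)
  rw [A_tilt (show P.Good from sysY_good hf.good) (gr2_bdd hf ha hb (m + 1)) (show m < P.R from hm)]
  simp only [hw]
  have h1 := hr fun _ _ => 1
  simp only [mul_one, one_mul] at h1
  rw [hr φ, h1]

/-- A step of the system tilted by one probe whose sign sits on that step. -/
lemma tilt1 (hf : Fit S C c) (hb : Obs S b) {m : ℕ} (hm : m < S.R)
    (hm' : m + 1 < C.first S.R) {H : Bool → (ℕ → Ω) → ℝ} (hH : ∀ u, Bdd (H u))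
    (p : ℕ → Ω × Slot C.n) :
    let W := fun u w => Real.exp (S.x (m + 1) * S.probe1 C c b u (m + 1) w)
    ((S.prod (signSys S.R S.x (Slot C.n))).add (gr C c b (m + 1))).A m
        (fun v => H ((v (m + 1)).2 none) fun i => (v i).1) p =
      S.A m (fun w => (W true w * H true w + W false w * H false w) / 2) (fun i => (p i).1) /
        S.A m (fun w => (W true w + W false w) / 2) (fun i => (p i).1) := by
  intro W
  set P := S.prod (signSys S.R S.x (Slot C.n)) with hP
  have hW : ∀ u, Bdd (W u) := fun u => ((probe1_bdd hf hb u (m + 1)).const_mul _).exp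
  have hw : ∀ v : ℕ → Ω × Slot C.n,
      Real.exp (P.x (m + 1) * P.val P.x (gr C c b (m + 1)) (P.R - (m + 1)) (m + 1) v) =
      W ((v (m + 1)).2 none) (fun i => (v i).1) := fun v =>
    congrArg (fun t => Real.exp (S.x (m + 1) * t))
      (gr_node (a := b) hf hm' (show m + 1 + (S.R - (m + 1)) = S.R by omega) v)
  have hr : ∀ G : Bool → (ℕ → Ω) → ℝ, (∀ u, Bdd (G u)) →
      P.A m (fun v => G ((v (m + 1)).2 none) fun i => (v i).1) p =
      S.A m (fun w => (G true w + G false w) / 2) (fun i => (p i).1) := by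
    intro G hG
    rw [sysY_A_read (Y := Slot C.n) hf.good (F := fun y => G (y none)) (fun y => hG _) m p,
      avg_slot C.n fun u => S.A m (G u) fun i => (p i).1, A_half hf.good (hG _) (hG _)]
  rw [A_tilt (show P.Good from sysY_good hf.good) (gr_bdd hf hb (m + 1)) (show m < P.R from hm)]
  simp only [hw]
  rw [hr (fun u w => W u w * H u w) (fun u => (hW u).mul (hH u)), hr W hW]

lemma jay_swap (hf : Fit S C c) (ha : Obs S a) (hb : Obs S b) {l : ℕ} (hl : l < C.first S.R)
    (hlR : l ≤ S.R) (ω : ℕ → Ω) : S.jay C c a b l ω = S.jay C c b a l ω := by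
  simp only [Sys.jay, probe2_swap hf ha hb hl hlR]
  ring

/-- A probe sign against the scaled odd part of another probe. -/
theorem cov_bit_beta (n R : ℕ) : ∃ K c₀ : ℝ, 0 ≤ K ∧ 0 < c₀ ∧
    ∀ (Ω : Type) [MeasurableSpace Ω] (S : Sys Ω), S.Good → S.R = R → S.x = gridExp R →
    ∀ C : Cons, C.n = n → C.Ok R → ∀ c, 0 < c → c ≤ c₀ → ∀ a b, Obs S a → Obs S b →
    ∀ m, 1 ≤ m → m < R → m + 1 < C.first R → ∀ p : ℕ → Ω × Slot C.n,
      |((S.prod (signSys S.R S.x (Slot C.n))).add (gr C c b (m + 1))).cov m (m + 1)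
          (bit C.n (m + 1))
          (((S.prod (signSys S.R S.x (Slot C.n))).add (gr C c b (m + 1))).beta C c
            (fun v => a fun i => (v i).1) (m + 1)) p -
        c ^ C.n * S.jay C c a b m (fun i => (p i).1)| ≤ K * c ^ C.n * c := by
  obtain ⟨B, c1, hB, hc1, hc11, hn1, hp⟩ := parts n R
  obtain ⟨K2, c2, hc2, hj⟩ := Vale.Agent.P168.jay_step n R
  set Q : ℝ := stepQ B with hQ
  obtain ⟨hQ1, -, hQB, -⟩ := stepQ_facts hB
  rw [← hQ] at hQ1 hQB
  have hQ0 : 0 ≤ Q := by linarith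
  have hBQ : B ≤ Q := by linarith [nearConst_nonneg (2 * B)]
  set L : ℝ := 3 * (3 * Q * Q + 3 * Q * Q) * (2 * Q) +
    3 * (3 * Q * (2 * Q)) * (3 * (3 * Q * Q + 2 * (3 * Q * Q)) * (2 * Q)) with hL
  refine ⟨L + |K2|, min (min c1 c2) (1 / (2 * Q)), by positivity,
    lt_min (lt_min hc1 hc2) (div_pos one_pos (by positivity)), ?_⟩
  intro Ω _ S hS hR hx C hn hok c hc hcc a b ha hb m m1 mR mf p
  have hc1' : c ≤ c1 := hcc.trans ((min_le_left _ _).trans (min_le_left _ _))
  have hc2' : c ≤ c2 := hcc.trans ((min_le_left _ _).trans (min_le_right _ _))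
  have hc' : c ≤ 1 := hc1'.trans hc11
  have hQc : Q * c ≤ 1 / 2 := by
    have := mul_le_mul_of_nonneg_left (hcc.trans (min_le_right _ _)) hQ0
    rwa [mul_one_div, mul_comm 2 Q, ← div_div, div_self (by linarith : Q ≠ 0)] at this
  have hfit : Fit S C c := ⟨hS, hR ▸ hok, hc.le, by
    rw [hn]; exact (mul_le_mul_of_nonneg_left hc1' (Nat.cast_nonneg n)).trans hn1⟩
  have hP := fun v => hp Ω S hS hR hx C hn hok c hc hc1' b a hb ha (m + 1) (by omega) (by omega)
    mf v
  have hJ := hj Ω S hS hR hx C hn hok c hc hc2' b a hb ha m m1 mR mf fun i => (p i).1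
  subst hR
  obtain ⟨x0, x1, -⟩ := gridExp_mem (R := S.R) (l := m + 1) (by omega) (by omega)
  rw [← hx] at x0 x1
  set x := S.x (m + 1)
  set r := c ^ C.n with hr
  set s := sgn C.n
  have hr0 : 0 < r := pow_pos hc _
  have hn0 : 1 ≤ C.n := hok.1
  have hrc : r ≤ c := by simpa using pow_le_pow_of_le_one hc.le hc' hn0
  have hrr : r * r = c ^ (2 * C.n) := by rw [hr, two_mul, pow_add]
  set ω := fun i => (p i).1
  set Ga := S.resp C a (m + 1) with hGa
  set Gb := S.resp C b (m + 1) with hGb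
  set j := S.jay C c b a (m + 1)
  have bGa : Bdd Ga := resp_Bdd hfit ha (by omega) (by omega)
  have bGb : Bdd Gb := resp_Bdd hfit hb (by omega) (by omega)
  have bj : Bdd j := jay_bdd hfit hb ha _
  set W := fun u w => Real.exp (x * S.probe1 C c b u (m + 1) w) with hWdef
  have hW : ∀ u, Bdd (W u) := fun u => ((probe1_bdd hfit hb u (m + 1)).const_mul x).exp
  set W0 := fun w => o00 fun u _ => W u w with hW0
  set W1 := fun w => o10 fun u _ => W u w with hW1
  set b0 := fun w => r⁻¹ * o01 fun u v => S.probe2 C c b a u v (m + 1) w with hb0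
  set b1 := fun w => r * j w with hb1
  obtain ⟨bW0, bW1, -, -⟩ := bdd_parts (F := fun u _ => W u) fun u _ => hW u
  have bb0 : Bdd b0 :=
    (bdd_parts fun u v => probe2_bdd hfit hb ha u v (m + 1)).2.2.1.const_mul r⁻¹
  have bb1 : Bdd b1 := bj.const_mul r
  -- pointwise
  have pt : ∀ w, Nr c Q 1 (W0 w) 1 ∧ Nr c Q r (W1 w) (x * r * s * Gb w) ∧
      Nr c Q 1 (b0 w) (s * Ga w) ∧ Nr c Q r (b1 w) (r * j w) := by
    intro w
    obtain ⟨p1, p2, p3, -, -, p6, -, p8, p9⟩ := hP w
    rw [← hr] at p6 p9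
    obtain ⟨q0, q1, -, -⟩ := step_point (n := C.n) (s := s) (r := r) (H := 0) (j := 0)
      (f := fun u _ => S.probe1 C c b u (m + 1) w) hn0 hB hc.le hc' x0.le x1 (sgn_sq _) (abs_sgn _)
      hr p1 (by simpa using hB) (by simpa using hB) p8 p9
      (by rw [show (o01 fun u _ => S.probe1 C c b u (m + 1) w) = 0 by simp only [o01]; ring,
        mul_zero, mul_zero, sub_zero, abs_zero]; positivity)
      (by simp only [o11]; ring)
    refine ⟨q0, q1, ⟨?_, ?_⟩, ⟨?_, ?_⟩⟩
    · have e : b0 w - s * Ga w =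
          r⁻¹ * ((o01 fun u v => S.probe2 C c b a u v (m + 1) w) - r * (s * Ga w)) := by
        simp only [hb0]; field_simp
      rw [e, abs_mul, abs_inv, abs_of_pos hr0, inv_mul_le_iff₀ hr0]
      exact p6.trans ((mul_le_mul_of_nonneg_right (mul_le_mul_of_nonneg_right hBQ hr0.le)
        hc.le).trans_eq (by ring))
    · rw [abs_mul, abs_sgn, one_mul, mul_one]; exact p2.trans hBQ
    · simp only [hb1, sub_self, abs_zero]; positivity
    · rw [abs_mul, abs_of_pos hr0, mul_comm Q]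
      exact mul_le_mul_of_nonneg_left (p3.trans hBQ) hr0.le
  have m0 : ∀ w, Nr c Q 1 (W0 w) 1 := fun w => (pt w).1
  have m1' : ∀ w, Nr c Q r (W1 w) (x * r * s * Gb w) := fun w => (pt w).2.1
  have m11 : ∀ w, Nr c (3 * Q * Q + 3 * Q * Q) r (W1 w * b0 w + W0 w * b1 w)
      (x * r * (Gb w * Ga w) + r * j w) := fun w => by
    obtain ⟨a0, a1, a2, a3⟩ := pt w
    have h1 := a1.mul hc.le hc' a2
    have h2 := a0.mul hc.le hc' a3
    rw [mul_one] at h1
    rw [one_mul, one_mul] at h2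
    rw [show x * r * (Gb w * Ga w) = x * r * s * Gb w * (s * Ga w) by
      linear_combination (-(x * r * Gb w * Ga w)) * sgn_sq C.n]
    exact h1.add h2
  have m01 : ∀ w, Nr c (3 * Q * Q + 2 * (3 * Q * Q)) 1 (W0 w * b0 w + W1 w * b1 w) (s * Ga w) :=
    fun w => by
    obtain ⟨a0, a1, a2, a3⟩ := pt w
    have h1 := a0.mul hc.le hc' a2
    have h2 := (a1.mul hc.le hc' a3).small hc.le hc' (by positivity) zero_le_one (by
      rw [one_mul]; exact (mul_le_of_le_one_right hr0.le (hrc.trans hc')).trans hrc)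
    simp only [one_mul] at h1
    simpa using h1.add h2
  have n0 := nr_A hS bW0 (bdd_const 1) m0 m ω
  have n10 := nr_A hS bW1 (bGb.const_mul (x * r * s)) m1' m ω
  have n11 := nr_A hS ((bW1.mul bb0).add (bW0.mul bb1))
    (((bGb.mul bGa).const_mul (x * r)).add (bj.const_mul r)) m11 m ω
  have n01 := nr_A hS ((bW0.mul bb0).add (bW1.mul bb1)) (bGa.const_mul s) m01 m ω
  rw [Sys.A_const hS] at n0
  rw [Sys.A_const_mul hS] at n10 n01
  rw [Sys.A_add hS ((bGb.mul bGa).const_mul _) (bj.const_mul r), Sys.A_const_mul hS,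
    Sys.A_const_mul hS] at n11
  have ni := nr_inv hc.le hQc n0
  have w11 := n11.mul hc.le hc' ni
  have w10 := n10.mul hc.le hc' ni
  have w01 := n01.mul hc.le hc' ni
  simp only [mul_one] at w11 w10 w01
  have w := w10.mul hc.le hc' w01
  rw [mul_one] at w
  have nC := nr_sub w11 w
  rw [← hL] at nC
  -- identification
  set P := (S.prod (signSys S.R S.x (Slot C.n))).add (gr C c b (m + 1)) with hP'
  set a' : (ℕ → Ω × Slot C.n) → ℝ := fun v => a fun i => (v i).1
  have hβ : ∀ v, P.beta C c a' (m + 1) v =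
      b0 (fun i => (v i).1) + spin ((v (m + 1)).2 none) * b1 fun i => (v i).1 := fun v => by
    have e11 := (hP fun i => (v i).1).2.2.2.2.2.2.1
    rw [← hrr] at e11
    have eb : b1 (fun i => (v i).1) =
        r⁻¹ * o11 fun u u' => S.probe2 C c b a u u' (m + 1) fun i => (v i).1 := by
      rw [e11]; simp only [hb1, j]; field_simp
    rw [eb]
    unfold Sys.beta
    rw [hP', probe1_gr hfit ha hb (by omega) mf (by omega),
      probe1_gr hfit ha hb (by omega) mf (by omega), ← hr, spin_eq]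
    simp only [hb0]
    cases (v (m + 1)).2 none <;> simp [o01, o11, sg] <;> ring
  have bH : ∀ u, Bdd fun w => b0 w + spin u * b1 w := fun u => bb0.add (bb1.const_mul _)
  have eb : P.A m (bit C.n (m + 1)) p = S.A m W1 ω * (S.A m W0 ω)⁻¹ := by
    refine (tilt1 hfit hb mR mf (H := fun u _ => spin u) (fun u => bdd_const _) p).trans ?_
    rw [div_eq_mul_inv]
    congr 3 <;> funext w <;> simp only [hW0, hW1, hWdef, o00, o10, spin_eq, sg, if_true,
      Bool.false_eq_true, if_false] <;> ring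
  have eβ : P.A m (P.beta C c a' (m + 1)) p =
      S.A m (fun w => W0 w * b0 w + W1 w * b1 w) ω * (S.A m W0 ω)⁻¹ := by
    rw [funext hβ]
    refine (tilt1 hfit hb mR mf (H := fun u w => b0 w + spin u * b1 w) bH p).trans ?_
    rw [div_eq_mul_inv]
    congr 3 <;> funext w <;> simp only [hW0, hW1, hWdef, o00, o10, spin_eq, sg, if_true,
      Bool.false_eq_true, if_false] <;> ring
  have ebβ : P.A m (fun v => bit C.n (m + 1) v * P.beta C c a' (m + 1) v) p =
      S.A m (fun w => W1 w * b0 w + W0 w * b1 w) ω * (S.A m W0 ω)⁻¹ := by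
    rw [funext hβ]
    refine (tilt1 hfit hb mR mf (H := fun u w => spin u * (b0 w + spin u * b1 w))
      (fun u => (bH u).const_mul _) p).trans ?_
    rw [div_eq_mul_inv]
    congr 3 <;> funext w <;> simp only [hW0, hW1, hWdef, o00, o10, spin_eq, sg, if_true,
      Bool.false_eq_true, if_false] <;> ring
  rw [cov_step, eb, eβ, ebβ, jay_swap hfit ha hb (by omega) (by omega)]
  refine (abs_sub_le _ _ _).trans ((add_le_add nC.1 ?_).trans_eq
    (show L * r * c + |K2| * r * c = (L + |K2|) * r * c by ring))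
  have eJ : x * r * S.A m (fun v => Gb v * Ga v) ω + r * S.A m j ω -
      x * r * s * S.A m Gb ω * (s * S.A m Ga ω) - r * S.jay C c b a m ω =
      -(r * (S.jay C c b a m ω - S.A m j ω - x * S.cov m (m + 1) Gb Ga ω)) := by
    rw [cov_step]
    linear_combination (-(x * r * S.A m Gb ω * S.A m Ga ω)) * sgn_sq C.n
  rw [eJ, abs_neg, abs_mul, abs_of_pos hr0]
  calc r * |_| ≤ r * (K2 * c) := mul_le_mul_of_nonneg_left hJ hr0.le
    _ ≤ r * (|K2| * c) := mul_le_mul_of_nonneg_left
        (mul_le_mul_of_nonneg_right (le_abs_self K2) hc.le) hr0.le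
    _ = _ := by ring

/-- Two probe signs against each other. -/
theorem cov_bit_bit (n R : ℕ) : ∃ K c₀ : ℝ, 0 ≤ K ∧ 0 < c₀ ∧
    ∀ (Ω : Type) [MeasurableSpace Ω] (S : Sys Ω), S.Good → S.R = R → S.x = gridExp R →
    ∀ C : Cons, C.n = n → C.Ok R → ∀ c, 0 < c → c ≤ c₀ → ∀ a b, Obs S a → Obs S b →
    ∀ m, 1 ≤ m → m < R → m + 1 < C.first R → ∀ p : ℕ → Ω × (Slot C.n × Slot C.n),
      |((S.prod (signSys S.R S.x (Slot C.n × Slot C.n))).add (gr2 C c a b (m + 1))).cov m (m + 1)
          (bitL C.n (m + 1)) (bitR C.n (m + 1)) p -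
        S.x (m + 1) * c ^ (2 * C.n) * S.jay C c a b m (fun i => (p i).1)| ≤
        K * c ^ (2 * C.n) * c := by
  obtain ⟨K, c₀, hK, hc₀, hn0, h⟩ := core n R
  refine ⟨K, c₀, hK, hc₀, fun Ω _ S hS hR hx C hn hok c hc hcc a b ha hb m m1 mR mf p => ?_⟩
  have hfit : Fit S C c := ⟨hS, hR ▸ hok, hc.le, by
    rw [hn]; exact (mul_le_mul_of_nonneg_left hcc (Nat.cast_nonneg n)).trans hn0⟩
  obtain ⟨-, h2⟩ := h Ω S hS hR hx C hn hok c hc hcc a b ha hb m m1 mR mf fun i => (p i).1
  subst hR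
  have t := fun φ : Bool → Bool → ℝ => tilt2 hfit ha hb mR mf φ p
  have t1 := t fun u v => spin u * spin v
  have t2 := t fun u _ => spin u
  have t3 := t fun _ v => spin v
  have o : ∀ Z : Bool → Bool → ℝ, o00 (fun u v => spin u * spin v * Z u v) = o11 Z ∧
      o00 (fun u v => spin u * Z u v) = o10 Z ∧ o00 (fun u v => spin v * Z u v) = o01 Z :=
    fun Z => by
      simp only [spin_eq, o00, o10, o01, o11, sg, if_true, Bool.false_eq_true, if_false]
      refine ⟨?_, ?_, ?_⟩ <;> ring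
  simp only [(o _).1, div_eq_mul_inv] at t1
  simp only [(o _).2.1, div_eq_mul_inv] at t2
  simp only [(o _).2.2, div_eq_mul_inv] at t3
  rw [cov_step]
  unfold bitL bitR
  rw [t1, t2, t3]
  exact h2

end Vale.Agent.P168.Probe
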