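import Vale.Agent.P168.Val
import Vale.Agent.P168.ProbeCore

/-!
Probe lemma, part 1: node values in products with fresh signs, and exact identities for one or
two probes.
-/

namespace Vale.Agent.P168.Probe

open MeasureTheory Finset Function ProbeCore

variable {Ω : Type} [MeasurableSpace Ω] {S : Sys Ω}
variable {Y : Type} [Fintype Y] [MeasurableSpace Y] [MeasurableSingletonClass Y]

lemma spin_eq (b : Bool) : spin b = sg b := rfl

/-! ### Uniform laws -/

lemma mp_equiv {α β : Type} [Fintype α] [MeasurableSpace α] [MeasurableSingletonClass α]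
    [Nonempty α] [Fintype β] [DecidableEq β] [MeasurableSpace β] [MeasurableSingletonClass β]
    (e : α ≃ β) : MeasurePreserving e (finLaw α) (finLaw β) :=
  measurePreserving_finLaw e (q := 1) fun b => by
    rw [card_eq_one]
    exact ⟨e.symm b, by ext a; simp [e.eq_symm_apply]⟩

lemma prod_law (α β : Type) [Fintype α] [MeasurableSpace α] [MeasurableSingletonClass α]
    [Nonempty α] [Fintype β] [MeasurableSpace β] [MeasurableSingletonClass β] [Nonempty β] :
    (finLaw α).prod (finLaw β) = finLaw (α × β) := by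
  have := isProbabilityMeasure_finLaw α
  have := isProbabilityMeasure_finLaw β
  refine Measure.ext_iff_singleton.2 fun p => ?_
  rw [← Set.singleton_prod_singleton, Measure.prod_prod]
  simp only [finLaw, Measure.smul_apply, Set.singleton_prod_singleton, Measure.count_singleton,
    smul_eq_mul, mul_one, Fintype.card_prod, Nat.cast_mul]
  rw [ENNReal.mul_inv (Or.inr (ENNReal.natCast_ne_top _)) (Or.inl (ENNReal.natCast_ne_top _))]

/-! ### Systems with fresh signs -/

lemma signGood [Nonempty Y] (hS : S.Good) : (signSys S.R S.x Y).Good :=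
  ⟨isProbabilityMeasure_finLaw Y, hS.x_pos, hS.x_mono, hS.x_last, hS.R_pos, bdd_const 0,
    fun _ _ _ => rfl⟩

lemma sign_u [Nonempty Y] (R : ℕ) (x : ℕ → ℝ) (l : ℕ) :
    (signSys R x Y).u l = fun _ => 0 := by
  have := isProbabilityMeasure_finLaw Y
  suffices h : ∀ d, (signSys R x Y).uUp d = fun _ => 0 from h _
  intro d
  induction d with
  | zero => rfl
  | succ d ih =>
    funext ω
    have hμ : (signSys R x Y).μ = finLaw Y := rfl
    simp [Sys.uUp, ih, hμ]

lemma sign_A [Nonempty Y] (R : ℕ) (x : ℕ → ℝ) (l : ℕ) (f : (ℕ → Y) → ℝ) (ω : ℕ → Y) :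
    (signSys R x Y).A l f ω = avg fun e => f (update ω (l + 1) e) := by
  have := isProbabilityMeasure_finLaw Y
  have hμ : (signSys R x Y).μ = finLaw Y := rfl
  simp [Sys.A_eq, sign_u, hμ, integral_finLaw]

variable [Nonempty Y]

lemma sysY_good (hS : S.Good) : (S.prod (signSys S.R S.x Y)).Good :=
  Sys.prod_good hS (signGood hS) rfl rfl

lemma mp_fst (hS : S.Good) :
    MeasurePreserving (Prod.fst : Ω × Y → Ω) (S.prod (signSys S.R S.x Y)).μ S.μ := by
  have := hS.prob
  have := isProbabilityMeasure_finLaw Y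
  exact measurePreserving_fst (μ := S.μ) (ν := finLaw Y)

omit [MeasurableSingletonClass Y] [Nonempty Y] in
lemma sysY_H (S : Sys Ω) (p : ℕ → Ω × Y) :
    (S.prod (signSys S.R S.x Y)).H p = S.H fun i => (p i).1 := add_zero _

lemma sysY_u (hS : S.Good) (l : ℕ) (p : ℕ → Ω × Y) :
    (S.prod (signSys S.R S.x Y)).u l p = S.u l fun i => (p i).1 :=
  Sys.u_comp hS (mp_fst hS) rfl rfl (sysY_H S) l p

lemma sysY_A_fst (hS : S.Good) {f : (ℕ → Ω) → ℝ} (hf : Bdd f) (l : ℕ) (p : ℕ → Ω × Y) :
    (S.prod (signSys S.R S.x Y)).A l (fun v => f fun i => (v i).1) p = S.A l f fun i => (p i).1 :=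
  Sys.A_comp hS (mp_fst hS) rfl rfl (sysY_H S) hf l p

omit [Fintype Y] [MeasurableSingletonClass Y] [Nonempty Y] in
lemma bdd_fst {f : (ℕ → Ω) → ℝ} (hf : Bdd f) : Bdd (fun v : ℕ → Ω × Y => f fun i => (v i).1) :=
  hf.comp (T := fun v : ℕ → Ω × Y => fun i => (v i).1)
    (measurable_pi_lambda _ fun i => (measurable_pi_apply i).fst)

/-- A step on a function of the base and of the sign of that step. -/
lemma sysY_A_read (hS : S.Good) {F : Y → (ℕ → Ω) → ℝ} (hF : ∀ y, Bdd (F y)) (l : ℕ)
    (p : ℕ → Ω × Y) :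
    (S.prod (signSys S.R S.x Y)).A l (fun v => F (v (l + 1)).2 fun i => (v i).1) p =
      avg fun y => S.A l (F y) fun i => (p i).1 := by
  classical
  have ind : ∀ y, Bdd fun v : ℕ → Ω × Y => if (v (l + 1)).2 = y then (1 : ℝ) else 0 := fun y =>
    ⟨(measurable_of_finite fun z : Y => if z = y then (1 : ℝ) else 0).comp
      ((measurable_pi_apply (l + 1)).snd), 1, fun v => by dsimp only; split_ifs <;> simp⟩
  have e : (fun v : ℕ → Ω × Y => F (v (l + 1)).2 fun i => (v i).1) = fun v =>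
      ∑ y, F y (fun i => (v i).1) * (if (v (l + 1)).2 = y then 1 else 0) := funext fun v => by
    simp
  have hc : ∀ g, (S.prod (signSys S.R S.x Y)).cond l (l + 1) g =
      (S.prod (signSys S.R S.x Y)).A l g := fun g => by simp [Sys.cond, Sys.down]
  rw [e, ← hc, Sys.cond_sum (sysY_good hS).reg univ fun y => (bdd_fst (hF y)).mul (ind y)]
  simp only [hc]
  have t : ∀ y, (S.prod (signSys S.R S.x Y)).A l
      (fun v => F y (fun i => (v i).1) * if (v (l + 1)).2 = y then 1 else 0) p =
      S.A l (F y) (fun i => (p i).1) * (Fintype.card Y : ℝ)⁻¹ := fun y => by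
    refine (Sys.prod_A hS (signGood (Y := Y) hS) rfl rfl (F y)
      (fun s : ℕ → Y => if s (l + 1) = y then 1 else 0) l p).trans ?_
    rw [sign_A]
    simp [avg]
  simp only [t, ← sum_mul]
  rw [avg, div_eq_mul_inv]

/-- Dependence of evaluations on the node. -/
lemma node_congr (hS : S.Good) (ξ : ℕ → ℝ) {F F' : (ℕ → Ω × Y) → ℝ} {L l d : ℕ} (hl : l < L)
    (hd : l + d = S.R) {p p' : ℕ → Ω × Y} (hp : ∀ i, (p i).1 = (p' i).1)
    (h : ∀ q q' : ℕ → Ω × Y, (∀ i, (q i).1 = (q' i).1) →
      (∀ i, L ≤ i → i ≤ S.R → (q i).2 = (q' i).2) →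
      (∀ i, i ≤ l → q i = p i ∧ q' i = p' i) → F q = F' q') :
    (S.prod (signSys S.R S.x Y)).val ξ F d l p = (S.prod (signSys S.R S.x Y)).val ξ F' d l p' := by
  suffices key : ∀ e k q q', l ≤ k → k + e = S.R → (∀ i, (q i).1 = (q' i).1) →
      (∀ i, L ≤ i → i ≤ k → (q i).2 = (q' i).2) → (∀ i, i ≤ l → q i = p i ∧ q' i = p' i) →
      (S.prod (signSys S.R S.x Y)).val ξ F e k q = (S.prod (signSys S.R S.x Y)).val ξ F' e k q' from
    key d l p p' le_rfl hd hp (fun i h1 h2 => absurd (h1.trans h2) (not_le.2 hl))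
      fun i _ => ⟨rfl, rfl⟩
  intro e
  induction e with
  | zero =>
    intro k q q' _ hk h1 h2 h3
    exact h q q' h1 (fun i i1 i2 => h2 i i1 (by omega)) h3
  | succ e ih =>
    intro k q q' hlk hk h1 h2 h3
    have hu : ∀ y, (fun i => (update q (k + 1) y i).1) = fun i => (update q' (k + 1) y i).1 :=
      fun y => funext fun i => by by_cases hi : i = k + 1 <;> simp [hi, h1]
    have hv : ∀ y, (S.prod (signSys S.R S.x Y)).val ξ F e (k + 1) (update q (k + 1) y) =
        (S.prod (signSys S.R S.x Y)).val ξ F' e (k + 1) (update q' (k + 1) y) := fun y => by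
      refine ih (k + 1) _ _ (by omega) (by omega) (congrFun (hu y)) (fun i i1 i2 => ?_)
        fun i hi => ?_
      · by_cases hi : i = k + 1
        · simp [hi]
        · simp [hi, h2 i i1 (by omega)]
      · rw [update_of_ne (by omega), update_of_ne (by omega)]
        exact h3 i hi
    simp only [Sys.val, Sys.A_eq, sysY_u hS, hu, hv]

lemma add_add (S : Sys Ω) (V F : (ℕ → Ω) → ℝ) : (S.add V).add F = S.add fun v => V v + F v := by
  simp [Sys.add, add_assoc]

/-- Evaluation of a sum. -/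
lemma val_split (hS : S.Good) {V F : (ℕ → Ω) → ℝ} (hV : Bdd V) (hdV : DependsTo V S.R)
    (hF : Bdd F) {d l : ℕ} (hd : l + d = S.R) (ω : ℕ → Ω) :
    S.val S.x (fun v => V v + F v) d l ω = S.val S.x V d l ω + (S.add V).val S.x F d l ω := by
  rw [← Sys.val_add_pot hS (hV.add hF) hd ω, ← Sys.val_add_pot hS hV hd ω,
    ← add_add S V F]
  have := Sys.val_add_pot (Sys.add_good hS hV hdV) hF (show l + d = (S.add V).R from hd) ω
  rw [show (S.add V).x = S.x from rfl] at this
  rw [← this]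
  ring

/-! ### Gadgets -/

/-- The logarithm of one probe weight. -/
noncomputable def gl (C : Cons) (c : ℝ) (η : Bool) (σ : ℝ) (s : ℕ → Slot C.n) : ℝ :=
  Real.log (1 + C.gadget c η σ s)

lemma gl_congr (C : Cons) (c : ℝ) (η : Bool) (σ : ℝ) {s s' : ℕ → Slot C.n}
    (h : ∀ v w, v < w → s (C.lev v w) = s' (C.lev v w)) : gl C c η σ s = gl C c η σ s' := by
  unfold gl Cons.gadget Cons.feature
  congr 3
  refine sum_congr rfl fun v _ => congrArg _ (prod_congr rfl fun w _ => ?_)
  split_ifs with h1 h2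
  · rw [h v w h1]
  · rw [h w v h2]
  · rfl

lemma abs_gl (C : Cons) {c : ℝ} (hc : 0 ≤ c) (hc' : (C.n : ℝ) * c ≤ 1 / 2) (η : Bool) {σ : ℝ}
    (hσ : |σ| ≤ 1) (s : ℕ → Slot C.n) : |gl C c η σ s| ≤ 2 * C.n * c := by
  have h := abs_gadget_le C c η hσ s
  rw [abs_of_nonneg hc] at h
  refine (abs_log_one_add_le (h.trans hc')).trans ?_
  linarith

lemma bdd_gl {Z : Type} [MeasurableSpace Z] (C : Cons) {c : ℝ} (hc : 0 ≤ c)
    (hc' : (C.n : ℝ) * c ≤ 1 / 2) {η : (ℕ → Z) → Bool} (hη : Measurable η)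
    {σ : (ℕ → Z) → ℝ} (hσ : Measurable σ) (hσ1 : ∀ p, |σ p| ≤ 1) {π : Z → Slot C.n}
    (hπ : Measurable π) : Bdd (fun p => gl C c (η p) (σ p) fun i => π (p i)) := by
  refine ⟨?_, 2 * C.n * c, fun p => abs_gl C hc hc' _ (hσ1 p) _⟩
  have hs : ∀ k key, Measurable fun p : ℕ → Z => spin (π (p k) key) := fun k key =>
    (measurable_of_finite fun s : Slot C.n => spin (s key)).comp (hπ.comp (measurable_pi_apply k))
  unfold gl Cons.gadget Cons.feature
  refine Real.measurable_log.comp (measurable_const.add ((measurable_const.mul hσ).mul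
    (measurable_sum _ fun v _ => Measurable.mul ?_ (measurable_prod _ fun w _ => ?_))))
  · split_ifs
    exacts [(measurable_of_finite spin).comp hη, measurable_const]
  · split_ifs <;> first | exact measurable_const | exact hs _ _

lemma lev_mem {C : Cons} {R : ℕ} (hC : C.Ok R) {v w : Fin C.n} (h : v < w) :
    C.first R ≤ C.lev v w ∧ 1 ≤ C.lev v w ∧ C.lev v w ≤ R :=
  ⟨min'_le _ _ (mem_insert_of_mem (mem_image.2 ⟨(v, w), by simp [h], rfl⟩)), hC.2 v w h⟩

/-- The integrand of one probe. -/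
noncomputable def g1 (C : Cons) (c : ℝ) (a : (ℕ → Ω) → ℝ) (η : Bool) (p : ℕ → Ω × Slot C.n) : ℝ :=
  gl C c η (a fun i => (p i).1) fun i => (p i).2

/-- The integrand of two probes. -/
noncomputable def g2 (C : Cons) (c : ℝ) (a b : (ℕ → Ω) → ℝ) (η η' : Bool)
    (p : ℕ → Ω × (Slot C.n × Slot C.n)) : ℝ :=
  gl C c η (a fun i => (p i).1) (fun i => (p i).2.1) +
    gl C c η' (b fun i => (p i).1) fun i => (p i).2.2

/-- Hypotheses on the constraint and the strength. -/
structure Fit (S : Sys Ω) (C : Cons) (c : ℝ) : Prop where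
  good : S.Good
  ok : C.Ok S.R
  nonneg : 0 ≤ c
  small : (C.n : ℝ) * c ≤ 1 / 2

variable {C : Cons} {c : ℝ} {a b : (ℕ → Ω) → ℝ}

lemma g1_bdd (hf : Fit S C c) (ha : Obs S a) (η : Bool) : Bdd (g1 C c a η) :=
  bdd_gl C hf.nonneg hf.small (measurable_const (a := η))
    (bdd_fst (Y := Slot C.n) ha.1).1 (fun _ => ha.2.2 _) measurable_snd

lemma g2_bdd (hf : Fit S C c) (ha : Obs S a) (hb : Obs S b) (η η' : Bool) :
    Bdd (g2 C c a b η η') := by
  have h1 : Bdd fun p : ℕ → Ω × (Slot C.n × Slot C.n) =>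
      gl C c η (a fun i => (p i).1) fun i => (p i).2.1 :=
    bdd_gl (Z := Ω × (Slot C.n × Slot C.n)) C hf.nonneg hf.small (η := fun _ => η)
      measurable_const (σ := fun p => a fun i => (p i).1) (bdd_fst ha.1).1 (fun _ => ha.2.2 _)
      (π := fun z => z.2.1) measurable_snd.fst
  have h2 : Bdd fun p : ℕ → Ω × (Slot C.n × Slot C.n) =>
      gl C c η' (b fun i => (p i).1) fun i => (p i).2.2 :=
    bdd_gl (Z := Ω × (Slot C.n × Slot C.n)) C hf.nonneg hf.small (η := fun _ => η')
      measurable_const (σ := fun p => b fun i => (p i).1) (bdd_fst hb.1).1 (fun _ => hb.2.2 _)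
      (π := fun z => z.2.2) measurable_snd.snd
  exact h1.add h2

lemma g1_dep (hf : Fit S C c) (ha : Obs S a) (η : Bool) : DependsTo (g1 C c a η) S.R := by
  intro p p' h
  unfold g1
  rw [ha.2.1 (fun i => (p i).1) (fun i => (p' i).1) fun i h1 h2 => congrArg Prod.fst (h i h1 h2)]
  exact gl_congr C c η _ fun v w hv =>
    congrArg Prod.snd (h _ (lev_mem hf.ok hv).2.1 (lev_mem hf.ok hv).2.2)

/-- Any node over a base gives the increment of one probe. -/
lemma probe1_node (hf : Fit S C c) {l d : ℕ} (hl : l < C.first S.R)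
    (hd : l + d = S.R) (η : Bool) (p : ℕ → Ω × Slot C.n) :
    (S.prod (signSys S.R S.x (Slot C.n))).val S.x (g1 C c a η) d l p =
      S.probe1 C c a η l (fun i => (p i).1) := by
  obtain rfl : d = S.R - l := by omega
  refine node_congr hf.good S.x hl hd (fun i => rfl) fun q q' h1 h2 _ => ?_
  show gl C c η _ _ = gl C c η _ _
  rw [funext h1]
  exact gl_congr C c η _ fun v w hv => h2 _ (lev_mem hf.ok hv).1 (lev_mem hf.ok hv).2.2

/-- Any node over a base gives the increment of two probes. -/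
lemma probe2_node (hf : Fit S C c) {l d : ℕ} (hl : l < C.first S.R)
    (hd : l + d = S.R) (η η' : Bool) (p : ℕ → Ω × (Slot C.n × Slot C.n)) :
    (S.prod (signSys S.R S.x (Slot C.n × Slot C.n))).val S.x (g2 C c a b η η') d l p =
      S.probe2 C c a b η η' l (fun i => (p i).1) := by
  obtain rfl : d = S.R - l := by omega
  refine node_congr hf.good S.x hl hd (fun i => rfl) fun q q' h1 h2 _ => ?_
  show gl C c η _ _ + gl C c η' _ _ = gl C c η _ _ + gl C c η' _ _
  rw [funext h1]
  exact congrArg₂ (· + ·)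
    (gl_congr C c η _ fun v w hv => congrArg Prod.fst
      (h2 _ (lev_mem hf.ok hv).1 (lev_mem hf.ok hv).2.2))
    (gl_congr C c η' _ fun v w hv => congrArg Prod.snd
      (h2 _ (lev_mem hf.ok hv).1 (lev_mem hf.ok hv).2.2))

/-- Two probes do not depend on their order. -/
lemma probe2_swap (hf : Fit S C c) (ha : Obs S a) (hb : Obs S b) {l : ℕ}
    (hl : l < C.first S.R) (hlR : l ≤ S.R) (η η' : Bool) (ω : ℕ → Ω) :
    S.probe2 C c a b η η' l ω = S.probe2 C c b a η' η l ω := by
  classical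
  have := hf.good.prob
  have := isProbabilityMeasure_finLaw (Slot C.n × Slot C.n)
  set P := S.prod (signSys S.R S.x (Slot C.n × Slot C.n)) with hP
  have hψ : MeasurePreserving (Prod.map id (Equiv.prodComm (Slot C.n) (Slot C.n))) P.μ P.μ :=
    (MeasurePreserving.id S.μ).prod (mp_equiv (Equiv.prodComm (Slot C.n) (Slot C.n)))
  have e := Sys.val_comp (S' := P) (sysY_good hf.good) hψ rfl rfl
    (fun p => by rw [sysY_H, sysY_H]; rfl) (ξ := S.x) (g2_bdd hf hb ha η' η) (S.R - l) l
    (fun i => (ω i, ((fun _ => false), fun _ => false)))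
  rw [hP, probe2_node hf hl (by omega)] at e
  rw [← probe2_node hf hl (show l + (S.R - l) = S.R by omega) η η'
    (fun i => (ω i, ((fun _ => false), fun _ => false)))]
  refine Eq.trans ?_ e
  congr 1
  funext p
  exact add_comm _ _

/-- One probe in a system with signs and a raised potential. -/
lemma probe1_add (hf : Fit S C c) (ha : Obs S a) {V : (ℕ → Ω × Y) → ℝ} (hV : Bdd V)
    (hdV : DependsTo V S.R) {l : ℕ} (hlR : l ≤ S.R) (η : Bool)
    (w : ℕ → Ω × Y) :
    ((S.prod (signSys S.R S.x Y)).add V).probe1 C c (fun v => a fun i => (v i).1) η l w =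
      (S.prod (signSys S.R S.x (Y × Slot C.n))).val S.x
          (fun p => V (fun i => ((p i).1, (p i).2.1)) +
            gl C c η (a fun i => (p i).1) fun i => (p i).2.2)
          (S.R - l) l (fun i => ((w i).1, ((w i).2, fun _ => false))) -
        (S.prod (signSys S.R S.x Y)).val S.x V (S.R - l) l w := by
  classical
  have := hf.good.prob
  have := isProbabilityMeasure_finLaw Y
  have := isProbabilityMeasure_finLaw (Slot C.n)
  set P := S.prod (signSys S.R S.x Y) with hP
  have hPg : P.Good := sysY_good hf.good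
  set Q := P.prod (signSys P.R P.x (Slot C.n)) with hQ
  have hQg : Q.Good := sysY_good hPg
  have hψ : MeasurePreserving (fun z : (Ω × Y) × Slot C.n => (z.1.1, (z.1.2, z.2))) Q.μ
      (S.prod (signSys S.R S.x (Y × Slot C.n))).μ := by
    have h := measurePreserving_prodAssoc S.μ (finLaw Y) (finLaw (Slot C.n))
    rw [prod_law] at h
    exact h
  have hb2 : Bdd fun p : ℕ → Ω × (Y × Slot C.n) =>
      gl C c η (a fun i => (p i).1) fun i => (p i).2.2 :=
    bdd_gl (Z := Ω × (Y × Slot C.n)) C hf.nonneg hf.small (η := fun _ => η) measurable_const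
      (σ := fun p => a fun i => (p i).1) (bdd_fst ha.1).1 (fun _ => ha.2.2 _)
      (π := fun z => z.2.2) measurable_snd.snd
  have hb : Bdd fun p : ℕ → Ω × (Y × Slot C.n) => V (fun i => ((p i).1, (p i).2.1)) +
      gl C c η (a fun i => (p i).1) fun i => (p i).2.2 :=
    (hV.comp (T := fun p : ℕ → Ω × (Y × Slot C.n) => fun i => ((p i).1, (p i).2.1))
      (measurable_pi_lambda _ fun i =>
        ((measurable_pi_apply i).fst).prodMk (measurable_pi_apply i).snd.fst)).add hb2
  have e := Sys.val_comp (S := S.prod (signSys S.R S.x (Y × Slot C.n))) (S' := Q)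
    (sysY_good hf.good) hψ rfl rfl (fun p => by rw [hQ, sysY_H, hP, sysY_H, sysY_H]) (ξ := S.x)
    hb (S.R - l) l (fun i => (w i, fun _ => false))
  have hd : l + (S.R - l) = Q.R := show l + (S.R - l) = S.R by omega
  have hV' : Bdd fun v : ℕ → (Ω × Y) × Slot C.n => V fun i => (v i).1 := bdd_fst hV
  have hdV' : DependsTo (fun v : ℕ → (Ω × Y) × Slot C.n => V fun i => (v i).1) Q.R :=
    fun p p' h => hdV _ _ fun i h1 h2 => congrArg Prod.fst (h i h1 h2)
  have hg : Bdd fun v : ℕ → (Ω × Y) × Slot C.n =>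
      gl C c η (a fun i => (v i).1.1) fun i => (v i).2 :=
    bdd_gl (Z := (Ω × Y) × Slot C.n) C hf.nonneg hf.small (η := fun _ => η) measurable_const
      (σ := fun v => a fun i => (v i).1.1) (bdd_fst (bdd_fst ha.1)).1 (fun _ => ha.2.2 _)
      (π := fun z => z.2) measurable_snd
  have s := val_split hQg hV' hdV' hg hd (fun i => (w i, fun _ => false))
  rw [show Q.x = S.x from rfl] at s
  rw [← e, s, hQ, Sys.val_comp hPg (mp_fst hPg) rfl rfl (sysY_H P) hV, add_sub_cancel_left]
  unfold Sys.probe1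
  congr 1
  simp only [hP, Sys.add, Sys.prod, signSys]
  congr 1
  funext p
  ring

/-- The integrand of one probe with the sign read from the step `L`. -/
noncomputable def gr (C : Cons) (c : ℝ) (a : (ℕ → Ω) → ℝ) (L : ℕ) (p : ℕ → Ω × Slot C.n) : ℝ :=
  gl C c ((p L).2 none) (a fun i => (p i).1) fun i => (p i).2

lemma gr_bdd (hf : Fit S C c) (ha : Obs S a) (L : ℕ) : Bdd (gr C c a L) :=
  bdd_gl (Z := Ω × Slot C.n) C hf.nonneg hf.small (η := fun p => (p L).2 none)
    ((measurable_of_finite fun s : Slot C.n => s none).comp (measurable_pi_apply L).snd)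
    (σ := fun p => a fun i => (p i).1) (bdd_fst ha.1).1 (fun _ => ha.2.2 _)
    (π := fun z => z.2) measurable_snd

lemma gr_dep (hf : Fit S C c) (ha : Obs S a) {L : ℕ} (h1 : 1 ≤ L) (hL : L ≤ S.R) :
    DependsTo (gr C c a L) S.R := by
  intro p p' h
  unfold gr
  rw [ha.2.1 (fun i => (p i).1) (fun i => (p' i).1) fun i h1 h2 => congrArg Prod.fst (h i h1 h2),
    h L h1 hL]
  exact gl_congr C c _ _ fun v w hv =>
    congrArg Prod.snd (h _ (lev_mem hf.ok hv).2.1 (lev_mem hf.ok hv).2.2)

/-- A node at the step of the sign reads it. -/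
lemma gr_node (hf : Fit S C c) {L d : ℕ} (hL : L < C.first S.R) (hd : L + d = S.R)
    (p : ℕ → Ω × Slot C.n) :
    (S.prod (signSys S.R S.x (Slot C.n))).val S.x (gr C c a L) d L p =
      S.probe1 C c a ((p L).2 none) L (fun i => (p i).1) := by
  rw [← probe1_node hf hL hd]
  refine node_congr hf.good S.x hL hd (fun i => rfl) fun q q' h1 h2 h3 => ?_
  show gl C c _ _ _ = gl C c _ _ _
  rw [funext h1, (h3 L le_rfl).1]
  exact gl_congr C c _ _ fun v w hv => h2 _ (lev_mem hf.ok hv).1 (lev_mem hf.ok hv).2.2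

lemma probe1_abs (hf : Fit S C c) (ha : Obs S a) {l : ℕ} (η : Bool) (ω : ℕ → Ω) :
    |S.probe1 C c a η l ω| ≤ 2 * C.n * c := by
  rcases le_or_gt l S.R with h | h
  · exact Sys.val_abs_le (sysY_good hf.good) (g1_bdd hf ha η)
      (fun p => abs_gl C hf.nonneg hf.small η (ha.2.2 _) _)
      (fun i i1 i2 => hf.good.x_pos i (by omega) (by omega)) _
  · simp only [Sys.probe1, show S.R - l = 0 by omega, Sys.val]
    exact abs_gl C hf.nonneg hf.small η (ha.2.2 _) _

lemma probe2_abs (hf : Fit S C c) (ha : Obs S a) (hb : Obs S b) {l : ℕ} (hl : l ≤ S.R)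
    (η η' : Bool) (ω : ℕ → Ω) : |S.probe2 C c a b η η' l ω| ≤ 4 * C.n * c :=
  Sys.val_abs_le (sysY_good hf.good) (g2_bdd hf ha hb η η')
    (fun p => (abs_add_le _ _).trans
      ((add_le_add (abs_gl C hf.nonneg hf.small η (ha.2.2 _) _)
        (abs_gl C hf.nonneg hf.small η' (hb.2.2 _) _)).trans_eq (by ring)))
    (fun i i1 i2 => hf.good.x_pos i (by omega) (by omega)) _

/-- One probe in the system raised by another probe. -/
lemma probe1_g1 (hf : Fit S C c) (ha : Obs S a) (hb : Obs S b) {l : ℕ} (hl : l < C.first S.R)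
    (hlR : l ≤ S.R) (e η : Bool) (w : ℕ → Ω × Slot C.n) :
    ((S.prod (signSys S.R S.x (Slot C.n))).add (g1 C c b e)).probe1 C c
        (fun v => a fun i => (v i).1) η l w =
      S.probe2 C c b a e η l (fun i => (w i).1) - S.probe1 C c b e l (fun i => (w i).1) := by
  rw [probe1_add hf ha (g1_bdd hf hb e) (g1_dep hf hb e) hlR,
    probe1_node hf hl (by omega)]
  refine congrArg (· - _) ?_
  exact probe2_node (a := b) (b := a) hf hl (by omega) e η _

/-- One probe in the system raised by another probe with its sign read at the node. -/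
lemma probe1_gr (hf : Fit S C c) (ha : Obs S a) (hb : Obs S b) {L : ℕ} (h1 : 1 ≤ L)
    (hL : L < C.first S.R) (hLR : L ≤ S.R) (η : Bool) (w : ℕ → Ω × Slot C.n) :
    ((S.prod (signSys S.R S.x (Slot C.n))).add (gr C c b L)).probe1 C c
        (fun v => a fun i => (v i).1) η L w =
      S.probe2 C c b a ((w L).2 none) η L (fun i => (w i).1) -
        S.probe1 C c b ((w L).2 none) L (fun i => (w i).1) := by
  rw [probe1_add hf ha (gr_bdd hf hb L) (gr_dep hf hb h1 hLR) hLR,
    gr_node hf hL (by omega)]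
  refine congrArg (· - _) ?_
  refine Eq.trans ?_ (probe2_node (a := b) (b := a) hf hL (show L + (S.R - L) = S.R by omega)
    ((w L).2 none) η (fun i => ((w i).1, ((w i).2, fun _ => false))))
  refine node_congr hf.good S.x hL (by omega) (fun i => rfl) fun q q' q1 q2 q3 => ?_
  show gl C c _ _ _ + gl C c _ _ _ = gl C c _ _ _ + gl C c _ _ _
  simp only [(q3 L le_rfl).1]
  rw [funext q1]
  exact congrArg₂ (· + ·)
    (gl_congr C c _ _ fun v u hv => congrArg Prod.fst
      (q2 _ (lev_mem hf.ok hv).1 (lev_mem hf.ok hv).2.2))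
    (gl_congr C c _ _ fun v u hv => congrArg Prod.snd
      (q2 _ (lev_mem hf.ok hv).1 (lev_mem hf.ok hv).2.2))

/-! ### Stability of responses -/

omit [Nonempty Y] in
lemma abs_prod_sub_le {ι : Type} [DecidableEq ι] (t : Finset ι) (f g : ι → ℝ)
    (hf : ∀ i, |f i| ≤ 1) (hg : ∀ i, |g i| ≤ 1) :
    |∏ i ∈ t, f i - ∏ i ∈ t, g i| ≤ ∑ i ∈ t, |f i - g i| := by
  induction t using Finset.induction_on with
  | empty => simp
  | insert i s hi ih =>
    rw [prod_insert hi, prod_insert hi, sum_insert hi,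
      show f i * ∏ j ∈ s, f j - g i * ∏ j ∈ s, g j =
        (f i - g i) * ∏ j ∈ s, f j + g i * (∏ j ∈ s, f j - ∏ j ∈ s, g j) by ring]
    refine (abs_add_le _ _).trans (add_le_add ?_ ?_)
    · rw [abs_mul, abs_prod]
      exact mul_le_of_le_one_right (abs_nonneg _)
        (prod_le_one (fun j _ => abs_nonneg _) fun j _ => hf j)
    · rw [abs_mul]
      exact (mul_le_of_le_one_left (abs_nonneg _) (hg i)).trans ih

lemma size_pos : ∀ {d : ℕ} (T : Tree d), 1 ≤ T.size
  | 0, T => (Tree.size_zero T).ge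
  | d + 1, T => by
    rw [Tree.size_succ]
    exact (size_pos (T.2 0)).trans
      (single_le_sum (f := fun c => (T.2 c).size) (fun c _ => Nat.zero_le _) (mem_univ 0))

lemma mom_abs_one (hS : S.Good) {d l : ℕ} (T : Tree d) {f : (ℕ → Ω) → ℝ} (hf : Bdd f)
    (h : ∀ v, |f v| ≤ 1) (ω : ℕ → Ω) : |S.mom d l T (fun _ => f) ω| ≤ 1 := by
  refine (Sys.mom_abs_le hS T (fun _ => hf) (fun _ => h) ω).trans_eq ?_
  exact prod_const_one

lemma mom_add_le (hS : S.Good) {V f : (ℕ → Ω) → ℝ} (hV : Bdd V) (hdV : DependsTo V S.R)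
    (hf : Bdd f) (h1 : ∀ v, |f v| ≤ 1) {ε : ℝ} (hε : ∀ v, |V v| ≤ ε) :
    ∀ {d l : ℕ}, l + d = S.R → ∀ (T : Tree d) (ω : ℕ → Ω),
      |(S.add V).mom d l T (fun _ => f) ω - S.mom d l T (fun _ => f) ω| ≤
        d * T.size * (Real.exp (2 * ε) - 1) := by
  intro d
  induction d with
  | zero => intro l _ T ω; simp [Sys.mom]
  | succ d ih =>
    intro l hl T ω
    have hS' := Sys.add_good hS hV hdV
    have he : 0 ≤ Real.exp (2 * ε) - 1 := by
      have := Real.one_le_exp (mul_nonneg zero_le_two ((abs_nonneg _).trans (hε ω)))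
      linarith
    simp only [Sys.mom]
    have hA : ∀ (W : Sys Ω) (g : (ℕ → Ω) → ℝ), W.cond l (l + 1) g = W.A l g := fun W g => by
      simp [Sys.cond, Sys.down]
    set p := fun c => (S.add V).mom d (l + 1) (T.2 c) fun _ => f
    set q := fun c => S.mom d (l + 1) (T.2 c) fun _ => f
    have hp : ∀ c, Bdd (p c) := fun c => Sys.mom_bdd hS' _ fun _ => hf
    have hq : ∀ c, Bdd (q c) := fun c => Sys.mom_bdd hS _ fun _ => hf
    have p1 : ∀ c v, |p c v| ≤ 1 := fun c v => mom_abs_one hS' _ hf h1 v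
    have q1 : ∀ c v, |q c v| ≤ 1 := fun c v => mom_abs_one hS _ hf h1 v
    refine (abs_prod_sub_le univ (fun c => (S.add V).A l (p c) ω) (fun c => S.A l (q c) ω)
      (fun c => Sys.A_abs_le hS'.reg (hp c) (p1 c) l ω)
      (fun c => Sys.A_abs_le hS.reg (hq c) (q1 c) l ω)).trans ?_
    rw [Tree.size_succ, Nat.cast_sum, mul_sum, sum_mul]
    refine sum_le_sum fun c _ => ?_
    have e1 : |(S.add V).A l (p c) ω - S.A l (p c) ω| ≤ Real.exp (2 * ε) - 1 := by
      have := Sys.cond_add_le hS hV (hp c) hε (p1 c) (l := l) (m := l + 1) (by omega) (by omega) ω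
      rwa [hA, hA, one_mul] at this
    have e2 : |S.A l (p c) ω - S.A l (q c) ω| ≤
        d * (T.2 c).size * (Real.exp (2 * ε) - 1) := by
      have hsub : S.A l (p c) ω - S.A l (q c) ω = S.A l (fun v => p c v - q c v) ω := by
        rw [← hA, ← hA, ← hA, Sys.cond_sub hS.reg (hp c) (hq c)]
      rw [hsub]
      exact Sys.A_abs_le hS.reg ((hp c).sub (hq c)) (fun v => ih (by omega) (T.2 c) v) l ω
    have s1 : (1 : ℝ) ≤ (T.2 c).size := by exact_mod_cast size_pos (T.2 c)
    have := mul_le_mul_of_nonneg_right s1 he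
    calc |(S.add V).A l (p c) ω - S.A l (q c) ω| ≤ |(S.add V).A l (p c) ω - S.A l (p c) ω| +
          |S.A l (p c) ω - S.A l (q c) ω| := abs_sub_le _ _ _
      _ ≤ _ := by push_cast; linarith

lemma count_le (C : Cons) {d l : ℕ} (T : Tree d) :
    (C.count d l T : ℝ) ≤ if T.size = C.n then (Nat.factorial C.n : ℝ) else 0 := by
  classical
  by_cases h : T.size = C.n
  · rw [if_pos h]
    have e : Fin C.n ≃ Leaves d T := (Fintype.equivFinOfCardEq h).symm
    have := Fintype.card_equiv e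
    rw [Fintype.card_fin] at this
    unfold Cons.count
    exact_mod_cast this ▸ Fintype.card_subtype_le _
  · rw [if_neg h]
    have : IsEmpty (Fin C.n ≃ Leaves d T) :=
      ⟨fun e => h ((Fintype.card_congr e).symm.trans (Fintype.card_fin _))⟩
    have : IsEmpty {lab : Fin C.n ≃ Leaves d T //
        ∀ v w, v < w → C.lev v w ≤ Tree.meet d l T (lab v) (lab w)} := ⟨fun x => isEmptyElim x.1⟩
    unfold Cons.count
    rw [Fintype.card_eq_zero, Nat.cast_zero]

lemma resp_add_le (hS : S.Good) (C : Cons) {V f : (ℕ → Ω) → ℝ} (hV : Bdd V)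
    (hdV : DependsTo V S.R) (hf : Obs S f) {ε : ℝ} (hε : ∀ v, |V v| ≤ ε) {l : ℕ} (h1 : 1 ≤ l)
    (hl : l ≤ S.R) (ω : ℕ → Ω) :
    |(S.add V).resp C f l ω - S.resp C f l ω| ≤
      Nat.factorial C.n * S.R * C.n * (Real.exp (2 * ε) - 1) := by
  have hd : l + (S.R - l) = S.R := by omega
  have hx := hS.x_pos l h1 hl
  have hS' := Sys.add_good hS hV hdV
  set F : ℝ := (Nat.factorial C.n : ℝ)
  set E : ℝ := Real.exp (2 * ε) - 1
  have hE : 0 ≤ E := by
    have := Real.one_le_exp (mul_nonneg zero_le_two ((abs_nonneg _).trans (hε ω)))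
    simp only [E]; linarith
  have hF : 0 ≤ F := Nat.cast_nonneg _
  set w := fun T : Tree (S.R - l) => Tree.weight S.x (S.R - l) l T
  obtain ⟨hs, ht⟩ := Sys.weight_size_le hS h1 hd C.n
  have key : ∀ (m : Tree (S.R - l) → ℝ) (B : ℝ), 0 ≤ B → (∀ T, T.size = C.n → |m T| ≤ B) →
      ∀ T, |w T * (C.count (S.R - l) l T : ℝ) * m T| ≤
        F * B * (if T.size = C.n then w T else 0) := by
    intro m B hB hm T
    have hw := Sys.weight_nonneg hS h1 hd T
    have hc := count_le C (l := l) T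
    rw [abs_mul, abs_mul, abs_of_nonneg hw, Nat.abs_cast]
    by_cases h : T.size = C.n
    · rw [if_pos h] at hc ⊢
      rw [show F * B * w T = w T * F * B by ring]
      exact mul_le_mul (mul_le_mul_of_nonneg_left hc hw) (hm T h) (abs_nonneg _)
        (mul_nonneg hw hF)
    · rw [if_neg h] at hc ⊢
      rw [le_antisymm hc (Nat.cast_nonneg _), mul_zero, zero_mul, mul_zero]
  have sm : ∀ (W : Sys Ω), W.Good → Summable fun T : Tree (S.R - l) =>
      w T * (C.count (S.R - l) l T : ℝ) * W.mom (S.R - l) l T (fun _ => f) ω := fun W hW =>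
    Summable.of_norm_bounded (hs.mul_left (F * 1)) fun T =>
      (Real.norm_eq_abs _).trans_le
        (key _ 1 zero_le_one (fun T _ => mom_abs_one hW T hf.1 hf.2.2 ω) T)
  have hd' : ∀ T : Tree (S.R - l), T.size = C.n →
      |(S.add V).mom (S.R - l) l T (fun _ => f) ω - S.mom (S.R - l) l T (fun _ => f) ω| ≤
        S.R * C.n * E := fun T h => by
    refine (mom_add_le hS hV hdV hf.1 hf.2.2 hε hd T ω).trans ?_
    rw [h]
    have : ((S.R - l : ℕ) : ℝ) ≤ S.R := by exact_mod_cast Nat.sub_le _ _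
    exact mul_le_mul_of_nonneg_right (mul_le_mul_of_nonneg_right this (Nat.cast_nonneg _)) hE
  have hb : |∑' T, w T * (C.count (S.R - l) l T : ℝ) *
      ((S.add V).mom (S.R - l) l T (fun _ => f) ω - S.mom (S.R - l) l T (fun _ => f) ω)| ≤
      F * (S.R * C.n * E) * coef (S.x l) C.n := by
    have := tsum_of_norm_bounded (((hs.hasSum.congr_fun fun T => rfl).mul_left
      (F * (S.R * C.n * E)))) fun T =>
      (Real.norm_eq_abs _).trans_le (key _ _ (by positivity) hd' T)
    rwa [ht, Real.norm_eq_abs] at this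
  unfold Sys.resp
  rw [show (S.add V).x = S.x from rfl, show (S.add V).R = S.R from rfl, ← mul_sub,
    ← Summable.tsum_sub (sm _ hS') (sm _ hS)]
  simp only [← mul_sub]
  rw [abs_mul, abs_inv, abs_of_pos hx, inv_mul_le_iff₀ hx]
  refine hb.trans ?_
  rw [mul_comm (S.x l)]
  refine (mul_le_mul_of_nonneg_left (coef_le hx.le (hS.expo.le_one h1 hd) _) (by positivity)).trans
    (le_of_eq ?_)
  simp only [F, E]
  ring

lemma resp_fst (hS : S.Good) (C : Cons) {f : (ℕ → Ω) → ℝ} (hf : Bdd f) (l : ℕ)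
    (p : ℕ → Ω × Y) :
    (S.prod (signSys S.R S.x Y)).resp C (fun v => f fun i => (v i).1) l p =
      S.resp C f l fun i => (p i).1 := by
  unfold Sys.resp
  refine congrArg _ (tsum_congr fun T => ?_)
  exact congrArg _ (Sys.mom_comp hS (mp_fst hS) rfl rfl (sysY_H S) l T (fun _ => hf) p)

end Vale.Agent.P168.Probe
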