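import Vale.Agent.P168.SnapTree

/-!
Snapped moments and averaged covariances: elementary properties.
-/

namespace Vale.Agent.P168

open MeasureTheory Finset Function

variable {Ω : Type} [MeasurableSpace Ω] {S : Sys Ω}

/-! ### Steps and conditional means -/

lemma Sys.cond_self_snap (f : (ℕ → Ω) → ℝ) (l : ℕ) : S.cond l l f = f := by
  simp [Sys.cond, Sys.down]

lemma Sys.cond_succ_snap (f : (ℕ → Ω) → ℝ) (l : ℕ) : S.cond l (l + 1) f = S.A l f := by
  simp [Sys.cond, Sys.down]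

lemma Sys.A_sum_snap (hS : S.Good) {ι : Type} (t : Finset ι) {f : ι → (ℕ → Ω) → ℝ}
    (hf : ∀ i, Bdd (f i)) (l : ℕ) (ω : ℕ → Ω) :
    S.A l (fun v => ∑ i ∈ t, f i v) ω = ∑ i ∈ t, S.A l (f i) ω := by
  have h := congrFun (Sys.cond_sum hS.reg t hf l (l + 1)) ω
  simpa only [Sys.cond_succ_snap] using h

lemma Sys.cond_abs_le_snap (hS : S.Good) {f : (ℕ → Ω) → ℝ} (hf : Bdd f) (l m : ℕ) (ω : ℕ → Ω) :
    |S.cond l m f ω| ≤ S.cond l m (fun v => |f v|) ω := by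
  have hb : Bdd fun v => |f v| :=
    ⟨hf.1.abs, hf.2.choose, fun v => by rw [abs_abs]; exact hf.2.choose_spec v⟩
  refine abs_le.2 ⟨?_, Sys.cond_mono hS.reg hf hb (fun v => le_abs_self _) l m ω⟩
  have h := Sys.cond_mono hS.reg (hb.const_mul (-1)) hf
    (fun v => by linarith [neg_abs_le (f v)]) l m ω
  rw [Sys.cond_const_mul] at h
  linarith

lemma Bdd.abs_snap {f : (ℕ → Ω) → ℝ} (hf : Bdd f) : Bdd fun v => |f v| :=
  ⟨hf.1.abs, hf.2.choose, fun v => by rw [abs_abs]; exact hf.2.choose_spec v⟩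

lemma Sys.cond_le_const_snap (hS : S.Good) {f : (ℕ → Ω) → ℝ} (hf : Bdd f) {B : ℝ}
    (h : ∀ v, f v ≤ B) (l m : ℕ) (ω : ℕ → Ω) : S.cond l m f ω ≤ B :=
  (Sys.cond_mono hS.reg hf (bdd_const B) h l m ω).trans_eq
    (congrFun (Sys.cond_const hS.reg B l m) ω)

lemma Sys.cond_abs_le_one_snap (hS : S.Good) {f : (ℕ → Ω) → ℝ} (hf : Bdd f)
    (h : ∀ v, |f v| ≤ 1) (l m : ℕ) (ω : ℕ → Ω) : |S.cond l m f ω| ≤ 1 :=
  (Sys.cond_abs_le_snap hS hf l m ω).trans (Sys.cond_le_const_snap hS hf.abs_snap h l m ω)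

lemma DependsTo.mono_snap {α : Type} {f : (ℕ → Ω) → α} {l m : ℕ} (hf : DependsTo f l) (h : l ≤ m) :
    DependsTo f m := fun ω ω' he => hf ω ω' fun i h1 h2 => he i h1 (h2.trans h)

lemma DependsTo.update_eq_snap {α : Type} {f : (ℕ → Ω) → α} {l k : ℕ} (hf : DependsTo f l)
    (h : l < k) (ω : ℕ → Ω) (e : Ω) : f (update ω k e) = f ω :=
  hf _ _ fun i _ hi => update_of_ne (by omega) _ _

/-- A step fixes the functions of lower levels. -/
lemma Sys.A_self_snap (hS : S.Good) {f : (ℕ → Ω) → ℝ} {l : ℕ} (hd : DependsTo f l)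
    (ω : ℕ → Ω) : S.A l f ω = f ω := by
  have h := Sys.A_const hS l (f ω) ω
  simp only [Sys.A] at h ⊢
  simpa only [hd.update_eq_snap (Nat.lt_succ_self l)] using h

lemma Sys.down_dep_snap (hS : S.Good) {f : (ℕ → Ω) → ℝ} : ∀ d l, l + d ≤ S.R →
    DependsTo f (l + d) → DependsTo (S.down d l f) l
  | 0, _, _, h => h
  | d + 1, l, hl, h => Sys.A_dep hS (by omega)
      (Sys.down_dep_snap hS d (l + 1) (by omega) (by rwa [show l + 1 + d = l + (d + 1) by omega]))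

lemma Sys.cond_dep_snap (hS : S.Good) {f : (ℕ → Ω) → ℝ} {l m : ℕ} (hl : l ≤ m) (hm : m ≤ S.R)
    (hf : DependsTo f m) : DependsTo (S.cond l m f) l :=
  Sys.down_dep_snap hS _ l (by omega) (by rwa [show l + (m - l) = m by omega])

lemma Sys.A_cond_snap (hS : S.Good) (f : (ℕ → Ω) → ℝ) {l m : ℕ} (h : l + 1 ≤ m) :
    S.A l (S.cond (l + 1) m f) = S.cond l m f := by
  rw [Sys.cond_tower hS f (Nat.le_succ l) h, Sys.cond_succ_snap]

/-! ### The grid -/

lemma Grid.Ok.p_lt_snap {G : Grid} {R : ℕ} (hG : G.Ok R) {k : ℕ} (h1 : G.lo ≤ k) (h2 : k < G.B) :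
    G.p k < G.p (k + 1) := by
  obtain ⟨-, h, h', h''⟩ := hG.2.2 k h1 h2
  omega

lemma Grid.Ok.p_mono_snap {G : Grid} {R : ℕ} (hG : G.Ok R) {i j : ℕ} (h1 : G.lo ≤ i) (h2 : i ≤ j)
    (h3 : j ≤ G.B) : G.p i ≤ G.p j := by
  induction j, h2 using Nat.le_induction with
  | base => rfl
  | succ j hj ih => exact (ih (by omega)).trans (hG.p_lt_snap (h1.trans hj) (by omega)).le

lemma Grid.Ok.p_le_snap {G : Grid} {R : ℕ} (hG : G.Ok R) {k : ℕ} (h1 : G.lo ≤ k) (h2 : k ≤ G.B) :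
    G.p k ≤ R := hG.2.1 ▸ hG.p_mono_snap h1 h2 le_rfl

lemma Grid.Ok.one_le_p_snap {G : Grid} {R : ℕ} (hG : G.Ok R) {k : ℕ} (h1 : G.lo ≤ k) (h2 : k ≤ G.B) :
    1 ≤ G.p k :=
  (hG.2.2 G.lo le_rfl hG.1).1.trans (hG.p_mono_snap le_rfl h1 h2)

lemma Grid.Ok.h_lt_t_snap {G : Grid} {R : ℕ} (hG : G.Ok R) {k k' : ℕ} (h1 : G.lo ≤ k) (h2 : k < k')
    (h3 : k' < G.B) : G.p (k + 1) < G.t k' := by
  have := hG.p_mono_snap (show G.lo ≤ k + 1 by omega) h2 h3.le
  obtain ⟨-, h, -, -⟩ := hG.2.2 k' (by omega) h3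
  omega

/-! ### Patterns and classes -/

variable {ι : Type} {B k : ℕ} {κ : ι → ι → ℕ} {A : Finset ι}

lemma IsPat.subset_snap (h : IsPat B k κ A) {F : Finset ι} (hF : F ⊆ A) : IsPat B k κ F :=
  ⟨fun v hv => h.1 v (hF hv), fun v hv w hw => h.2.1 v (hF hv) w (hF hw),
    fun v hv w hw => h.2.2.1 v (hF hv) w (hF hw),
    fun u hu v hv w hw => h.2.2.2 u (hF hu) v (hF hv) w (hF hw)⟩

lemma IsPat.mono_snap (h : IsPat B k κ A) {j : ℕ} (hj : j ≤ k) : IsPat B j κ A :=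
  ⟨h.1, h.2.1, fun v hv w hw hne => ⟨hj.trans (h.2.2.1 v hv w hw hne).1,
    (h.2.2.1 v hv w hw hne).2⟩, h.2.2.2⟩

lemma IsPat.ge_snap (h : IsPat B k κ A) (hk : k ≤ B) {v w : ι} (hv : v ∈ A) (hw : w ∈ A) :
    k ≤ κ v w := by
  rcases eq_or_ne v w with rfl | hne
  · rw [h.1 v hv]; exact hk
  · exact (h.2.2.1 v hv w hw hne).1

lemma IsPat.succ_of_snap (h : IsPat B k κ A) (hs : ∀ v ∈ A, ∀ w ∈ A, k + 1 ≤ κ v w) :
    IsPat B (k + 1) κ A :=
  ⟨h.1, h.2.1, fun v hv w hw hne => ⟨hs v hv w hw, (h.2.2.1 v hv w hw hne).2⟩, h.2.2.2⟩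

lemma IsPat.pullback_snap {ι' : Type} (h : IsPat B k κ A) (e : ι' ↪ ι) {F : Finset ι'}
    (hF : F.map e ⊆ A) : IsPat B k (fun v w => κ (e v) (e w)) F :=
  have hm : ∀ v ∈ F, e v ∈ A := fun v hv => hF (mem_map_of_mem e hv)
  ⟨fun v hv => h.1 _ (hm v hv), fun v hv w hw => h.2.1 _ (hm v hv) _ (hm w hw),
    fun v hv w hw hne => h.2.2.1 _ (hm v hv) _ (hm w hw) (e.injective.ne hne),
    fun u hu v hv w hw => h.2.2.2 _ (hm u hu) _ (hm v hv) _ (hm w hw)⟩

lemma IsPat.class_eq_snap (h : IsPat B k κ A) {K : ℕ} {v w : ι} (hv : v ∈ A) (hw : w ∈ A)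
    (hvw : K ≤ κ v w) : (A.filter fun u => K ≤ κ v u) = A.filter fun u => K ≤ κ w u := by
  refine filter_congr fun u hu => ⟨fun h' => ?_, fun h' => ?_⟩
  · exact le_trans (le_min (by rwa [h.2.1 w hw v hv]) h') (h.2.2.2 w hw v hv u hu)
  · exact le_trans (le_min hvw h') (h.2.2.2 v hv w hw u hu)

lemma IsPat.mem_class_snap (h : IsPat B k κ A) {K : ℕ} (hK : K ≤ B) {v : ι} (hv : v ∈ A) :
    v ∈ A.filter fun u => K ≤ κ v u :=
  mem_filter.2 ⟨hv, by rw [h.1 v hv]; exact hK⟩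

lemma IsPat.class_pat_snap (h : IsPat B k κ A) {K : ℕ} {v : ι} (hv : v ∈ A) :
    IsPat B K κ (A.filter fun u => K ≤ κ v u) := by
  refine ⟨fun w hw => h.1 w (mem_of_mem_filter _ hw),
    fun w hw u hu => h.2.1 w (mem_of_mem_filter _ hw) u (mem_of_mem_filter _ hu),
    fun w hw u hu hne => ⟨?_, (h.2.2.1 w (mem_of_mem_filter _ hw) u (mem_of_mem_filter _ hu) hne).2⟩,
    fun x hx y hy z hz => h.2.2.2 x (mem_of_mem_filter _ hx) y (mem_of_mem_filter _ hy) z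
      (mem_of_mem_filter _ hz)⟩
  rw [mem_filter] at hw hu
  exact le_trans (le_min (by rw [h.2.1 w hw.1 v hv]; exact hw.2) hu.2)
    (h.2.2.2 w hw.1 v hv u hu.1)

variable [DecidableEq ι] (G : Grid) (a : (ℕ → Ω) → ℝ)

/-- The classes of a pattern at band `k`. -/
def classes (κ : ι → ι → ℕ) (k : ℕ) (A : Finset ι) : Finset (Finset ι) :=
  A.image fun v => A.filter fun w => k ≤ κ v w

lemma Sys.snap_eq {k : ℕ} (hk : k < G.B) (A : Finset ι) (ω : ℕ → Ω) :
    S.snap G κ a k A ω = ∏ Q ∈ classes κ (k + 1) A,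
      S.cond (G.p k) (G.p (k + 1)) (S.snap G κ a (k + 1) Q) ω := by
  obtain ⟨d, hd⟩ : ∃ d, G.B - k = d + 1 := ⟨G.B - k - 1, by omega⟩
  have h1 : G.B - (d + 1) = k := by omega
  have h2 : G.B - d = k + 1 := by omega
  have h3 : G.B - (k + 1) = d := by omega
  simp only [Sys.snap, hd, Sys.snapAux, h1, h2, h3, classes]

lemma Sys.snap_top (A : Finset ι) (ω : ℕ → Ω) : S.snap G κ a G.B A ω = ∏ _v ∈ A, a ω := by
  simp [Sys.snap, Sys.snapAux]

lemma Sys.snap_single (h : IsPat G.B (k + 1) κ A) (hA : A.Nonempty) (hk : k < G.B) (ω : ℕ → Ω) :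
    S.snap G κ a k A ω = S.cond (G.p k) (G.p (k + 1)) (S.snap G κ a (k + 1) A) ω := by
  have hc : classes κ (k + 1) A = {A} := by
    refine eq_singleton_iff_unique_mem.2 ⟨?_, fun Q hQ => ?_⟩
    · obtain ⟨v, hv⟩ := hA
      exact mem_image.2 ⟨v, hv, filter_true_of_mem fun w hw => h.ge_snap hk hv hw⟩
    · obtain ⟨v, hv, rfl⟩ := mem_image.1 hQ
      exact filter_true_of_mem fun w hw => h.ge_snap hk hv hw
  rw [Sys.snap_eq G a hk, hc, prod_singleton]

lemma Sys.snap_facts (hS : S.Good) (hG : G.Ok S.R) (κ : ι → ι → ℕ) (ha : Obs S a) :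
    ∀ {k : ℕ}, G.lo ≤ k → k ≤ G.B → ∀ A : Finset ι, Bdd (S.snap G κ a k A) ∧
      DependsTo (S.snap G κ a k A) (G.p k) ∧ ∀ ω, |S.snap G κ a k A ω| ≤ 1 := by
  intro k h1 h2
  induction h2 using Nat.decreasingInduction with
  | self =>
    intro A
    have e : S.snap G κ a G.B A = fun ω => ∏ _v ∈ A, a ω := funext (Sys.snap_top G a A)
    rw [e, hG.2.1]
    refine ⟨Bdd.prod A fun _ => ha.1, fun ω ω' hh => prod_congr rfl fun _ _ => ha.2.1 ω ω' hh,
      fun ω => ?_⟩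
    rw [abs_prod]
    exact prod_le_one (fun _ _ => abs_nonneg _) fun _ _ => ha.2.2 ω
  | of_succ k hk ih =>
    intro A
    have ih' := ih (by omega)
    have e : S.snap G κ a k A = fun ω => ∏ Q ∈ classes κ (k + 1) A,
        S.cond (G.p k) (G.p (k + 1)) (S.snap G κ a (k + 1) Q) ω :=
      funext (Sys.snap_eq G a hk A)
    rw [e]
    refine ⟨Bdd.prod _ fun Q => Sys.cond_bdd hS.reg (ih' Q).1 _ _, fun ω ω' hh =>
      prod_congr rfl fun Q _ => Sys.cond_dep_snap hS (hG.p_lt_snap h1 hk).le (hG.p_le_snap (by omega) (by omega))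
        (ih' Q).2.1 ω ω' hh, fun ω => ?_⟩
    rw [abs_prod]
    exact prod_le_one (fun _ _ => abs_nonneg _)
      fun Q _ => Sys.cond_abs_le_one_snap hS (ih' Q).1 (ih' Q).2.2 _ _ ω

/-- Snapped moments factor over any grouping of the classes. -/
lemma Sys.snap_split {q : ℕ} {F : Fin q → Finset ι} (h : IsPat G.B k κ A) (hk : k < G.B)
    (hsub : ∀ c, F c ⊆ A) (hcov : ∀ v ∈ A, ∃ c, v ∈ F c)
    (hdisj : ∀ c c' v, v ∈ F c → v ∈ F c' → c = c')
    (hcl : ∀ c, ∀ v ∈ F c, ∀ w ∈ A, k + 1 ≤ κ v w → w ∈ F c) (ω : ℕ → Ω) :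
    S.snap G κ a k A ω = ∏ c, S.snap G κ a k (F c) ω := by
  have hcls : ∀ c, ∀ v ∈ F c,
      ((F c).filter fun w => k + 1 ≤ κ v w) = A.filter fun w => k + 1 ≤ κ v w := fun c v hv => by
    ext w
    simp only [mem_filter]
    exact ⟨fun hw => ⟨hsub c hw.1, hw.2⟩, fun hw => ⟨hcl c v hv w hw.1 hw.2, hw.2⟩⟩
  simp only [Sys.snap_eq G a hk]
  have he : classes κ (k + 1) A = univ.biUnion fun c => classes κ (k + 1) (F c) := by
    ext Q
    simp only [classes, mem_biUnion, mem_image, mem_univ, true_and]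
    constructor
    · rintro ⟨v, hv, rfl⟩
      obtain ⟨c, hc⟩ := hcov v hv
      exact ⟨c, v, hc, hcls c v hc⟩
    · rintro ⟨c, v, hv, rfl⟩
      exact ⟨v, hsub c hv, (hcls c v hv).symm⟩
  rw [he, prod_biUnion]
  intro c _ c' _ hne
  refine disjoint_left.2 fun Q h1 h2 => hne ?_
  simp only [classes, mem_image] at h1 h2
  obtain ⟨v, hv, rfl⟩ := h1
  obtain ⟨w, hw, hwQ⟩ := h2
  have : v ∈ (F c').filter fun u => k + 1 ≤ κ w u := by
    rw [hwQ]
    exact (h.subset_snap (hsub c)).mem_class_snap hk hv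
  exact hdisj c c' v hv (mem_filter.1 this).1

theorem Sys.snap_map {Ω : Type} [MeasurableSpace Ω] (S : Sys Ω) (G : Grid) {ι ι' : Type}
    [DecidableEq ι] [DecidableEq ι'] (e : ι' ↪ ι) (κ : ι → ι → ℕ) (a : (ℕ → Ω) → ℝ) (k : ℕ)
    (A : Finset ι') (ω : ℕ → Ω) :
    S.snap G (fun v w => κ (e v) (e w)) a k A ω = S.snap G κ a k (A.map e) ω := by
  suffices h : ∀ d (A : Finset ι'),
      S.snapAux G (fun v w => κ (e v) (e w)) a d A = S.snapAux G κ a d (A.map e) from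
    congrFun (h _ A) ω
  intro d
  induction d with
  | zero => intro A; funext ω; simp only [Sys.snapAux, prod_map]
  | succ d ih =>
    intro A
    funext ω
    simp only [Sys.snapAux]
    have himg : ((A.map e).image fun v => (A.map e).filter fun w => G.B - d ≤ κ v w) =
        (A.image fun v => A.filter fun w => G.B - d ≤ κ (e v) (e w)).map
          ⟨fun Q => Q.map e, Finset.map_injective e⟩ := by
      rw [map_eq_image, map_eq_image, image_image, image_image]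
      refine image_congr fun v _ => ?_
      simp only [comp_apply, Embedding.coeFn_mk, ← map_eq_image, filter_map]
    rw [himg, prod_map]
    exact prod_congr rfl fun Q _ => by rw [ih Q]; rfl

/-! ### Averaged covariances -/

lemma Sys.cov_symm_snap (f g : (ℕ → Ω) → ℝ) (l m : ℕ) (ω : ℕ → Ω) :
    S.cov l m f g ω = S.cov l m g f ω := by
  simp only [Sys.cov, mul_comm]

lemma Sys.cov_bdd_snap (hS : S.Good) {f g : (ℕ → Ω) → ℝ} (hf : Bdd f) (hg : Bdd g) (l m : ℕ) :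
    Bdd (S.cov l m f g) :=
  (Sys.cond_bdd hS.reg (hf.mul hg) l m).sub
    ((Sys.cond_bdd hS.reg hf l m).mul (Sys.cond_bdd hS.reg hg l m))

lemma Sys.cov_self_le_one_snap (hS : S.Good) {g : (ℕ → Ω) → ℝ} (hg : Bdd g) (h : ∀ v, |g v| ≤ 1)
    (l m : ℕ) (ω : ℕ → Ω) : S.cov l m g g ω ≤ 1 := by
  have h1 := Sys.cond_le_const_snap hS (hg.mul hg) (B := 1)
    (fun v => by nlinarith [abs_le.1 (h v)]) l m ω
  simp only [Sys.cov]
  nlinarith [sq_nonneg (S.cond l m g ω)]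

lemma Sys.cov_self_nonneg_snap (hS : S.Good) {f : (ℕ → Ω) → ℝ} (hf : Bdd f) (l m : ℕ) (ω : ℕ → Ω) :
    0 ≤ S.cov l m f f ω := by
  have h := Sys.cov_psd hS ({()} : Finset Unit) (f := fun _ => f) (fun _ => hf) (fun _ => 1) l m ω
  simpa using h

lemma Sys.cov_sq_le_snap (hS : S.Good) {f g : (ℕ → Ω) → ℝ} (hf : Bdd f) (hg : Bdd g) (l m : ℕ)
    (ω : ℕ → Ω) : S.cov l m f g ω ^ 2 ≤ S.cov l m f f ω * S.cov l m g g ω := by
  have h : ∀ r : ℝ, 0 ≤ S.cov l m g g ω * (r * r) + 2 * S.cov l m f g ω * r + S.cov l m f f ω := by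
    intro r
    have h := Sys.cov_psd hS (univ : Finset Bool) (f := fun b => if b then f else g)
      (fun b => by cases b <;> assumption) (fun b => if b then 1 else r) l m ω
    simp only [Fintype.sum_bool, if_true, Bool.false_eq_true, if_false,
      Sys.cov_symm_snap g f] at h
    linarith
  have := discrim_le_zero h
  rw [discrim] at this
  nlinarith

lemma Sys.cov_abs_le_snap (hS : S.Good) {E g : (ℕ → Ω) → ℝ} (hE : Bdd E) (hg : Bdd g)
    (h : ∀ v, |g v| ≤ 1) (l m : ℕ) (ω : ℕ → Ω) :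
    |S.cov l m E g ω| ≤ 2 * S.cond l m (fun v => |E v|) ω := by
  have h1 : |S.cond l m (fun v => E v * g v) ω| ≤ S.cond l m (fun v => |E v|) ω :=
    (Sys.cond_abs_le_snap hS (hE.mul hg) l m ω).trans (Sys.cond_mono hS.reg (hE.mul hg).abs_snap hE.abs_snap
      (fun v => by rw [abs_mul]; exact mul_le_of_le_one_right (abs_nonneg _) (h v)) l m ω)
  have h2 : |S.cond l m E ω * S.cond l m g ω| ≤ S.cond l m (fun v => |E v|) ω := by
    rw [abs_mul]
    exact (mul_le_of_le_one_right (abs_nonneg _) (Sys.cond_abs_le_one_snap hS hg h l m ω)).trans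
      (Sys.cond_abs_le_snap hS hE l m ω)
  simp only [Sys.cov]
  linarith [abs_sub (S.cond l m (fun v => E v * g v) ω) (S.cond l m E ω * S.cond l m g ω)]

/-- The averaged covariance of two families is controlled by that of one of them. -/
lemma Sys.avg_cov_le_snap (hS : S.Good) {N : ℕ} {f g : Fin N → (ℕ → Ω) → ℝ} (hf : ∀ i, Bdd (f i))
    (hg : ∀ i, Bdd (g i)) (h : ∀ i v, |g i v| ≤ 1) (l m : ℕ) (ω : ℕ → Ω) :
    avg (fun ij : Fin N × Fin N => |S.cov l m (f ij.1) (g ij.2) ω|) ≤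
      Real.sqrt (S.avgCov l m f ω) := by
  rcases Nat.eq_zero_or_pos N with rfl | hN
  · simp [avg, Real.sqrt_nonneg]
  have key : ∀ j, ∑ i, |S.cov l m (f i) (g j) ω| ≤
      Real.sqrt (∑ i, ∑ i', |S.cov l m (f i) (f i') ω|) := by
    intro j
    set s : Fin N → ℝ := fun i => if 0 ≤ S.cov l m (f i) (g j) ω then 1 else -1 with hs
    have hU : Bdd fun v => ∑ i, s i * f i v := Bdd.sum univ fun i => (hf i).const_mul _
    have hlin : ∀ {h' : (ℕ → Ω) → ℝ}, Bdd h' →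
        S.cov l m (fun v => ∑ i, s i * f i v) h' ω = ∑ i, s i * S.cov l m (f i) h' ω := by
      intro h' hh'
      simp only [Sys.cov, Finset.sum_mul, mul_assoc]
      rw [Sys.cond_sum hS.reg univ (fun i => ((hf i).mul hh').const_mul _),
        Sys.cond_sum hS.reg univ (fun i => (hf i).const_mul _)]
      simp only [Sys.cond_const_mul, Finset.sum_mul, mul_sub, sum_sub_distrib, mul_assoc]
    have habs : ∑ i, |S.cov l m (f i) (g j) ω| = S.cov l m (fun v => ∑ i, s i * f i v) (g j) ω := by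
      rw [hlin (hg j)]
      refine sum_congr rfl fun i _ => ?_
      simp only [hs]
      split_ifs with h0
      · rw [abs_of_nonneg h0, one_mul]
      · rw [abs_of_neg (not_le.1 h0)]; ring
    have hs1 : ∀ i, |s i| = 1 := fun i => by simp only [hs]; split_ifs <;> simp
    have hUU : S.cov l m (fun v => ∑ i, s i * f i v) (fun v => ∑ i, s i * f i v) ω ≤
        ∑ i, ∑ i', |S.cov l m (f i) (f i') ω| := by
      rw [hlin hU]
      refine sum_le_sum fun i _ => ?_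
      rw [Sys.cov_symm_snap, hlin (hf i), mul_sum]
      refine sum_le_sum fun i' _ => (le_abs_self _).trans ?_
      rw [abs_mul, abs_mul, hs1, hs1, one_mul, one_mul, Sys.cov_symm_snap]
    rw [habs]
    refine Real.le_sqrt_of_sq_le ((Sys.cov_sq_le_snap hS hU (hg j) l m ω).trans ?_)
    exact (mul_le_of_le_one_right (Sys.cov_self_nonneg_snap hS hU l m ω)
      (Sys.cov_self_le_one_snap hS (hg j) (h j) l m ω)).trans hUU
  have hN' : (0 : ℝ) < N := by exact_mod_cast hN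
  have e : Real.sqrt (S.avgCov l m f ω) =
      Real.sqrt (∑ i, ∑ i', |S.cov l m (f i) (f i') ω|) / N := by
    simp only [Sys.avgCov, avg, Fintype.card_prod, Fintype.card_fin, Nat.cast_mul,
      Fintype.sum_prod_type]
    rw [Real.sqrt_div' _ (by positivity), Real.sqrt_mul_self hN'.le]
  rw [e]
  simp only [avg, Fintype.card_prod, Fintype.card_fin, Nat.cast_mul, Fintype.sum_prod_type]
  rw [sum_comm, ← div_div]
  refine div_le_div_of_nonneg_right ?_ hN'.le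
  rw [div_le_iff₀ hN']
  calc ∑ j, ∑ i, |S.cov l m (f i) (g j) ω| ≤ ∑ _j : Fin N,
      Real.sqrt (∑ i, ∑ i', |S.cov l m (f i) (f i') ω|) := sum_le_sum fun j _ => key j
    _ = _ := by simp [mul_comm]

end Vale.Agent.P168
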