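import Vale.Agent.P168.LowerDefs
import Vale.Agent.P168.Trees

/-!
Sums over finite trees with labelled leaves and their recursion over the children of the root.
-/

namespace Vale.Agent.P168

open MeasureTheory Finset Function

noncomputable section

lemma Tree.size_pos_snap : ∀ {d : ℕ} (T : Tree d), 0 < T.size
  | 0, T => (Tree.size_zero T).symm ▸ Nat.one_pos
  | d + 1, T => by
    rw [Tree.size_succ]
    exact lt_of_lt_of_le (Tree.size_pos_snap (T.2 0))
      (single_le_sum (f := fun c => (T.2 c).size) (fun c _ => Nat.zero_le _) (mem_univ 0))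

lemma finite_size_le (n : ℕ) : ∀ d : ℕ, {T : Tree d | T.size ≤ n}.Finite
  | 0 => Set.toFinite (α := Unit) _
  | d + 1 => by
    let U : Finset (Σ k : ℕ, Fin (k + 1) → Tree d) :=
      (range n).sigma fun k => Fintype.piFinset fun _ : Fin (k + 1) => (finite_size_le n d).toFinset
    refine U.finite_toSet.subset fun T hT => ?_
    obtain ⟨k, c⟩ := T
    have hs : ∑ i, (c i).size ≤ n := (Tree.size_succ (d := d) ⟨k, c⟩).symm.trans_le hT
    have h1 : k + 1 ≤ n := by
      refine le_trans ?_ hs
      simpa using card_nsmul_le_sum univ (fun i => (c i).size) 1 fun i _ => Tree.size_pos_snap (c i)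
    simp only [U, coe_sigma, Set.mem_sigma_iff, mem_coe, mem_range, Fintype.mem_piFinset,
      Set.Finite.mem_toFinset]
    exact ⟨by omega, fun i => (single_le_sum (f := fun i => (c i).size)
      (fun i _ => Nat.zero_le _) (mem_univ i)).trans hs⟩

/-- The trees of depth `d` with at most `n` leaves. -/
def trees (d n : ℕ) : Finset (Tree d) := (finite_size_le n d).toFinset

@[simp] lemma mem_trees {d n : ℕ} {T : Tree d} : T ∈ trees d n ↔ T.size ≤ n := by simp [trees]

variable {n : ℕ} (P : Fin n → Fin n → ℕ → Prop)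

/-- A labelling meets all pair conditions. -/
def labOk {A : Finset (Fin n)} {d : ℕ} (l : ℕ) (T : Tree d) (lab : ↥A ≃ Leaves d T) : Prop :=
  ∀ v w : ↥A, (v : Fin n) < w → P v w (Tree.meet d l T (lab v) (lab w))

open Classical in
/-- The number of labellings of the leaves by `A` meeting all pair conditions. -/
def labCount (d l : ℕ) (A : Finset (Fin n)) (T : Tree d) : ℝ :=
  ∑ lab : ↥A ≃ Leaves d T, if labOk P l T lab then 1 else 0

/-- The weighted sum of `g` over the trees with labelled leaves. -/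
def labSum (x : ℕ → ℝ) (d l : ℕ) (A : Finset (Fin n)) (g : Tree d → ℝ) : ℝ :=
  ∑ T ∈ trees d n, Tree.weight x d l T * labCount P d l A T * g T

/-- The labels sent to the child `c`. -/
def fib {A : Finset (Fin n)} {q : ℕ} (π : ↥A → Fin q) (c : Fin q) : Finset (Fin n) :=
  A.filter fun v => ∃ h : v ∈ A, π ⟨v, h⟩ = c

/-- Labels sent to different children meet the conditions at the level of the root. -/
def splitOk {A : Finset (Fin n)} {q : ℕ} (l : ℕ) (π : ↥A → Fin q) : Prop :=
  ∀ v w : ↥A, (v : Fin n) < w → π v ≠ π w → P v w l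

variable {P}

lemma labCount_nonneg (d l : ℕ) (A : Finset (Fin n)) (T : Tree d) : 0 ≤ labCount P d l A T :=
  sum_nonneg fun _ _ => by split_ifs <;> norm_num

lemma labCount_eq_zero {d : ℕ} (l : ℕ) {A : Finset (Fin n)} {T : Tree d} (h : T.size ≠ A.card) :
    labCount P d l A T = 0 := by
  have : IsEmpty (↥A ≃ Leaves d T) :=
    ⟨fun lab => h (by simpa [Tree.size] using (Fintype.card_congr lab).symm)⟩
  simp [labCount]

lemma labCount_empty {d : ℕ} (l : ℕ) (T : Tree d) : labCount P d l ∅ T = 0 :=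
  labCount_eq_zero l (by simpa using (Tree.size_pos_snap T).ne')

lemma mem_fib {A : Finset (Fin n)} {q : ℕ} {π : ↥A → Fin q} {c : Fin q} {v : Fin n} :
    v ∈ fib π c ↔ ∃ h : v ∈ A, π ⟨v, h⟩ = c := by
  simp only [fib, mem_filter, and_iff_right_iff_imp]
  exact fun ⟨h, _⟩ => h

lemma fib_subset {A : Finset (Fin n)} {q : ℕ} (π : ↥A → Fin q) (c : Fin q) : fib π c ⊆ A :=
  filter_subset _ _

lemma mem_fib_self {A : Finset (Fin n)} {q : ℕ} (π : ↥A → Fin q) (v : ↥A) :
    (v : Fin n) ∈ fib π (π v) := mem_fib.2 ⟨v.2, rfl⟩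

/-- The fibre of `π` as a subtype of `A`. -/
def fibEquiv {A : Finset (Fin n)} {q : ℕ} (π : ↥A → Fin q) (c : Fin q) :
    {v : ↥A // π v = c} ≃ ↥(fib π c) where
  toFun v := ⟨v.1.1, mem_fib.2 ⟨v.1.2, v.2⟩⟩
  invFun v := ⟨⟨v.1, fib_subset π c v.2⟩, (mem_fib.1 v.2).snd⟩
  left_inv _ := rfl
  right_inv _ := rfl

/-- Gluing labellings of the children. -/
def glue {A : Finset (Fin n)} {q : ℕ} (π : ↥A → Fin q) {L : Fin q → Type}
    (labs : ∀ c, ↥(fib π c) ≃ L c) : ↥A ≃ Σ c, L c :=
  (Equiv.sigmaFiberEquiv π).symm.trans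
    (Equiv.sigmaCongrRight fun c => (fibEquiv π c).trans (labs c))

lemma glue_apply {A : Finset (Fin n)} {q : ℕ} (π : ↥A → Fin q) {L : Fin q → Type}
    (labs : ∀ c, ↥(fib π c) ≃ L c) (v : ↥A) :
    glue π labs v = ⟨π v, labs (π v) ⟨v, mem_fib_self π v⟩⟩ := rfl

lemma glue_apply_mem {A : Finset (Fin n)} {q : ℕ} (π : ↥A → Fin q) {L : Fin q → Type}
    (labs : ∀ c, ↥(fib π c) ≃ L c) {c : Fin q} (a : ↥(fib π c)) :
    glue π labs ⟨a.1, fib_subset π c a.2⟩ = ⟨c, labs c a⟩ := by
  obtain ⟨a, ha⟩ := a
  obtain ⟨h, rfl⟩ := mem_fib.1 ha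
  rfl

lemma glue_bijective {A : Finset (Fin n)} {q : ℕ} {L : Fin q → Type} :
    Bijective fun s : (Σ π : ↥A → Fin q, ∀ c, ↥(fib π c) ≃ L c) => glue s.1 s.2 := by
  constructor
  · rintro ⟨π, labs⟩ ⟨π', labs'⟩ h
    simp only at h
    obtain rfl : π = π' := funext fun v => congrArg Sigma.fst (Equiv.congr_fun h v)
    congr 1
    refine funext fun c => Equiv.ext fun a => ?_
    have h2 := Equiv.congr_fun h ⟨a.1, fib_subset π c a.2⟩
    rw [glue_apply_mem, glue_apply_mem] at h2
    exact eq_of_heq (Sigma.mk.inj h2).2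
  · intro lab
    refine ⟨⟨fun v => (lab v).1, fun c => (fibEquiv (fun v => (lab v).1) c).symm.trans
      ((lab.subtypeEquiv (q := fun s : Σ c, L c => s.1 = c) fun v => Iff.rfl).trans
        (Equiv.sigmaSubtype c))⟩, Equiv.ext fun v => ?_⟩
    simp only [glue_apply]
    exact Sigma.ext rfl (heq_of_eq rfl)

variable (P)

open Classical in
lemma labCount_succ {d : ℕ} (l : ℕ) (A : Finset (Fin n)) (T : Tree (d + 1)) :
    labCount P (d + 1) l A T = ∑ π : ↥A → Fin (T.1 + 1),
      if splitOk P l π then ∏ c, labCount P d (l + 1) (fib π c) (T.2 c) else 0 := by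
  have hok : ∀ (π : ↥A → Fin (T.1 + 1)) (labs : ∀ c, ↥(fib π c) ≃ Leaves d (T.2 c)),
      labOk P l T (glue (L := fun c => Leaves d (T.2 c)) π labs) ↔
        splitOk P l π ∧ ∀ c, labOk P (l + 1) (T.2 c) (labs c) := by
    intro π labs
    have hm1 : ∀ (c : Fin (T.1 + 1)) (a b : Leaves d (T.2 c)),
        Tree.meet (d + 1) l T ⟨c, a⟩ ⟨c, b⟩ = Tree.meet d (l + 1) (T.2 c) a b := fun c a b => by
      simp [Tree.meet]
    have hm2 : ∀ (c c' : Fin (T.1 + 1)) (a : Leaves d (T.2 c)) (b : Leaves d (T.2 c')), c ≠ c' →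
        Tree.meet (d + 1) l T ⟨c, a⟩ ⟨c', b⟩ = l := fun c c' a b h => by
      simp [Tree.meet, h]
    have hv : ∀ v w : ↥A, π v ≠ π w →
        Tree.meet (d + 1) l T (glue (L := fun c => Leaves d (T.2 c)) π labs v)
          (glue (L := fun c => Leaves d (T.2 c)) π labs w) = l := fun v w hne =>
      (congrArg₂ (Tree.meet (d + 1) l T) (glue_apply π labs v) (glue_apply π labs w)).trans
        (hm2 _ _ _ _ hne)
    have ha : ∀ (c : Fin (T.1 + 1)) (a b : ↥(fib π c)),
        Tree.meet (d + 1) l T
            (glue (L := fun c => Leaves d (T.2 c)) π labs ⟨a.1, fib_subset π c a.2⟩)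
            (glue (L := fun c => Leaves d (T.2 c)) π labs ⟨b.1, fib_subset π c b.2⟩) =
          Tree.meet d (l + 1) (T.2 c) (labs c a) (labs c b) := fun c a b =>
      (congrArg₂ (Tree.meet (d + 1) l T) (glue_apply_mem π labs a) (glue_apply_mem π labs b)).trans
        (hm1 _ _ _)
    constructor
    · intro h
      refine ⟨fun v w hvw hne => ?_, fun c v w hvw => ?_⟩
      · exact (congrArg (P v w) (hv v w hne)).mp (h v w hvw)
      · exact (congrArg (P v.1 w.1) (ha c v w)).mp
          (h ⟨v.1, fib_subset π c v.2⟩ ⟨w.1, fib_subset π c w.2⟩ hvw)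
    · rintro ⟨h1, h2⟩ v w hvw
      by_cases hc : π v = π w
      · have hvm : (v : Fin n) ∈ fib π (π w) := hc ▸ mem_fib_self π v
        exact (congrArg (P v w) (ha (π w) ⟨v, hvm⟩ ⟨w, mem_fib_self π w⟩)).mpr
          (h2 (π w) ⟨v, hvm⟩ ⟨w, mem_fib_self π w⟩ hvw)
      · exact (congrArg (P v w) (hv v w hc)).mpr (h1 v w hvw hc)
  have e : ∀ π : ↥A → Fin (T.1 + 1),
      (if splitOk P l π then ∏ c, labCount P d (l + 1) (fib π c) (T.2 c) else 0) =
        ∑ labs : ∀ c, ↥(fib π c) ≃ Leaves d (T.2 c),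
          if labOk P l T (glue (L := fun c => Leaves d (T.2 c)) π labs) then (1 : ℝ) else 0 := by
    intro π
    unfold labCount
    rw [Fintype.prod_sum]
    simp only [prod_boole, mem_univ, true_implies]
    by_cases hs : splitOk P l π
    · rw [if_pos hs]
      refine sum_congr rfl fun labs _ => if_congr ?_ rfl rfl
      simp [hok, hs]
    · rw [if_neg hs, sum_eq_zero fun labs _ => if_neg (by simp [hok, hs])]
  rw [sum_congr rfl fun π _ => e π, ← Fintype.sum_sigma']
  exact (Fintype.sum_bijective _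
    (glue_bijective (A := A) (L := fun c => Leaves d (T.2 c))) _ _ fun s => rfl).symm

open Classical in
/-- The recursion over the children of the root. -/
lemma labSum_succ (x : ℕ → ℝ) (d l : ℕ) (A : Finset (Fin n)) (g : Tree d → ℝ) :
    labSum P x (d + 1) l A (fun T => ∏ c, g (T.2 c)) =
      ∑ k ∈ range n, coef (x l / x (l + 1)) (k + 1) * ∑ π : ↥A → Fin (k + 1),
        if splitOk P l π then ∏ c, labSum P x d (l + 1) (fib π c) g else 0 := by
  let U : Finset (Tree (d + 1)) :=
    (range n).sigma fun k => Fintype.piFinset fun _ : Fin (k + 1) => trees d n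
  have hU : trees (d + 1) n ⊆ U := fun T hT => by
    rw [mem_trees, Tree.size_succ] at hT
    have h1 : T.1 + 1 ≤ n := by
      refine le_trans ?_ hT
      simpa using card_nsmul_le_sum univ (fun i => (T.2 i).size) 1 fun i _ => Tree.size_pos_snap _
    obtain ⟨k, c⟩ := T
    simp only [U]
    refine mem_sigma.2 ⟨mem_range.2 (Nat.lt_of_succ_le h1), Fintype.mem_piFinset.2 fun i =>
      mem_trees.2 ((single_le_sum (f := fun i => (c i).size) (fun i _ => Nat.zero_le _)
        (mem_univ i)).trans hT)⟩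
  rw [labSum, sum_subset hU fun T _ hT => by
    rw [labCount_eq_zero l fun h => hT (mem_trees.2 ?_), mul_zero, zero_mul]
    rw [h]; simpa using card_le_univ A]
  refine (sum_sigma (range n) (fun k => Fintype.piFinset fun _ : Fin (k + 1) => trees d n)
    _).trans (sum_congr rfl fun k _ => ?_)
  simp only [mul_sum (a := coef (x l / x (l + 1)) (k + 1))]
  calc ∑ c ∈ Fintype.piFinset (fun _ : Fin (k + 1) => trees d n),
        Tree.weight x (d + 1) l ⟨k, c⟩ * labCount P (d + 1) l A ⟨k, c⟩ * ∏ i, g (c i)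
      = ∑ c ∈ Fintype.piFinset (fun _ : Fin (k + 1) => trees d n), ∑ π : ↥A → Fin (k + 1),
          coef (x l / x (l + 1)) (k + 1) * if splitOk P l π then
            ∏ i, Tree.weight x d (l + 1) (c i) * labCount P d (l + 1) (fib π i) (c i) * g (c i)
          else 0 := by
        refine sum_congr rfl fun c _ => ?_
        refine (congrArg (fun z => Tree.weight x (d + 1) l ⟨k, c⟩ * z * ∏ i, g (c i))
          (labCount_succ P l A ⟨k, c⟩)).trans ?_
        simp only [mul_sum, sum_mul, Tree.weight]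
        refine sum_congr rfl fun π _ => ?_
        split_ifs
        · rw [prod_mul_distrib, prod_mul_distrib]; ring
        · simp
    _ = _ := by
        rw [sum_comm]
        refine sum_congr rfl fun π _ => ?_
        rw [← mul_sum]
        congr 1
        split_ifs with h
        · unfold labSum
          exact (prod_univ_sum (fun _ => trees d n) fun i T =>
            Tree.weight x d (l + 1) T * labCount P d (l + 1) (fib π i) T * g T).symm
        · simp

lemma labSum_zero {A : Finset (Fin n)} (x : ℕ → ℝ) (l : ℕ) (g : Tree 0 → ℝ) :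
    labSum P x 0 l A g = if A.card = 1 then g () else 0 := by
  classical
  split_ifs with h
  · have key : ∀ u : Tree 0, labSum P x 0 l A g = g u := by
      intro u
      have h1 : u ∈ trees 0 n := by
        rw [mem_trees, Tree.size_zero]
        have := card_le_univ A
        simp only [Fintype.card_fin] at this
        omega
      have hU : trees 0 n = {u} := eq_singleton_iff_unique_mem.2 ⟨h1, fun T _ => rfl⟩
      have hs : ∀ v w : ↥A, v = w := fun v w =>
        Subtype.ext (card_le_one.1 h.le _ v.2 _ w.2)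
      have hc : labCount P 0 l A u = 1 := by
        have e : ↥A ≃ Leaves 0 u := Fintype.equivOfCardEq (by
          simp only [Fintype.card_coe, h]; exact (Tree.size_zero u).symm)
        have hsub : Subsingleton (Leaves 0 u) := inferInstanceAs (Subsingleton Unit)
        unfold labCount
        rw [Fintype.sum_eq_single e fun b hb =>
          absurd (Equiv.ext fun v => Subsingleton.elim _ _) hb]
        refine if_pos fun v w hvw => ?_
        exact absurd (congrArg Subtype.val (hs v w)) hvw.ne
      rw [labSum, hU, sum_singleton, hc]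
      simp [Tree.weight]
    exact key ()
  · rw [labSum]
    refine sum_eq_zero fun T _ => ?_
    rw [labCount_eq_zero l (by rw [Tree.size_zero]; omega), mul_zero, zero_mul]

lemma labSum_eq_zero {A : Finset (Fin n)} (x : ℕ → ℝ) {d l : ℕ} (g : Tree d → ℝ)
    (h : ∀ (T : Tree d) (lab : ↥A ≃ Leaves d T), ¬ labOk P l T lab) :
    labSum P x d l A g = 0 := by
  classical
  refine sum_eq_zero fun T _ => ?_
  rw [labCount, sum_eq_zero fun lab _ => if_neg (h T lab), mul_zero, zero_mul]

lemma labSum_empty (x : ℕ → ℝ) (d l : ℕ) (g : Tree d → ℝ) :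
    labSum P x d l (∅ : Finset (Fin n)) g = 0 := by
  simp [labSum, labCount_empty]

lemma Tree.le_meet_snap : ∀ (d l : ℕ) (T : Tree d) (v w : Leaves d T), l ≤ Tree.meet d l T v w
  | 0, _, _, _, _ => le_rfl
  | d + 1, l, T, v, w => by
    simp only [Tree.meet]
    split_ifs
    · exact (Nat.le_succ l).trans (Tree.le_meet_snap d (l + 1) _ _ _)
    · exact le_rfl

end

end Vale.Agent.P168
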