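import Vale.Agent.P168.Trees

/-!
Moments of trees of replicas: multilinearity, positivity, locality, measurability in a parameter,
and the expansion of an averaged increment at the root.
-/

namespace Vale.Agent.P168.UpperCore

open MeasureTheory Finset Function

variable {Ω : Type} [MeasurableSpace Ω] {S : Sys Ω}

lemma A_sum (hS : S.Good) {α : Type} [Fintype α] {f : α → (ℕ → Ω) → ℝ} (hf : ∀ a, Bdd (f a))
    (l : ℕ) (ω : ℕ → Ω) :
    S.A l (fun v => ∑ a, f a v) ω = ∑ a, S.A l (f a) ω := by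
  have h := congrFun (Sys.cond_sum hS.reg univ hf l (l + 1)) ω
  simpa [Sys.cond, Sys.down] using h

instance leaves_nonempty : ∀ (d : ℕ) (T : Tree d), Nonempty (Leaves d T)
  | 0, _ => ⟨()⟩
  | d + 1, T => (leaves_nonempty d (T.2 0)).elim fun v => ⟨⟨0, v⟩⟩

lemma one_le_size {d : ℕ} (T : Tree d) : 1 ≤ T.size := Fintype.card_pos

/-- A moment is multilinear in its leaves. -/
lemma mom_expand (hS : S.Good) {α : Type} [Fintype α] [DecidableEq α]
    {h : α → (ℕ → Ω) → ℝ} (hh : ∀ a, Bdd (h a)) :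
    ∀ (d l : ℕ) (T : Tree d) (c : Leaves d T → α → ℝ) (ω : ℕ → Ω),
      S.mom d l T (fun v p => ∑ a, c v a * h a p) ω =
        ∑ τ : Leaves d T → α, (∏ v, c v (τ v)) * S.mom d l T (fun v => h (τ v)) ω
  | 0, l, T, c, ω => by
    have : Unique (Leaves 0 T) := inferInstanceAs (Unique Unit)
    simp only [Sys.mom]
    refine (Fintype.sum_equiv (Equiv.funUnique (Leaves 0 T) α) _ _ fun τ => ?_).symm
    rw [Fintype.prod_unique]
    rfl
  | d + 1, l, T, c, ω => by
    have key : ∀ k, S.A l (S.mom d (l + 1) (T.2 k) fun v p => ∑ a, c ⟨k, v⟩ a * h a p) ω =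
        ∑ τ : Leaves d (T.2 k) → α, (∏ v, c ⟨k, v⟩ (τ v)) *
          S.A l (S.mom d (l + 1) (T.2 k) fun v => h (τ v)) ω := fun k => by
      refine (congrArg (fun F => S.A l F ω)
        (funext fun p => mom_expand hS hh d (l + 1) (T.2 k) (fun v => c ⟨k, v⟩) p)).trans ?_
      refine (A_sum hS (fun τ : Leaves d (T.2 k) → α =>
        (Sys.mom_bdd hS (T.2 k) fun v => hh (τ v)).const_mul _) l ω).trans ?_
      exact Finset.sum_congr rfl fun τ _ => Sys.A_const_mul hS _ _ l ω
    have hl : S.mom (d + 1) l T (fun v p => ∑ a, c v a * h a p) ω =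
        ∏ k, ∑ τ : Leaves d (T.2 k) → α, (∏ v, c ⟨k, v⟩ (τ v)) *
          S.A l (S.mom d (l + 1) (T.2 k) fun v => h (τ v)) ω := by
      simp only [Sys.mom]
      exact Finset.prod_congr rfl fun k _ => key k
    rw [hl, Fintype.prod_sum]
    refine (Fintype.sum_equiv (Equiv.piCurry fun (_ : Fin (T.1 + 1)) _ => α) _ _ fun τ => ?_).symm
    rw [Finset.prod_mul_distrib]
    refine congrArg₂ (· * ·) ?_ rfl
    exact Fintype.prod_sigma fun v => c v (τ v)

lemma mom_const (hS : S.Good) :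
    ∀ (d l : ℕ) (T : Tree d) (k : ℝ) (ω : ℕ → Ω),
      S.mom d l T (fun _ _ => k) ω = ∏ _v : Leaves d T, k
  | 0, l, T, k, ω => by
    have : Unique (Leaves 0 T) := inferInstanceAs (Unique Unit)
    rw [Fintype.prod_unique]
    rfl
  | d + 1, l, T, k, ω => by
    simp only [Sys.mom]
    refine (Finset.prod_congr rfl fun c _ => ?_).trans
      (Fintype.prod_sigma (fun _ : Leaves (d + 1) T => k)).symm
    exact (congrArg (fun F => S.A l F ω) (funext fun p => mom_const hS d (l + 1) (T.2 c) k p)).trans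
      (Sys.A_const hS l _ ω)

lemma mom_one (hS : S.Good) (d l : ℕ) (T : Tree d) (ω : ℕ → Ω) :
    S.mom d l T (fun _ _ => 1) ω = 1 := by rw [mom_const hS, Finset.prod_const_one]

lemma mom_pow (hS : S.Good) {d l : ℕ} (T : Tree d) (k : ℝ) (ω : ℕ → Ω) :
    S.mom d l T (fun _ _ => k) ω = k ^ T.size := by
  rw [mom_const hS, Finset.prod_const, Finset.card_univ]; rfl

/-- A scalar on every leaf. -/
lemma mom_smul (hS : S.Good) {d l : ℕ} (T : Tree d) (k : ℝ) {g : (ℕ → Ω) → ℝ} (hg : Bdd g)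
    (ω : ℕ → Ω) :
    S.mom d l T (fun _ p => k * g p) ω = k ^ T.size * S.mom d l T (fun _ => g) ω := by
  have h := mom_expand hS (h := fun _ : Unit => g) (fun _ => hg) d l T (fun _ _ => k) ω
  simp only [Finset.univ_unique, Finset.sum_singleton, Finset.prod_const, Finset.card_univ] at h
  exact h

lemma mom_nonneg (hS : S.Good) :
    ∀ (d l : ℕ) (T : Tree d) {g : Leaves d T → (ℕ → Ω) → ℝ}, (∀ v, Bdd (g v)) →
      (∀ v p, 0 ≤ g v p) → ∀ ω, 0 ≤ S.mom d l T g ω
  | 0, _, _, g, _, h0, ω => h0 () ω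
  | d + 1, l, T, g, hb, h0, ω => Finset.prod_nonneg fun c _ => by
    have h := Sys.A_mono hS (bdd_const 0) (Sys.mom_bdd (l := l + 1) hS (T.2 c) fun v => hb ⟨c, v⟩)
      (fun p => mom_nonneg hS d (l + 1) (T.2 c) (fun v => hb ⟨c, v⟩) (fun v => h0 ⟨c, v⟩) p) l ω
    rwa [Sys.A_const hS] at h

lemma mom_dep (hS : S.Good) :
    ∀ (d l : ℕ) (T : Tree d) {g : Leaves d T → (ℕ → Ω) → ℝ}, (∀ v, DependsTo (g v) S.R) →
      l + d = S.R → DependsTo (S.mom d l T g) l
  | 0, l, _, g, h, hd => by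
    obtain rfl : l = S.R := by omega
    exact h ()
  | d + 1, l, T, g, h, hd => fun ω ω' hω => Finset.prod_congr rfl fun c _ =>
    Sys.A_dep hS (show l < S.R by omega)
      (mom_dep hS d (l + 1) (T.2 c) (fun v => h ⟨c, v⟩) (by omega)) ω ω' hω

lemma measurable_update_path (k : ℕ) :
    Measurable fun z : (ℕ → Ω) × Ω => update z.1 k z.2 := by
  refine measurable_pi_lambda _ fun i => ?_
  by_cases h : i = k
  · subst h
    simp only [update_self]
    exact measurable_snd
  · simp only [update_of_ne h]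
    exact (measurable_pi_apply i).comp measurable_fst

/-- Moments of leaves depending on a parameter are measurable in it. -/
lemma mom_meas (hS : S.Good) {Θ : Type} [MeasurableSpace Θ] :
    ∀ (d l : ℕ) (T : Tree d) {h : Leaves d T → Θ × (ℕ → Ω) → ℝ}, (∀ v, Measurable (h v)) →
      Measurable fun z : Θ × (ℕ → Ω) => S.mom d l T (fun v p => h v (z.1, p)) z.2
  | 0, _, _, h, hm => hm ()
  | d + 1, l, T, h, hm => by
    have := hS.prob
    refine Finset.measurable_prod _ fun c _ => ?_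
    have hu : Measurable fun w : (Θ × (ℕ → Ω)) × Ω => update w.1.2 (l + 1) w.2 :=
      (measurable_update_path (l + 1)).comp
        ((measurable_snd.comp measurable_fst).prodMk measurable_snd)
    have hw : Measurable fun w : (Θ × (ℕ → Ω)) × Ω =>
        Real.exp (S.x (l + 1) * S.u (l + 1) (update w.1.2 (l + 1) w.2)) :=
      (((Sys.u_bdd hS (l + 1)).1.comp hu).const_mul _).exp
    have hi : Measurable fun w : (Θ × (ℕ → Ω)) × Ω =>
        S.mom d (l + 1) (T.2 c) (fun v p => h ⟨c, v⟩ (w.1.1, p)) (update w.1.2 (l + 1) w.2) :=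
      (mom_meas hS d (l + 1) (T.2 c) fun v => hm ⟨c, v⟩).comp
        ((measurable_fst.comp measurable_fst).prodMk hu)
    exact ((hw.mul hi).stronglyMeasurable.integral_prod_right' (ν := S.μ)).measurable.div
      (hw.stronglyMeasurable.integral_prod_right' (ν := S.μ)).measurable

lemma mom_meas_param (hS : S.Good) {Θ : Type} [MeasurableSpace Θ] {d l : ℕ} (T : Tree d)
    {h : Leaves d T → Θ × (ℕ → Ω) → ℝ} (hm : ∀ v, Measurable (h v)) (ω : ℕ → Ω) :
    Measurable fun θ => S.mom d l T (fun v p => h v (θ, p)) ω :=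
  (mom_meas hS d l T hm).comp (measurable_id.prodMk measurable_const)

lemma rootWeight_nonneg (hS : S.Good) {d : ℕ} (hd : d + 1 = S.R) (T : Tree (d + 1)) :
    0 ≤ Tree.rootWeight S.x d T :=
  mul_nonneg (inv_nonneg.2 (mul_nonneg (hS.x_pos 1 le_rfl (by omega)).le (by positivity)))
    (Finset.prod_nonneg fun c _ => Sys.weight_nonneg hS le_rfl (by omega) _)

lemma summable_root (hS : S.Good) {d : ℕ} (hd : d + 1 = S.R) {ρ : ℝ} (h0 : 0 ≤ ρ) (hρ : ρ < 1)
    (ω : ℕ → Ω) :
    Summable fun T : Tree (d + 1) => Tree.rootWeight S.x d T * ρ ^ T.size := by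
  refine ((Sys.hasSum_incr_root hS (bdd_const (-ρ)) hρ
    (fun _ => by rw [abs_neg, abs_of_nonneg h0]) hd ω).summable).congr fun T => ?_
  simp only [neg_neg, mom_pow hS]

/-- The root expansion of an increment averaged over a parameter. -/
lemma hasSum_int_incr (hS : S.Good) {Θ : Type} [MeasurableSpace Θ] (ν : Measure Θ)
    [IsProbabilityMeasure ν] {z : Θ → (ℕ → Ω) → ℝ}
    (hz : Measurable fun w : Θ × (ℕ → Ω) => z w.1 w.2) {ρ : ℝ} (hρ : ρ < 1)
    (hb : ∀ θ v, |z θ v| ≤ ρ) {d : ℕ} (hd : d + 1 = S.R) (ω : ℕ → Ω) :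
    HasSum (fun T : Tree (d + 1) =>
        Tree.rootWeight S.x d T * ∫ θ, S.mom (d + 1) 0 T (fun _ p => -z θ p) ω ∂ν)
      (-∫ θ, S.incr (z θ) 0 ω ∂ν) := by
  obtain ⟨θ0⟩ : Nonempty Θ := nonempty_of_isProbabilityMeasure ν
  have h0 : 0 ≤ ρ := (abs_nonneg _).trans (hb θ0 ω)
  have hzb : ∀ θ, Bdd (z θ) := fun θ =>
    ⟨hz.comp (measurable_const.prodMk measurable_id), ρ, hb θ⟩
  have h := hasSum_integral_of_dominated_convergence (μ := ν)
    (F := fun T θ => Tree.rootWeight S.x d T * S.mom (d + 1) 0 T (fun _ p => -z θ p) ω)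
    (f := fun θ => -S.incr (z θ) 0 ω)
    (fun T _ => Tree.rootWeight S.x d T * ρ ^ T.size)
    (fun T => ((mom_meas_param hS T (h := fun _ w => -z w.1 w.2) (fun _ => hz.neg) ω).const_mul
      _).aestronglyMeasurable)
    (fun T => Filter.Eventually.of_forall fun θ => by
      rw [Real.norm_eq_abs, abs_mul, abs_of_nonneg (rootWeight_nonneg hS hd T)]
      refine mul_le_mul_of_nonneg_left ?_ (rootWeight_nonneg hS hd T)
      refine (Sys.mom_abs_le hS T (fun _ => (hzb θ).neg) (B := fun _ => ρ)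
        (fun _ v => by rw [abs_neg]; exact hb θ v) ω).trans_eq ?_
      rw [Finset.prod_const, Finset.card_univ]; rfl)
    (Filter.Eventually.of_forall fun _ => summable_root hS hd h0 hρ ω)
    (integrable_const _)
    (Filter.Eventually.of_forall fun θ => Sys.hasSum_incr_root hS (hzb θ) hρ (hb θ) hd ω)
  simpa only [integral_const_mul, integral_neg] using h

/-- The root expansion of an averaged increment of `b g`. -/
lemma hasSum_int_incr_smul (hS : S.Good) {Θ : Type} [MeasurableSpace Θ] (ν : Measure Θ)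
    [IsProbabilityMeasure ν] {g : Θ → (ℕ → Ω) → ℝ}
    (hg : Measurable fun w : Θ × (ℕ → Ω) => g w.1 w.2) (hg1 : ∀ θ v, |g θ v| ≤ 1) {ρ b : ℝ}
    (hρ : ρ < 1) (hb : |b| ≤ ρ) {d : ℕ} (hd : d + 1 = S.R) (ω : ℕ → Ω) :
    HasSum (fun T : Tree (d + 1) => Tree.rootWeight S.x d T * (-b) ^ T.size *
        ∫ θ, S.mom (d + 1) 0 T (fun _ => g θ) ω ∂ν)
      (-∫ θ, S.incr (fun p => b * g θ p) 0 ω ∂ν) := by
  have hgb : ∀ θ, Bdd (g θ) := fun θ =>
    ⟨hg.comp (measurable_const.prodMk measurable_id), 1, hg1 θ⟩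
  refine (hasSum_int_incr hS ν (z := fun θ p => b * g θ p) (hg.const_mul b) hρ (fun θ v => by
    rw [abs_mul]
    exact (mul_le_of_le_one_right (abs_nonneg b) (hg1 θ v)).trans hb) hd ω).congr_fun fun T => ?_
  have e : ∀ θ, S.mom (d + 1) 0 T (fun _ p => -(b * g θ p)) ω =
      (-b) ^ T.size * S.mom (d + 1) 0 T (fun _ => g θ) ω := fun θ => by
    rw [← mom_smul hS T (-b) (hgb θ)]
    simp only [neg_mul]
  simp only [e, integral_const_mul, mul_assoc]

end Vale.Agent.P168.UpperCore
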