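import Vale.Agent.P168.Defs
import Vale.Agent.P168.UpperMom

/-!
The sign inequality of the upper bound: `R^K - K R Q^(K-1) + (K-1) Q^K ≥ 0` summed over the trees of
replicas.
-/

namespace Vale.Agent.P168

open MeasureTheory Finset Function

/-- The mean of `f` under a message `x`. -/
noncomputable def msgMean (f : Bool → ℝ) (x : ℝ) : ℝ :=
  f true * ((1 + x) / 2) + f false * ((1 - x) / 2)

variable {Ω Ω' Θ : Type} [MeasurableSpace Ω] [MeasurableSpace Ω'] [MeasurableSpace Θ]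

/-- The increments of one clause on old spins, one cavity factor and one factor of `V`, combined:
`b`, `f` are the parameters of the clause, `s` the spins in `S`, `y` one message in `T`. -/
noncomputable def upperComb (S : Sys Ω) (T : Sys Ω') {N K : ℕ} (s : Fin N → (ℕ → Ω) → Bool)
    (ν : Measure Θ) (y : Θ → (ℕ → Ω') → ℝ) (ω : ℕ → Ω) (ω' : ℕ → Fin K → Ω')
    (q : ℝ × (Fin K → Bool → ℝ)) : ℝ :=
  avg (fun i : Fin K → Fin N => S.incr (fun p => q.1 * ∏ j, q.2 j (s (i j) p)) 0 ω) -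
    (K : ℝ) * avg (fun lv : Fin K × Fin N =>
      ∫ θ, (S.prod (T.copies (Fin K))).incr (fun p => q.1 * q.2 lv.1 (s lv.2 fun i => (p i).1) *
          ∏ j ∈ univ.erase lv.1, msgMean (q.2 j) (y (θ j) fun i => (p i).2 j))
        0 (fun i => (ω i, ω' i)) ∂Measure.pi fun _ : Fin K => ν) +
    ((K : ℝ) - 1) * ∫ θ, (T.copies (Fin K)).incr
      (fun p => q.1 * ∏ j, msgMean (q.2 j) (y (θ j) fun i => p i j)) 0 ω'
        ∂Measure.pi fun _ : Fin K => ν

namespace UpperCore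

lemma pow_gap_abs {a c : ℝ} (ha : 0 ≤ a) (hc : 0 ≤ c) :
    ∀ m : ℕ, 0 ≤ a ^ (m + 1) + m * c ^ (m + 1) - (m + 1) * a * c ^ m
  | 0 => by simp
  | m + 1 => by
    have h1 := mul_nonneg hc (pow_gap_abs ha hc m)
    have h2 : 0 ≤ (a - c) * (a ^ (m + 1) - c ^ (m + 1)) := by
      rcases le_total a c with h | h
      · exact mul_nonneg_of_nonpos_of_nonpos (sub_nonpos.2 h)
          (sub_nonpos.2 (pow_le_pow_left₀ ha h _))
      · exact mul_nonneg (sub_nonneg.2 h) (sub_nonneg.2 (pow_le_pow_left₀ hc h _))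
    push_cast
    simp only [pow_succ] at h1 h2 ⊢
    linarith

/-- The inequality `x^K - K x Q^(K-1) + (K-1) Q^K ≥ 0` for even `K`. -/
lemma pow_gap {K : ℕ} (hK : Even K) (h1 : 1 ≤ K) (x Q : ℝ) :
    0 ≤ x ^ K - K * (x * Q ^ (K - 1)) + ((K : ℝ) - 1) * Q ^ K := by
  obtain ⟨m, rfl⟩ : ∃ m, K = m + 1 := ⟨K - 1, by omega⟩
  have h := pow_gap_abs (abs_nonneg x) (abs_nonneg Q) m
  rw [hK.pow_abs, hK.pow_abs] at h
  have h2 : x * Q ^ m ≤ |x| * |Q| ^ m := by
    rw [← abs_pow, ← abs_mul]; exact le_abs_self _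
  have h3 := mul_le_mul_of_nonneg_left h2 (by positivity : (0 : ℝ) ≤ (m : ℝ) + 1)
  simp only [Nat.add_sub_cancel]
  push_cast
  linarith

lemma spin_cases (e : Bool) : spin e = 1 ∨ spin e = -1 := by cases e <;> simp [spin]

lemma abs_msgMean_le {f : Bool → ℝ} (hf : ∀ e, |f e| ≤ 1) {x : ℝ} (hx : |x| ≤ 1) :
    |msgMean f x| ≤ 1 := by
  obtain ⟨a, b⟩ := abs_le.1 hx
  obtain ⟨c, d⟩ := abs_le.1 (hf true)
  obtain ⟨e, g⟩ := abs_le.1 (hf false)
  refine abs_le.2 ⟨?_, ?_⟩ <;> unfold msgMean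
  · nlinarith [mul_nonneg (show 0 ≤ 1 + x by linarith) (show 0 ≤ 1 + f true by linarith),
      mul_nonneg (show 0 ≤ 1 - x by linarith) (show 0 ≤ 1 + f false by linarith)]
  · nlinarith [mul_nonneg (show 0 ≤ 1 + x by linarith) (show 0 ≤ 1 - f true by linarith),
      mul_nonneg (show 0 ≤ 1 - x by linarith) (show 0 ≤ 1 - f false by linarith)]

lemma measurable_msgMean {α : Type} [MeasurableSpace α] (f : Bool → ℝ) {g : α → ℝ}
    (hg : Measurable g) : Measurable fun a => msgMean f (g a) := by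
  unfold msgMean; fun_prop

lemma abs_prod_le_one {ι : Type} (t : Finset ι) {a : ι → ℝ} (h : ∀ i ∈ t, |a i| ≤ 1) :
    |∏ i ∈ t, a i| ≤ 1 := by
  rw [abs_prod]; exact prod_le_one (fun i _ => abs_nonneg _) h

lemma abs_avg_le_one {α : Type} [Fintype α] [Nonempty α] {F : α → ℝ} (h : ∀ a, |F a| ≤ 1) :
    |avg F| ≤ 1 := by
  unfold avg
  rw [abs_div, Nat.abs_cast, div_le_one (by exact_mod_cast Fintype.card_pos)]
  refine (abs_sum_le_sum_abs _ _).trans ((sum_le_sum fun a _ => h a).trans_eq ?_)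
  simp

lemma prod_erase_ite {ι : Type} [Fintype ι] [DecidableEq ι] (l : ι) (a : ι → ℝ) :
    ∏ j ∈ univ.erase l, a j = ∏ j, if j = l then 1 else a j := by
  rw [← mul_prod_erase univ (fun j => if j = l then 1 else a j) (mem_univ l), if_pos rfl, one_mul]
  exact prod_congr rfl fun j hj => by rw [if_neg (ne_of_mem_erase hj)]

lemma hasSum_avg {α β : Type} [Fintype α] {F : α → β → ℝ} {c : α → ℝ}
    (h : ∀ a, HasSum (F a) (c a)) : HasSum (fun b => avg fun a => F a b) (avg c) := by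
  unfold avg
  exact (hasSum_sum fun a _ => h a).div_const _

variable {S : Sys Ω} {T : Sys Ω'} {N K d : ℕ}

/-- The law of the spins at the leaves of a tree. -/
noncomputable def pW (S : Sys Ω) (s : Fin N → (ℕ → Ω) → Bool) (U : Tree (d + 1)) (ω : ℕ → Ω)
    (τ : Leaves (d + 1) U → Fin N → Bool) : ℝ :=
  S.mom (d + 1) 0 U (fun u p => if (fun v => s v p) = τ u then 1 else 0) ω

/-- The law of the values of one message at the leaves of a tree. -/
noncomputable def zW (T : Sys Ω') (ν : Measure Θ) (y : Θ → (ℕ → Ω') → ℝ) (U : Tree (d + 1))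
    (ω : ℕ → Ω') (σ : Leaves (d + 1) U → Bool) : ℝ :=
  ∫ θ, T.mom (d + 1) 0 U (fun u p => (1 + spin (σ u) * y θ p) / 2) ω ∂ν

/-- The product of `f` over the leaves. -/
def phi {U : Tree (d + 1)} (σ : Leaves (d + 1) U → Bool) (f : Bool → ℝ) : ℝ := ∏ u, f (σ u)

/-- The moment of `f` under one message. -/
noncomputable def psi (T : Sys Ω') (ν : Measure Θ) (y : Θ → (ℕ → Ω') → ℝ) (U : Tree (d + 1))
    (ω : ℕ → Ω') (f : Bool → ℝ) : ℝ :=
  ∑ σ : Leaves (d + 1) U → Bool, phi σ f * zW T ν y U ω σ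

/-- The contribution of one tree. -/
noncomputable def comb (S : Sys Ω) (T : Sys Ω') (s : Fin N → (ℕ → Ω) → Bool) (ν : Measure Θ)
    (y : Θ → (ℕ → Ω') → ℝ) (U : Tree (d + 1)) (ω : ℕ → Ω) (ω0 : ℕ → Ω')
    (f : Fin K → Bool → ℝ) : ℝ :=
  avg (fun i : Fin K → Fin N =>
      ∑ τ : Leaves (d + 1) U → Fin N → Bool,
        (∏ j, phi (fun u => τ u (i j)) (f j)) * pW S s U ω τ) -
    (K : ℝ) * avg (fun lv : Fin K × Fin N =>
      (∑ τ : Leaves (d + 1) U → Fin N → Bool,
        phi (fun u => τ u lv.2) (f lv.1) * pW S s U ω τ) *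
        ∏ j ∈ univ.erase lv.1, psi T ν y U ω0 (f j)) +
    ((K : ℝ) - 1) * ∏ j, psi T ν y U ω0 (f j)

section Law

variable {s : Fin N → (ℕ → Ω) → Bool}

lemma bdd_ind (hs : ∀ v, Measurable (s v)) (a : Fin N → Bool) :
    Bdd fun p => if (fun v => s v p) = a then (1 : ℝ) else 0 :=
  ⟨Measurable.ite (measurable_pi_lambda _ hs (measurableSet_singleton a)) measurable_const
    measurable_const, 1, fun p => by dsimp only; split <;> norm_num⟩

lemma mom_spins (hS : S.Good) (hs : ∀ v, Measurable (s v)) (U : Tree (d + 1))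
    (g : (Fin N → Bool) → ℝ) (ω : ℕ → Ω) :
    S.mom (d + 1) 0 U (fun _ p => g fun v => s v p) ω =
      ∑ τ : Leaves (d + 1) U → Fin N → Bool, (∏ u, g (τ u)) * pW S s U ω τ := by
  refine Eq.trans ?_ (mom_expand hS (bdd_ind hs) (d + 1) 0 U (fun _ a => g a) ω)
  refine congrArg (fun F => S.mom (d + 1) 0 U F ω) (funext fun _ => funext fun p => ?_)
  simp

lemma pW_nonneg (hS : S.Good) (hs : ∀ v, Measurable (s v)) (U : Tree (d + 1)) (ω : ℕ → Ω)
    (τ : Leaves (d + 1) U → Fin N → Bool) : 0 ≤ pW S s U ω τ :=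
  mom_nonneg hS _ _ U (fun u => bdd_ind hs (τ u)) (fun u p => by split <;> norm_num) ω

lemma sum_pW (hS : S.Good) (hs : ∀ v, Measurable (s v)) (U : Tree (d + 1)) (ω : ℕ → Ω) :
    ∑ τ, pW S s U ω τ = 1 := by
  have h := mom_spins hS hs U (fun _ => 1) ω
  simp only [prod_const_one, one_mul] at h
  rw [← h, mom_one hS]

end Law

section Message

variable {y : Θ → (ℕ → Ω') → ℝ} {ν : Measure Θ}

lemma bdd_msg (hy : Measurable fun z : Θ × (ℕ → Ω') => y z.1 z.2) (hy1 : ∀ θ ω, |y θ ω| ≤ 1)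
    (θ : Θ) (e : Bool) : Bdd fun p => (1 + spin e * y θ p) / 2 := by
  have hm : Measurable (y θ) := hy.comp (measurable_const.prodMk measurable_id)
  refine ⟨by fun_prop, 1, fun p => ?_⟩
  obtain ⟨a, b⟩ := abs_le.1 (hy1 θ p)
  rcases spin_cases e with h | h <;> rw [h] <;> exact abs_le.2 ⟨by linarith, by linarith⟩

omit [MeasurableSpace Ω'] [MeasurableSpace Θ] in
lemma msg_nonneg (hy1 : ∀ θ ω, |y θ ω| ≤ 1) (θ : Θ) (e : Bool) (p : ℕ → Ω') :
    0 ≤ (1 + spin e * y θ p) / 2 := by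
  obtain ⟨a, b⟩ := abs_le.1 (hy1 θ p)
  rcases spin_cases e with h | h <;> rw [h] <;> linarith

lemma int_msgMean (hT : T.Good) (hd : 0 + (d + 1) = T.R)
    (hy : Measurable fun z : Θ × (ℕ → Ω') => y z.1 z.2) (hy1 : ∀ θ ω, |y θ ω| ≤ 1)
    (hyd : ∀ θ, DependsTo (y θ) T.R) [IsProbabilityMeasure ν] (U : Tree (d + 1)) (f : Bool → ℝ)
    (ω ω0 : ℕ → Ω') :
    ∫ θ, T.mom (d + 1) 0 U (fun _ p => msgMean f (y θ p)) ω ∂ν = psi T ν y U ω0 f := by
  have e : ∀ θ, T.mom (d + 1) 0 U (fun _ p => msgMean f (y θ p)) ω =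
      ∑ σ : Leaves (d + 1) U → Bool,
        phi σ f * T.mom (d + 1) 0 U (fun u p => (1 + spin (σ u) * y θ p) / 2) ω0 := fun θ => by
    have hdep : DependsTo (T.mom (d + 1) 0 U fun _ p => msgMean f (y θ p)) 0 :=
      mom_dep hT _ _ U (fun _ a b h => by simp only [hyd θ a b h]) hd
    rw [hdep ω ω0 fun i h1 h2 => absurd h2 (by omega)]
    refine Eq.trans ?_ (mom_expand hT (bdd_msg hy hy1 θ) (d + 1) 0 U (fun _ a => f a) ω0)
    refine congrArg (fun F => T.mom (d + 1) 0 U F ω0) (funext fun _ => funext fun p => ?_)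
    simp only [Fintype.sum_bool, msgMean, spin, if_true, Bool.false_eq_true, if_false]
    ring
  simp only [e, psi, zW]
  rw [integral_finsetSum]
  · simp only [integral_const_mul]
  · intro σ _
    refine (Integrable.of_bound (C := ∏ _u : Leaves (d + 1) U, (1 : ℝ))
      (mom_meas_param hT U (h := fun u w => (1 + spin (σ u) * y w.1 w.2) / 2)
        (fun u => by fun_prop) ω0).aestronglyMeasurable
      (Filter.Eventually.of_forall fun θ => ?_)).const_mul _
    rw [Real.norm_eq_abs]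
    refine Sys.mom_abs_le hT U (fun u => bdd_msg hy hy1 θ (σ u)) (B := fun _ => 1) (fun u p => ?_) ω0
    rw [abs_of_nonneg (msg_nonneg hy1 θ _ p)]
    obtain ⟨a, b⟩ := abs_le.1 (hy1 θ p)
    rcases spin_cases (σ u) with h | h <;> rw [h] <;> linarith

lemma zW_nonneg (hT : T.Good) (hy : Measurable fun z : Θ × (ℕ → Ω') => y z.1 z.2)
    (hy1 : ∀ θ ω, |y θ ω| ≤ 1) (U : Tree (d + 1)) (ω : ℕ → Ω') (σ : Leaves (d + 1) U → Bool) :
    0 ≤ zW T ν y U ω σ :=
  integral_nonneg fun θ =>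
    mom_nonneg hT _ _ U (fun u => bdd_msg hy hy1 θ (σ u)) (fun _ p => msg_nonneg hy1 θ _ p) ω

lemma sum_zW (hT : T.Good) (hd : 0 + (d + 1) = T.R)
    (hy : Measurable fun z : Θ × (ℕ → Ω') => y z.1 z.2) (hy1 : ∀ θ ω, |y θ ω| ≤ 1)
    (hyd : ∀ θ, DependsTo (y θ) T.R) [IsProbabilityMeasure ν] (U : Tree (d + 1)) (ω : ℕ → Ω') :
    ∑ σ, zW T ν y U ω σ = 1 := by
  have h := int_msgMean (ν := ν) hT hd hy hy1 hyd U (fun _ => 1) ω ω
  simp only [psi, phi, prod_const_one, one_mul] at h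
  rw [← h]
  have e : ∀ x : ℝ, msgMean (fun _ => 1) x = 1 := fun x => by unfold msgMean; ring
  simp only [e, mom_one hT]
  simp

lemma abs_psi_le (hT : T.Good) (hd : 0 + (d + 1) = T.R)
    (hy : Measurable fun z : Θ × (ℕ → Ω') => y z.1 z.2) (hy1 : ∀ θ ω, |y θ ω| ≤ 1)
    (hyd : ∀ θ, DependsTo (y θ) T.R) [IsProbabilityMeasure ν] (U : Tree (d + 1)) (ω : ℕ → Ω')
    {f : Bool → ℝ} (hf : ∀ e, |f e| ≤ 1) : |psi T ν y U ω f| ≤ 1 := by
  refine (abs_sum_le_sum_abs _ _).trans ((sum_le_sum fun σ _ => ?_).trans_eq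
    (sum_zW (ν := ν) hT hd hy hy1 hyd U ω))
  rw [abs_mul, abs_of_nonneg (zW_nonneg hT hy hy1 U ω σ)]
  exact mul_le_of_le_one_left (zW_nonneg hT hy hy1 U ω σ) (abs_prod_le_one _ fun u _ => hf _)

end Message

section Expansion

variable {s : Fin N → (ℕ → Ω) → Bool} {y : Θ → (ℕ → Ω') → ℝ} {ν : Measure Θ}

lemma measurable_msg_coord (hy : Measurable fun z : Θ × (ℕ → Ω') => y z.1 z.2) (j : Fin K) :
    Measurable fun z : (Fin K → Θ) × (ℕ → Fin K → Ω') => y (z.1 j) fun i => z.2 i j := by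
  have h1 : Measurable fun z : (Fin K → Θ) × (ℕ → Fin K → Ω') => (z.1 j, fun i => z.2 i j) :=
    ((measurable_pi_apply j).comp measurable_fst).prodMk
      (measurable_pi_lambda _ fun i =>
        (measurable_pi_apply j).comp ((measurable_pi_apply i).comp measurable_snd))
  exact hy.comp h1

lemma bdd_msgMean (hy : Measurable fun z : Θ × (ℕ → Ω') => y z.1 z.2) (hy1 : ∀ θ ω, |y θ ω| ≤ 1)
    {f : Bool → ℝ} (hf : ∀ e, |f e| ≤ 1) (θ : Θ) :
    Bdd fun p : ℕ → Ω' => msgMean f (y θ p) :=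
  ⟨measurable_msgMean _ (hy.comp (measurable_const.prodMk measurable_id)), 1,
    fun p => abs_msgMean_le hf (hy1 θ p)⟩

/-- The expansion of a clause on old spins. -/
lemma hasSum_old (hS : S.Good) (hd : d + 1 = S.R) (hs : ∀ v, Measurable (s v))
    {f : Fin K → Bool → ℝ} (hf : ∀ j e, |f j e| ≤ 1) {ρ b : ℝ} (hρ : ρ < 1) (hb : |b| ≤ ρ)
    (ω : ℕ → Ω) (i : Fin K → Fin N) :
    HasSum (fun U : Tree (d + 1) =>
    Tree.rootWeight S.x d U * (-b) ^ U.size *
      ∑ τ : Leaves (d + 1) U → Fin N → Bool,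
        (∏ j, phi (fun u => τ u (i j)) (f j)) * pW S s U ω τ)
    (-S.incr (fun p => b * ∏ j, f j (s (i j) p)) 0 ω) := by
  have h := hasSum_int_incr_smul hS (Measure.dirac ())
    (g := fun (_ : Unit) p => ∏ j, f j (s (i j) p))
    (Finset.measurable_prod _ fun j _ =>
      (measurable_of_countable (f j)).comp ((hs (i j)).comp measurable_snd))
    (fun _ p => abs_prod_le_one _ fun j _ => hf j _) hρ hb hd ω
  simp only [integral_dirac] at h
  refine h.congr_fun fun U => ?_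
  rw [mom_spins hS hs U (fun a => ∏ j, f j (a (i j))) ω]
  simp only [phi]
  exact congrArg _ (sum_congr rfl fun τ _ => by rw [prod_comm])

/-- The expansion of a clause through a new site. -/
lemma hasSum_cavity (hS : S.Good) (hR : T.R = S.R) (hx : T.x = S.x) (hd : d + 1 = S.R)
    (hs : ∀ v, Measurable (s v)) (hT : T.Good)
    (hy : Measurable fun z : Θ × (ℕ → Ω') => y z.1 z.2) (hy1 : ∀ θ ω, |y θ ω| ≤ 1)
    (hyd : ∀ θ, DependsTo (y θ) T.R) [IsProbabilityMeasure ν]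
    {f : Fin K → Bool → ℝ} (hf : ∀ j e, |f j e| ≤ 1) {ρ b : ℝ} (hρ : ρ < 1) (hb : |b| ≤ ρ)
    (ω : ℕ → Ω) (ω' : ℕ → Fin K → Ω') (ω0 : ℕ → Ω') (lv : Fin K × Fin N) :
    HasSum (fun U : Tree (d + 1) =>
    Tree.rootWeight S.x d U * (-b) ^ U.size *
      ((∑ τ : Leaves (d + 1) U → Fin N → Bool,
        phi (fun u => τ u lv.2) (f lv.1) * pW S s U ω τ) *
        ∏ j ∈ univ.erase lv.1, psi T ν y U ω0 (f j)))
    (-∫ θ, (S.prod (T.copies (Fin K))).incr (fun p => b * f lv.1 (s lv.2 fun i => (p i).1) *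
        ∏ j ∈ univ.erase lv.1, msgMean (f j) (y (θ j) fun i => (p i).2 j))
      0 (fun i => (ω i, ω' i)) ∂Measure.pi fun _ : Fin K => ν) := by
  have hTg := Sys.copies_good hT (Fin K)
  have hPg := Sys.prod_good hS hTg hR hx
  have hdT : 0 + (d + 1) = T.R := by omega

  obtain ⟨l, v⟩ := lv
  have hfst : Measurable fun w : (Fin K → Θ) × (ℕ → Ω × (Fin K → Ω')) => fun i => (w.2 i).1 :=
    measurable_pi_lambda _ fun i =>
      measurable_fst.comp ((measurable_pi_apply i).comp measurable_snd)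
  have hsnd : Measurable fun w : (Fin K → Θ) × (ℕ → Ω × (Fin K → Ω')) =>
      (w.1, fun i => (w.2 i).2) :=
    measurable_fst.prodMk (measurable_pi_lambda _ fun i =>
      measurable_snd.comp ((measurable_pi_apply i).comp measurable_snd))
  have h := hasSum_int_incr_smul hPg (Measure.pi fun _ : Fin K => ν) (d := d)
    (g := fun θ (p : ℕ → Ω × (Fin K → Ω')) => f l (s v fun i => (p i).1) *
      ∏ j ∈ univ.erase l, msgMean (f j) (y (θ j) fun i => (p i).2 j))
    (((measurable_of_countable (f l)).comp ((hs v).comp hfst)).mul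
      (Finset.measurable_prod _ fun j _ => measurable_msgMean _ ((measurable_msg_coord hy j).comp hsnd)))
    (fun θ p => by
      rw [abs_mul]
      exact mul_le_one₀ (hf l _) (abs_nonneg _)
        (abs_prod_le_one _ fun j _ => abs_msgMean_le (hf j) (hy1 _ _)))
    hρ hb hd fun i => (ω i, ω' i)
  simp only [← mul_assoc] at h ⊢
  refine h.congr_fun fun U => ?_
  set g' : (Fin K → Θ) → Fin K → (ℕ → Ω') → ℝ := fun θ j p =>
    if j = l then 1 else msgMean (f j) (y (θ j) p) with hg'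
  have hg'b : ∀ θ j, Bdd (g' θ j) := fun θ j => by
    by_cases hj : j = l <;> simp only [hg', hj, if_true, if_false]
    · exact bdd_const 1
    · exact bdd_msgMean hy hy1 (hf j) (θ j)
  have hfl : Bdd fun p : ℕ → Ω => f l (s v p) :=
    ⟨(measurable_of_countable (f l)).comp (hs v), 1, fun p => hf l _⟩
  have e : ∀ θ : Fin K → Θ, (S.prod (T.copies (Fin K))).mom (d + 1) 0 U
      (fun _ p => f l (s v fun i => (p i).1) *
        ∏ j ∈ univ.erase l, msgMean (f j) (y (θ j) fun i => (p i).2 j)) (fun i => (ω i, ω' i)) =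
      S.mom (d + 1) 0 U (fun _ p => f l (s v p)) ω *
        ∏ j, if j = l then 1 else
          T.mom (d + 1) 0 U (fun _ p => msgMean (f j) (y (θ j) p)) fun i => ω' i j := fun θ => by
    have e1 := Sys.mom_prod hS hTg hR hx (l := 0) (by omega) U
      (g := fun _ p => f l (s v p)) (g' := fun _ p => ∏ j, g' θ j fun i => p i j)
      (fun _ => hfl) (fun _ => Bdd.prod _ fun j => (hg'b θ j).comp
        (measurable_pi_lambda _ fun i => (measurable_pi_apply j).comp (measurable_pi_apply i)))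
      (fun i => (ω i, ω' i))
    have e2 := Sys.mom_copies hT (Fin K) (l := 0) hdT U (g := fun _ j => g' θ j)
      (fun _ j => hg'b θ j) ω'
    simp only [prod_erase_ite]
    refine e1.trans (congrArg₂ (· * ·) rfl (e2.trans (prod_congr rfl fun j _ => ?_)))
    by_cases hj : j = l <;> simp only [hg', hj, if_true, if_false]
    exact mom_one hT _ _ U _
  simp only [e, mul_assoc]
  refine congrArg _ (congrArg _ ?_)
  rw [integral_const_mul, mom_spins hS hs U (fun a => f l (a v)) ω, prod_erase_ite,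
    integral_fintype_prod_eq_prod (f := fun j θj => if j = l then (1 : ℝ) else
      T.mom (d + 1) 0 U (fun _ p => msgMean (f j) (y θj p)) fun i => ω' i j)]
  refine congrArg₂ (· * ·) rfl (prod_congr rfl fun j _ => ?_)
  by_cases hj : j = l <;> simp only [hj, if_true, if_false]
  · simp
  · exact (int_msgMean (ν := ν) hT hdT hy hy1 hyd U (f j) _ ω0).symm

/-- The expansion of the messages alone. -/
lemma hasSum_msgs (hR : T.R = S.R) (hx : T.x = S.x) (hd : d + 1 = S.R) (hT : T.Good)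
    (hy : Measurable fun z : Θ × (ℕ → Ω') => y z.1 z.2) (hy1 : ∀ θ ω, |y θ ω| ≤ 1)
    (hyd : ∀ θ, DependsTo (y θ) T.R) [IsProbabilityMeasure ν]
    {f : Fin K → Bool → ℝ} (hf : ∀ j e, |f j e| ≤ 1) {ρ b : ℝ} (hρ : ρ < 1) (hb : |b| ≤ ρ)
    (ω' : ℕ → Fin K → Ω') (ω0 : ℕ → Ω') :
    HasSum (fun U : Tree (d + 1) =>
    Tree.rootWeight S.x d U * (-b) ^ U.size * ∏ j, psi T ν y U ω0 (f j))
    (-∫ θ, (T.copies (Fin K)).incr (fun p => b * ∏ j, msgMean (f j) (y (θ j) fun i => p i j))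
      0 ω' ∂Measure.pi fun _ : Fin K => ν) := by
  have hTg := Sys.copies_good hT (Fin K)
  have hdT : 0 + (d + 1) = T.R := by omega

  have h := hasSum_int_incr_smul hTg (Measure.pi fun _ : Fin K => ν) (d := d)
    (g := fun θ (p : ℕ → Fin K → Ω') => ∏ j, msgMean (f j) (y (θ j) fun i => p i j))
    (Finset.measurable_prod _ fun j _ => measurable_msgMean _ (measurable_msg_coord hy j))
    (fun θ p => abs_prod_le_one _ fun j _ => abs_msgMean_le (hf j) (hy1 _ _))
    hρ hb (show d + 1 = T.R by omega) ω'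
  refine h.congr_fun fun U => ?_
  have e : ∀ θ : Fin K → Θ, (T.copies (Fin K)).mom (d + 1) 0 U
      (fun _ p => ∏ j, msgMean (f j) (y (θ j) fun i => p i j)) ω' =
      ∏ j, T.mom (d + 1) 0 U (fun _ p => msgMean (f j) (y (θ j) p)) fun i => ω' i j := fun θ =>
    Sys.mom_copies hT (Fin K) (l := 0) hdT U
      (g := fun _ j p => msgMean (f j) (y (θ j) p)) (fun _ j => bdd_msgMean hy hy1 (hf j) (θ j)) ω'
  simp only [e, show (T.copies (Fin K)).x = S.x from hx]
  rw [integral_fintype_prod_eq_prod (f := fun j θj =>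
    T.mom (d + 1) 0 U (fun _ p => msgMean (f j) (y θj p)) fun i => ω' i j)]
  exact congrArg _ (prod_congr rfl fun j _ => (int_msgMean (ν := ν) hT hdT hy hy1 hyd U (f j) _ ω0).symm)

lemma hasSum_upperComb (hS : S.Good) (hT : T.Good) (hR : T.R = S.R) (hx : T.x = S.x)
    (hd : d + 1 = S.R) (hs : ∀ v, Measurable (s v))
    (hy : Measurable fun z : Θ × (ℕ → Ω') => y z.1 z.2) (hy1 : ∀ θ ω, |y θ ω| ≤ 1)
    (hyd : ∀ θ, DependsTo (y θ) T.R) [IsProbabilityMeasure ν] {ρ b : ℝ} (hρ : ρ < 1) (hb : |b| ≤ ρ)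
    {f : Fin K → Bool → ℝ} (hf : ∀ j e, |f j e| ≤ 1) (ω : ℕ → Ω) (ω' : ℕ → Fin K → Ω')
    (ω0 : ℕ → Ω') :
    HasSum (fun U : Tree (d + 1) =>
        Tree.rootWeight S.x d U * (-b) ^ U.size * comb S T s ν y U ω ω0 f)
      (-upperComb S T s ν y ω ω' (b, f)) := by
  have h := (((hasSum_avg (hasSum_old hS hd hs hf hρ hb ω)).sub
    ((hasSum_avg (hasSum_cavity (ν := ν) hS hR hx hd hs hT hy hy1 hyd hf hρ hb ω ω' ω0)).mul_left
      (K : ℝ))).add
    ((hasSum_msgs (ν := ν) hR hx hd hT hy hy1 hyd hf hρ hb ω' ω0).mul_left ((K : ℝ) - 1)))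
  suffices e : ∃ a, HasSum (fun U : Tree (d + 1) =>
      Tree.rootWeight S.x d U * (-b) ^ U.size * comb S T s ν y U ω ω0 f) a ∧
      a = -upperComb S T s ν y ω ω' (b, f) by
    obtain ⟨a, ha, rfl⟩ := e
    exact ha
  refine ⟨_, h.congr_fun fun U => ?_, ?_⟩
  · simp only [comb, avg, ← mul_sum]; ring
  · simp only [upperComb, avg, sum_neg_distrib]; ring

end Expansion

section Average

variable {s : Fin N → (ℕ → Ω) → Bool} {y : Θ → (ℕ → Ω') → ℝ} {ν : Measure Θ}
  {fL : Measure (Bool → ℝ)} [IsProbabilityMeasure fL]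

omit [MeasurableSpace Ω] [MeasurableSpace Ω'] [MeasurableSpace Θ] in
lemma integrable_phi (hf : ∀ᵐ f ∂fL, ∀ e, |f e| ≤ 1) {U : Tree (d + 1)}
    (σ : Leaves (d + 1) U → Bool) : Integrable (phi σ) fL := by
  have h : Measurable fun f : Bool → ℝ => ∏ u, f (σ u) :=
    Finset.measurable_prod _ fun u _ => measurable_pi_apply (σ u)
  refine Integrable.of_bound (f := fun f : Bool → ℝ => ∏ u, f (σ u)) h.aestronglyMeasurable 1 ?_
  filter_upwards [hf] with f hfb
  rw [Real.norm_eq_abs]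
  exact abs_prod_le_one _ fun u _ => hfb (σ u)

lemma integral_comb_nonneg (hN : 0 < N) (hK : Even K) (hK2 : 2 ≤ K) (hS : S.Good)
    (hs : ∀ v, Measurable (s v)) (hf : ∀ᵐ f ∂fL, ∀ e, |f e| ≤ 1) (U : Tree (d + 1)) (ω : ℕ → Ω)
    (ω0 : ℕ → Ω') :
    0 ≤ ∫ f, comb S T s ν y U ω ω0 f ∂Measure.pi fun _ : Fin K => fL := by
  set ψ := psi T ν y U ω0 with hψdef
  have hφ := fun σ => integrable_phi (fL := fL) hf (U := U) σ
  have hψ : Integrable ψ fL :=
    integrable_finsetSum _ fun σ _ => (hφ σ).mul_const _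
  set Q := ∫ f, ψ f ∂fL with hQ
  set x : (Leaves (d + 1) U → Fin N → Bool) → ℝ := fun τ =>
    avg fun v : Fin N => ∫ f, phi (fun u => τ u v) f ∂fL with hx
  set P := pW S s U ω with hP
  let G : Fin K × Fin N → (Leaves (d + 1) U → Fin N → Bool) → Fin K → (Bool → ℝ) → ℝ :=
    fun lv τ j => if j = lv.1 then phi (fun u => τ u lv.2) else ψ
  have hGi : ∀ lv τ j, Integrable (G lv τ j) fL := fun lv τ j => by
    simp only [G]; split
    · exact hφ _
    · exact hψ
  have hBe : ∀ (lv : Fin K × Fin N) (f : Fin K → Bool → ℝ),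
      (∑ τ, phi (fun u => τ u lv.2) (f lv.1) * P τ) * ∏ j ∈ univ.erase lv.1, ψ (f j) =
        ∑ τ, (∏ j, G lv τ j (f j)) * P τ := fun lv f => by
    rw [sum_mul]
    refine sum_congr rfl fun τ _ => ?_
    rw [← mul_prod_erase univ (fun j => G lv τ j (f j)) (mem_univ lv.1),
      prod_congr rfl fun j hj =>
        show G lv τ j (f j) = ψ (f j) by simp only [G, if_neg (ne_of_mem_erase hj)]]
    simp only [G, if_true]
    ring
  have iA : ∀ (i : Fin K → Fin N) (τ : Leaves (d + 1) U → Fin N → Bool),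
      Integrable (fun f : Fin K → Bool → ℝ => (∏ j, phi (fun u => τ u (i j)) (f j)) * P τ)
        (Measure.pi fun _ : Fin K => fL) := fun i τ =>
    (Integrable.fintype_prod (f := fun j => phi fun u => τ u (i j)) fun j => hφ _).mul_const _
  have iB : ∀ lv τ, Integrable (fun f : Fin K → Bool → ℝ => (∏ j, G lv τ j (f j)) * P τ)
      (Measure.pi fun _ : Fin K => fL) := fun lv τ =>
    (Integrable.fintype_prod (f := fun j => G lv τ j) fun j => hGi lv τ j).mul_const _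
  have iC : Integrable (fun f : Fin K → Bool → ℝ => ∏ j, ψ (f j))
      (Measure.pi fun _ : Fin K => fL) :=
    Integrable.fintype_prod (f := fun _ => ψ) fun _ => hψ
  have eA : ∫ f, avg (fun i : Fin K → Fin N => ∑ τ, (∏ j, phi (fun u => τ u (i j)) (f j)) * P τ)
      ∂(Measure.pi fun _ : Fin K => fL) = ∑ τ, x τ ^ K * P τ := by
    simp only [avg, hx]
    rw [integral_div, integral_finsetSum _ fun i _ => integrable_finsetSum _ fun τ _ => iA i τ]
    simp only [integral_finsetSum _ fun τ _ => iA _ τ, integral_mul_const,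
      integral_fintype_prod_eq_prod]
    rw [sum_comm, sum_div]
    refine sum_congr rfl fun τ _ => ?_
    rw [← sum_mul, div_pow, Fintype.sum_pow, Fintype.card_fun, Fintype.card_fin, Fintype.card_fin]
    push_cast
    ring
  have eB : ∫ f, avg (fun lv : Fin K × Fin N =>
      (∑ τ, phi (fun u => τ u lv.2) (f lv.1) * P τ) * ∏ j ∈ univ.erase lv.1, ψ (f j))
      ∂(Measure.pi fun _ : Fin K => fL) = ∑ τ, x τ * Q ^ (K - 1) * P τ := by
    simp only [hBe, avg, hx]
    rw [integral_div, integral_finsetSum _ fun lv _ => integrable_finsetSum _ fun τ _ => iB lv τ]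
    simp only [integral_finsetSum _ fun τ _ => iB _ τ, integral_mul_const,
      integral_fintype_prod_eq_prod]
    rw [sum_comm, sum_div]
    refine sum_congr rfl fun τ _ => ?_
    have e : ∀ lv : Fin K × Fin N, ∏ j, ∫ f, G lv τ j f ∂fL =
        (∫ f, phi (fun u => τ u lv.2) f ∂fL) * Q ^ (K - 1) := fun lv => by
      rw [← mul_prod_erase univ _ (mem_univ lv.1), prod_congr rfl fun j hj =>
        show ∫ f, G lv τ j f ∂fL = Q by simp only [G, if_neg (ne_of_mem_erase hj), hQ]]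
      simp [G]
    simp only [e]
    rw [← sum_mul, ← sum_mul, Fintype.sum_prod_type]
    simp only [sum_const, card_univ, Fintype.card_prod, Fintype.card_fin, nsmul_eq_mul]
    have hN' : (N : ℝ) ≠ 0 := Nat.cast_ne_zero.2 (by omega)
    have hK' : (K : ℝ) ≠ 0 := Nat.cast_ne_zero.2 (by omega)
    push_cast
    field_simp
  have eC : ∫ f, ∏ j, ψ (f j) ∂(Measure.pi fun _ : Fin K => fL) = Q ^ K := by
    rw [integral_fintype_prod_eq_prod (f := fun _ => ψ)]
    simp [hQ]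
  have iA' : Integrable (fun f : Fin K → Bool → ℝ => avg fun i : Fin K → Fin N =>
      ∑ τ, (∏ j, phi (fun u => τ u (i j)) (f j)) * P τ) (Measure.pi fun _ : Fin K => fL) :=
    (integrable_finsetSum _ fun i _ => integrable_finsetSum _ fun τ _ => iA i τ).div_const _
  have iB' : Integrable (fun f : Fin K → Bool → ℝ => avg fun lv : Fin K × Fin N =>
      (∑ τ, phi (fun u => τ u lv.2) (f lv.1) * P τ) * ∏ j ∈ univ.erase lv.1, ψ (f j))
      (Measure.pi fun _ : Fin K => fL) := by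
    simp only [hBe]
    exact (integrable_finsetSum _ fun lv _ => integrable_finsetSum _ fun τ _ => iB lv τ).div_const _
  have key : ∫ f, comb S T s ν y U ω ω0 f ∂(Measure.pi fun _ : Fin K => fL) =
      ∑ τ, (x τ ^ K - K * (x τ * Q ^ (K - 1)) + ((K : ℝ) - 1) * Q ^ K) * P τ := by
    simp only [comb, ← hP, ← hψdef]
    have e1 := integral_add (iA'.sub (iB'.const_mul (K : ℝ))) (iC.const_mul ((K : ℝ) - 1))
    simp only [Pi.sub_apply] at e1
    rw [e1, integral_sub iA' (iB'.const_mul _), integral_const_mul, integral_const_mul, eA, eB, eC]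
    simp only [add_mul, sub_mul, mul_assoc, sum_add_distrib, sum_sub_distrib, ← mul_sum]
    rw [sum_pW hS hs U ω]
    ring
  rw [key]
  exact sum_nonneg fun τ _ =>
    mul_nonneg (pow_gap hK (by omega) _ _) (pW_nonneg hS hs U ω τ)

lemma abs_comb_le (hN : 0 < N) (hK : 2 ≤ K) (hS : S.Good) (hT : T.Good)
    (hd : 0 + (d + 1) = T.R) (hs : ∀ v, Measurable (s v))
    (hy : Measurable fun z : Θ × (ℕ → Ω') => y z.1 z.2) (hy1 : ∀ θ ω, |y θ ω| ≤ 1)
    (hyd : ∀ θ, DependsTo (y θ) T.R) [IsProbabilityMeasure ν] (U : Tree (d + 1)) (ω : ℕ → Ω)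
    (ω0 : ℕ → Ω') {f : Fin K → Bool → ℝ} (hf : ∀ j e, |f j e| ≤ 1) :
    |comb S T s ν y U ω ω0 f| ≤ 2 * K := by
  have : Nonempty (Fin N) := ⟨⟨0, hN⟩⟩
  have : Nonempty (Fin K) := ⟨⟨0, by omega⟩⟩
  have hsum : ∀ a : (Leaves (d + 1) U → Fin N → Bool) → ℝ, (∀ τ, |a τ| ≤ 1) →
      |∑ τ, a τ * pW S s U ω τ| ≤ 1 := fun a ha => by
    refine (abs_sum_le_sum_abs _ _).trans ((sum_le_sum fun τ _ => ?_).trans_eq (sum_pW hS hs U ω))
    rw [abs_mul, abs_of_nonneg (pW_nonneg hS hs U ω τ)]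
    exact mul_le_of_le_one_left (pW_nonneg hS hs U ω τ) (ha τ)
  have hψ : ∀ j, |psi T ν y U ω0 (f j)| ≤ 1 := fun j =>
    abs_psi_le hT hd hy hy1 hyd U ω0 (hf j)
  have hφ : ∀ (σ : Leaves (d + 1) U → Bool) j, |phi σ (f j)| ≤ 1 := fun σ j =>
    abs_prod_le_one _ fun u _ => hf j _
  have h1 := abs_le.1 (abs_avg_le_one fun i : Fin K → Fin N =>
    hsum (fun τ => ∏ j, phi (fun u => τ u (i j)) (f j)) fun τ => abs_prod_le_one _ fun j _ => hφ _ j)
  have h2 := abs_le.1 (abs_avg_le_one fun lv : Fin K × Fin N => show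
    |(∑ τ : Leaves (d + 1) U → Fin N → Bool,
      phi (fun u => τ u lv.2) (f lv.1) * pW S s U ω τ) *
        ∏ j ∈ univ.erase lv.1, psi T ν y U ω0 (f j)| ≤ 1 by
    rw [abs_mul]
    exact mul_le_one₀ (hsum _ fun τ => hφ _ _) (abs_nonneg _)
      (abs_prod_le_one _ fun j _ => hψ j))
  have h3 := abs_le.1 (abs_prod_le_one univ fun j _ => hψ j)
  have hK' : (2 : ℝ) ≤ K := by exact_mod_cast hK
  unfold comb
  refine abs_le.2 ⟨?_, ?_⟩ <;> nlinarith

lemma measurable_comb (U : Tree (d + 1)) (ω : ℕ → Ω) (ω0 : ℕ → Ω') :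
    Measurable (comb (K := K) S T s ν y U ω ω0) := by
  have h : ∀ σ : Leaves (d + 1) U → Bool, Measurable (phi σ) := fun σ =>
    Finset.measurable_prod _ fun u _ => measurable_pi_apply _
  have hψ : Measurable (psi T ν y U ω0) :=
    Finset.measurable_sum _ fun σ _ => (h σ).mul_const _
  unfold comb avg
  refine ((Measurable.div_const ?_ _).sub ((Measurable.div_const ?_ _).const_mul _)).add
    ((Finset.measurable_prod _ fun j _ => hψ.comp (measurable_pi_apply j)).const_mul _)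
  · exact Finset.measurable_sum _ fun i _ => Finset.measurable_sum _ fun τ _ =>
      (Finset.measurable_prod _ fun j _ => (h _).comp (measurable_pi_apply j)).mul_const _
  · exact Finset.measurable_sum _ fun lv _ =>
      (Finset.measurable_sum _ fun τ _ =>
        ((h _).comp (measurable_pi_apply lv.1)).mul_const _).mul
      (Finset.measurable_prod _ fun j _ => hψ.comp (measurable_pi_apply j))

end Average

end UpperCore

/-- The sign inequality `R^K - K R Q^(K-1) + (K-1) Q^K ≥ 0`, summed over the trees of replicas. -/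
theorem upper_core {S : Sys Ω} (hS : S.Good) {T : Sys Ω'} (hT : T.Good) (hR : T.R = S.R)
    (hx : T.x = S.x) {N K : ℕ} (hN : 0 < N) (hK : Even K) (hK2 : 2 ≤ K)
    (s : Fin N → (ℕ → Ω) → Bool) (hs : ∀ v, Measurable (s v))
    {ν : Measure Θ} [IsProbabilityMeasure ν] (y : Θ → (ℕ → Ω') → ℝ)
    (hy : Measurable fun z : Θ × (ℕ → Ω') => y z.1 z.2) (hy1 : ∀ θ ω, |y θ ω| ≤ 1)
    (hyd : ∀ θ, DependsTo (y θ) T.R)
    {bL : Measure ℝ} [IsProbabilityMeasure bL] {fL : Measure (Bool → ℝ)} [IsProbabilityMeasure fL]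
    {ρ : ℝ} (hρ : ρ < 1) (hb : ∀ᵐ b ∂bL, |b| ≤ ρ)
    (hpos : ∀ n : ℕ, 1 ≤ n → 0 ≤ ∫ b, (-b) ^ n ∂bL) (hf : ∀ᵐ f ∂fL, ∀ e, |f e| ≤ 1)
    (ω : ℕ → Ω) (ω' : ℕ → Fin K → Ω') :
    ∫ q, upperComb S T s ν y ω ω' q ∂bL.prod (Measure.pi fun _ : Fin K => fL) ≤ 0 := by
  obtain ⟨d, hd⟩ : ∃ d, d + 1 = S.R := ⟨S.R - 1, by have := hS.R_pos; omega⟩
  obtain ⟨b0, hb0⟩ := hb.exists
  have h0 : 0 ≤ ρ := (abs_nonneg b0).trans hb0
  set ω0 : ℕ → Ω' := fun i => ω' i ⟨0, by omega⟩
  set μ := bL.prod (Measure.pi fun _ : Fin K => fL) with hμ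
  have hq : ∀ᵐ q : ℝ × (Fin K → Bool → ℝ) ∂μ, |q.1| ≤ ρ ∧ ∀ j e, |q.2 j e| ≤ 1 := by
    refine ((Measure.quasiMeasurePreserving_fst (ν := Measure.pi fun _ : Fin K => fL)).ae hb).and
      ((Measure.quasiMeasurePreserving_snd (μ := bL)).ae
        (p := fun f : Fin K → Bool → ℝ => ∀ j e, |f j e| ≤ 1) ?_)
    exact ae_all_iff.2 fun j =>
      (measurePreserving_eval (μ := fun _ : Fin K => fL) j).quasiMeasurePreserving.ae hf
  have h := hasSum_integral_of_dominated_convergence (μ := μ)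
    (F := fun U q => Tree.rootWeight S.x d U * (-q.1) ^ U.size *
      UpperCore.comb S T s ν y U ω ω0 q.2)
    (f := fun q => -upperComb S T s ν y ω ω' q)
    (fun U _ => Tree.rootWeight S.x d U * ρ ^ U.size * (2 * K))
    (fun U => (((measurable_fst.neg.pow_const _).const_mul _).mul
      ((UpperCore.measurable_comb U ω ω0).comp measurable_snd)).aestronglyMeasurable)
    (fun U => hq.mono fun q hq => by
      have hw := UpperCore.rootWeight_nonneg hS hd U
      rw [Real.norm_eq_abs, abs_mul, abs_mul, abs_of_nonneg hw, abs_pow, abs_neg]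
      refine mul_le_mul (mul_le_mul_of_nonneg_left (pow_le_pow_left₀ (abs_nonneg _) hq.1 _) hw)
        (UpperCore.abs_comb_le hN hK2 hS hT (by omega) hs hy hy1 hyd U ω ω0 hq.2) (abs_nonneg _)
        (mul_nonneg hw (pow_nonneg h0 _)))
    (Filter.Eventually.of_forall fun _ => (UpperCore.summable_root hS hd h0 hρ ω).mul_right _)
    (integrable_const _)
    (hq.mono fun q hq =>
      UpperCore.hasSum_upperComb hS hT hR hx hd hs hy hy1 hyd hρ hq.1 hq.2 ω ω' ω0)
  have h2 := h.nonneg fun U => by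
    have e := integral_prod_mul (μ := bL) (ν := Measure.pi fun _ : Fin K => fL)
      (fun b : ℝ => Tree.rootWeight S.x d U * (-b) ^ U.size)
      (fun f => UpperCore.comb S T s ν y U ω ω0 f)
    rw [hμ, e, integral_const_mul]
    exact mul_nonneg (mul_nonneg (UpperCore.rootWeight_nonneg hS hd U)
      (hpos _ (UpperCore.one_le_size U)))
      (UpperCore.integral_comb_nonneg hN hK hK2 hS hs hf U ω ω0)
  rw [integral_neg] at h2
  linarith

end Vale.Agent.P168
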