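import Vale.Agent.P168.Defs
open MeasureTheory Finset
namespace Vale.Agent.P168

noncomputable def vbParam (β : ℝ) (s : Bool) : Param 2 :=
  ((Real.cosh (β * spin s), Real.tanh (β * spin s)), fun _ => spin)

noncomputable def vbModel (lam β : ℝ) : Model where
  K := 2
  lam := lam
  clauseLaw := (2 : ENNReal)⁻¹ • Measure.dirac (vbParam β true) + (2 : ENNReal)⁻¹ • Measure.dirac (vbParam β false)
  bLaw := (2 : ENNReal)⁻¹ • Measure.dirac (Real.tanh (β * spin true)) + (2 : ENNReal)⁻¹ • Measure.dirac (Real.tanh (β * spin false))
  fLaw := Measure.dirac spin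
  hLaw := Measure.dirac 0

theorem vbModel_valid {lam β : ℝ} (hlam : 0 < lam) : (vbModel lam β).Valid := by
  have h2 : (2 : ENNReal)⁻¹ + 2⁻¹ = 1 := ENNReal.inv_two_add_inv_two
  constructor
  · exact ⟨1, rfl⟩
  · exact le_rfl
  · exact hlam
  · exact ⟨show ((2 : ENNReal)⁻¹ • Measure.dirac (vbParam β true) + (2 : ENNReal)⁻¹ • Measure.dirac (vbParam β false) : Measure (Param 2)) Set.univ = 1 by rw [Measure.add_apply, Measure.smul_apply, Measure.smul_apply, measure_univ, measure_univ]; simpa using h2⟩
  · exact ⟨by simp only [vbModel]; rw [Measure.add_apply, Measure.smul_apply, Measure.smul_apply, measure_univ, measure_univ]; simpa using h2⟩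
  · exact Measure.dirac.isProbabilityMeasure
  · exact Measure.dirac.isProbabilityMeasure
  · have hm : Measurable fun p : Param 2 => (p.1.2, p.2) := by fun_prop
    have hp : (Measure.pi fun _ : Fin 2 => Measure.dirac spin) =
        Measure.dirac (fun _ : Fin 2 => spin) := by
      refine Measure.pi_eq fun s hs => ?_
      simp only [Measure.dirac_apply' _ (MeasurableSet.univ_pi hs), Measure.dirac_apply' _ (hs _)]
      by_cases h : ∀ i, spin ∈ s i
      · simp [h]
      · push Not at h
        obtain ⟨i, hi⟩ := h
        rw [Set.indicator_of_notMem (show (fun _ : Fin 2 => spin) ∉ Set.univ.pi s from fun hh => hi (Set.mem_univ_pi.1 hh i))]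
        exact (prod_eq_zero (mem_univ i) (by simp [hi])).symm
    show Measure.map (fun p : Param 2 => (p.1.2, p.2)) ((2 : ENNReal)⁻¹ • Measure.dirac (vbParam β true) + (2 : ENNReal)⁻¹ • Measure.dirac (vbParam β false)) = ((2 : ENNReal)⁻¹ • Measure.dirac (Real.tanh (β * spin true)) + (2 : ENNReal)⁻¹ • Measure.dirac (Real.tanh (β * spin false))).prod (Measure.pi fun _ : Fin 2 => Measure.dirac spin)
    rw [Measure.map_add _ _ hm, Measure.map_smul, Measure.map_smul, Measure.map_dirac',
      Measure.map_dirac', hp, Measure.add_prod, Measure.prod_smul_left, Measure.prod_smul_left,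
      Measure.dirac_prod_dirac, Measure.dirac_prod_dirac]
    · rfl
    all_goals exact hm
  · show ∀ᵐ p ∂((2 : ENNReal)⁻¹ • Measure.dirac (vbParam β true) + (2 : ENNReal)⁻¹ • Measure.dirac (vbParam β false)), (0 : ℝ) < (p : Param 2).1.1
    rw [ae_add_measure_iff, Measure.ae_ennreal_smul_measure_iff (by simp), Measure.ae_ennreal_smul_measure_iff (by simp),
      ae_dirac_iff (measurableSet_lt measurable_const (by fun_prop)),
      ae_dirac_iff (measurableSet_lt measurable_const (by fun_prop))]
    exact ⟨Real.cosh_pos _, Real.cosh_pos _⟩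
  · show ∀ᵐ b ∂(vbModel lam β).bLaw, b ∈ Set.Ioo (-1 : ℝ) 1
    simp only [vbModel]
    rw [ae_add_measure_iff, Measure.ae_ennreal_smul_measure_iff (by simp), Measure.ae_ennreal_smul_measure_iff (by simp)]
    constructor <;> simp [ae_dirac_eq, Real.neg_one_lt_tanh, Real.tanh_lt_one]
  · simp [vbModel, ae_dirac_eq, spin]
  · intro n _
    simp only [vbModel]
    rw [integral_add_measure, integral_smul_measure, integral_smul_measure]
    · simp only [integral_dirac, smul_eq_mul, spin, ↓reduceIte, Bool.false_eq_true, mul_one,
        mul_neg, Real.tanh_neg, neg_neg, ← mul_add]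
      refine mul_nonneg (by simp) ?_
      rcases Nat.even_or_odd n with h | h
      · exact add_nonneg (h.pow_nonneg _) (h.pow_nonneg _)
      · rw [h.neg_pow]; simp
    · exact (integrable_dirac' (by fun_prop) (by simp)).smul_measure (by simp)
    · exact (integrable_dirac' (by fun_prop) (by simp)).smul_measure (by simp)
  · simp only [vbModel]
    refine Integrable.add_measure ?_ ?_ <;>
      exact (integrable_dirac' (Measurable.stronglyMeasurable (show Measurable fun p : Param 2 => univ.sup' univ_nonempty (fun σ : Fin 2 → Bool => |theta p σ|) by convert (Finset.measurable_sup' (univ_nonempty (α := Fin 2 → Bool)) fun (σ : Fin 2 → Bool) _ => show Measurable fun p : Param 2 => |theta p σ| by unfold theta; fun_prop) using 1; ext p; simp [Finset.sup'_apply])) (by simp)).smul_measure (by simp)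
  · exact integrable_dirac (by simp)

end Vale.Agent.P168
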