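import Vale.Agent.P168.LowerDefs
import Vale.Agent.P168.Trees

/-!
Module W: the weight of the trees of a pattern that meet in prescribed windows is bounded below
uniformly in the number of steps. One family of trees is kept: in each band a node either keeps a
single child or splits once, at a level of the window, into the classes of the pattern.
-/

namespace Vale.Agent.P168

open MeasureTheory Finset Function

namespace Weight

variable {ι : Type}

lemma gridExp_expo {R : ℕ} (hR : 1 ≤ R) : Expo R (gridExp R) := by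
  have h0 : (0 : ℝ) < R := by exact_mod_cast hR
  refine ⟨fun l h1 _ => ?_, fun l _ _ => ?_, div_self h0.ne'⟩
  · have : (0 : ℝ) < l := by exact_mod_cast h1
    exact div_pos this h0
  · exact div_le_div_of_nonneg_right (by exact_mod_cast Nat.le_succ l) h0.le

lemma gridExp_ratio {R : ℕ} (hR : 1 ≤ R) (l : ℕ) :
    gridExp R l / gridExp R (l + 1) = (l : ℝ) / (l + 1) := by
  have h0 : (R : ℝ) ≠ 0 := by exact_mod_cast (show R ≠ 0 by omega)
  rw [gridExp, gridExp, Nat.cast_add_one, div_div_div_cancel_right₀ h0]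

lemma coefTail_lb {a : ℝ} (h1 : a ≤ 1) :
    ∀ n : ℕ, (1 - a) / ((n : ℝ) + 1) ≤ Vale.P168.coefTail a (n + 1)
  | 0 => by simp [Vale.P168.coefTail]
  | n + 1 => by
    have ih := coefTail_lb h1 n
    have e : Vale.P168.coefTail a (n + 1 + 1)
        = Vale.P168.coefTail a (n + 1) * (1 - a / ((n : ℝ) + 2)) := by
      rw [Vale.P168.coefTail, prod_range_succ, ← Vale.P168.coefTail]
      push_cast; ring
    have h2 : ((n : ℝ) + 1) / (n + 2) ≤ 1 - a / (n + 2) := by
      rw [one_sub_div (by positivity)]; gcongr; linarith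
    rw [e]
    refine le_trans ?_ (mul_le_mul ih h2 (by positivity) (Vale.P168.coefTail_nonneg h1 _))
    push_cast
    rw [div_mul_div_comm, mul_comm ((n : ℝ) + 1) (n + 2), ← div_mul_div_comm,
      div_self (by positivity : (n : ℝ) + 1 ≠ 0), mul_one, add_assoc]
    norm_num

/-- The weight of a node with `m + 2` children at level `l`. -/
lemma coef_lb (l m : ℕ) :
    (l : ℝ) / (((l : ℝ) + 1) ^ 2 * ((m : ℝ) + 2) ^ 2) ≤ coef ((l : ℝ) / (l + 1)) (m + 2) := by
  have h0 : (0 : ℝ) ≤ (l : ℝ) / (l + 1) := by positivity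
  have h1 : (l : ℝ) / (l + 1) ≤ 1 := (div_le_one (by positivity)).2 (by linarith)
  rw [coef_eq, Vale.P168.coef_succ]
  push_cast
  refine le_trans ?_ (mul_le_mul_of_nonneg_left (coefTail_lb h1 m) (by positivity))
  rw [one_sub_div (by positivity), add_sub_cancel_left, div_div, div_div, div_mul_div_comm,
    mul_one]
  refine div_le_div_of_nonneg_left (Nat.cast_nonneg _) (by positivity) ?_
  nlinarith [sq_nonneg ((l : ℝ) + 1), (Nat.cast_nonneg m : (0 : ℝ) ≤ m)]

/-- The windows are met. -/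
def Meets (G : Grid) (κ : ι → ι → ℕ) (A : Finset ι) (d l : ℕ) (T : Tree d) : Prop :=
  ∃ lab : {v // v ∈ A} ≃ Leaves d T, ∀ v w : {v // v ∈ A}, v ≠ w →
    G.t (κ v w) ≤ Tree.meet d l T (lab v) (lab w) ∧
      Tree.meet d l T (lab v) (lab w) < G.h (κ v w)

/-- Finitely many such trees carry weight at least `z`. -/
def Heavy (G : Grid) (κ : ι → ι → ℕ) (R : ℕ) (A : Finset ι) (d l : ℕ) (z : ℝ) : Prop :=
  ∃ 𝒯 : Finset (Tree d), z ≤ ∑ T ∈ 𝒯, Tree.weight (gridExp R) d l T ∧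
    ∀ T ∈ 𝒯, Meets G κ A d l T

variable {G : Grid} {κ : ι → ι → ℕ} {R : ℕ} {A : Finset ι}

lemma heavy_nonpos {d l : ℕ} {z : ℝ} (hz : z ≤ 0) : Heavy G κ R A d l z :=
  ⟨∅, by simpa using hz, by simp⟩

lemma Heavy.mono {d l : ℕ} {z z' : ℝ} (h : Heavy G κ R A d l z) (hz : z' ≤ z) :
    Heavy G κ R A d l z' :=
  let ⟨𝒯, h1, h2⟩ := h
  ⟨𝒯, hz.trans h1, h2⟩

lemma meet_same {d l : ℕ} (T : Tree (d + 1)) (c : Fin (T.1 + 1)) (a b : Leaves d (T.2 c)) :
    Tree.meet (d + 1) l T ⟨c, a⟩ ⟨c, b⟩ = Tree.meet d (l + 1) (T.2 c) a b := by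
  simp [Tree.meet]

lemma meet_diff {d l : ℕ} (T : Tree (d + 1)) {c c' : Fin (T.1 + 1)} (h : c ≠ c')
    (a : Leaves d (T.2 c)) (b : Leaves d (T.2 c')) :
    Tree.meet (d + 1) l T ⟨c, a⟩ ⟨c', b⟩ = l := by
  simp [Tree.meet, h]

lemma heavy_leaf {l : ℕ} {v : ι} : Heavy G κ R {v} 0 l 1 := by
  refine ⟨{()}, ?_, fun T _ => ?_⟩
  · exact le_of_eq (Finset.sum_singleton (Tree.weight (gridExp R) 0 l) ()).symm
  · have : Unique {w // w ∈ ({v} : Finset ι)} :=
      ⟨⟨⟨v, mem_singleton_self v⟩⟩, fun w => Subtype.ext (mem_singleton.1 w.2)⟩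
    exact ⟨Equiv.ofUnique {w // w ∈ ({v} : Finset ι)} Unit,
      fun a b hab => (hab (Subsingleton.elim a b)).elim⟩

/-- One node with the children of given classes. -/
lemma heavy_branch {d l : ℕ} {m : ℕ} (f : ι → Fin (m + 1)) {z : Fin (m + 1) → ℝ}
    (hz : ∀ c, 0 ≤ z c) (hc0 : 0 ≤ coef (gridExp R l / gridExp R (l + 1)) (m + 1))
    (hch : ∀ c, Heavy G κ R (A.filter fun v => f v = c) d (l + 1) (z c))
    (hw : ∀ v ∈ A, ∀ w ∈ A, f v ≠ f w → G.t (κ v w) ≤ l ∧ l < G.h (κ v w)) :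
    ∃ 𝒯 : Finset (Tree (d + 1)), coef (gridExp R l / gridExp R (l + 1)) (m + 1) * ∏ c, z c
        ≤ ∑ T ∈ 𝒯, Tree.weight (gridExp R) (d + 1) l T ∧
      ∀ T ∈ 𝒯, Meets G κ A (d + 1) l T ∧ T.1 = m := by
  classical
  choose 𝒯 h1 h2 using hch
  let emb : (Fin (m + 1) → Tree d) ↪ Tree (d + 1) := Embedding.sigmaMk (β := fun k => Fin (k + 1) → Tree d) m
  refine ⟨(Fintype.piFinset 𝒯).map emb, ?_, fun T hT => ?_⟩
  · rw [sum_map]
    calc _ ≤ coef (gridExp R l / gridExp R (l + 1)) (m + 1)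
          * ∏ c, ∑ T ∈ 𝒯 c, Tree.weight (gridExp R) d (l + 1) T :=
        mul_le_mul_of_nonneg_left (prod_le_prod (fun c _ => hz c) fun c _ => h1 c) hc0
      _ = _ := by rw [prod_univ_sum, mul_sum]; rfl
  · obtain ⟨g, hg, rfl⟩ := mem_map.1 hT
    rw [Fintype.mem_piFinset] at hg
    refine ⟨?_, rfl⟩
    choose lab hlab using fun c => h2 c (g c) (hg c)
    let e₀ : {v // v ∈ A} ≃ Σ c, {v // v ∈ A.filter fun v => f v = c} :=
      { toFun := fun v => ⟨f v, v, mem_filter.2 ⟨v.2, rfl⟩⟩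
        invFun := fun s => ⟨s.2, (mem_filter.1 s.2.2).1⟩
        left_inv := fun v => rfl
        right_inv := fun s => by
          obtain ⟨c, v, hv⟩ := s
          obtain ⟨-, rfl⟩ := mem_filter.1 hv
          rfl }
    refine ⟨e₀.trans (Equiv.sigmaCongrRight lab), fun v w hvw => ?_⟩
    obtain ⟨⟨c, a⟩, rfl⟩ := e₀.symm.surjective v
    obtain ⟨⟨c', b⟩, rfl⟩ := e₀.symm.surjective w
    have key : ∀ u, (e₀.trans (Equiv.sigmaCongrRight lab)) (e₀.symm u) = ⟨u.1, lab u.1 u.2⟩ :=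
      fun u => by rw [Equiv.trans_apply, Equiv.apply_symm_apply]; rfl
    erw [key, key]
    rcases eq_or_ne c c' with rfl | hcc
    · have hab : a ≠ b := fun h => hvw (by rw [h])
      have := hlab c a b hab
      exact (meet_same (l := l) (emb g) c (lab c a) (lab c b)).symm ▸ this
    · have := meet_diff (l := l) (emb g) hcc (lab c a) (lab c' b)
      refine this.symm ▸ hw a (mem_filter.1 a.2).1 b (mem_filter.1 b.2).1 ?_
      rw [(mem_filter.1 a.2).2, (mem_filter.1 b.2).2]; exact hcc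

/-- One child: a single step down. -/
lemma heavy_child {d l : ℕ} (hR : 1 ≤ R) {z : ℝ} (hz : 0 ≤ z) (h : Heavy G κ R A d (l + 1) z) :
    ∃ 𝒯 : Finset (Tree (d + 1)), (l : ℝ) / (l + 1) * z
        ≤ ∑ T ∈ 𝒯, Tree.weight (gridExp R) (d + 1) l T ∧
      ∀ T ∈ 𝒯, Meets G κ A (d + 1) l T ∧ T.1 = 0 := by
  have hc : coef (gridExp R l / gridExp R (l + 1)) (0 + 1) = (l : ℝ) / (l + 1) := by
    rw [coef_one, gridExp_ratio hR]
  obtain ⟨𝒯, h1, h2⟩ := heavy_branch (m := 0) (A := A) (G := G) (κ := κ) (R := R) (d := d) (l := l)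
    (fun _ => (0 : Fin 1)) (z := fun _ => z) (fun _ => hz) (by rw [hc]; positivity)
    (fun c => by rw [filter_true_of_mem fun v _ => Subsingleton.elim _ _]; exact h)
    (fun v _ w _ h => absurd rfl h)
  exact ⟨𝒯, by simpa [hc] using h1, h2⟩

/-- Descending a chain from `P` to `l`. -/
lemma heavy_chain (hR : 1 ≤ R) {P : ℕ} (hP : 1 ≤ P) {z : ℝ} (hz : 0 ≤ z)
    (h : ∀ d, P + d = R → Heavy G κ R A d P z) :
    ∀ (m l d : ℕ), l + m = P → P ≤ R → l + d = R → Heavy G κ R A d l ((l : ℝ) / P * z) := by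
  have hP0 : (0 : ℝ) < P := by exact_mod_cast hP
  intro m
  induction m with
  | zero =>
    intro l d hl _ hd
    obtain rfl : l = P := by omega
    rw [div_self hP0.ne', one_mul]
    exact h d hd
  | succ m ih =>
    intro l d hl hPR hd
    obtain ⟨d, rfl⟩ : ∃ d', d = d' + 1 := ⟨d - 1, by omega⟩
    obtain ⟨𝒯, h1, h2⟩ := heavy_child hR (mul_nonneg (by positivity) hz)
      (ih (l + 1) d (by omega) hPR (by omega))
    refine ⟨𝒯, le_of_eq_of_le ?_ h1, fun T hT => (h2 T hT).1⟩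
    push_cast
    field_simp

/-- A band of a pattern whose classes split once in the window. -/
lemma heavy_window (hR : 1 ≤ R) {P t h : ℕ} (hP : 1 ≤ P) (hPR : P ≤ R) (hh : h ≤ P)
    {m n₀ : ℕ} (hm : m + 2 ≤ n₀) (f : ι → Fin (m + 2)) {z δ : ℝ} (hz : 0 ≤ z) (hz1 : z ≤ 1)
    (hδ : 0 ≤ δ) (hδ1 : δ ≤ 1) (hδt : δ * R ≤ t)
    (hch : ∀ c d, P + d = R → Heavy G κ R (A.filter fun v => f v = c) d P z)
    (hw : ∀ v ∈ A, ∀ w ∈ A, f v ≠ f w → G.t (κ v w) = t ∧ G.h (κ v w) = h) :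
    ∀ (i l d : ℕ), l + i = h → l + d = R → Heavy G κ R A d l
      ((l : ℝ) * ((Ico (max l t) h).card : ℝ) * ((δ * z) ^ n₀ / (n₀ : ℝ) ^ 2) / (R : ℝ) ^ 2) := by
  classical
  have hR0 : (0 : ℝ) < R := by exact_mod_cast hR
  set K := (δ * z) ^ n₀ / (n₀ : ℝ) ^ 2 with hK
  have hK0 : 0 ≤ K := div_nonneg (pow_nonneg (mul_nonneg hδ hz) _) (sq_nonneg _)
  intro i
  induction i with
  | zero =>
    intro l d hl _
    refine heavy_nonpos (le_of_eq ?_)
    rw [Ico_eq_empty (by omega)]; simp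
  | succ i ih =>
    intro l d hl hd
    obtain ⟨d, rfl⟩ : ∃ d', d = d' + 1 := ⟨d - 1, by omega⟩
    obtain ⟨𝒯₁, s1, m1⟩ := heavy_child hR (by positivity) (ih (l + 1) d (by omega) (by omega))
    rcases lt_or_ge l t with hlt | htl
    · refine ⟨𝒯₁, le_of_eq_of_le ?_ s1, fun T hT => (m1 T hT).1⟩
      rw [max_eq_right hlt.le, max_eq_right (by omega : l + 1 ≤ t)]
      push_cast
      field_simp
    have hl1 : (0 : ℝ) < (l : ℝ) + 1 := by positivity
    have hratio := gridExp_ratio hR l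
    have hcoef := coef_lb l m
    obtain ⟨𝒯₂, s2, m2⟩ := heavy_branch (d := d) (l := l) (G := G) (κ := κ) (R := R) (A := A) f
      (z := fun _ => ((l : ℝ) + 1) / P * z) (fun _ => by positivity)
      (by rw [hratio]; exact le_trans (by positivity) hcoef)
      (fun c => by
        have := heavy_chain hR hP hz (hch c) (P - (l + 1)) (l + 1) d (by omega) hPR (by omega)
        push_cast at this; exact this)
      (fun v hv w hwA hne => by rw [(hw v hv w hwA hne).1, (hw v hv w hwA hne).2]; omega)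
    have hdis : Disjoint 𝒯₁ 𝒯₂ := disjoint_left.2 fun T h1 h2 => by
      have := (m1 T h1).2; have := (m2 T h2).2; omega
    refine ⟨𝒯₁ ∪ 𝒯₂, ?_, fun T hT => (mem_union.1 hT).elim (fun h => (m1 T h).1) fun h => (m2 T h).1⟩
    rw [sum_union hdis]
    refine le_trans ?_ (add_le_add s1 s2)
    rw [max_eq_left htl, max_eq_left (by omega : t ≤ l + 1), hratio]
    have hcard : ((Ico l h).card : ℝ) = ((Ico (l + 1) h).card : ℝ) + 1 := by
      rw [Nat.card_Ico, Nat.card_Ico, show h - l = h - (l + 1) + 1 by omega]; push_cast; ring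
    have hb : (l : ℝ) * K / (R : ℝ) ^ 2
        ≤ coef ((l : ℝ) / (l + 1)) (m + 2) * ∏ _c : Fin (m + 2), ((l : ℝ) + 1) / P * z := by
      rw [prod_const, card_univ, Fintype.card_fin]
      have h1 : δ * z ≤ ((l : ℝ) + 1) / P * z := by
        refine mul_le_mul_of_nonneg_right ?_ hz
        have hP0 : (0 : ℝ) < P := by exact_mod_cast hP
        rw [le_div_iff₀ hP0]
        have : (t : ℝ) ≤ l := by exact_mod_cast htl
        linarith [mul_le_mul_of_nonneg_left (show (P : ℝ) ≤ R by exact_mod_cast hPR) hδ]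
      have h2 : (δ * z) ^ n₀ ≤ (((l : ℝ) + 1) / P * z) ^ (m + 2) :=
        (pow_le_pow_of_le_one (mul_nonneg hδ hz) (mul_le_one₀ hδ1 hz hz1) hm).trans
          (pow_le_pow_left₀ (mul_nonneg hδ hz) h1 _)
      have h3 : (l : ℝ) / ((n₀ : ℝ) ^ 2 * (R : ℝ) ^ 2) ≤ coef ((l : ℝ) / (l + 1)) (m + 2) := by
        refine le_trans (div_le_div_of_nonneg_left (Nat.cast_nonneg l) (by positivity) ?_) hcoef
        rw [mul_comm]
        gcongr
        · exact_mod_cast hm
        · exact_mod_cast (show l + 1 ≤ R by omega)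
      calc (l : ℝ) * K / (R : ℝ) ^ 2 = (l : ℝ) / ((n₀ : ℝ) ^ 2 * (R : ℝ) ^ 2) * (δ * z) ^ n₀ := by
            rw [hK]; field_simp
        _ ≤ _ := mul_le_mul h3 h2 (pow_nonneg (mul_nonneg hδ hz) _) (le_trans (by positivity) hcoef)
    rw [hcard]
    refine le_of_eq_of_le ?_ (add_le_add_right hb _)
    push_cast
    field_simp

end Weight

lemma Grid.Ok.lo_le {G : Grid} {R : ℕ} (hG : G.Ok R) :
    ∀ k, G.lo ≤ k → k ≤ G.B → G.p G.lo ≤ G.p k := by
  intro k
  induction k with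
  | zero => intro h _; rw [Nat.le_zero.1 h]
  | succ k ih =>
    intro h h'
    rcases h.eq_or_lt with e | e
    · rw [e]
    · have := ih (by omega) (by omega)
      obtain ⟨-, h1, h2, h3⟩ := hG.2.2 k (by omega) (by omega)
      omega

lemma Grid.Ok.le_top {G : Grid} {R : ℕ} (hG : G.Ok R) :
    ∀ i k, k + i = G.B → G.lo ≤ k → G.p k ≤ R := by
  intro i
  induction i with
  | zero => intro k h _; rw [show k = G.B by omega, hG.2.1]
  | succ i ih =>
    intro k h h'
    have := ih (k + 1) (by omega) (by omega)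
    obtain ⟨-, h1, h2, h3⟩ := hG.2.2 k h' (by omega)
    omega

namespace Weight

/-- The lower bound `i` bands below the top. -/
noncomputable def lb (n₀ : ℕ) (δ η : ℝ) : ℕ → ℝ
  | 0 => 1
  | i + 1 => δ * η * ((δ * lb n₀ δ η i) ^ n₀ / (n₀ : ℝ) ^ 2)

lemma lb_mem {n₀ : ℕ} (hn : 1 ≤ n₀) {δ η : ℝ} (hδ : 0 < δ) (hδ1 : δ ≤ 1) (hη : 0 < η)
    (hη1 : η ≤ 1) : ∀ i, 0 < lb n₀ δ η i ∧ lb n₀ δ η i ≤ 1
  | 0 => ⟨one_pos, le_rfl⟩
  | i + 1 => by
    obtain ⟨h0, h1⟩ := lb_mem hn hδ hδ1 hη hη1 i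
    have hn' : (1 : ℝ) ≤ n₀ := by exact_mod_cast hn
    have hp : (δ * lb n₀ δ η i) ^ n₀ ≤ 1 :=
      pow_le_one₀ (by positivity) (mul_le_one₀ hδ1 h0.le h1)
    exact ⟨by simp only [lb]; positivity,
      mul_le_one₀ (mul_le_one₀ hδ1 hη.le hη1) (by positivity)
        ((div_le_one (by positivity)).2 (hp.trans (one_le_pow₀ hn')))⟩

variable {ι : Type}

theorem heavy_pat {n₀ B R : ℕ} {G : Grid} {δ η : ℝ} (hδ : 0 < δ) (hδ1 : δ ≤ 1) (hη : 0 < η)
    (hη1 : η ≤ 1) (hn₀ : 1 ≤ n₀) (hG : G.Ok R) (hB : G.B = B) (hlo : δ * R ≤ G.p G.lo)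
    (hwin : ∀ k, G.lo ≤ k → k < B → η * R ≤ (G.h k : ℝ) - G.t k) (κ : ι → ι → ℕ) :
    ∀ (i k : ℕ), k + i = B → G.lo ≤ k → ∀ A : Finset ι, A.Nonempty → A.card ≤ n₀ →
      IsPat B k κ A → ∀ d, G.p k + d = R → Heavy G κ R A d (G.p k) (lb n₀ δ η i) := by
  classical
  have hR : 1 ≤ R := by
    have := hG.le_top (B - G.lo) G.lo (by have := hG.1; omega) le_rfl
    have := (hG.2.2 G.lo le_rfl hG.1).1
    omega
  intro i
  induction i with
  | zero =>
    intro k hk _ A hA _ hpat d hd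
    obtain rfl : k = B := by omega
    obtain rfl : d = 0 := by rw [← hB, hG.2.1] at hd; omega
    obtain ⟨v, hv⟩ := hA
    have : A = {v} := by
      refine eq_singleton_iff_unique_mem.2 ⟨hv, fun w hw => ?_⟩
      by_contra hne
      have := hpat.2.2.1 w hw v hv hne
      omega
    rw [this]; exact heavy_leaf
  | succ i ih =>
    intro k hk hk' A hA hcard hpat d hd
    obtain ⟨hdiag, hsymm, hrange, hult⟩ := hpat
    have hkB : k < B := by omega
    obtain ⟨hp1, hpt, hth, hhp⟩ := hG.2.2 k hk' (by omega)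
    have hPR := hG.le_top i (k + 1) (by omega) (by omega)
    have hP1 : 1 ≤ G.p (k + 1) := by omega
    obtain ⟨hz0, hz1⟩ := lb_mem hn₀ hδ hδ1 hη hη1 i
    set z := lb n₀ δ η i with hz
    have hR0 : (0 : ℝ) < R := by exact_mod_cast hR
    have hpk : δ * R ≤ (G.p k : ℝ) :=
      hlo.trans (by exact_mod_cast hG.lo_le k hk' (by omega))
    -- the classes
    let cls : ι → Finset ι := fun v => A.filter fun w => k + 1 ≤ κ v w
    have hcls : ∀ v ∈ A, ∀ w ∈ A, (cls v = cls w ↔ k + 1 ≤ κ v w) := fun v hv w hw => by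
      refine ⟨fun h => ?_, fun h => ?_⟩
      · have hh : v ∈ cls v := mem_filter.2 ⟨hv, by rw [hdiag v hv]; omega⟩
        rw [h] at hh
        rw [hsymm v hv w hw]; exact (mem_filter.1 hh).2
      · refine filter_congr fun u hu => ⟨fun h' => ?_, fun h' => ?_⟩
        · have := hult w hw v hv u hu
          rw [hsymm v hv w hw] at h; omega
        · have := hult v hv w hw u hu; omega
    set Q := A.image cls with hQ
    obtain ⟨m, hm⟩ : ∃ m, Q.card = m + 1 :=
      ⟨Q.card - 1, (Nat.succ_pred_eq_of_pos (card_pos.2 (hA.image cls))).symm⟩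
    let e : Q ≃ Fin (m + 1) := Q.equivFinOfCardEq hm
    let f : ι → Fin (m + 1) := fun v =>
      if hv : v ∈ A then e ⟨cls v, mem_image_of_mem cls hv⟩ else 0
    have hf : ∀ v ∈ A, ∀ w ∈ A, (f v = f w ↔ k + 1 ≤ κ v w) := fun v hv w hw => by
      simp only [f, dif_pos hv, dif_pos hw, e.apply_eq_iff_eq, Subtype.mk.injEq]
      exact hcls v hv w hw
    have hch : ∀ c D, G.p (k + 1) + D = R →
        Heavy G κ R (A.filter fun v => f v = c) D (G.p (k + 1)) z := fun c D hD => by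
      refine ih (k + 1) (by omega) (by omega) _ ?_ ((card_filter_le _ _).trans hcard) ?_ D hD
      · obtain ⟨v, hv, hvc⟩ := mem_image.1 (e.symm c).2
        refine ⟨v, mem_filter.2 ⟨hv, ?_⟩⟩
        simp only [f, dif_pos hv]
        exact (e.eq_symm_apply.1 (Subtype.ext hvc))
      · simp only [IsPat, mem_filter]
        refine ⟨fun v hv => hdiag v hv.1, fun v hv w hw => hsymm v hv.1 w hw.1,
          fun v hv w hw hne => ⟨?_, (hrange v hv.1 w hw.1 hne).2⟩,
          fun u hu v hv w hw => hult u hu.1 v hv.1 w hw.1⟩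
        exact (hf v hv.1 w hw.1).1 (hv.2.trans hw.2.symm)
    obtain ⟨M, hM⟩ : ∃ M, G.p k + M = G.p (k + 1) := ⟨G.p (k + 1) - G.p k, by omega⟩
    rcases Nat.eq_zero_or_pos m with rfl | hm1
    · have hall : (A.filter fun v => f v = 0) = A :=
        filter_true_of_mem fun v _ => Fin.ext (by omega)
      refine (heavy_chain hR hP1 hz0.le (fun D hD => hall ▸ hch 0 D hD) M (G.p k) d hM hPR hd).mono ?_
      have hn' : (1 : ℝ) ≤ (n₀ : ℝ) ^ 2 := one_le_pow₀ (by exact_mod_cast hn₀)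
      have h1 : δ ≤ (G.p k : ℝ) / G.p (k + 1) := by
        rw [le_div_iff₀ (by exact_mod_cast hP1)]
        exact (mul_le_mul_of_nonneg_left (by exact_mod_cast hPR) hδ.le).trans hpk
      have h2 : (δ * z) ^ n₀ / (n₀ : ℝ) ^ 2 ≤ z :=
        (div_le_self (by positivity) hn').trans
          ((pow_le_pow_of_le_one (by positivity) (mul_le_one₀ hδ1 hz0.le hz1) hn₀).trans
            (by rw [pow_one]; exact mul_le_of_le_one_left hz0.le hδ1))
      simp only [lb, ← hz]
      exact mul_le_mul ((mul_le_of_le_one_right hδ.le hη1).trans h1) h2 (by positivity) (by positivity)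
    · obtain ⟨m, rfl⟩ : ∃ m', m = m' + 1 := ⟨m - 1, by omega⟩
      have hmn : m + 2 ≤ n₀ := by
        have := card_image_le (s := A) (f := cls)
        rw [← hQ, hm] at this; omega
      have ht : δ * (R : ℝ) ≤ G.t k := hpk.trans (by exact_mod_cast (by omega : G.p k ≤ G.t k))
      have hcross : ∀ v ∈ A, ∀ w ∈ A, f v ≠ f w →
          G.t (κ v w) = G.t k ∧ G.h (κ v w) = G.h k := fun v hv w hw hne => by
        have hvw : v ≠ w := fun h => hne (h ▸ rfl)
        have h' := (hf v hv w hw).not.1 hne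
        have := hrange v hv w hw hvw
        rw [show κ v w = k by omega]; exact ⟨rfl, rfl⟩
      refine (heavy_window hR hP1 hPR hhp hmn f hz0.le hz1 hδ.le hδ1 ht hch hcross
        (G.h k - G.p k) (G.p k) d (by omega) hd).mono ?_
      simp only [lb, ← hz]
      rw [max_eq_right (by omega : G.p k ≤ G.t k), Nat.card_Ico, Nat.cast_sub hth.le,
        le_div_iff₀ (by positivity)]
      calc δ * η * ((δ * z) ^ n₀ / (n₀ : ℝ) ^ 2) * (R : ℝ) ^ 2
          = δ * R * (η * R) * ((δ * z) ^ n₀ / (n₀ : ℝ) ^ 2) := by ring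
        _ ≤ _ := by
          refine mul_le_mul_of_nonneg_right (mul_le_mul hpk (hwin k hk' hkB) ?_ ?_) ?_ <;> positivity

end Weight

open Weight in
/-- The trees meeting in prescribed windows have weight bounded below uniformly in `R`. -/
theorem window_weight_lb (n₀ B : ℕ) {δ η : ℝ} (hδ : 0 < δ) (hη : 0 < η) : ∃ z : ℝ, 0 < z ∧
    ∀ (R : ℕ) (G : Grid), G.Ok R → G.B = B → δ * R ≤ G.p G.lo →
    (∀ k, G.lo ≤ k → k < B → η * R ≤ (G.h k : ℝ) - G.t k) →
    ∀ n, 1 ≤ n → n ≤ n₀ → ∀ k, G.lo ≤ k → k < B →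
    ∀ κ : Fin n → Fin n → ℕ, IsPat B k κ univ →
      z ≤ ∑' T : Tree (R - G.p k), Tree.weight (gridExp R) (R - G.p k) (G.p k) T *
        (Fintype.card {lab : Fin n ≃ Leaves (R - G.p k) T // ∀ v w, v < w →
          G.t (κ v w) ≤ Tree.meet (R - G.p k) (G.p k) T (lab v) (lab w) ∧
          Tree.meet (R - G.p k) (G.p k) T (lab v) (lab w) < G.h (κ v w)} : ℝ) := by
  classical
  have hδ' : 0 < min δ 1 := lt_min hδ one_pos
  have hη' : 0 < min η 1 := lt_min hη one_pos
  rcases Nat.eq_zero_or_pos n₀ with rfl | hn₀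
  · exact ⟨1, one_pos, fun R G _ _ _ _ n hn hn' => absurd hn' (by omega)⟩
  have hmem := lb_mem hn₀ hδ' (min_le_right δ 1) hη' (min_le_right η 1)
  obtain ⟨z, hz0, hz⟩ : ∃ z : ℝ, 0 < z ∧ ∀ i ≤ B, z ≤ lb n₀ (min δ 1) (min η 1) i :=
    ⟨(range (B + 1)).inf' nonempty_range_add_one fun i => lb n₀ (min δ 1) (min η 1) i,
      by simp [hmem],
      fun i hi => inf'_le _ (mem_range.2 (Nat.lt_succ_of_le hi))⟩
  refine ⟨z, hz0, fun R G hG hB hlo hwin n hn hn' k hk hkB κ hκ => ?_⟩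
  obtain ⟨hp1, -, -, -⟩ := hG.2.2 k hk (by omega)
  have hpR := hG.le_top (B - k) k (by omega) hk
  have hR : 1 ≤ R := by omega
  have hR0 : (0 : ℝ) ≤ R := Nat.cast_nonneg R
  have : Nonempty (Fin n) := ⟨⟨0, hn⟩⟩
  obtain ⟨𝒯, h1, h2⟩ := heavy_pat hδ' (min_le_right δ 1) hη' (min_le_right η 1) hn₀ hG hB
    ((mul_le_mul_of_nonneg_right (min_le_left δ 1) hR0).trans hlo)
    (fun j hj hj' => (mul_le_mul_of_nonneg_right (min_le_left η 1) hR0).trans (hwin j hj hj'))
    κ (B - k) k (by omega) hk univ univ_nonempty (by simpa using hn') hκ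
    (R - G.p k) (by omega)
  have hw0 : ∀ T : Tree (R - G.p k), 0 ≤ Tree.weight (gridExp R) (R - G.p k) (G.p k) T :=
    (gridExp_expo hR).weight_nonneg hp1 (by omega)
  refine ((hz (B - k) (by omega)).trans h1).trans ?_
  refine le_trans (sum_le_sum fun T hT => ?_)
    (Summable.sum_le_tsum 𝒯 (fun T _ => mul_nonneg (hw0 T) (Nat.cast_nonneg _)) ?_)
  · refine le_mul_of_one_le_right (hw0 T) ?_
    obtain ⟨lab, hlab⟩ := h2 T hT
    rw [Nat.one_le_cast]
    refine Fintype.card_pos_iff.2 ⟨⟨(Equiv.subtypeUnivEquiv mem_univ).symm.trans lab,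
      fun v w hvw => ?_⟩⟩
    exact hlab ⟨v, mem_univ v⟩ ⟨w, mem_univ w⟩ fun h => hvw.ne (congrArg Subtype.val h)
  · have hs := ((gridExp_expo hR).hasSum_weight_pow hp1
      (show G.p k + (R - G.p k) = R by omega) (by norm_num : (0 : ℝ) ≤ 1 / 2) (by norm_num)).summable
    refine Summable.of_nonneg_of_le (fun T => mul_nonneg (hw0 T) (Nat.cast_nonneg _)) (fun T => ?_)
      (hs.mul_left ((n.factorial : ℝ) * 2 ^ n))
    rcases isEmpty_or_nonempty (Fin n ≃ Leaves (R - G.p k) T) with he | ⟨⟨e⟩⟩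
    · rw [Fintype.card_eq_zero, Nat.cast_zero, mul_zero]
      have := hw0 T; positivity
    · have hsz : T.size = n := by simpa [Tree.size] using (Fintype.card_congr e).symm
      have hc := Fintype.card_subtype_le (fun lab : Fin n ≃ Leaves (R - G.p k) T => ∀ v w, v < w →
          G.t (κ v w) ≤ Tree.meet (R - G.p k) (G.p k) T (lab v) (lab w) ∧
          Tree.meet (R - G.p k) (G.p k) T (lab v) (lab w) < G.h (κ v w))
      rw [Fintype.card_equiv e, Fintype.card_fin] at hc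
      calc _ ≤ Tree.weight (gridExp R) (R - G.p k) (G.p k) T * (n.factorial : ℝ) :=
            mul_le_mul_of_nonneg_left (by exact_mod_cast hc) (hw0 T)
        _ = _ := by
          rw [hsz, one_div, inv_pow]
          field_simp

end Vale.Agent.P168
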